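import Mathlib

/-!
Row 285: density of the standard Gaussian, integrability facts.
-/

set_option autoImplicit false

open MeasureTheory ProbabilityTheory Real
open scoped RealInnerProductSpace ENNReal

noncomputable section

namespace Crest.Agent.R285

variable {V : Type*} [NormedAddCommGroup V] [InnerProductSpace ℝ V] [FiniteDimensional ℝ V]
  [MeasurableSpace V] [BorelSpace V]

/-- The density of the standard Gaussian. -/
def gdens (x : V) : ℝ := (2 * π) ^ (-(Module.finrank ℝ V : ℝ) / 2) * rexp (-‖x‖ ^ 2 / 2)

omit [FiniteDimensional ℝ V] [MeasurableSpace V] [BorelSpace V] in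
theorem gdens_pos (x : V) : 0 < gdens x := by unfold gdens; positivity

omit [FiniteDimensional ℝ V] [MeasurableSpace V] [BorelSpace V] in
theorem continuous_gdens : Continuous (gdens (V := V)) := by unfold gdens; fun_prop

theorem integrable_exp_neg_sq {b : ℝ} (hb : 0 < b) :
    Integrable (fun x : V => rexp (-b * ‖x‖ ^ 2)) := by
  have h := GaussianFourier.integrable_cexp_neg_mul_sq_norm_add (V := V) (b := (b : ℂ))
    (by simpa using hb) 0 0
  have h2 := h.norm
  refine h2.congr (ae_of_all _ fun x => ?_)
  simp only [Complex.norm_exp]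
  congr 1
  simp [← Complex.ofReal_pow]

theorem integrable_gdens : Integrable (gdens (V := V)) := by
  unfold gdens
  refine Integrable.const_mul ?_ _
  have := integrable_exp_neg_sq (V := V) (b := 1 / 2) (by norm_num)
  refine this.congr (ae_of_all _ fun x => ?_)
  simp only
  congr 1
  ring

theorem stdGaussian_eq_withDensity :
    stdGaussian V = volume.withDensity fun x => ENNReal.ofReal (gdens x) := by
  have hfin : IsFiniteMeasure (volume.withDensity fun x : V => ENNReal.ofReal (gdens x)) := by
    refine isFiniteMeasure_withDensity ?_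
    exact (integrable_gdens (V := V)).lintegral_lt_top.ne
  refine Measure.ext_of_charFun ?_
  ext t
  rw [charFun_stdGaussian, charFun_apply,
    integral_withDensity_eq_integral_toReal_smul continuous_gdens.measurable.ennreal_ofReal
      (ae_of_all _ fun x => ENNReal.ofReal_lt_top)]
  have h1 := GaussianFourier.integral_cexp_neg_mul_sq_norm_add (V := V) (b := (1 / 2 : ℂ))
    (by norm_num) Complex.I t
  have h2 : ∀ x : V, (ENNReal.ofReal (gdens x)).toReal • Complex.exp (⟪x, t⟫ * Complex.I)
      = ((2 * π) ^ (-(Module.finrank ℝ V : ℝ) / 2) : ℝ) *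
        Complex.exp (-(1 / 2) * ‖x‖ ^ 2 + Complex.I * ⟪t, x⟫) := by
    intro x
    rw [ENNReal.toReal_ofReal (gdens_pos x).le, gdens, Complex.real_smul, Complex.ofReal_mul,
      Complex.ofReal_exp, mul_assoc, ← Complex.exp_add, real_inner_comm]
    congr 2
    push_cast
    ring
  simp_rw [h2]
  rw [integral_const_mul, h1, ← mul_assoc]
  have h3 : (((2 * π) ^ (-(Module.finrank ℝ V : ℝ) / 2) : ℝ) : ℂ) *
      ((π / (1 / 2) : ℂ) ^ ((Module.finrank ℝ V : ℂ) / 2)) = 1 := by
    have e : (π / (1 / 2) : ℂ) = ((2 * π : ℝ) : ℂ) := by push_cast; ring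
    have e2 : ((Module.finrank ℝ V : ℂ) / 2) = (((Module.finrank ℝ V : ℝ) / 2 : ℝ) : ℂ) := by
      push_cast; rfl
    rw [e, e2, ← Complex.ofReal_cpow (by positivity), ← Complex.ofReal_mul,
      ← Real.rpow_add (by positivity)]
    simp [neg_div]
  rw [h3, one_mul]
  congr 1
  rw [Complex.I_sq]
  ring

theorem integral_stdGaussian {F : Type*} [NormedAddCommGroup F] [NormedSpace ℝ F] (f : V → F) :
    ∫ x, f x ∂(stdGaussian V) = ∫ x, gdens x • f x := by
  rw [stdGaussian_eq_withDensity,
    integral_withDensity_eq_integral_toReal_smul continuous_gdens.measurable.ennreal_ofReal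
      (ae_of_all _ fun x => ENNReal.ofReal_lt_top)]
  refine integral_congr_ae (ae_of_all _ fun x => ?_)
  simp only [ENNReal.toReal_ofReal (gdens_pos x).le]

theorem integrable_stdGaussian_iff {F : Type*} [NormedAddCommGroup F] [NormedSpace ℝ F]
    (f : V → F) : Integrable f (stdGaussian V) ↔ Integrable fun x => gdens x • f x := by
  rw [stdGaussian_eq_withDensity,
    integrable_withDensity_iff_integrable_smul' continuous_gdens.measurable.ennreal_ofReal
      (ae_of_all _ fun x => ENNReal.ofReal_lt_top)]
  refine integrable_congr (ae_of_all _ fun x => ?_)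
  simp only [ENNReal.toReal_ofReal (gdens_pos x).le]

end Crest.Agent.R285
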