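import Crest.Agent.R285.AFRepr

/-!
Row 285 (S0430), module AF: bounds of all flattenings of the derivatives of the coarse potentials,
with the factor `h`, uniform in the dimension (helper635).
-/

set_option autoImplicit false
set_option linter.unusedSectionVars false

open Set MeasureTheory ProbabilityTheory
open Crest.OracleSampling (E)
open scoped ContDiff RealInnerProductSpace Topology

noncomputable section

namespace Crest.Agent.R285.AF

open AFK

/-- change of index types in the multiset form of a flattening bound -/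
theorem FB_equiv {ι : Type} [Fintype ι] [DecidableEq ι] {α α' β β' : Type} [Fintype α] [Fintype α']
    [Fintype β] [Fintype β'] [DecidableEq α] [DecidableEq α'] [DecidableEq β] [DecidableEq β']
    (e : α ≃ α') (f : β ≃ β') {D : Multiset ι → ℝ} {K : ℝ}
    (h : FB (fun (I : α' → ι) (J : β' → ι) => D (ms I + ms J)) K) :
    FB (fun (I : α → ι) (J : β → ι) => D (ms I + ms J)) K := by
  have h2 := h.reindex (e.arrowCongr (Equiv.refl ι)) (f.arrowCongr (Equiv.refl ι))
  refine fun a b => le_of_eq_of_le ?_ (h2 a b)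
  congr 1
  refine Finset.sum_congr rfl fun p _ => Finset.sum_congr rfl fun q _ => ?_
  congr 1
  show D (ms p + ms q) = D (ms (e.arrowCongr (Equiv.refl ι) p) + ms (f.arrowCongr (Equiv.refl ι) q))
  rw [← ms_equiv e (e.arrowCongr (Equiv.refl ι) p), ← ms_equiv f (f.arrowCongr (Equiv.refl ι) q)]
  congr 3
  · funext i; simp
  · funext i; simp

variable {d : ℕ} {h : ℝ} {U : E d → ℝ}

theorem pd_pd_uT (hU : PotP h U) {t : ℝ} (ht : 0 < t) (l k : Fin d) (y : E d) :
    pd l (pd k (uT U t)) y = Ub2 U (√t, y) (ev l) (ev k) := by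
  rw [pd_pd (contDiff_uT hU ht)]
  have h1 : fderiv ℝ (uT U t) = fun x => Ub1 U (√t, x) :=
    funext fun x => (hasFDerivAt_ub_x hU √t x).fderiv
  rw [h1, (hasFDerivAt_ub1_x hU √t y).fderiv]

theorem nr_eq_norm (a : Fin d → ℝ) : ‖∑ i, a i • ev i‖ = nr a := by
  have e1 : ∑ i, a i • ev i = (WithLp.toLp 2 a : E d) := by
    ext j
    simp [ev, Pi.single_apply]
  rw [e1, EuclideanSpace.norm_eq]
  simp [nr]

set_option maxSynthPendingDepth 3 in
theorem FB_bil {B : E d →L[ℝ] E d →L[ℝ] ℝ} (hB : ‖B‖ ≤ h) :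
    FB (fun i j => B (ev i) (ev j)) h := by
  intro a b
  have h1 : ∑ i, ∑ j, B (ev i) (ev j) * (a i * b j) =
      B (∑ i, a i • ev i) (∑ j, b j • ev j) := by
    have e1 : B (∑ i, a i • ev i) = ∑ i, a i • B (ev i) := by
      rw [map_sum]
      exact Finset.sum_congr rfl fun i _ => map_smul _ _ _
    rw [e1, _root_.sum_apply]
    refine Finset.sum_congr rfl fun i _ => ?_
    rw [_root_.smul_apply, map_sum, smul_eq_mul, Finset.mul_sum]
    refine Finset.sum_congr rfl fun j _ => ?_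
    rw [map_smul, smul_eq_mul]
    ring
  rw [h1, ← Real.norm_eq_abs]
  refine (B.le_opNorm₂ _ _).trans ?_
  rw [nr_eq_norm, nr_eq_norm, mul_assoc]
  exact mul_le_mul_of_nonneg_right hB (mul_nonneg (nr_nonneg _) (nr_nonneg _))

/-- second derivatives -/
theorem base (hU : PotP h U) {t : ℝ} (ht : 0 < t) (y : E d) (α β : Type) [Fintype α] [Fintype β]
    [DecidableEq α] [DecidableEq β] (hα : Fintype.card α = 1) (hβ : Fintype.card β = 1) :
    FB (fun (I : α → Fin d) (J : β → Fin d) => pdm (ms I + ms J) (uT U t) y) h := by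
  have e : α ≃ Unit := Fintype.equivOfCardEq (by simp [hα])
  have f : β ≃ Unit := Fintype.equivOfCardEq (by simp [hβ])
  refine FB_equiv (D := fun m => pdm m (uT U t) y) e f ?_
  have hus := contDiff_uT hU ht
  have key : FB (fun (i j : Fin d) => pd i (pd j (uT U t)) y) h := by
    have h1 : (fun (i j : Fin d) => pd i (pd j (uT U t)) y) =
        fun i j => Ub2 U (√t, y) (ev i) (ev j) := by
      funext i j
      exact pd_pd_uT hU ht i j y
    rw [h1]
    exact FB_bil (ub2_norm hU _)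
  have h2 := key.reindex (Equiv.funUnique Unit (Fin d)) (Equiv.funUnique Unit (Fin d))
  refine fun a b => le_of_eq_of_le ?_ (h2 a b)
  congr 1
  refine Finset.sum_congr rfl fun p _ => Finset.sum_congr rfl fun q _ => ?_
  congr 1
  have e1 : ms p + ms q = p () ::ₘ {q ()} := by
    simp [ms]
  beta_reduce
  rw [e1, pdm_cons hus, pdm_single hus]
  rfl

/-- the contracted derivative -/
def cw {β : Type} [Fintype β] [DecidableEq β] {α : Type} [Fintype α] (U : E d → ℝ)
    (b : (β → Fin d) → ℝ) (I : α → Fin d) (t : ℝ) (x : E d) : ℝ :=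
  ∑ J, pdm (ms I + ms J) (uT U t) x * b J

/-- the contracted quadratic term -/
def cn {β : Type} [Fintype β] [DecidableEq β] {α : Type} [Fintype α] (U : E d → ℝ)
    (b : (β → Fin d) → ℝ) (I : α → Fin d) (t : ℝ) (x : E d) : ℝ :=
  ∑ J, Nq (fun m => pdm m (uT U t) x) (ms I + ms J) * b J

section

variable {α β : Type} [Fintype α] [Fintype β] [DecidableEq α] [DecidableEq β]

theorem joint_cw (hU : PotP h U) (b : (β → Fin d) → ℝ) (I : α → Fin d) :
    ContDiffOn ℝ ∞ (fun p : ℝ × E d => cw U b I p.1 p.2) (Ioi 0 ×ˢ univ) := by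
  unfold cw
  exact ContDiffOn.sum fun J _ => (joint_pdm_uT hU _).mul contDiffOn_const

theorem pd_cw (hU : PotP h U) (b : (β → Fin d) → ℝ) (I : α → Fin d) {t : ℝ} (ht : 0 < t)
    (l : Fin d) : pd l (cw U b I t) = fun x => ∑ J, pdm (l ::ₘ (ms I + ms J)) (uT U t) x * b J := by
  have hus := contDiff_uT hU ht
  funext x
  have h1 : pd l (cw U b I t) x = ∑ J, pd l (fun x => pdm (ms I + ms J) (uT U t) x * b J) x :=
    pd_sum Finset.univ (fun J x => pdm (ms I + ms J) (uT U t) x * b J) l x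
      (fun J _ => (diff_pdm hus _ x).mul_const _)
  rw [h1]
  refine Finset.sum_congr rfl fun J _ => ?_
  unfold pd
  rw [fderiv_mul_const (diff_pdm hus _ x), pdm_cons hus]
  simp [pd, mul_comm]

theorem src_cw [Nonempty α] (hU : PotP h U) (b : (β → Fin d) → ℝ) (I : α → Fin d) {t : ℝ}
    (ht : 0 < t) (x : E d) : src U (cw U b I) t x = cn U b I t x := by
  have hus := contDiff_uT hU ht
  have h1 : ∀ l, pd l (pd l (cw U b I t)) x =
      ∑ J, pdm (l ::ₘ l ::ₘ (ms I + ms J)) (uT U t) x * b J := by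
    intro l
    rw [pd_cw hU b I ht]
    have h2 := pd_sum Finset.univ (fun J x => pdm (l ::ₘ (ms I + ms J)) (uT U t) x * b J) l x
      (fun J _ => (diff_pdm hus _ x).mul_const _)
    rw [h2]
    refine Finset.sum_congr rfl fun J _ => ?_
    unfold pd
    rw [fderiv_mul_const (diff_pdm hus _ x), pdm_cons hus l (l ::ₘ _)]
    simp [pd, mul_comm]
  have h3 : dtf (cw U b I) t x = ∑ J, HJr (uT U t) (ms I + ms J) x * b J := by
    have h4 : HasDerivAt (fun s => cw U b I s x) (∑ J, HJr (uT U t) (ms I + ms J) x * b J) t := by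
      unfold cw
      exact HasDerivAt.fun_sum fun J _ => (hasDerivAt_pdm_uT hU ht (ms I + ms J) x).mul_const _
    exact h4.deriv
  have h5 : ∀ l, pd l (cw U b I t) x = ∑ J, pdm (l ::ₘ (ms I + ms J)) (uT U t) x * b J := fun l => by
    rw [pd_cw hU b I ht]
  unfold src cn
  rw [h3]
  simp only [h1, h5]
  have h6 : ∀ J : β → Fin d, Nq (fun m => pdm m (uT U t) x) (ms I + ms J) =
      ∑ l, pdm (l ::ₘ l ::ₘ (ms I + ms J)) (uT U t) x -
      2 * ∑ l, pd l (uT U t) x * pdm (l ::ₘ (ms I + ms J)) (uT U t) x -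
      2 * HJr (uT U t) (ms I + ms J) x := by
    intro J
    have hne : ms I + ms J ≠ 0 := by
      intro h0
      have h7 := congrArg Multiset.card h0
      rw [Multiset.card_add, card_ms, card_ms, Multiset.card_zero] at h7
      have := Fintype.card_pos (α := α)
      omega
    have h8 := Nfull_eq (fun m => pdm m (uT U t) x) hne
    simp only [pdm_single hus] at h8
    unfold HJr
    linarith
  simp only [h6, sub_mul, Finset.sum_sub_distrib, Finset.sum_mul, Finset.mul_sum, mul_assoc]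
  congr 1
  congr 1
  · exact Finset.sum_comm
  · exact Finset.sum_comm

theorem joint_cn [Nonempty α] (hU : PotP h U) (b : (β → Fin d) → ℝ) (I : α → Fin d) :
    ContDiffOn ℝ ∞ (fun p : ℝ × E d => cn U b I p.1 p.2) (Ioi 0 ×ˢ univ) := by
  refine (joint_src hU (joint_cw hU b I)).congr ?_
  rintro ⟨t, x⟩ ⟨ht, -⟩
  exact (src_cw hU b I ht x).symm

/-- bound hypothesis up to level `k` -/
def Bd (h : ℝ) (U : E d → ℝ) (k : ℕ) (C : ℝ) : Prop :=
  ∀ t, 0 < t → h * t ≤ 1 → ∀ (y : E d) (α β : Type) [Fintype α] [Fintype β] [DecidableEq α]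
    [DecidableEq β] [Nonempty α] [Nonempty β], Fintype.card α + Fintype.card β ≤ k →
    FB (fun (I : α → Fin d) (J : β → Fin d) => pdm (ms I + ms J) (uT U t) y)
      (C * (h * t / √t ^ (Fintype.card α + Fintype.card β)))

theorem pow_anti {r t : ℝ} (hr : 0 < r) (hrt : r ≤ t) {j : ℕ} (hj : 2 ≤ j) :
    t / √t ^ j ≤ r / √r ^ j := by
  obtain ⟨i, rfl⟩ := Nat.exists_eq_add_of_le hj
  have key : ∀ s : ℝ, 0 < s → s / √s ^ (2 + i) = 1 / √s ^ i := by
    intro s hs
    have h0 : √s ≠ 0 := (Real.sqrt_pos.2 hs).ne'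
    have h1 : √s ^ 2 = s := Real.sq_sqrt hs.le
    rw [pow_add, h1]
    field_simp
  rw [key t (hr.trans_le hrt), key r hr]
  have h1 : √r ≤ √t := Real.sqrt_le_sqrt hrt
  have h2 : 0 < √r := Real.sqrt_pos.2 hr
  gcongr

set_option maxHeartbeats 1000000 in
theorem step [Nonempty α] [Nonempty β] (hU : PotP h U) {k : ℕ} {C : ℝ} (hC : 0 ≤ C)
    (ih : Bd h U k C) {t : ℝ} (ht : 0 < t) (hht : h * t ≤ 1) (y : E d)
    (hcard : Fintype.card α + Fintype.card β = k) :
    FB (fun (I : Option α → Fin d) (J : β → Fin d) => pdm (ms I + ms J) (uT U t) y)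
      (√2 ^ (k + 1) * (C + 2 ^ k * C ^ 2) * (h * t / √t ^ (k + 1))) := by
  have hh := hU.hh
  have pα : 0 < Fintype.card α := Fintype.card_pos
  have pβ : 0 < Fintype.card β := Fintype.card_pos
  have hk : 2 ≤ k := by omega
  set r := t / 2 with hr
  have hr0 : 0 < r := by positivity
  have hrt : r < t := by linarith
  have htr : t - r = r := by rw [hr]; ring
  have hsr : 0 < √r := Real.sqrt_pos.2 hr0
  -- letters
  set K : ℕ → ℝ := fun j => C * (h * r / √r ^ j) with hK
  have hK0 : ∀ j, 0 ≤ K j := fun j => by simp only [hK]; positivity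
  have letter : ∀ s ∈ Icc r t, ∀ (x : E d) (α' β' : Type) [Fintype α'] [Fintype β']
      [DecidableEq α'] [DecidableEq β'] [Nonempty α'] [Nonempty β'],
      Fintype.card α' + Fintype.card β' ≤ k →
      FB (fun (I : α' → Fin d) (J : β' → Fin d) => pdm (ms I + ms J) (uT U s) x)
        (K (Fintype.card α' + Fintype.card β')) := by
    intro s hs x α' β' _ _ _ _ _ _ hc
    have hs0 : 0 < s := hr0.trans_le hs.1
    have pα' : 0 < Fintype.card α' := Fintype.card_pos
    have pβ' : 0 < Fintype.card β' := Fintype.card_pos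
    refine (ih s hs0 ((mul_le_mul_of_nonneg_left hs.2 hh).trans hht) x α' β' hc).mono ?_
    have h1 := pow_anti hr0 hs.1 (j := Fintype.card α' + Fintype.card β') (by omega)
    simp only [hK]
    rw [mul_div_assoc, mul_div_assoc]
    gcongr
  set K' : ℝ := C ^ 2 * ((h * r) ^ 2 / √r ^ (k + 2)) with hK'
  have hK'0 : 0 ≤ K' := by simp only [hK']; positivity
  have quad : ∀ s ∈ Icc r t, ∀ x : E d,
      FB (fun (I : α → Fin d) (J : β → Fin d) =>
        Nq (fun m => pdm m (uT U s) x) (ms I + ms J)) (2 ^ k * K') := by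
    intro s hs x
    refine FB_Nq (D := fun m => pdm m (uT U s) x) hK0 ?_ ?_ α β hcard hK'0
    case refine_2 => exact letter s hs x
    intro i j _ _ hij
    simp only [hK, hK']
    rw [← hij, pow_add]
    refine le_of_eq ?_
    field_simp
  intro a b
  have hnb := nr_nonneg b
  set M : ℝ := K k * nr b with hM
  have hM0 : 0 ≤ M := mul_nonneg (hK0 _) hnb
  set N : ℝ := 2 ^ k * K' * nr b with hN
  have hN0 : 0 ≤ N := by positivity
  have bw : ∀ s ∈ Icc r t, ∀ x, ∑ I : α → Fin d, cw U b I s x ^ 2 ≤ M ^ 2 := by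
    intro s hs x
    have h1 := (letter s hs x α β hcard.le).op' (hK0 _) b
    rw [hcard] at h1
    have h2 := pow_le_pow_left₀ (nr_nonneg _) h1 2
    rw [nr_sq] at h2
    exact h2
  have bn : ∀ s ∈ Icc r t, ∀ x, ∑ I : α → Fin d, cn U b I s x ^ 2 ≤ N ^ 2 := by
    intro s hs x
    have h1 := (quad s hs x).op' (by positivity) b
    have h2 := pow_le_pow_left₀ (nr_nonneg _) h1 2
    rw [nr_sq] at h2
    exact h2
  have one : ∀ {κ : Type} [Fintype κ] (f : κ → ℝ) {B : ℝ} (_ : 0 ≤ B) (_ : ∑ i, f i ^ 2 ≤ B ^ 2)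
      (i : κ), |f i| ≤ B := by
    intro κ _ f B hB h1 i
    refine abs_le_of_sq_le_sq ((?_ : f i ^ 2 ≤ _).trans h1) hB
    exact Finset.single_le_sum (f := fun i => f i ^ 2) (fun _ _ => sq_nonneg _)
      (Finset.mem_univ i)
  have hrepr : ∀ (I : α → Fin d) (z : E d), cw U b I t z = EK (t - r) (Hf U r) (cw U b I r) z -
      2⁻¹ * ∫ s in r..t, EK (t - s) (Hf U s) (cn U b I s) z := by
    intro I z
    have h1 := repr_EK hU hr0 hrt (joint_cw hU b I) (M := M + N)
      (fun s hs x => (one _ hM0 (bw s hs x) I).trans (by linarith))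
      (fun s hs x => by
        rw [src_cw hU b I (hr0.trans_le hs.1)]
        exact (one _ hN0 (bn s hs x) I).trans (by linarith)) z
    rw [h1]
    congr 2
    refine intervalIntegral.integral_congr fun s hs => ?_
    rw [uIcc_of_le hrt.le] at hs
    have hs0 : 0 < s := hr0.trans_le hs.1
    have e1 : src U (cw U b I) s = cn U b I s := funext fun x => src_cw hU b I hs0 x
    simp only [e1]
  have main := core hr0 hrt (H := Hf U) (joint_Hf hU).continuousOn
    (fun s _ x => Hf_pos U s x) (fun s _ x => Hf_le_one hU s x)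
    (fun s hs => conv_hS hU (hr0.trans_le hs.1) hs.2.le)
    (w0 := fun I : α → Fin d => cw U b I r)
    (fun I => (joint_slice (joint_cw hU b I) (mem_Ioi.2 hr0)).continuous.measurable)
    (n := fun I => cn U b I) (fun I => (joint_cn hU b I).continuousOn) hM0 hN0
    (fun x => bw r ⟨le_rfl, hrt.le⟩ x) (fun s hs x => bn s hs x)
    (w := fun I => cw U b I t) hrepr y
    (fun I => (joint_slice (joint_cw hU b I) (mem_Ioi.2 ht)).differentiable (by simp) y)
    (fun l I => a ((Equiv.piOptionEquivProd (β := fun _ => Fin d)).symm (l, I)))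
  have e1 : ∑ I : Option α → Fin d, ∑ J : β → Fin d, pdm (ms I + ms J) (uT U t) y * (a I * b J) =
      ∑ l, ∑ I : α → Fin d, a ((Equiv.piOptionEquivProd (β := fun _ => Fin d)).symm (l, I)) *
        pd l (cw U b I t) y := by
    rw [← Equiv.sum_comp (Equiv.piOptionEquivProd (α := α) (β := fun _ => Fin d)).symm,
      Fintype.sum_prod_type]
    refine Finset.sum_congr rfl fun l _ => Finset.sum_congr rfl fun I _ => ?_
    rw [pd_cw hU b I ht, Finset.mul_sum]
    refine Finset.sum_congr rfl fun J _ => ?_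
    rw [ms_option, Multiset.cons_add]
    show pdm (l ::ₘ (ms I + ms J)) (uT U t) y * _ = _
    ring
  have e2 : ∑ l, ∑ I : α → Fin d,
      a ((Equiv.piOptionEquivProd (β := fun _ => Fin d)).symm (l, I)) ^ 2 = ∑ I, a I ^ 2 := by
    rw [← Equiv.sum_comp (Equiv.piOptionEquivProd (α := α) (β := fun _ => Fin d)).symm
      (fun I => a I ^ 2), Fintype.sum_prod_type]
  rw [e1]
  rw [e2, htr] at main
  refine main.trans ?_
  change _ * nr a ≤ _
  have h3 : (√r)⁻¹ * M + √r * N ≤
      √2 ^ (k + 1) * (C + 2 ^ k * C ^ 2) * (h * t / √t ^ (k + 1)) * nr b := by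
    have e3 : (√r)⁻¹ * M = C * (h * r / √r ^ (k + 1)) * nr b := by
      simp only [hM, hK]
      rw [pow_succ]
      field_simp
    have e4 : √r * N = 2 ^ k * C ^ 2 * (h * r) * (h * r / √r ^ (k + 1)) * nr b := by
      simp only [hN, hK']
      rw [pow_succ, pow_succ]
      field_simp
      ring
    have h4 : h * r ≤ 1 := (mul_le_mul_of_nonneg_left hrt.le hh).trans hht
    have h5 : 0 ≤ h * r / √r ^ (k + 1) := by positivity
    have h6 : h * r / √r ^ (k + 1) ≤ √2 ^ (k + 1) * (h * t / √t ^ (k + 1)) := by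
      have e5 : √r = √t / √2 := by rw [hr, Real.sqrt_div ht.le]
      have hst : 0 < √t := Real.sqrt_pos.2 ht
      rw [e5, div_pow, div_div_eq_mul_div, mul_comm (h * r), mul_div_assoc]
      gcongr
    rw [e3, e4]
    have h7 : 2 ^ k * C ^ 2 * (h * r) ≤ 2 ^ k * C ^ 2 * 1 :=
      mul_le_mul_of_nonneg_left h4 (by positivity)
    calc C * (h * r / √r ^ (k + 1)) * nr b + 2 ^ k * C ^ 2 * (h * r) * (h * r / √r ^ (k + 1)) * nr b
        ≤ C * (h * r / √r ^ (k + 1)) * nr b + 2 ^ k * C ^ 2 * 1 * (h * r / √r ^ (k + 1)) * nr b := by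
          gcongr
      _ = (C + 2 ^ k * C ^ 2) * (h * r / √r ^ (k + 1)) * nr b := by ring
      _ ≤ (C + 2 ^ k * C ^ 2) * (√2 ^ (k + 1) * (h * t / √t ^ (k + 1))) * nr b := by
          gcongr
      _ = _ := by ring
  calc ((√r)⁻¹ * M + √r * N) * nr a ≤
      (√2 ^ (k + 1) * (C + 2 ^ k * C ^ 2) * (h * t / √t ^ (k + 1)) * nr b) * nr a :=
        mul_le_mul_of_nonneg_right h3 (nr_nonneg _)
    _ = _ := by ring

end

theorem Bd_succ (hU : PotP h U) {k : ℕ} {C : ℝ} (hC : 0 ≤ C) (hk : 2 ≤ k) (ih : Bd h U k C) :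
    Bd h U (k + 1) (C + √2 ^ (k + 1) * (C + 2 ^ k * C ^ 2)) := by
  intro t ht hht y α β _ _ _ _ _ _ hcard
  have hh := hU.hh
  have pα : 0 < Fintype.card α := Fintype.card_pos
  have pβ : 0 < Fintype.card β := Fintype.card_pos
  have hD0 : 0 ≤ √2 ^ (k + 1) * (C + 2 ^ k * C ^ 2) := by positivity
  rcases Nat.lt_or_ge (Fintype.card α + Fintype.card β) (k + 1) with h1 | h1
  · refine (ih t ht hht y α β (by omega)).mono ?_
    gcongr
    linarith
  · have h2 : Fintype.card α + Fintype.card β = k + 1 := le_antisymm hcard h1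
    rw [h2]
    have key : ∀ (α β : Type) [Fintype α] [Fintype β] [DecidableEq α] [DecidableEq β]
        [Nonempty α] [Nonempty β], Fintype.card α + Fintype.card β = k + 1 →
        2 ≤ Fintype.card α →
        FB (fun (I : α → Fin d) (J : β → Fin d) => pdm (ms I + ms J) (uT U t) y)
          ((C + √2 ^ (k + 1) * (C + 2 ^ k * C ^ 2)) * (h * t / √t ^ (k + 1))) := by
      intro α β _ _ _ _ _ _ hc h3
      obtain ⟨n, hn⟩ : ∃ n, Fintype.card α = n + 1 + 1 := ⟨Fintype.card α - 2, by omega⟩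
      have e : α ≃ Option (Fin (n + 1)) := Fintype.equivOfCardEq (by simp [hn])
      refine FB_equiv (D := fun m => pdm m (uT U t) y) e (Equiv.refl β) ?_
      refine (step (α := Fin (n + 1)) (β := β) hU hC ih ht hht y ?_).mono ?_
      · rw [Fintype.card_fin]; omega
      · gcongr
        linarith
    rcases Nat.lt_or_ge (Fintype.card α) 2 with h3 | h3
    · have h4 := (key β α (by omega) (by omega)).symm
      refine fun a b => le_of_eq_of_le ?_ (h4 a b)
      congr 1
      refine Finset.sum_congr rfl fun I _ => Finset.sum_congr rfl fun J _ => ?_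
      beta_reduce
      rw [add_comm (ms I)]
    · exact key α β h2 h3

theorem Bd_two (hU : PotP h U) : Bd h U 2 1 := by
  intro t ht _ y α β _ _ _ _ _ _ hcard
  have pα : 0 < Fintype.card α := Fintype.card_pos
  have pβ : 0 < Fintype.card β := Fintype.card_pos
  have h1 := base hU ht y α β (by omega) (by omega)
  refine h1.mono (le_of_eq ?_)
  have h2 : Fintype.card α + Fintype.card β = 2 := by omega
  rw [h2, Real.sq_sqrt ht.le]
  field_simp

/-- the constants -/
def afc : ℕ → ℝ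
  | 0 => 1
  | 1 => 1
  | 2 => 1
  | k + 3 => afc (k + 2) + √2 ^ (k + 3) * (afc (k + 2) + 2 ^ (k + 2) * afc (k + 2) ^ 2)

theorem one_le_afc : ∀ k, 1 ≤ afc k
  | 0 => le_rfl
  | 1 => le_rfl
  | 2 => le_rfl
  | k + 3 => by
    have h1 := one_le_afc (k + 2)
    have h2 : 0 ≤ √2 ^ (k + 3) * (afc (k + 2) + 2 ^ (k + 2) * afc (k + 2) ^ 2) := by positivity
    rw [afc]
    linarith

theorem afc_pos (k : ℕ) : 0 < afc k := one_pos.trans_le (one_le_afc k)

theorem Bd_all (hU : PotP h U) : ∀ k, Bd h U k (afc k)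
  | 0 => fun t ht hht y α β _ _ _ _ _ _ hc => by
    have pα : 0 < Fintype.card α := Fintype.card_pos
    omega
  | 1 => fun t ht hht y α β _ _ _ _ _ _ hc => by
    have pα : 0 < Fintype.card α := Fintype.card_pos
    have pβ : 0 < Fintype.card β := Fintype.card_pos
    omega
  | 2 => Bd_two hU
  | k + 3 => Bd_succ hU (afc_pos _).le (by omega) (Bd_all hU (k + 2))

/-- **Main theorem of module AF**: flattening bound of `D^m u_t`, `h t ≤ 1`. -/
theorem AF_FB (hU : PotP h U) {t : ℝ} (ht : 0 < t) (hht : h * t ≤ 1) (y : E d) (α β : Type)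
    [Fintype α] [Fintype β] [DecidableEq α] [DecidableEq β] [Nonempty α] [Nonempty β] :
    FB (fun (I : α → Fin d) (J : β → Fin d) => pdm (ms I + ms J) (uT U t) y)
      (afc (Fintype.card α + Fintype.card β) *
        (h * t / √t ^ (Fintype.card α + Fintype.card β))) :=
  Bd_all hU _ t ht hht y α β le_rfl

/-- The same for `Ub U σ`. -/
theorem AF_FB_Ub (hU : PotP h U) {σ : ℝ} (hσ : 0 < σ) (hhσ : h * σ ^ 2 ≤ 1) (y : E d)
    (α β : Type) [Fintype α] [Fintype β] [DecidableEq α] [DecidableEq β] [Nonempty α]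
    [Nonempty β] :
    FB (fun (I : α → Fin d) (J : β → Fin d) => pdm (ms I + ms J) (Ub U σ) y)
      (afc (Fintype.card α + Fintype.card β) *
        (h * σ ^ 2 / σ ^ (Fintype.card α + Fintype.card β))) := by
  have h1 := AF_FB hU (t := σ ^ 2) (by positivity) hhσ y α β
  unfold uT at h1
  rwa [Real.sqrt_sq hσ.le] at h1

/-- Operator form for `Sob.Sett.AF` / `InstFix.fixSett`: `T = h⁻¹ D^m (Ub f σ)`, `κ ≤ σ ≤ 1`. -/
theorem AF_op {f : E d → ℝ} (hf : PotP h f) (hh : 0 < h) (hh1 : h ≤ 1) {κ σ : ℝ} (hκ : 0 < κ)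
    (hκσ : κ ≤ σ) (hσ : σ ≤ 1) (p q : ℕ) (y : E d) (x : (Fin (p + 1) → Fin d) → ℝ) :
    ∑ j : Fin (q + 1) → Fin d, (∑ k : Fin (p + 1) → Fin d,
      h⁻¹ * pdm ((Finset.univ : Finset (Fin (p + 1))).val.map k +
        (Finset.univ : Finset (Fin (q + 1))).val.map j) (Ub f σ) y * x k) ^ 2 ≤
      (afc (p + q + 2) * κ⁻¹ ^ (p + q)) ^ 2 * ∑ k, x k ^ 2 := by
  have hσ0 : 0 < σ := hκ.trans_le hκσ
  have h2 : h * σ ^ 2 ≤ 1 := by
    have : σ ^ 2 ≤ 1 := pow_le_one₀ hσ0.le hσ
    nlinarith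
  have h3 := (AF_FB_Ub hf hσ0 h2 y (Fin (p + 1)) (Fin (q + 1))).symm
  simp only [Fintype.card_fin] at h3
  have e1 : p + 1 + (q + 1) = p + q + 2 := by ring
  rw [e1] at h3
  have h4 := (h3.smul h⁻¹).op' (by
    have := afc_pos (p + q + 2)
    positivity) x
  have h5 := pow_le_pow_left₀ (nr_nonneg _) h4 2
  rw [nr_sq, mul_pow, nr_sq] at h5
  refine h5.trans ?_
  refine mul_le_mul_of_nonneg_right ?_ (Finset.sum_nonneg fun _ _ => sq_nonneg _)
  have h6 : |h⁻¹| * (afc (p + q + 2) * (h * σ ^ 2 / σ ^ (p + q + 2))) =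
      afc (p + q + 2) * σ⁻¹ ^ (p + q) := by
    rw [abs_of_pos (by positivity), inv_pow, pow_add σ (p + q) 2]
    field_simp
  rw [h6]
  have := afc_pos (p + q + 2)
  have h7 : σ⁻¹ ≤ κ⁻¹ := inv_anti₀ hκ hκσ
  gcongr

/-- exactly the hypothesis `AF` of `InstFix.fixSett` with `K = κ⁻¹`, `τ = h`. -/
theorem AF_op' {f : E d → ℝ} (hf : PotP h f) (hh : 0 < h) (hh1 : h ≤ 1) {κ σ : ℝ} (hκ : 0 < κ)
    (hκσ : κ ≤ σ) (hσ : σ ≤ 1) (p q : ℕ) (y : E d) (x : (Fin (p + 1) → Fin d) → ℝ) :
    ∑ j : Fin (q + 1) → Fin d, (∑ k : Fin (p + 1) → Fin d,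
      h⁻¹ * pdm ((Finset.univ : Finset (Fin (p + 1))).val.map k +
        (Finset.univ : Finset (Fin (q + 1))).val.map j) (Ub f σ) y * x k) ^ 2 ≤
      (afc (p + q + 2) * κ⁻¹ ^ (p + q + 2)) ^ 2 * ∑ k, x k ^ 2 := by
  refine (AF_op hf hh hh1 hκ hκσ hσ p q y x).trans ?_
  have := afc_pos (p + q + 2)
  have h1 : 1 ≤ κ⁻¹ := (one_le_inv₀ hκ).2 (hκσ.trans hσ)
  have h2 : κ⁻¹ ^ (p + q) ≤ κ⁻¹ ^ (p + q + 2) := pow_le_pow_right₀ h1 (by omega)
  refine mul_le_mul_of_nonneg_right ?_ (Finset.sum_nonneg fun _ _ => sq_nonneg _)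
  gcongr

end Crest.Agent.R285.AF
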