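import Crest.Agent.R285.PDM

/-!
Row 285 (S0430): iterated Frechet derivatives against iterated coordinate derivatives, and the
flattening norms (helper727, second of helper635).
-/

set_option autoImplicit false

open Finset Set
open Crest.OracleSampling (E)
open scoped ContDiff

noncomputable section

namespace Crest.Agent.R285.AF

variable {d : ℕ}

/-! ### (1) the value of the iterated derivative on coordinate vectors -/

theorem ms_fin_succ {ι : Type} {n : ℕ} (I : Fin (n + 1) → ι) :
    ms I = I 0 ::ₘ ms (Fin.tail I) := by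
  have h : (univ : Finset (Fin (n + 1))).val = 0 ::ₘ (univ : Finset (Fin n)).val.map Fin.succ := by
    rw [Fin.univ_succ, Finset.cons_val, Finset.map_val]
    rfl
  unfold ms
  rw [h, Multiset.map_cons, Multiset.map_map]
  rfl

theorem iteratedFDeriv_ev {F : E d → ℝ} (hF : ContDiff ℝ ∞ F) {n : ℕ} (I : Fin n → Fin d)
    (x : E d) : iteratedFDeriv ℝ n F x (fun i => ev (I i)) = pdm (ms I) F x := by
  induction n generalizing x with
  | zero => simp [ms_empty]
  | succ n ih =>
    rw [iteratedFDeriv_succ_apply_left, ms_fin_succ, pdm_cons hF]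
    have hd : DifferentiableAt ℝ (iteratedFDeriv ℝ n F) x :=
      (hF.differentiable_iteratedFDeriv (m := n) (by exact_mod_cast ENat.natCast_lt_top n)) x
    have h1 : (fun y => iteratedFDeriv ℝ n F y (fun i => ev (Fin.tail I i))) =
        pdm (ms (Fin.tail I)) F := funext fun y => ih (Fin.tail I) y
    have h2 : HasFDerivAt (fun y => iteratedFDeriv ℝ n F y (fun i => ev (Fin.tail I i)))
        ((ContinuousMultilinearMap.apply ℝ (fun _ : Fin n => E d) ℝ
          (fun i => ev (Fin.tail I i))).comp (fderiv ℝ (iteratedFDeriv ℝ n F) x)) x :=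
      (ContinuousMultilinearMap.apply ℝ (fun _ : Fin n => E d) ℝ
          (fun i => ev (Fin.tail I i))).hasFDerivAt.comp x hd.hasFDerivAt
    unfold pd
    rw [← h1, h2.fderiv]
    rfl

/-! ### (2) multilinear expansion -/

theorem ev_expand (v : E d) : v = ∑ l, v l • ev l := by
  ext k
  simp [ev, Finset.sum_apply, Pi.single_apply]

theorem multilinear_expand {n : ℕ} (T : ContinuousMultilinearMap ℝ (fun _ : Fin n => E d) ℝ)
    (v : Fin n → E d) :
    T v = ∑ I : Fin n → Fin d, T (fun i => ev (I i)) * ∏ i, v i (I i) := by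
  have h : v = fun i => ∑ l, v i l • ev l := funext fun i => ev_expand (v i)
  conv_lhs => rw [h]
  rw [ContinuousMultilinearMap.map_sum]
  refine sum_congr rfl fun I _ => ?_
  rw [ContinuousMultilinearMap.map_smul_univ, smul_eq_mul, mul_comm]

theorem iteratedFDeriv_expand {F : E d → ℝ} (hF : ContDiff ℝ ∞ F) {n : ℕ} (v : Fin n → E d)
    (x : E d) : iteratedFDeriv ℝ n F x v =
      ∑ I : Fin n → Fin d, pdm (ms I) F x * ∏ i, v i (I i) := by
  rw [multilinear_expand]
  exact sum_congr rfl fun I _ => by rw [iteratedFDeriv_ev hF]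

/-! ### (3) flattening -/

theorem ms_append {ι : Type} {p q : ℕ} (I : Fin p → ι) (J : Fin q → ι) :
    ms (Fin.append I J) = ms I + ms J := by
  have h : ms (Fin.append I J) = ms (fun s : Fin p ⊕ Fin q => Fin.append I J (finSumFinEquiv s)) :=
    (ms_equiv finSumFinEquiv (Fin.append I J)).symm
  have h2 : (univ : Finset (Fin p ⊕ Fin q)).val =
      (univ : Finset (Fin p)).val.map Sum.inl + (univ : Finset (Fin q)).val.map Sum.inr := by
    rw [← Finset.univ_disjSum_univ]
    rfl
  rw [h]
  unfold ms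
  rw [h2, Multiset.map_add, Multiset.map_map, Multiset.map_map]
  congr 1
  · refine Multiset.map_congr rfl fun i _ => ?_
    simp
  · refine Multiset.map_congr rfl fun i _ => ?_
    simp

theorem nr_prod {n : ℕ} (v : Fin n → E d) :
    nr (fun I : Fin n → Fin d => ∏ i, v i (I i)) = ∏ i, ‖v i‖ := by
  unfold nr
  have h : ∑ I : Fin n → Fin d, (∏ i, v i (I i)) ^ 2 = ∏ i, ∑ l, v i l ^ 2 := by
    rw [Finset.prod_univ_sum, Fintype.piFinset_univ]
    exact sum_congr rfl fun I _ => by rw [← Finset.prod_pow]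
  rw [h, Real.sqrt_prod _ fun i _ => sum_nonneg fun _ _ => sq_nonneg _]
  refine prod_congr rfl fun i _ => ?_
  rw [EuclideanSpace.norm_eq]
  simp

/-- Flattening: the iterated derivative on coordinate vectors, contracted with two families. -/
theorem iteratedFDeriv_flat {F : E d → ℝ} (hF : ContDiff ℝ ∞ F) {p q : ℕ} {C : ℝ} (x : E d)
    (h : FB (fun (I : Fin p → Fin d) (J : Fin q → Fin d) => pdm (ms I + ms J) F x) C)
    (a : (Fin p → Fin d) → ℝ) (b : (Fin q → Fin d) → ℝ) :
    |∑ I, ∑ J, iteratedFDeriv ℝ (p + q) F x (fun i => ev (Fin.append I J i)) * (a I * b J)| ≤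
      C * (nr a * nr b) := by
  have e : ∑ I, ∑ J, iteratedFDeriv ℝ (p + q) F x (fun i => ev (Fin.append I J i)) * (a I * b J) =
      ∑ I, ∑ J, pdm (ms I + ms J) F x * (a I * b J) := by
    refine sum_congr rfl fun I _ => sum_congr rfl fun J _ => ?_
    rw [iteratedFDeriv_ev hF, ms_append]
  rw [e]
  exact h a b

theorem iteratedFDeriv_expand_append {F : E d → ℝ} (hF : ContDiff ℝ ∞ F) {p q : ℕ}
    (v : Fin (p + q) → E d) (x : E d) :
    iteratedFDeriv ℝ (p + q) F x v = ∑ I : Fin p → Fin d, ∑ J : Fin q → Fin d,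
      pdm (ms I + ms J) F x *
        ((∏ i, v (Fin.castAdd q i) (I i)) * ∏ j, v (Fin.natAdd p j) (J j)) := by
  rw [iteratedFDeriv_expand hF]
  rw [← Fintype.sum_prod_type' (f := fun (I : Fin p → Fin d) (J : Fin q → Fin d) =>
      pdm (ms I + ms J) F x *
        ((∏ i, v (Fin.castAdd q i) (I i)) * ∏ j, v (Fin.natAdd p j) (J j)))]
  rw [← Equiv.sum_comp (Fin.appendEquiv p q)]
  refine sum_congr rfl fun P _ => ?_
  simp only [Fin.appendEquiv, Equiv.coe_fn_mk]
  rw [ms_append, Fin.prod_univ_add]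
  simp

/-- Flattening bound on arbitrary vectors. -/
theorem abs_iteratedFDeriv_le {F : E d → ℝ} (hF : ContDiff ℝ ∞ F) {p q : ℕ} {C : ℝ} (x : E d)
    (h : FB (fun (I : Fin p → Fin d) (J : Fin q → Fin d) => pdm (ms I + ms J) F x) C)
    (v : Fin (p + q) → E d) :
    |iteratedFDeriv ℝ (p + q) F x v| ≤ C * ∏ i, ‖v i‖ := by
  rw [iteratedFDeriv_expand_append hF]
  refine (h _ _).trans (le_of_eq ?_)
  rw [nr_prod (fun i => v (Fin.castAdd q i)), nr_prod (fun j => v (Fin.natAdd p j)),
    Fin.prod_univ_add]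

theorem norm_iteratedFDeriv_le_of_FB {F : E d → ℝ} (hF : ContDiff ℝ ∞ F) {p q : ℕ} {C : ℝ}
    (hC : 0 ≤ C) (x : E d)
    (h : FB (fun (I : Fin p → Fin d) (J : Fin q → Fin d) => pdm (ms I + ms J) F x) C) :
    ‖iteratedFDeriv ℝ (p + q) F x‖ ≤ C :=
  ContinuousMultilinearMap.opNorm_le_bound hC fun v => by
    rw [Real.norm_eq_abs]
    exact abs_iteratedFDeriv_le hF x h v

/-! ### (4) gradient fields -/

theorem norm_iteratedFDeriv_gradient (F : E d → ℝ) (n : ℕ) (x : E d) :
    ‖iteratedFDeriv ℝ n (fun y => gradient F y) x‖ = ‖iteratedFDeriv ℝ (n + 1) F x‖ := by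
  have h : (fun y => gradient F y) =
      (InnerProductSpace.toDual ℝ (E d)).symm ∘ fderiv ℝ F := rfl
  rw [h, LinearIsometryEquiv.norm_iteratedFDeriv_comp_left, norm_iteratedFDeriv_fderiv]

end Crest.Agent.R285.AF
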