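import Mathlib

/-!
# R285.NumRule : quadrature and differentiation rules of arbitrary order, with `L¹` remainder

Everything is pathwise (curves with values in a normed space `H`), the derivatives of the curve are
given as a tower `F 0, F 1, ..., F n`.
-/

set_option autoImplicit false

open Set Finset MeasureTheory Polynomial
open scoped Nat

namespace Crest.Agent.R285.Num

noncomputable section

variable {H : Type*} [NormedAddCommGroup H] [NormedSpace ℝ H]

/-- `F 0, …, F n` is a derivative tower on `[a,b]`. -/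
structure Tower (n : ℕ) (F : ℕ → ℝ → H) (a b : ℝ) : Prop where
  deriv : ∀ k < n, ∀ x ∈ Icc a b, HasDerivWithinAt (F k) (F (k + 1) x) (Icc a b) x
  cont : ContinuousOn (F n) (Icc a b)

lemma Tower.mono {n : ℕ} {F : ℕ → ℝ → H} {a b a' b' : ℝ} (h : Tower n F a b)
    (hs : Icc a' b' ⊆ Icc a b) : Tower n F a' b' :=
  ⟨fun k hk x hx => (h.deriv k hk x (hs hx)).mono hs, h.cont.mono hs⟩

lemma Tower.shift {n : ℕ} {F : ℕ → ℝ → H} {a b : ℝ} (h : Tower (n + 1) F a b) :
    Tower n (fun k => F (k + 1)) a b :=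
  ⟨fun k hk x hx => h.deriv (k + 1) (by omega) x hx, h.cont⟩

lemma Tower.continuousOn {n : ℕ} {F : ℕ → ℝ → H} {a b : ℝ} (h : Tower n F a b) :
    ∀ k ≤ n, ContinuousOn (F k) (Icc a b) := by
  intro k hk
  rcases hk.lt_or_eq with h1 | h1
  · exact fun x hx => (h.deriv k h1 x hx).continuousWithinAt
  · subst h1; exact h.cont

lemma Tower.intervalIntegrable {n : ℕ} {F : ℕ → ℝ → H} {a b : ℝ} (h : Tower n F a b) {k : ℕ}
    (hk : k ≤ n) {u v : ℝ} (hu : u ∈ Icc a b) (hv : v ∈ Icc a b) :
    IntervalIntegrable (F k) volume u v := by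
  refine ContinuousOn.intervalIntegrable ((h.continuousOn k hk).mono ?_)
  intro x hx
  rw [Set.mem_uIcc] at hx
  simp only [Set.mem_Icc] at hu hv ⊢
  rcases hx with h1 | h1
  · exact ⟨hu.1.trans h1.1, h1.2.trans hv.2⟩
  · exact ⟨hv.1.trans h1.1, h1.2.trans hu.2⟩

lemma Tower.intervalIntegrable_norm {n : ℕ} {F : ℕ → ℝ → H} {a b : ℝ} (h : Tower n F a b) {k : ℕ}
    (hk : k ≤ n) {u v : ℝ} (hu : u ∈ Icc a b) (hv : v ∈ Icc a b) :
    IntervalIntegrable (fun t => ‖F k t‖) volume u v :=
  (h.intervalIntegrable hk hu hv).norm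

/-- Taylor with `L¹` remainder. -/
theorem Tower.taylor [CompleteSpace H] (n : ℕ) :
    ∀ (F : ℕ → ℝ → H) (a b : ℝ), a ≤ b → Tower (n + 1) F a b → ∀ x ∈ Icc a b,
      ‖F 0 x - ∑ k ∈ range (n + 1), ((x - a) ^ k / (k ! : ℝ)) • F k a‖ ≤
        (b - a) ^ n * ∫ t in a..b, ‖F (n + 1) t‖ := by
  induction n with
  | zero =>
    intro F a b hab h x hx
    have ha : a ∈ Icc a b := left_mem_Icc.mpr hab
    have hb : b ∈ Icc a b := right_mem_Icc.mpr hab
    have h1 : ∫ t in a..x, F 1 t = F 0 x - F 0 a := by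
      refine intervalIntegral.integral_eq_sub_of_hasDerivAt_of_le hx.1
        ((h.continuousOn 0 (by omega)).mono (Icc_subset_Icc_right hx.2)) ?_
        (h.intervalIntegrable (k := 1) le_rfl ha hx)
      intro y hy
      have hy' : y ∈ Icc a b := ⟨hy.1.le, hy.2.le.trans hx.2⟩
      exact (h.deriv 0 (by omega) y hy').hasDerivAt
        (Icc_mem_nhds hy.1 (hy.2.trans_le hx.2))
    simp only [zero_add, Finset.range_one, Finset.sum_singleton, pow_zero, Nat.factorial_zero,
      Nat.cast_one, div_one, one_smul, one_mul]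
    rw [← h1]
    refine (intervalIntegral.norm_integral_le_integral_norm hx.1).trans ?_
    refine intervalIntegral.integral_mono_interval le_rfl hx.1 hx.2 ?_
      (h.intervalIntegrable_norm (k := 1) le_rfl ha hb)
    exact Filter.Eventually.of_forall (fun t => norm_nonneg _)
  | succ n ih =>
    intro F a b hab h x hx
    have ha : a ∈ Icc a b := left_mem_Icc.mpr hab
    set A : ℝ := ∫ t in a..b, ‖F (n + 2) t‖ with hA
    have hA0 : 0 ≤ A := intervalIntegral.integral_nonneg hab (fun t _ => norm_nonneg _)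
    have hih := ih (fun k => F (k + 1)) a b hab h.shift
    let D : ℝ → H := fun u => F 0 u -
      ((∑ k ∈ range (n + 1), ((u - a) ^ (k + 1) / ((k + 1)! : ℝ)) • F (k + 1) a) + F 0 a)
    let D' : ℝ → H := fun u => F 1 u - ∑ k ∈ range (n + 1), ((u - a) ^ k / (k ! : ℝ)) • F (k + 1) a
    have hD : ∀ u ∈ Icc a b, HasDerivWithinAt D (D' u) (Icc a b) u := by
      intro u hu
      have h1 := h.deriv 0 (by omega) u hu
      have h2 : HasDerivWithinAt (fun u : ℝ => (∑ k ∈ range (n + 1),
          ((u - a) ^ (k + 1) / ((k + 1)! : ℝ)) • F (k + 1) a) + F 0 a)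
          (∑ k ∈ range (n + 1), ((u - a) ^ k / (k ! : ℝ)) • F (k + 1) a) (Icc a b) u := by
        refine HasDerivWithinAt.add_const _ ?_
        refine HasDerivWithinAt.fun_sum (fun k _ => ?_)
        refine HasDerivWithinAt.smul_const ?_ _
        have h3 : HasDerivAt (fun u : ℝ => (u - a) ^ (k + 1) / ((k + 1)! : ℝ))
            ((((k + 1 : ℕ) : ℝ) * (u - a) ^ k * 1) / ((k + 1)! : ℝ)) u := by
          exact (((hasDerivAt_id u).sub_const a).pow (k + 1)).div_const _
        have h4 : (((k + 1 : ℕ) : ℝ) * (u - a) ^ k * 1) / ((k + 1)! : ℝ) = (u - a) ^ k / (k ! : ℝ) := by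
          rw [Nat.factorial_succ]
          push_cast
          have : ((k : ℝ) + 1) ≠ 0 := by positivity
          have : ((k ! : ℕ) : ℝ) ≠ 0 := by positivity
          field_simp
        rw [← h4]
        exact h3.hasDerivWithinAt
      exact h1.sub h2
    have hDa : D a = 0 := by
      simp only [D]
      have : ∑ k ∈ range (n + 1), ((a - a) ^ (k + 1) / ((k + 1)! : ℝ)) • F (k + 1) a = 0 := by
        refine Finset.sum_eq_zero (fun k _ => ?_)
        simp
      rw [this]; simp
    have hb : ∀ u ∈ Ico a b, ‖D' u‖ ≤ (b - a) ^ n * A := by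
      intro u hu
      exact hih u (Ico_subset_Icc_self hu)
    have := norm_image_sub_le_of_norm_deriv_le_segment' hD hb x hx
    rw [hDa, sub_zero] at this
    have e : F 0 x - ∑ k ∈ range (n + 1 + 1), ((x - a) ^ k / (k ! : ℝ)) • F k a = D x := by
      simp only [D]
      rw [Finset.sum_range_succ']
      simp
    rw [e]
    calc ‖D x‖ ≤ (b - a) ^ n * A * (x - a) := this
      _ ≤ (b - a) ^ n * A * (b - a) := by
          have : 0 ≤ b - a := by linarith
          have h2 := hx.2
          gcongr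
      _ = (b - a) ^ (n + 1) * A := by ring

/-! ### Rules -/

/-- nodes of the reference block -/
def node (n : ℕ) (l : Fin n) : ℝ := ((l : ℕ) + 1 : ℝ) / (n + 1)

lemma node_injective (n : ℕ) : Function.Injective (node n) := by
  intro i j h
  unfold node at h
  have h1 : ((n : ℝ) + 1) ≠ 0 := by positivity
  rw [div_left_inj' h1] at h
  have : ((i : ℕ) : ℝ) = ((j : ℕ) : ℝ) := by linarith
  exact Fin.ext (by exact_mod_cast this)

lemma node_pos (n : ℕ) (l : Fin n) : 0 < node n l := by unfold node; positivity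

lemma node_lt_one (n : ℕ) (l : Fin n) : node n l < 1 := by
  unfold node
  rw [div_lt_one (by positivity)]
  have := l.2
  have : ((l : ℕ) : ℝ) + 1 ≤ n := by exact_mod_cast this
  linarith

/-- weights of the functional `Λ` -/
def wt (n : ℕ) (Λ : ℝ[X] →ₗ[ℝ] ℝ) (l : Fin n) : ℝ := Λ (Lagrange.basis Finset.univ (node n) l)

lemma wt_exact (n : ℕ) (Λ : ℝ[X] →ₗ[ℝ] ℝ) (p : ℝ[X]) (hp : p.degree < n) :
    ∑ l, wt n Λ l * p.eval (node n l) = Λ p := by
  have h := Lagrange.eq_interpolate (s := (Finset.univ : Finset (Fin n))) (v := node n) (f := p)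
    ((node_injective n).injOn) (by simpa using hp)
  conv_rhs => rw [h, Lagrange.interpolate_apply, map_sum]
  refine Finset.sum_congr rfl (fun l _ => ?_)
  rw [← smul_eq_C_mul, map_smul, smul_eq_mul, mul_comm]
  rfl

lemma wt_exact_pow (n : ℕ) (Λ : ℝ[X] →ₗ[ℝ] ℝ) (k : ℕ) (hk : k < n) :
    ∑ l, wt n Λ l * node n l ^ k = Λ (X ^ k) := by
  rw [← wt_exact n Λ (X ^ k) (by rw [degree_X_pow]; exact_mod_cast hk)]
  simp

lemma wt_sub (n : ℕ) (Λ Λ' : ℝ[X] →ₗ[ℝ] ℝ) (l : Fin n) :
    wt n (Λ - Λ') l = wt n Λ l - wt n Λ' l := rfl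

/-- The general rule: `∑ₗ wₗ F(a+λξₗ)` reproduces `Λ` on the Taylor polynomial. -/
theorem rule_error [CompleteSpace H] (n : ℕ) (Λ : ℝ[X] →ₗ[ℝ] ℝ) (F : ℕ → ℝ → H) (a lam : ℝ)
    (hl : 0 ≤ lam) (h : Tower (n + 1) F a (a + lam)) :
    ‖(∑ k ∈ range (n + 1), (Λ (X ^ k) * (lam ^ k / (k ! : ℝ))) • F k a) -
        ∑ l, wt (n + 1) Λ l • F 0 (a + lam * node (n + 1) l)‖ ≤
      (∑ l, |wt (n + 1) Λ l|) * (lam ^ n * ∫ t in a..(a + lam), ‖F (n + 1) t‖) := by
  set A : ℝ := lam ^ n * ∫ t in a..(a + lam), ‖F (n + 1) t‖ with hA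
  have hmem : ∀ l : Fin (n + 1), a + lam * node (n + 1) l ∈ Icc a (a + lam) := by
    intro l
    have h1 := (node_pos (n + 1) l).le
    have h2 := (node_lt_one (n + 1) l).le
    constructor
    · nlinarith
    · nlinarith
  have hT : ∀ l : Fin (n + 1), ‖F 0 (a + lam * node (n + 1) l) -
      ∑ k ∈ range (n + 1), ((lam * node (n + 1) l) ^ k / (k ! : ℝ)) • F k a‖ ≤ A := by
    intro l
    have := Tower.taylor n F a (a + lam) (by linarith) h _ (hmem l)
    simpa using this
  have e : (∑ k ∈ range (n + 1), (Λ (X ^ k) * (lam ^ k / (k ! : ℝ))) • F k a) =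
      ∑ l, wt (n + 1) Λ l •
        ∑ k ∈ range (n + 1), ((lam * node (n + 1) l) ^ k / (k ! : ℝ)) • F k a := by
    simp_rw [Finset.smul_sum, smul_smul]
    rw [Finset.sum_comm]
    refine Finset.sum_congr rfl (fun k hk => ?_)
    rw [← Finset.sum_smul]
    congr 1
    rw [← wt_exact_pow (n + 1) Λ k (by simpa using hk), Finset.sum_mul]
    refine Finset.sum_congr rfl (fun l _ => ?_)
    rw [mul_pow]; ring
  rw [e, ← Finset.sum_sub_distrib]
  simp_rw [← smul_sub]
  refine (norm_sum_le _ _).trans ?_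
  rw [Finset.sum_mul]
  refine Finset.sum_le_sum (fun l _ => ?_)
  rw [norm_smul, Real.norm_eq_abs, norm_sub_rev]
  exact mul_le_mul_of_nonneg_left (hT l) (abs_nonneg _)

/-! ### Integration rule on one block -/

/-- `p ↦ ∫₀^θ p` -/
def intFun (θ : ℝ) : ℝ[X] →ₗ[ℝ] ℝ where
  toFun p := ∫ x in (0 : ℝ)..θ, p.eval x
  map_add' p q := by
    simp only [eval_add]
    exact intervalIntegral.integral_add (p.continuous.intervalIntegrable _ _)
      (q.continuous.intervalIntegrable _ _)
  map_smul' c p := by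
    simp [eval_smul, intervalIntegral.integral_const_mul]

lemma intFun_apply (θ : ℝ) (p : ℝ[X]) : intFun θ p = ∫ x in (0 : ℝ)..θ, p.eval x := rfl

lemma intFun_pow (θ : ℝ) (k : ℕ) : intFun θ (X ^ k) = θ ^ (k + 1) / (k + 1) := by
  rw [intFun_apply]
  simp

/-- `p ↦ p'(0)` -/
def derFun : ℝ[X] →ₗ[ℝ] ℝ where
  toFun p := (derivative p).eval 0
  map_add' p q := by simp
  map_smul' c p := by simp

lemma derFun_pow (k : ℕ) : derFun (X ^ k) = if k = 1 then 1 else 0 := by
  show (derivative (X ^ k : ℝ[X])).eval 0 = _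
  rcases k with _ | _ | k
  · simp
  · simp
  · simp

/-- bound for the absolute weights of the integration rules -/
def intC (n : ℕ) : ℝ :=
  ∑ l : Fin n, ∫ x in (0 : ℝ)..1, |(Lagrange.basis Finset.univ (node n) l).eval x|

lemma intC_nonneg (n : ℕ) : 0 ≤ intC n :=
  Finset.sum_nonneg (fun _ _ => intervalIntegral.integral_nonneg zero_le_one
    (fun _ _ => abs_nonneg _))

lemma sum_abs_wt_intFun_le (n : ℕ) {θ : ℝ} (h0 : 0 ≤ θ) (h1 : θ ≤ 1) :
    ∑ l, |wt n (intFun θ) l| ≤ intC n := by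
  refine Finset.sum_le_sum (fun l _ => ?_)
  unfold wt
  rw [intFun_apply]
  refine (intervalIntegral.abs_integral_le_integral_abs h0).trans ?_
  refine intervalIntegral.integral_mono_interval le_rfl h0 h1 ?_ ?_
  · exact Filter.Eventually.of_forall (fun t => abs_nonneg _)
  · exact ((Polynomial.continuous _).abs).intervalIntegrable _ _

lemma abs_wt_intFun_le (n : ℕ) {θ : ℝ} (h0 : 0 ≤ θ) (h1 : θ ≤ 1) (l : Fin n) :
    |wt n (intFun θ) l| ≤ intC n :=
  (Finset.single_le_sum (f := fun l => |wt n (intFun θ) l|) (fun _ _ => abs_nonneg _)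
    (Finset.mem_univ l)).trans (sum_abs_wt_intFun_le n h0 h1)

theorem quad_block [CompleteSpace H] (n : ℕ) (F : ℕ → ℝ → H) (a lam : ℝ) (hl : 0 ≤ lam)
    (h : Tower (n + 1) F a (a + lam)) {θ : ℝ} (h0 : 0 ≤ θ) (h1 : θ ≤ 1) :
    ‖(∫ t in a..(a + lam * θ), F 0 t) -
        ∑ l, (lam * wt (n + 1) (intFun θ) l) • F 0 (a + lam * node (n + 1) l)‖ ≤
      (1 + intC (n + 1)) * (lam ^ (n + 1) * ∫ t in a..(a + lam), ‖F (n + 1) t‖) := by
  set A : ℝ := lam ^ n * ∫ t in a..(a + lam), ‖F (n + 1) t‖ with hA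
  have hA0 : 0 ≤ A := mul_nonneg (pow_nonneg hl _)
    (intervalIntegral.integral_nonneg (by linarith) (fun _ _ => norm_nonneg _))
  have hr := rule_error n (intFun θ) F a lam hl h
  have hab : a ≤ a + lam := by linarith
  have ha : a ∈ Icc a (a + lam) := left_mem_Icc.mpr hab
  have hlt : lam * θ ≤ lam := by nlinarith
  have hle : a ≤ a + lam * θ := by nlinarith
  have hx : a + lam * θ ∈ Icc a (a + lam) := ⟨hle, by linarith⟩
  have hpoly : ∫ t in a..(a + lam * θ), ∑ k ∈ range (n + 1), ((t - a) ^ k / (k ! : ℝ)) • F k a =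
      lam • ∑ k ∈ range (n + 1), (intFun θ (X ^ k) * (lam ^ k / (k ! : ℝ))) • F k a := by
    rw [intervalIntegral.integral_finsetSum]
    · rw [Finset.smul_sum]
      refine Finset.sum_congr rfl (fun k _ => ?_)
      rw [intervalIntegral.integral_smul_const, smul_smul]
      congr 1
      rw [intFun_pow, intervalIntegral.integral_div]
      have : ∫ t in a..(a + lam * θ), (t - a) ^ k = (lam * θ) ^ (k + 1) / (k + 1) := by
        rw [intervalIntegral.integral_comp_sub_right (fun t => t ^ k) a]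
        simp
      rw [this]
      have h1 : ((k : ℝ) + 1) ≠ 0 := by positivity
      have h2 : ((k ! : ℕ) : ℝ) ≠ 0 := by positivity
      field_simp
      rw [mul_pow, pow_succ]; ring
    · intro k _
      refine Continuous.intervalIntegrable ?_ _ _
      fun_prop
  have hint1 : IntervalIntegrable (F 0) volume a (a + lam * θ) :=
    h.intervalIntegrable (Nat.zero_le _) ha hx
  have hint2 : IntervalIntegrable (fun t => ∑ k ∈ range (n + 1), ((t - a) ^ k / (k ! : ℝ)) • F k a)
      volume a (a + lam * θ) := by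
    refine Continuous.intervalIntegrable ?_ _ _
    fun_prop
  have hrem : ‖(∫ t in a..(a + lam * θ), F 0 t) -
      ∫ t in a..(a + lam * θ), ∑ k ∈ range (n + 1), ((t - a) ^ k / (k ! : ℝ)) • F k a‖ ≤
      A * lam := by
    rw [← intervalIntegral.integral_sub hint1 hint2]
    have hb : ∀ t ∈ Set.uIoc a (a + lam * θ),
        ‖F 0 t - ∑ k ∈ range (n + 1), ((t - a) ^ k / (k ! : ℝ)) • F k a‖ ≤ A := by
      intro t ht
      rw [Set.uIoc_of_le hle] at ht
      have := Tower.taylor n F a (a + lam) hab h t ⟨ht.1.le, ht.2.trans hx.2⟩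
      simpa [hA] using this
    refine (intervalIntegral.norm_integral_le_of_norm_le_const hb).trans ?_
    have : |a + lam * θ - a| ≤ lam := by
      rw [show a + lam * θ - a = lam * θ by ring, abs_of_nonneg (by positivity)]
      exact hlt
    exact mul_le_mul_of_nonneg_left this hA0
  have e2 : ∑ l, (lam * wt (n + 1) (intFun θ) l) • F 0 (a + lam * node (n + 1) l) =
      lam • ∑ l, wt (n + 1) (intFun θ) l • F 0 (a + lam * node (n + 1) l) := by
    rw [Finset.smul_sum]
    exact Finset.sum_congr rfl (fun l _ => by rw [smul_smul])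
  rw [e2]
  rw [hpoly] at hrem
  have hsplit : (∫ t in a..(a + lam * θ), F 0 t) -
      lam • ∑ l, wt (n + 1) (intFun θ) l • F 0 (a + lam * node (n + 1) l) =
      ((∫ t in a..(a + lam * θ), F 0 t) -
        lam • ∑ k ∈ range (n + 1), (intFun θ (X ^ k) * (lam ^ k / (k ! : ℝ))) • F k a) +
      lam • ((∑ k ∈ range (n + 1), (intFun θ (X ^ k) * (lam ^ k / (k ! : ℝ))) • F k a) -
        ∑ l, wt (n + 1) (intFun θ) l • F 0 (a + lam * node (n + 1) l)) := by
    rw [smul_sub]; abel
  rw [hsplit]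
  refine (norm_add_le _ _).trans ?_
  have h3 : ‖lam • ((∑ k ∈ range (n + 1), (intFun θ (X ^ k) * (lam ^ k / (k ! : ℝ))) • F k a) -
        ∑ l, wt (n + 1) (intFun θ) l • F 0 (a + lam * node (n + 1) l))‖ ≤
      lam * (intC (n + 1) * A) := by
    rw [norm_smul, Real.norm_eq_abs, abs_of_nonneg hl]
    refine mul_le_mul_of_nonneg_left (hr.trans ?_) hl
    exact mul_le_mul_of_nonneg_right (sum_abs_wt_intFun_le _ h0 h1) hA0
  calc _ ≤ A * lam + lam * (intC (n + 1) * A) := add_le_add hrem h3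
    _ = (1 + intC (n + 1)) * (lam ^ (n + 1) * ∫ t in a..(a + lam), ‖F (n + 1) t‖) := by
        rw [hA]; ring

/-! ### Differentiation rule at the left endpoint -/

/-- weights of the one-sided differentiation rule (reference interval `[0,1]`) -/
def dwt (n : ℕ) (l : Fin (n + 2)) : ℝ := wt (n + 2) derFun l

/-- `∑|dwt|` -/
def derC (n : ℕ) : ℝ := ∑ l, |dwt n l|

lemma derC_nonneg (n : ℕ) : 0 ≤ derC n := Finset.sum_nonneg (fun _ _ => abs_nonneg _)

lemma sum_dwt (n : ℕ) : ∑ l, dwt n l = 0 := by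
  have := wt_exact_pow (n + 2) derFun 0 (by omega)
  simp only [pow_zero, mul_one] at this
  rw [show (∑ l, dwt n l) = ∑ l, wt (n + 2) derFun l from rfl, this]
  have := derFun_pow 0
  simpa using this

theorem deriv_block [CompleteSpace H] (n : ℕ) (F : ℕ → ℝ → H) (a lam : ℝ) (hl : 0 < lam)
    (h : Tower (n + 2) F a (a + lam)) :
    ‖F 1 a - ∑ l, (dwt n l / lam) • F 0 (a + lam * node (n + 2) l)‖ ≤
      derC n * (lam ^ n * ∫ t in a..(a + lam), ‖F (n + 2) t‖) := by
  have hr := rule_error (n + 1) derFun F a lam hl.le h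
  have e : (∑ k ∈ range (n + 1 + 1), (derFun (X ^ k) * (lam ^ k / (k ! : ℝ))) • F k a) =
      lam • F 1 a := by
    rw [Finset.sum_eq_single 1]
    · rw [derFun_pow]; simp
    · intro k _ hk
      rw [derFun_pow, if_neg hk]; simp
    · intro hk; simp at hk
  rw [e] at hr
  have e2 : F 1 a - ∑ l, (dwt n l / lam) • F 0 (a + lam * node (n + 2) l) =
      lam⁻¹ • (lam • F 1 a - ∑ l, wt (n + 2) derFun l • F 0 (a + lam * node (n + 2) l)) := by
    rw [smul_sub, smul_smul, inv_mul_cancel₀ hl.ne', one_smul, Finset.smul_sum]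
    congr 1
    refine Finset.sum_congr rfl (fun l _ => ?_)
    rw [smul_smul, div_eq_inv_mul]; rfl
  rw [e2, norm_smul, norm_inv, Real.norm_eq_abs, abs_of_pos hl]
  calc lam⁻¹ * _ ≤ lam⁻¹ * ((∑ l, |wt (n + 2) derFun l|) *
        (lam ^ (n + 1) * ∫ t in a..(a + lam), ‖F (n + 2) t‖)) :=
        mul_le_mul_of_nonneg_left hr (by positivity)
    _ = derC n * (lam ^ n * ∫ t in a..(a + lam), ‖F (n + 2) t‖) := by
        rw [pow_succ]
        have : lam⁻¹ * lam = 1 := inv_mul_cancel₀ hl.ne'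
        calc lam⁻¹ * ((∑ l, |wt (n + 2) derFun l|) *
              (lam ^ n * lam * ∫ t in a..(a + lam), ‖F (n + 2) t‖)) =
              (lam⁻¹ * lam) * ((∑ l, |wt (n + 2) derFun l|) *
                (lam ^ n * ∫ t in a..(a + lam), ‖F (n + 2) t‖)) := by ring
          _ = _ := by rw [this, one_mul]; rfl

/-! ### Composite rule -/

/-- left endpoint of block `m` -/
def bl (M : ℕ) (α β : ℝ) (m : ℕ) : ℝ := α + (β - α) / M * m

/-- nodes of the composite rule with `M` blocks on `[α,β]` -/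
def qnode (n M : ℕ) (α β : ℝ) (i : Fin M × Fin (n + 1)) : ℝ :=
  bl M α β i.1 + (β - α) / M * node (n + 1) i.2

/-- weights for `∫_α^{qnode i}` -/
def qW (n M : ℕ) (α β : ℝ) (i j : Fin M × Fin (n + 1)) : ℝ :=
  (β - α) / M * (if j.1 < i.1 then wt (n + 1) (intFun 1) j.2 else
    if j.1 = i.1 then wt (n + 1) (intFun (node (n + 1) i.2)) j.2 else 0)

/-- weights for `∫_α^β` -/
def qw (n M : ℕ) (α β : ℝ) (j : Fin M × Fin (n + 1)) : ℝ :=
  (β - α) / M * wt (n + 1) (intFun 1) j.2

lemma bl_succ (M : ℕ) (α β : ℝ) (m : ℕ) : bl M α β (m + 1) = bl M α β m + (β - α) / M := by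
  unfold bl; push_cast; ring

lemma bl_zero (M : ℕ) (α β : ℝ) : bl M α β 0 = α := by unfold bl; simp

lemma bl_last {M : ℕ} (hM : 0 < M) (α β : ℝ) : bl M α β M = β := by
  unfold bl
  have : (M : ℝ) ≠ 0 := by positivity
  field_simp; ring

lemma bl_mono {M : ℕ} {α β : ℝ} (hab : α ≤ β) : Monotone (bl M α β) := by
  intro i j h
  unfold bl
  have h0 : 0 ≤ (β - α) / M := div_nonneg (by linarith) (by positivity)
  have : (i : ℝ) ≤ j := by exact_mod_cast h
  nlinarith

lemma bl_mem {M : ℕ} (hM : 0 < M) {α β : ℝ} (hab : α ≤ β) {m : ℕ} (hm : m ≤ M) :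
    bl M α β m ∈ Icc α β := by
  constructor
  · have := bl_mono (M := M) hab (Nat.zero_le m); rwa [bl_zero] at this
  · have := bl_mono (M := M) hab hm; rwa [bl_last hM] at this

lemma abs_qW_le (n M : ℕ) {α β : ℝ} (hab : α ≤ β) (i j : Fin M × Fin (n + 1)) :
    |qW n M α β i j| ≤ (β - α) / M * intC (n + 1) := by
  unfold qW
  have h0 : 0 ≤ (β - α) / M := div_nonneg (by linarith) (by positivity)
  rw [abs_mul, abs_of_nonneg h0]
  refine mul_le_mul_of_nonneg_left ?_ h0
  split_ifs
  · exact abs_wt_intFun_le _ zero_le_one le_rfl _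
  · exact abs_wt_intFun_le _ (node_pos _ _).le (node_lt_one _ _).le _
  · rw [abs_zero]; exact intC_nonneg _

lemma abs_qw_le (n M : ℕ) {α β : ℝ} (hab : α ≤ β) (j : Fin M × Fin (n + 1)) :
    |qw n M α β j| ≤ (β - α) / M * intC (n + 1) := by
  unfold qw
  have h0 : 0 ≤ (β - α) / M := div_nonneg (by linarith) (by positivity)
  rw [abs_mul, abs_of_nonneg h0]
  exact mul_le_mul_of_nonneg_left (abs_wt_intFun_le _ zero_le_one le_rfl _) h0

lemma qnode_mem {n M : ℕ} {α β : ℝ} (hab : α < β) (i : Fin M × Fin (n + 1)) :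
    qnode n M α β i ∈ Ioo α β := by
  have hM : 0 < M := Nat.pos_of_ne_zero (by rintro rfl; exact i.1.elim0)
  have hM' : (0 : ℝ) < M := by exact_mod_cast hM
  have h0 : 0 < (β - α) / M := div_pos (by linarith) hM'
  have h1 := node_pos (n + 1) i.2
  have h2 := node_lt_one (n + 1) i.2
  have h3 := (bl_mem hM hab.le (m := i.1) i.1.2.le).1
  have h4 := (bl_mem hM hab.le (m := i.1 + 1) i.1.2).2
  rw [bl_succ] at h4
  unfold qnode
  constructor
  · nlinarith
  · nlinarith

/-- partial sums over full blocks -/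
lemma quad_full_blocks [CompleteSpace H] (n : ℕ) (F : ℕ → ℝ → H) {M : ℕ} (hM : 0 < M) {α β : ℝ}
    (hab : α ≤ β) (h : Tower (n + 1) F α β) (m : ℕ) (hm : m ≤ M) :
    ‖(∫ t in α..(bl M α β m), F 0 t) - ∑ k ∈ range m, ∑ l : Fin (n + 1),
        ((β - α) / M * wt (n + 1) (intFun 1) l) •
          F 0 (bl M α β k + (β - α) / M * node (n + 1) l)‖ ≤
      (1 + intC (n + 1)) * (((β - α) / M) ^ (n + 1) * ∫ t in α..(bl M α β m), ‖F (n + 1) t‖) := by
  have h0 : 0 ≤ (β - α) / M := div_nonneg (by linarith) (by positivity)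
  induction m with
  | zero => simp [bl_zero]
  | succ m ih =>
    have ih := ih (by omega)
    have hm1 := bl_mem hM hab (m := m) (by omega)
    have hm2 := bl_mem hM hab hm
    have hα : α ∈ Icc α β := left_mem_Icc.mpr hab
    have hT : Tower (n + 1) F (bl M α β m) (bl M α β m + (β - α) / M) := by
      rw [← bl_succ]
      exact h.mono (Icc_subset_Icc hm1.1 hm2.2)
    have hb := quad_block n F (bl M α β m) ((β - α) / M) h0 hT (θ := 1) zero_le_one le_rfl
    rw [mul_one, ← bl_succ] at hb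
    rw [Finset.sum_range_succ,
      ← intervalIntegral.integral_add_adjacent_intervals
        (h.intervalIntegrable (Nat.zero_le _) hα hm1) (h.intervalIntegrable (Nat.zero_le _) hm1 hm2),
      ← intervalIntegral.integral_add_adjacent_intervals
        (h.intervalIntegrable_norm le_rfl hα hm1) (h.intervalIntegrable_norm le_rfl hm1 hm2)]
    have e : ∀ x y z w : H, (x + y) - (z + w) = (x - z) + (y - w) := by intros; abel
    rw [e]
    refine (norm_add_le _ _).trans ?_
    calc _ ≤ _ := add_le_add ih hb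
      _ = _ := by ring

theorem quad_total [CompleteSpace H] (n : ℕ) (F : ℕ → ℝ → H) {M : ℕ} (hM : 0 < M) {α β : ℝ}
    (hab : α ≤ β) (h : Tower (n + 1) F α β) :
    ‖(∫ t in α..β, F 0 t) - ∑ j, qw n M α β j • F 0 (qnode n M α β j)‖ ≤
      (1 + intC (n + 1)) * (((β - α) / M) ^ (n + 1) * ∫ t in α..β, ‖F (n + 1) t‖) := by
  have := quad_full_blocks n F hM hab h M le_rfl
  rw [bl_last hM] at this
  convert this using 3
  rw [Fintype.sum_prod_type, ← Fin.sum_univ_eq_sum_range (fun k => ∑ l : Fin (n + 1),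
        ((β - α) / M * wt (n + 1) (intFun 1) l) •
          F 0 (bl M α β k + (β - α) / M * node (n + 1) l)) M]
  rfl

theorem quad_partial [CompleteSpace H] (n : ℕ) (F : ℕ → ℝ → H) {M : ℕ} {α β : ℝ}
    (hab : α ≤ β) (h : Tower (n + 1) F α β) (i : Fin M × Fin (n + 1)) :
    ‖(∫ t in α..(qnode n M α β i), F 0 t) - ∑ j, qW n M α β i j • F 0 (qnode n M α β j)‖ ≤
      (1 + intC (n + 1)) * (((β - α) / M) ^ (n + 1) * ∫ t in α..β, ‖F (n + 1) t‖) := by
  have hM : 0 < M := Nat.pos_of_ne_zero (by rintro rfl; exact i.1.elim0)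
  have h0 : 0 ≤ (β - α) / M := div_nonneg (by linarith) (by positivity)
  obtain ⟨m, l'⟩ := i
  have hm1 := bl_mem hM hab (m := m) m.2.le
  have hm2 := bl_mem hM hab (m := m + 1) m.2
  have hα : α ∈ Icc α β := left_mem_Icc.mpr hab
  have hβ : β ∈ Icc α β := right_mem_Icc.mpr hab
  have hT : Tower (n + 1) F (bl M α β m) (bl M α β m + (β - α) / M) := by
    rw [← bl_succ]
    exact h.mono (Icc_subset_Icc hm1.1 hm2.2)
  have hn1 := node_pos (n + 1) l'
  have hn2 := node_lt_one (n + 1) l'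
  have hb := quad_block n F (bl M α β m) ((β - α) / M) h0 hT (θ := node (n + 1) l')
    hn1.le hn2.le
  have hq : qnode n M α β (m, l') = bl M α β m + (β - α) / M * node (n + 1) l' := rfl
  have hqm : qnode n M α β (m, l') ∈ Icc α β := by
    rw [hq]
    rw [bl_succ] at hm2
    constructor
    · nlinarith [hm1.1]
    · nlinarith [hm2.2]
  have hf := quad_full_blocks n F hM hab h m m.2.le
  rw [← hq, ← bl_succ] at hb
  have hsum : ∑ j, qW n M α β (m, l') j • F 0 (qnode n M α β j) =
      (∑ k ∈ range m, ∑ l : Fin (n + 1), ((β - α) / M * wt (n + 1) (intFun 1) l) •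
          F 0 (bl M α β k + (β - α) / M * node (n + 1) l)) +
      ∑ l, ((β - α) / M * wt (n + 1) (intFun (node (n + 1) l')) l) •
          F 0 (bl M α β m + (β - α) / M * node (n + 1) l) := by
    rw [Fintype.sum_prod_type]
    let g : ℕ → H := fun k => ∑ l : Fin (n + 1), (((β - α) / M) *
      (if k < (m : ℕ) then wt (n + 1) (intFun 1) l else
        if k = (m : ℕ) then wt (n + 1) (intFun (node (n + 1) l')) l else 0)) •
          F 0 (bl M α β k + (β - α) / M * node (n + 1) l)
    have hg : (∑ x : Fin M, ∑ y : Fin (n + 1), qW n M α β (m, l') (x, y) •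
        F 0 (qnode n M α β (x, y))) = ∑ x : Fin M, g x := by
      refine Finset.sum_congr rfl (fun x _ => ?_)
      refine Finset.sum_congr rfl (fun y _ => ?_)
      simp only [qW, qnode, Fin.lt_def, Fin.ext_iff]
    rw [hg, Fin.sum_univ_eq_sum_range g M]
    have hsp : Finset.range M = Finset.range (m + 1) ∪ (Finset.range M \ Finset.range (m + 1)) := by
      rw [Finset.union_sdiff_of_subset]
      exact Finset.range_mono m.2
    rw [hsp, Finset.sum_union Finset.disjoint_sdiff, Finset.sum_range_succ]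
    have hz : ∑ k ∈ Finset.range M \ Finset.range ((m : ℕ) + 1), g k = 0 := by
      refine Finset.sum_eq_zero (fun k hk => ?_)
      simp only [Finset.mem_sdiff, Finset.mem_range, not_lt] at hk
      refine Finset.sum_eq_zero (fun l _ => ?_)
      rw [if_neg (by omega), if_neg (by omega)]
      simp
    rw [hz, add_zero]
    congr 1
    · refine Finset.sum_congr rfl (fun k hk => ?_)
      simp only [Finset.mem_range] at hk
      refine Finset.sum_congr rfl (fun l _ => ?_)
      rw [if_pos hk]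
    · refine Finset.sum_congr rfl (fun l _ => ?_)
      rw [if_neg (lt_irrefl _), if_pos rfl]
  rw [hsum, ← intervalIntegral.integral_add_adjacent_intervals
        (h.intervalIntegrable (Nat.zero_le _) hα hm1) (h.intervalIntegrable (Nat.zero_le _) hm1 hqm)]
  have e : ∀ x y z w : H, (x + y) - (z + w) = (x - z) + (y - w) := by intros; abel
  rw [e]
  refine (norm_add_le _ _).trans ((add_le_add hf hb).trans ?_)
  rw [← mul_add, ← mul_add, intervalIntegral.integral_add_adjacent_intervals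
        (h.intervalIntegrable_norm le_rfl hα hm1) (h.intervalIntegrable_norm le_rfl hm1 hm2)]
  have hC : 0 ≤ 1 + intC (n + 1) := by have := intC_nonneg (n + 1); linarith
  refine mul_le_mul_of_nonneg_left (mul_le_mul_of_nonneg_left ?_ (pow_nonneg h0 _)) hC
  refine intervalIntegral.integral_mono_interval le_rfl hm2.1 hm2.2 ?_
    (h.intervalIntegrable_norm le_rfl hα hβ)
  exact Filter.Eventually.of_forall (fun t => norm_nonneg _)

end

end Crest.Agent.R285.Num
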