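import Crest.Agent.R285.Evol
import Crest.Agent.R285.NumRule

/-!
Row 285: curves `t ↦ f t (evol v J s t x)` and the total derivative `Dv v f = ∂ₜ f + v · ∇ f`
(module CURVES, C1).  Everything is pointwise in the starting point `x`; the `L²` bounds are
obtained from Tonelli and the transport of the law.
-/

set_option autoImplicit false

open Set Filter Topology MeasureTheory
open scoped ENNReal NNReal

noncomputable section

namespace Crest.Agent.R285

variable {E : Type} [NormedAddCommGroup E] [NormedSpace ℝ E]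
  {F : Type*} [NormedAddCommGroup F] [NormedSpace ℝ F]

/-- Joint smoothness on `J × E`. -/
abbrev SmOn (f : ℝ → E → F) (J : Set ℝ) : Prop :=
  ContDiffOn ℝ ((⊤ : ℕ∞) : WithTop ℕ∞) (fun p : ℝ × E => f p.1 p.2) (J ×ˢ univ)

/-- The total derivative along a time dependent field. -/
def Dv (v : ℝ → E → E) (f : ℝ → E → F) : ℝ → E → F :=
  fun t x => fderiv ℝ (fun p : ℝ × E => f p.1 p.2) (t, x) (1, v t x)

variable {v : ℝ → E → E} {J : Set ℝ} {f g : ℝ → E → F}

theorem SmOn.Dv (hJ : IsOpen J) (hf : SmOn f J) (hv : SmOn v J) : SmOn (Dv v f) J := by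
  have hU : IsOpen (J ×ˢ (univ : Set E)) := hJ.prod isOpen_univ
  have h1 : ContDiffOn ℝ ((⊤ : ℕ∞) : WithTop ℕ∞) (fderiv ℝ (fun p : ℝ × E => f p.1 p.2))
      (J ×ˢ univ) := hf.fderiv_of_isOpen hU (by simp)
  exact h1.clm_apply (contDiffOn_const.prodMk hv)

theorem SmOn.iterate_Dv (hJ : IsOpen J) (hf : SmOn f J) (hv : SmOn v J) (n : ℕ) :
    SmOn ((Crest.Agent.R285.Dv v)^[n] f) J := by
  induction n with
  | zero => exact hf
  | succ n ih =>
    rw [Function.iterate_succ_apply']
    exact ih.Dv hJ hv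

theorem SmOn.differentiableAt (hJ : IsOpen J) (hf : SmOn f J) {t : ℝ} (ht : t ∈ J) (x : E) :
    DifferentiableAt ℝ (fun p : ℝ × E => f p.1 p.2) (t, x) :=
  (hf.differentiableOn (by simp)).differentiableAt
    ((hJ.prod isOpen_univ).mem_nhds ⟨ht, mem_univ x⟩)

/-- chain rule along a curve solving the equation at time `t` -/
theorem hasDerivAt_comp_curve {c : ℝ → E} {t : ℝ} (hc : HasDerivAt c (v t (c t)) t)
    (hf : DifferentiableAt ℝ (fun p : ℝ × E => f p.1 p.2) (t, c t)) :
    HasDerivAt (fun r => f r (c r)) (Dv v f t (c t)) t := by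
  have h1 : HasDerivAt (fun r => (r, c r)) (1, v t (c t)) t := (hasDerivAt_id t).prodMk hc
  exact hf.hasFDerivAt.comp_hasDerivAt t h1

/-- Along a solution, the iterated derivative of `r ↦ f r (c r)` is `((Dv v)^[n] f) r (c r)`. -/
theorem iteratedDeriv_comp_curve {c : ℝ → E} (hJ : IsOpen J) (hf : SmOn f J) (hv : SmOn v J)
    (hc : ∀ t ∈ J, HasDerivAt c (v t (c t)) t) (n : ℕ) :
    ∀ t ∈ J, iteratedDeriv n (fun r => f r (c r)) t = ((Dv v)^[n] f) t (c t) := by
  induction n with
  | zero => intro t _; simp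
  | succ n ih =>
    intro t ht
    rw [iteratedDeriv_succ, Function.iterate_succ_apply']
    have h1 : iteratedDeriv n (fun r => f r (c r)) =ᶠ[𝓝 t] fun r => ((Dv v)^[n] f) r (c r) := by
      filter_upwards [hJ.mem_nhds ht] with r hr using ih r hr
    rw [h1.deriv_eq]
    exact (hasDerivAt_comp_curve (hc t ht)
      ((hf.iterate_Dv hJ hv n).differentiableAt hJ ht (c t))).deriv

theorem contDiffOn_comp_curve {c : ℝ → E} (hJ : IsOpen J) (hf : SmOn f J) (hv : SmOn v J)
    (hc : ∀ t ∈ J, HasDerivAt c (v t (c t)) t) (n : ℕ) :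
    ContDiffOn ℝ n (fun r => f r (c r)) J := by
  have hd : ∀ (m : ℕ), ∀ t ∈ J, HasDerivAt (fun r => ((Dv v)^[m] f) r (c r))
      (((Dv v)^[m + 1] f) t (c t)) t := by
    intro m t ht
    rw [Function.iterate_succ_apply']
    exact hasDerivAt_comp_curve (hc t ht)
      ((hf.iterate_Dv hJ hv m).differentiableAt hJ ht (c t))
  have key : ∀ n : ℕ, ∀ m : ℕ, ContDiffOn ℝ n (fun r => ((Dv v)^[m] f) r (c r)) J := by
    intro n
    induction n with
    | zero =>
      intro m
      rw [Nat.cast_zero, contDiffOn_zero]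
      exact fun t ht => (hd m t ht).continuousAt.continuousWithinAt
    | succ n ih =>
      intro m
      have e : ((n + 1 : ℕ) : WithTop ℕ∞) = (n : WithTop ℕ∞) + 1 := by push_cast; rfl
      rw [e, contDiffOn_succ_iff_deriv_of_isOpen hJ]
      refine ⟨fun t ht => (hd m t ht).differentiableAt.differentiableWithinAt, by simp, ?_⟩
      exact (ih (m + 1)).congr fun t ht => (hd m t ht).deriv
  exact key n 0

/-- The iterated total derivatives along a solution form a derivative tower. -/
theorem tower_comp_curve {c : ℝ → E} (hJ : IsOpen J) (hf : SmOn f J) (hv : SmOn v J)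
    (hc : ∀ t ∈ J, HasDerivAt c (v t (c t)) t) {a b : ℝ} (hab : Icc a b ⊆ J) (n : ℕ) :
    Num.Tower n (fun k t => ((Dv v)^[k] f) t (c t)) a b := by
  have hd : ∀ (m : ℕ), ∀ t ∈ J, HasDerivAt (fun r => ((Dv v)^[m] f) r (c r))
      (((Dv v)^[m + 1] f) t (c t)) t := by
    intro m t ht
    rw [Function.iterate_succ_apply']
    exact hasDerivAt_comp_curve (hc t ht)
      ((hf.iterate_Dv hJ hv m).differentiableAt hJ ht (c t))
  exact ⟨fun k _ x hx => (hd k x (hab hx)).hasDerivWithinAt,
    fun x hx => (hd n x (hab hx)).continuousAt.continuousWithinAt⟩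

/-! ### transport of the law: `L²` norms along the flow -/

section L2

variable [FiniteDimensional ℝ E] [MeasurableSpace E] [BorelSpace E]

/-- Tonelli along the flow: if `evol v J s t` maps `μ s` to `μ t` for `t ∈ [a, b] ⊆ J`, then
`∫ ∫_a^b ‖f t (X_t)‖² dt dμ_s = ∫_a^b ∫ ‖f t‖² dμ_t dt`. -/
theorem lintegral_evol_sq {μ : ℝ → Measure E} (hv : GoodOn v J) (hf : SmOn f J) {s a b : ℝ}
    [SFinite (μ s)] (hs : s ∈ J) (ha : a ∈ J) (hb : b ∈ J)
    (hμ : ∀ t ∈ Icc a b, (μ s).map (evol v J s t) = μ t) :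
    ∫⁻ x, (∫⁻ t in Icc a b, ‖f t (evol v J s t x)‖ₑ ^ 2) ∂(μ s) =
      ∫⁻ t in Icc a b, (∫⁻ x, ‖f t x‖ₑ ^ 2 ∂(μ t)) := by
  have hsub : Icc a b ⊆ J := hv.ordConn.out ha hb
  have hcont : ContinuousOn (fun q : E × ℝ => f q.2 (evol v J s q.2 q.1)) (univ ×ˢ Icc a b) := by
    have h1 : ContinuousOn (fun p : ℝ × E => f p.1 p.2) (J ×ˢ univ) := hf.continuousOn
    have h2 : ContinuousOn (fun q : E × ℝ => evol v J s q.2 q.1) (univ ×ˢ Icc a b) :=
      hv.contDiffOn_evol.continuousOn.comp (f := fun q : E × ℝ => (s, q.2, q.1)) (by fun_prop)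
        (fun q hq => ⟨hs, hsub hq.2, mem_univ _⟩)
    exact h1.comp (f := fun q : E × ℝ => (q.2, evol v J s q.2 q.1))
      (continuousOn_snd.prodMk h2) (fun q hq => ⟨hsub hq.2, mem_univ _⟩)
  have hmeas : AEMeasurable (fun q : E × ℝ => ‖f q.2 (evol v J s q.2 q.1)‖ₑ ^ 2)
      ((μ s).prod (volume.restrict (Icc a b))) := by
    have h3 : ContinuousOn (fun q : E × ℝ => ‖f q.2 (evol v J s q.2 q.1)‖ₑ ^ 2)
        (univ ×ˢ Icc a b) := (ENNReal.continuous_pow 2).comp_continuousOn (by
          exact hcont.enorm)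
    have h4 : (μ s).prod (volume.restrict (Icc a b)) =
        ((μ s).prod (volume : Measure ℝ)).restrict (univ ×ˢ Icc a b) := by
      rw [← Measure.prod_restrict, Measure.restrict_univ]
    rw [h4]
    exact h3.aemeasurable (MeasurableSet.univ.prod measurableSet_Icc)
  rw [lintegral_lintegral_swap hmeas]
  refine setLIntegral_congr_fun measurableSet_Icc fun t ht => ?_
  have hc : Continuous (fun x => f t x) := by
    rw [← continuousOn_univ]
    exact hf.continuousOn.comp (f := fun x : E => (t, x)) (by fun_prop)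
      (fun x _ => ⟨hsub ht, mem_univ _⟩)
  have hm : Measurable fun x => ‖f t x‖ₑ ^ 2 := (hc.enorm.measurable).pow_const 2
  rw [← hμ t ht, lintegral_map hm (hv.continuous_evol hs (hsub ht)).measurable]

/-- The derivative tower of `t ↦ f t (evol v J s t x)`, cut off outside `[a, b]`, so that it is
jointly measurable. -/
def curveF (v : ℝ → E → E) (f : ℝ → E → F) (J : Set ℝ) (s a b : ℝ) (k : ℕ) (t : ℝ) (x : E) : F :=
  (Icc a b).indicator (fun t => ((Dv v)^[k] f) t (evol v J s t x)) t

omit [FiniteDimensional ℝ E] [MeasurableSpace E] [BorelSpace E] in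
theorem curveF_of_mem {s a b t : ℝ} (ht : t ∈ Icc a b) (k : ℕ) (x : E) :
    curveF v f J s a b k t x = ((Dv v)^[k] f) t (evol v J s t x) :=
  indicator_of_mem ht _

omit [MeasurableSpace E] [BorelSpace E] in
theorem tower_curveF (hv : GoodOn v J) (hf : SmOn f J) (hvs : SmOn v J) {s a b : ℝ} (hs : s ∈ J)
    (hab : Icc a b ⊆ J) (n : ℕ) (x : E) :
    Num.Tower n (fun k t => curveF v f J s a b k t x) a b := by
  have h := tower_comp_curve (c := fun t => evol v J s t x) hv.isOpen hf hvs
    (fun t ht => hv.hasDerivAt_evol hs ht x) hab n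
  refine ⟨fun k hk t ht => ?_, ?_⟩
  · rw [curveF_of_mem ht]
    refine (h.deriv k hk t ht).congr (fun r hr => ?_) ?_
    · exact curveF_of_mem hr k x
    · exact curveF_of_mem ht k x
  · exact h.cont.congr fun r hr => curveF_of_mem hr n x

theorem measurable_curveF [MeasurableSpace F] [BorelSpace F] [SecondCountableTopology F]
    (hv : GoodOn v J) (hf : SmOn f J) (hvs : SmOn v J) {s a b : ℝ} (hs : s ∈ J)
    (hab : Icc a b ⊆ J) (k : ℕ) :
    Measurable fun p : ℝ × E => curveF v f J s a b k p.1 p.2 := by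
  have hcont : ContinuousOn (fun p : ℝ × E => ((Dv v)^[k] f) p.1 (evol v J s p.1 p.2))
      (Icc a b ×ˢ univ) := by
    have h1 : ContinuousOn (fun p : ℝ × E => ((Dv v)^[k] f) p.1 p.2) (J ×ˢ univ) :=
      (hf.iterate_Dv hv.isOpen hvs k).continuousOn
    have h2 : ContinuousOn (fun p : ℝ × E => evol v J s p.1 p.2) (Icc a b ×ˢ univ) :=
      hv.contDiffOn_evol.continuousOn.comp (f := fun p : ℝ × E => (s, p.1, p.2)) (by fun_prop)
        (fun q hq => ⟨hs, hab hq.1, mem_univ _⟩)
    exact h1.comp (f := fun p : ℝ × E => (p.1, evol v J s p.1 p.2))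
      (continuousOn_fst.prodMk h2) (fun q hq => ⟨hab hq.1, mem_univ _⟩)
  have e : (fun p : ℝ × E => curveF v f J s a b k p.1 p.2) =
      (Icc a b ×ˢ (univ : Set E)).indicator
        (fun p : ℝ × E => ((Dv v)^[k] f) p.1 (evol v J s p.1 p.2)) := by
    funext p
    unfold curveF
    by_cases hp : p.1 ∈ Icc a b
    · rw [indicator_of_mem hp, indicator_of_mem (show p ∈ Icc a b ×ˢ (univ : Set E) from
        ⟨hp, mem_univ _⟩)]
    · rw [indicator_of_notMem hp, indicator_of_notMem (fun h => hp h.1)]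
  rw [e, ← piecewise_eq_indicator]
  exact hcont.measurable_piecewise continuousOn_const
    (measurableSet_Icc.prod MeasurableSet.univ)

/-- `L²` norm of the tower at time `t` in terms of the law at time `t`. -/
theorem eLpNorm_curveF {μ ν : Measure E} (hv : GoodOn v J) (hf : SmOn f J) (hvs : SmOn v J)
    {s a b t : ℝ} (hs : s ∈ J) (hab : Icc a b ⊆ J) (ht : t ∈ Icc a b)
    (hμ : μ.map (evol v J s t) = ν) (k : ℕ) :
    eLpNorm (curveF v f J s a b k t) 2 μ = eLpNorm (((Dv v)^[k] f) t) 2 ν := by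
  have e : curveF v f J s a b k t = (((Dv v)^[k] f) t) ∘ (evol v J s t) := by
    funext x
    exact curveF_of_mem ht k x
  have hc : Continuous (((Dv v)^[k] f) t) := by
    rw [← continuousOn_univ]
    exact (hf.iterate_Dv hv.isOpen hvs k).continuousOn.comp (f := fun x : E => (t, x))
      (by fun_prop) (fun x _ => ⟨hab ht, mem_univ _⟩)
  have hm : Measurable (evol v J s t) := (hv.continuous_evol hs (hab ht)).measurable
  rw [e, ← hμ, eLpNorm_map_measure hc.aestronglyMeasurable hm.aemeasurable]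

end L2

end Crest.Agent.R285
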