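import Mathlib

/-!
Row 285: smoothness of exponential family integrals `θ ↦ ∫ exp (T z θ) • P z dm(z)`.
-/

set_option autoImplicit false

open MeasureTheory Real Filter Topology Set

noncomputable section

namespace Crest.Agent.R285

variable {α : Type} [MeasurableSpace α] {W : Type} [NormedAddCommGroup W] [NormedSpace ℝ W]
  {H : Type} [NormedAddCommGroup H] [NormedSpace ℝ H]

/-- Domination hypothesis at every point of `D`. -/
def ExpDom (m : Measure α) (T : α → W →L[ℝ] ℝ) (D : Set W) (P : α → H) : Prop :=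
  AEStronglyMeasurable P m ∧ ∀ θ ∈ D, ∃ δ : ℝ, 0 < δ ∧ ∀ k : ℕ,
    Integrable (fun z => ‖T z‖ ^ k * ‖P z‖ * rexp (T z θ + δ * ‖T z‖)) m

/-- The exponential family integral. -/
def expInt (m : Measure α) (T : α → W →L[ℝ] ℝ) (P : α → H) (θ : W) : H :=
  ∫ z, rexp (T z θ) • P z ∂m

variable {m : Measure α} {T : α → W →L[ℝ] ℝ} {D : Set W} {P : α → H}

theorem aesm_smulRight (hT : AEStronglyMeasurable T m) (hP : AEStronglyMeasurable P m) :
    AEStronglyMeasurable (fun z => (T z).smulRight (P z)) m := by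
  have hc : Continuous fun p : (W →L[ℝ] ℝ) × H => p.1.smulRight p.2 := by fun_prop
  exact hc.comp_aestronglyMeasurable (hT.prodMk hP)

theorem ExpDom.step (hT : AEStronglyMeasurable T m) (hP : ExpDom m T D P) :
    ExpDom m T D (fun z => (T z).smulRight (P z)) := by
  refine ⟨aesm_smulRight hT hP.1, fun θ hθ => ?_⟩
  obtain ⟨δ, hδ, h⟩ := hP.2 θ hθ
  refine ⟨δ, hδ, fun k => ?_⟩
  refine (h (k + 1)).congr (ae_of_all _ fun z => ?_)
  simp only [ContinuousLinearMap.norm_smulRight_apply]
  ring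

theorem ExpDom.integrable (hT : AEStronglyMeasurable T m) (hP : ExpDom m T D P) {θ : W}
    (hθ : θ ∈ D) : Integrable (fun z => rexp (T z θ) • P z) m := by
  obtain ⟨δ, hδ, h⟩ := hP.2 θ hθ
  refine (h 0).mono' ?_ (ae_of_all _ fun z => ?_)
  · exact (continuous_exp.comp_aestronglyMeasurable
      ((ContinuousLinearMap.apply ℝ ℝ θ).continuous.comp_aestronglyMeasurable hT)).smul hP.1
  · rw [norm_smul, norm_of_nonneg (exp_pos _).le, pow_zero, one_mul, mul_comm]
    refine mul_le_mul_of_nonneg_left (exp_le_exp.2 ?_) (norm_nonneg _)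
    have := mul_nonneg hδ.le (norm_nonneg (T z))
    linarith

theorem hasFDerivAt_expInt (hT : AEStronglyMeasurable T m) (hP : ExpDom m T D P) {θ : W}
    (hθ : θ ∈ D) :
    HasFDerivAt (expInt m T P) (expInt m T (fun z => (T z).smulRight (P z)) θ) θ := by
  obtain ⟨δ, hδ, h⟩ := hP.2 θ hθ
  have hmeas : ∀ θ' : W, ∀ {H' : Type} [NormedAddCommGroup H'] [NormedSpace ℝ H'] (Q : α → H'),
      AEStronglyMeasurable Q m → AEStronglyMeasurable (fun z => rexp (T z θ') • Q z) m := by
    intro θ' H' _ _ Q hQ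
    exact (continuous_exp.comp_aestronglyMeasurable
      ((ContinuousLinearMap.apply ℝ ℝ θ').continuous.comp_aestronglyMeasurable hT)).smul hQ
  refine (hasFDerivAt_integral_of_dominated_of_fderiv_le (μ := m)
    (F := fun θ z => rexp (T z θ) • P z)
    (F' := fun θ z => rexp (T z θ) • (T z).smulRight (P z))
    (bound := fun z => ‖T z‖ ^ 1 * ‖P z‖ * rexp (T z θ + δ * ‖T z‖))
    (Metric.ball_mem_nhds θ hδ) ?_ ?_ ?_ ?_ (h 1) ?_)
  · exact Eventually.of_forall fun θ' => hmeas θ' P hP.1
  · exact hP.integrable hT hθ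
  · exact hmeas θ _ (aesm_smulRight hT hP.1)
  · refine ae_of_all _ fun z θ' hθ' => ?_
    rw [norm_smul, ContinuousLinearMap.norm_smulRight_apply, norm_of_nonneg (exp_pos _).le,
      mul_comm, pow_one]
    refine mul_le_mul_of_nonneg_left (exp_le_exp.2 ?_) (by positivity)
    have h1 : T z θ' = T z θ + T z (θ' - θ) := by rw [← map_add]; simp
    have h2 : T z (θ' - θ) ≤ δ * ‖T z‖ := by
      refine (le_abs_self _).trans ?_
      rw [← Real.norm_eq_abs]
      refine ((T z).le_opNorm _).trans ?_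
      rw [mul_comm]
      refine mul_le_mul_of_nonneg_right ?_ (norm_nonneg _)
      rw [← dist_eq_norm]
      exact (Metric.mem_ball.1 hθ').le
    linarith
  · refine ae_of_all _ fun z θ' _ => ?_
    have h1 : HasFDerivAt (fun θ => rexp (T z θ)) (rexp (T z θ') • T z) θ' :=
      ((T z).hasFDerivAt (x := θ')).exp
    have h2 := h1.smul_const (P z)
    convert h2 using 1
    ext w
    simp [smul_smul, mul_comm]

theorem contDiffOn_expInt_nat (hT : AEStronglyMeasurable T m) (hD : IsOpen D) (n : ℕ) :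
    ∀ {H : Type} [NormedAddCommGroup H] [NormedSpace ℝ H] {P : α → H}, ExpDom m T D P →
      ContDiffOn ℝ n (expInt m T P) D := by
  induction n with
  | zero =>
    intro H _ _ P hP
    rw [show ((0 : ℕ) : WithTop ℕ∞) = 0 from rfl, contDiffOn_zero]
    exact fun θ hθ => (hasFDerivAt_expInt hT hP hθ).continuousAt.continuousWithinAt
  | succ n ih =>
    intro H _ _ P hP
    rw [show (((n + 1 : ℕ)) : WithTop ℕ∞) = (n : WithTop ℕ∞) + 1 by push_cast; rfl,
      contDiffOn_succ_iff_fderiv_of_isOpen hD]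
    refine ⟨fun θ hθ => (hasFDerivAt_expInt hT hP hθ).differentiableAt.differentiableWithinAt,
      by simp, ?_⟩
    refine (ih (hP.step hT)).congr fun θ hθ => ?_
    exact (hasFDerivAt_expInt hT hP hθ).fderiv

theorem contDiffOn_expInt (hT : AEStronglyMeasurable T m) (hD : IsOpen D)
    (hP : ExpDom m T D P) : ContDiffOn ℝ (⊤ : ℕ∞) (expInt m T P) D :=
  contDiffOn_infty.2 fun n => contDiffOn_expInt_nat hT hD n hP

end Crest.Agent.R285
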