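import Mathlib
import Crest.Agent.R285.Gauss

/-!
Row 285: Gaussian averages `∫ Φ (x + σ g) dγ(g)` of functions of Gaussian growth, jointly in
`(σ, x)`.
-/

set_option autoImplicit false

open MeasureTheory ProbabilityTheory Real Filter Topology Set

noncomputable section

namespace Crest.Agent.R285

variable {V : Type} [NormedAddCommGroup V] [InnerProductSpace ℝ V] [FiniteDimensional ℝ V]
  [MeasurableSpace V] [BorelSpace V]

/-- Gaussian integrability of `exp (a |g|² + b |g|)` for `a < 1/2`. -/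
theorem integrable_exp_sq {a : ℝ} (ha : a < 1 / 2) (b : ℝ) :
    Integrable (fun g : V => rexp (a * ‖g‖ ^ 2 + b * ‖g‖)) (stdGaussian V) := by
  rw [integrable_stdGaussian_iff]
  set c : ℝ := (1 / 2 - a) / 2 with hc
  have hc0 : 0 < c := by rw [hc]; linarith
  have h1 := (integrable_exp_neg_sq (V := V) hc0).const_mul
    ((2 * π) ^ (-(Module.finrank ℝ V : ℝ) / 2) * rexp (b ^ 2 / (4 * c)))
  refine h1.mono' ?_ (ae_of_all _ fun g => ?_)
  · refine Continuous.aestronglyMeasurable ?_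
    exact continuous_gdens.smul (by fun_prop)
  · rw [smul_eq_mul, norm_of_nonneg (mul_nonneg (gdens_pos g).le (exp_pos _).le), gdens,
      mul_assoc, mul_assoc, ← exp_add, ← exp_add]
    refine mul_le_mul_of_nonneg_left (exp_le_exp.2 ?_) (by positivity)
    have h2 : b * ‖g‖ ≤ b ^ 2 / (4 * c) + c * ‖g‖ ^ 2 := by
      have h3 : 0 ≤ (b - 2 * c * ‖g‖) ^ 2 / (4 * c) := by positivity
      have h4 : (b - 2 * c * ‖g‖) ^ 2 / (4 * c) = b ^ 2 / (4 * c) + c * ‖g‖ ^ 2 - b * ‖g‖ := by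
        field_simp
        ring
      linarith
    have h5 : c = (1 / 2 - a) / 2 := hc
    nlinarith [sq_nonneg ‖g‖]

theorem pow_le_exp_mul {x : ℝ} (hx : 0 ≤ x) (k : ℕ) : (1 + x) ^ k ≤ (Nat.factorial k) * rexp (1 + x) := by
  have h1 := Real.pow_div_factorial_le_exp (1 + x) (by linarith) k
  rwa [div_le_iff₀ (by positivity), mul_comm] at h1

/-- The weight class: Gaussian growth with constants `C`, `h`. -/
def gw (C h : ℝ) (y : V) : ℝ := C * rexp (C * ‖y‖ + h * ‖y‖ ^ 2 / 2)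

omit [FiniteDimensional ℝ V] [MeasurableSpace V] [BorelSpace V] in
theorem gw_le {C h : ℝ} (hC : 0 ≤ C) (hh : 0 ≤ h) {s r σ : ℝ} {x : V}
    (hσ : |σ| ≤ s) (hx : ‖x‖ ≤ r) (g : V) :
    C * rexp (C * ‖x + σ • g‖ + h * ‖x + σ • g‖ ^ 2 / 2) ≤
      C * rexp (C * r + h * r ^ 2 / 2) * rexp ((h * s ^ 2 / 2) * ‖g‖ ^ 2 + (C * s + h * r * s) * ‖g‖) := by
  have h1 : ‖x + σ • g‖ ≤ r + s * ‖g‖ := by
    refine (norm_add_le _ _).trans (add_le_add hx ?_)
    rw [norm_smul, Real.norm_eq_abs]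
    exact mul_le_mul_of_nonneg_right hσ (norm_nonneg _)
  have hr : 0 ≤ r := (norm_nonneg _).trans hx
  have hs : 0 ≤ s := (abs_nonneg _).trans hσ
  rw [mul_assoc, ← exp_add]
  refine mul_le_mul_of_nonneg_left (exp_le_exp.2 ?_) hC
  have h2 : ‖x + σ • g‖ ^ 2 ≤ (r + s * ‖g‖) ^ 2 := by
    gcongr
  nlinarith [mul_le_mul_of_nonneg_left h1 hC, mul_le_mul_of_nonneg_left h2 hh, norm_nonneg g]

/-- Uniform domination for averages. -/
theorem exists_dom {C h : ℝ} (hC : 0 ≤ C) (hh : 0 ≤ h) {σ : ℝ} (hσ : h * σ ^ 2 < 1) (x : V) (k : ℕ) :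
    ∃ (s r : ℝ) (b : V → ℝ), |σ| < s ∧ ‖x‖ < r ∧ h * s ^ 2 < 1 ∧ Integrable b (stdGaussian V) ∧
      ∀ σ' x' g, |σ'| ≤ s → ‖x'‖ ≤ r →
        (1 + ‖g‖) ^ k * (C * rexp (C * ‖x' + σ' • g‖ + h * ‖x' + σ' • g‖ ^ 2 / 2)) ≤ b g := by
  obtain ⟨s, hs1, hs2⟩ : ∃ s : ℝ, |σ| < s ∧ h * s ^ 2 < 1 := by
    have hcont : Continuous (fun t : ℝ => h * t ^ 2) := by fun_prop
    have h1 : h * (|σ|) ^ 2 < 1 := by simpa using hσ
    have h2 : ∀ᶠ t in 𝓝 |σ|, h * t ^ 2 < 1 :=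
      hcont.continuousAt.eventually_lt_const h1
    obtain ⟨ε, hε, hb⟩ := Metric.eventually_nhds_iff.1 h2
    refine ⟨|σ| + ε / 2, by linarith, hb ?_⟩
    rw [Real.dist_eq, add_sub_cancel_left, abs_of_pos (by linarith)]
    linarith
  have hs0 : 0 ≤ s := (abs_nonneg _).trans hs1.le
  refine ⟨s, ‖x‖ + 1, fun g => (Nat.factorial k) * rexp 1 * (C * rexp (C * (‖x‖ + 1) + h * (‖x‖ + 1) ^ 2 / 2)) *
    rexp ((h * s ^ 2 / 2) * ‖g‖ ^ 2 + (C * s + h * (‖x‖ + 1) * s + 1) * ‖g‖), hs1, by linarith, hs2, ?_, ?_⟩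
  · exact (integrable_exp_sq (by linarith) _).const_mul _
  · intro σ' x' g hσ' hx'
    have h1 := gw_le hC hh hσ' hx' g
    have h2 := pow_le_exp_mul (norm_nonneg g) k
    calc (1 + ‖g‖) ^ k * (C * rexp (C * ‖x' + σ' • g‖ + h * ‖x' + σ' • g‖ ^ 2 / 2))
        ≤ ((Nat.factorial k) * rexp (1 + ‖g‖)) * (C * rexp (C * (‖x‖ + 1) + h * (‖x‖ + 1) ^ 2 / 2) *
          rexp ((h * s ^ 2 / 2) * ‖g‖ ^ 2 + (C * s + h * (‖x‖ + 1) * s) * ‖g‖)) := by
          gcongr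
      _ = _ := by
          beta_reduce
          rw [exp_add 1 ‖g‖, show (h * s ^ 2 / 2) * ‖g‖ ^ 2 + (C * s + h * (‖x‖ + 1) * s + 1) * ‖g‖
            = ((h * s ^ 2 / 2) * ‖g‖ ^ 2 + (C * s + h * (‖x‖ + 1) * s) * ‖g‖) + ‖g‖ by ring,
            exp_add _ ‖g‖]
          ring

variable {H : Type} [NormedAddCommGroup H] [NormedSpace ℝ H]

/-- The domain of admissible `(σ, x)`. -/
def adm (V : Type) (h : ℝ) : Set (ℝ × V) := {p | h * p.1 ^ 2 < 1}

omit [InnerProductSpace ℝ V] [FiniteDimensional ℝ V] [MeasurableSpace V] [BorelSpace V] in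
theorem isOpen_adm (h : ℝ) : IsOpen (adm V h) := by
  unfold adm
  exact isOpen_lt (f := fun p : ℝ × V => h * p.1 ^ 2) (g := fun _ => (1 : ℝ)) (by fun_prop)
    continuous_const

/-- The averaging operator. -/
def avg (Φ : V → H) (p : ℝ × V) : H := ∫ g, Φ (p.2 + p.1 • g) ∂(stdGaussian V)

/-- Continuity of generalized averages. -/
theorem continuousOn_avg_gen {Ψ : V → V → H} (hΨ : Continuous fun p : V × V => Ψ p.1 p.2)
    {C h : ℝ} (hC : 0 ≤ C) (hh : 0 ≤ h) {k : ℕ}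
    (hb : ∀ y g, ‖Ψ y g‖ ≤ (1 + ‖g‖) ^ k * (C * rexp (C * ‖y‖ + h * ‖y‖ ^ 2 / 2))) :
    ContinuousOn (fun p : ℝ × V => ∫ g, Ψ (p.2 + p.1 • g) g ∂(stdGaussian V)) (adm V h) := by
  rintro ⟨σ, x⟩ hp
  obtain ⟨s, r, b, hs, hr, hs1, hbi, hdom⟩ := exists_dom hC hh (show h * σ ^ 2 < 1 from hp) x k
  refine ContinuousAt.continuousWithinAt ?_
  refine continuousAt_of_dominated (bound := b) ?_ ?_ hbi ?_
  · refine Eventually.of_forall fun p => Continuous.aestronglyMeasurable ?_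
    exact hΨ.comp (f := fun g : V => (p.2 + p.1 • g, g)) (by fun_prop)
  · have h1 : ∀ᶠ p : ℝ × V in 𝓝 (σ, x), |p.1| ≤ s := by
      have : ContinuousAt (fun p : ℝ × V => |p.1|) (σ, x) := by fun_prop
      exact (this.eventually_lt_const hs).mono fun p hp => hp.le
    have h2 : ∀ᶠ p : ℝ × V in 𝓝 (σ, x), ‖p.2‖ ≤ r := by
      have : ContinuousAt (fun p : ℝ × V => ‖p.2‖) (σ, x) := by fun_prop
      exact (this.eventually_lt_const hr).mono fun p hp => hp.le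
    filter_upwards [h1, h2] with p hp1 hp2
    exact ae_of_all _ fun g => (hb _ _).trans (hdom p.1 p.2 g hp1 hp2)
  · refine ae_of_all _ fun g => ?_
    have : Continuous fun p : ℝ × V => Ψ (p.2 + p.1 • g) g :=
      hΨ.comp (f := fun p : ℝ × V => (p.2 + p.1 • g, g)) (by fun_prop)
    exact this.continuousAt

theorem integrable_avg_gen {Ψ : V → V → H} (hΨ : Continuous fun p : V × V => Ψ p.1 p.2)
    {C h : ℝ} (hC : 0 ≤ C) (hh : 0 ≤ h) {k : ℕ}
    (hb : ∀ y g, ‖Ψ y g‖ ≤ (1 + ‖g‖) ^ k * (C * rexp (C * ‖y‖ + h * ‖y‖ ^ 2 / 2)))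
    {p : ℝ × V} (hp : p ∈ adm V h) :
    Integrable (fun g => Ψ (p.2 + p.1 • g) g) (stdGaussian V) := by
  obtain ⟨s, r, b, hs, hr, hs1, hbi, hdom⟩ := exists_dom hC hh (show h * p.1 ^ 2 < 1 from hp) p.2 k
  refine hbi.mono' ?_ (ae_of_all _ fun g => (hb _ _).trans (hdom p.1 p.2 g hs.le hr.le))
  refine Continuous.aestronglyMeasurable ?_
  exact hΨ.comp (f := fun g : V => (p.2 + p.1 • g, g)) (by fun_prop)

/-- Direction map `(dσ, dx) ↦ dx + dσ • g`. -/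
def dirMap (g : V) : ℝ × V →L[ℝ] V :=
  ContinuousLinearMap.snd ℝ ℝ V + (ContinuousLinearMap.fst ℝ ℝ V).smulRight g

omit [FiniteDimensional ℝ V] [MeasurableSpace V] [BorelSpace V] in
@[simp] theorem dirMap_apply (g : V) (q : ℝ × V) : dirMap g q = q.2 + q.1 • g := rfl

omit [FiniteDimensional ℝ V] [MeasurableSpace V] [BorelSpace V] in
theorem norm_dirMap_le (g : V) : ‖dirMap g‖ ≤ 1 + ‖g‖ := by
  refine ContinuousLinearMap.opNorm_le_bound _ (by positivity) fun q => ?_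
  rw [dirMap_apply]
  refine (norm_add_le _ _).trans ?_
  rw [norm_smul]
  have h1 : ‖q.2‖ ≤ ‖q‖ := norm_snd_le q
  have h2 : ‖q.1‖ ≤ ‖q‖ := norm_fst_le q
  nlinarith [norm_nonneg g, mul_le_mul_of_nonneg_right h2 (norm_nonneg g)]

omit [FiniteDimensional ℝ V] [MeasurableSpace V] [BorelSpace V] in
theorem continuous_dirMap : Continuous (dirMap (V := V)) := by
  unfold dirMap
  refine continuous_const.add ?_
  exact (ContinuousLinearMap.smulRightL ℝ (ℝ × V) V (ContinuousLinearMap.fst ℝ ℝ V)).continuous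

theorem aesm_clm {W : Type} [NormedAddCommGroup W] [NormedSpace ℝ W] {f : V → W →L[ℝ] H}
    (hf : Continuous f) (μ : Measure V) : AEStronglyMeasurable f μ := hf.aestronglyMeasurable

theorem hasFDerivAt_avg {Φ : V → H} (hΦ : ContDiff ℝ 1 Φ) {C h : ℝ} (hC : 0 ≤ C) (hh : 0 ≤ h)
    (hb : ∀ y, ‖Φ y‖ ≤ C * rexp (C * ‖y‖ + h * ‖y‖ ^ 2 / 2))
    (hb' : ∀ y, ‖fderiv ℝ Φ y‖ ≤ C * rexp (C * ‖y‖ + h * ‖y‖ ^ 2 / 2))
    {p : ℝ × V} (hp : p ∈ adm V h) :
    HasFDerivAt (avg Φ) (∫ g, (fderiv ℝ Φ (p.2 + p.1 • g)).comp (dirMap g) ∂(stdGaussian V)) p := by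
  obtain ⟨s, r, b, hs, hr, hs1, hbi, hdom⟩ := exists_dom hC hh (show h * p.1 ^ 2 < 1 from hp) p.2 1
  have hcont : ∀ q : ℝ × V, Continuous fun g : V => Φ (q.2 + q.1 • g) := fun q =>
    hΦ.continuous.comp (by fun_prop)
  have hcd : Continuous (fderiv ℝ Φ) := hΦ.continuous_fderiv one_ne_zero
  have hcont' : Continuous fun g : V => (fderiv ℝ Φ (p.2 + p.1 • g)).comp (dirMap g) :=
    (hcd.comp (by fun_prop)).clm_comp continuous_dirMap
  have hU : {q : ℝ × V | |q.1| < s ∧ ‖q.2‖ < r} ∈ 𝓝 p := by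
    have : IsOpen {q : ℝ × V | |q.1| < s ∧ ‖q.2‖ < r} :=
      (isOpen_lt (f := fun q : ℝ × V => |q.1|) (g := fun _ => s) (by fun_prop)
        continuous_const).inter
      (isOpen_lt (f := fun q : ℝ × V => ‖q.2‖) (g := fun _ => r) (by fun_prop) continuous_const)
    exact this.mem_nhds ⟨hs, hr⟩
  refine hasFDerivAt_integral_of_dominated_of_fderiv_le (μ := stdGaussian V)
    (F := fun q g => Φ (q.2 + q.1 • g))
    (F' := fun q g => (fderiv ℝ Φ (q.2 + q.1 • g)).comp (dirMap g)) (bound := b)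
    hU ?_ ?_ ?_ ?_ hbi ?_
  · exact Eventually.of_forall fun q => (hcont q).aestronglyMeasurable
  · refine integrable_avg_gen (Ψ := fun y _ => Φ y) (by fun_prop) hC hh (k := 0) ?_ hp
    intro y g
    simpa using hb y
  · exact aesm_clm hcont' _
  · refine ae_of_all _ fun g q hq => ?_
    refine (ContinuousLinearMap.opNorm_comp_le _ _).trans ?_
    rw [mul_comm]
    refine le_trans ?_ (hdom q.1 q.2 g hq.1.le hq.2.le)
    rw [pow_one]
    exact mul_le_mul (norm_dirMap_le g) (hb' _) (norm_nonneg _) (by positivity)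
  · refine ae_of_all _ fun g q _ => ?_
    have h1 : HasFDerivAt (fun q : ℝ × V => q.2 + q.1 • g) (dirMap g) q := (dirMap g).hasFDerivAt
    exact ((hΦ.differentiable one_ne_zero) _).hasFDerivAt.comp q h1

theorem contDiffOn_avg {Φ : V → H} (hΦ : ContDiff ℝ 1 Φ) {C h : ℝ} (hC : 0 ≤ C) (hh : 0 ≤ h)
    (hb : ∀ y, ‖Φ y‖ ≤ C * rexp (C * ‖y‖ + h * ‖y‖ ^ 2 / 2))
    (hb' : ∀ y, ‖fderiv ℝ Φ y‖ ≤ C * rexp (C * ‖y‖ + h * ‖y‖ ^ 2 / 2)) :
    ContDiffOn ℝ 1 (avg Φ) (adm V h) := by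
  have hD := isOpen_adm (V := V) h
  have hd := fun p (hp : p ∈ adm V h) => hasFDerivAt_avg hΦ hC hh hb hb' hp
  rw [show (1 : WithTop ℕ∞) = 0 + 1 by rfl, contDiffOn_succ_iff_fderiv_of_isOpen hD]
  refine ⟨fun p hp => (hd p hp).differentiableAt.differentiableWithinAt, by simp, ?_⟩
  rw [contDiffOn_zero]
  have h1 : ContinuousOn (fun p : ℝ × V => ∫ g, (fderiv ℝ Φ (p.2 + p.1 • g)).comp (dirMap g)
      ∂(stdGaussian V)) (adm V h) := by
    refine continuousOn_avg_gen (Ψ := fun y g => (fderiv ℝ Φ y).comp (dirMap g)) ?_ hC hh (k := 1) ?_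
    · exact ((hΦ.continuous_fderiv one_ne_zero).comp continuous_fst).clm_comp
        (continuous_dirMap.comp continuous_snd)
    · intro y g
      refine (ContinuousLinearMap.opNorm_comp_le _ _).trans ?_
      rw [mul_comm, pow_one]
      exact mul_le_mul (norm_dirMap_le g) (hb' _) (norm_nonneg _) (by positivity)
  exact h1.congr fun p hp => (hd p hp).fderiv

end Crest.Agent.R285
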