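import Crest.Agent.R285.Query
import Crest.Agent.R285.DLip

/-!
Row 285 (S0430): the COMMON DEFINITIONS (frozen; do not change).

* `gN c σ`     : the Gaussian law `N(c, σ² I)`;
* `Pot h U`    : convex `C²` potentials with `D²U ≤ h`, critical point at `0`;
* `Ub U σ`     : the coarse potential `-log E exp (-U (x + σ g))`, `G U σ` its gradient;
* `post V c s` : the posterior law `∝ exp (-V z - |z - c|²/(2 s²)) dz`.

(The contracts `Draw`, `Con` are in `Draw.lean`, helper317.)
-/

set_option autoImplicit false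
set_option linter.unusedSectionVars false

open MeasureTheory ProbabilityTheory
open Crest.OracleSampling (E Admissible)
open scoped NNReal

noncomputable section

namespace Crest.Agent.R285

/-- Convex potentials with Hessian between `0` and `h`, critical point at `0`. -/
structure Pot {V : Type} [NormedAddCommGroup V] [InnerProductSpace ℝ V] [CompleteSpace V]
    (h : ℝ) (U : V → ℝ) : Prop where
  cd : ContDiff ℝ 2 U
  zero : U 0 = 0
  grad0 : gradient U 0 = 0
  lo : ∀ x v, 0 ≤ iteratedFDeriv ℝ 2 U x ![v, v]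
  hi : ∀ x v, iteratedFDeriv ℝ 2 U x ![v, v] ≤ h * ‖v‖ ^ 2

section general

variable {V : Type} [NormedAddCommGroup V] [InnerProductSpace ℝ V] [FiniteDimensional ℝ V]
  [MeasurableSpace V] [BorelSpace V]

/-- The Gaussian law `N(c, σ² I)`. -/
def gN (c : V) (σ : ℝ) : Measure V := (stdGaussian V).map (fun g => c + σ • g)

/-- The coarse potential. -/
def Ub (U : V → ℝ) (σ : ℝ) (x : V) : ℝ :=
  -Real.log (∫ g, Real.exp (-U (x + σ • g)) ∂(stdGaussian V))

/-- Its gradient. -/
def G (U : V → ℝ) (σ : ℝ) (x : V) : V := gradient (Ub U σ) x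

/-- The posterior law `∝ exp (-U z - |z - c|²/(2 s²)) dz`. -/
def post (U : V → ℝ) (c : V) (s : ℝ) : Measure V :=
  (((volume : Measure V).withDensity fun z =>
    ENNReal.ofReal (Real.exp (-(U z + ‖z - c‖ ^ 2 / (2 * s ^ 2))))) Set.univ)⁻¹ •
    (volume : Measure V).withDensity fun z =>
      ENNReal.ofReal (Real.exp (-(U z + ‖z - c‖ ^ 2 / (2 * s ^ 2))))

end general

theorem Pot.of_admissible {d : ℕ} {V : E d → ℝ} (hV : Admissible d V) : Pot 2 V :=
  ⟨hV.1, hV.2.1, hV.2.2.1, fun x v => (sq_nonneg _).trans (hV.2.2.2 x v).1,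
    fun x v => (hV.2.2.2 x v).2⟩

end Crest.Agent.R285
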