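import Mathlib
import Crest.Agent.Lib.ODEFlow

/-!
Row 285: evolution of a time dependent `C¹` vector field of linear growth, for times in an open
interval `J` (possibly `J = univ`).
-/

set_option autoImplicit false

open Set Filter Topology
open Crest.Agent.Lib.ODEFlow

noncomputable section

namespace Crest.Agent.R285

variable {E : Type} [NormedAddCommGroup E] [NormedSpace ℝ E]

/-- The autonomous field `(1, v t x)` on `ℝ × E`. -/
def aug (v : ℝ → E → E) : ℝ × E → ℝ × E := fun p => (1, v p.1 p.2)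

/-- Time dependent vector fields, jointly `C¹` and of linear growth, locally uniformly for times
in the open interval `J`. -/
structure GoodOn (v : ℝ → E → E) (J : Set ℝ) : Prop where
  isOpen : IsOpen J
  ordConn : J.OrdConnected
  contDiffOn : ContDiffOn ℝ 1 (fun p : ℝ × E => v p.1 p.2) (J ×ˢ univ)
  growth : ∀ a ∈ J, ∀ b ∈ J, ∃ K : ℝ, ∀ t ∈ Icc a b, ∀ x, ‖v t x‖ ≤ K * ‖x‖ + K

variable {v : ℝ → E → E} {J : Set ℝ}

theorem GoodOn.of_lipschitz (hJ : IsOpen J) (hJ' : J.OrdConnected)
    (hc : ContDiffOn ℝ 1 (fun p : ℝ × E => v p.1 p.2) (J ×ˢ univ))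
    {L : ℝ} (hL : ∀ t ∈ J, ∀ x y, ‖v t x - v t y‖ ≤ L * ‖x - y‖) : GoodOn v J := by
  refine ⟨hJ, hJ', hc, fun a ha b hb => ?_⟩
  have h1 : ContinuousOn (fun t => ‖v t 0‖) (Icc a b) := by
    have h2 : ContinuousOn (fun p : ℝ × E => v p.1 p.2) (J ×ˢ univ) := hc.continuousOn
    have h3 : ContinuousOn (fun t : ℝ => v t (0 : E)) J :=
      h2.comp (f := fun t : ℝ => (t, (0 : E))) (by fun_prop) (fun t ht => ⟨ht, mem_univ _⟩)
    exact (h3.mono (hJ'.out ha hb)).norm
  obtain ⟨M, hM⟩ := (isCompact_Icc (a := a) (b := b)).bddAbove_image h1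
  refine ⟨max (max L M) 0, fun t ht x => ?_⟩
  have h4 : ‖v t 0‖ ≤ M := hM ⟨t, ht, rfl⟩
  have h5 := hL t (hJ'.out ha hb ht) x 0
  rw [sub_zero] at h5
  have h6 : ‖v t x‖ ≤ ‖v t x - v t 0‖ + ‖v t 0‖ := by
    simpa using norm_add_le (v t x - v t 0) (v t 0)
  have h7 : L * ‖x‖ ≤ max (max L M) 0 * ‖x‖ :=
    mul_le_mul_of_nonneg_right ((le_max_left _ _).trans (le_max_left _ _)) (norm_nonneg _)
  have h8 : M ≤ max (max L M) 0 := (le_max_right _ _).trans (le_max_left _ _)
  linarith

theorem GoodOn.isOpenU (hv : GoodOn v J) : IsOpen (J ×ˢ (univ : Set E)) :=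
  hv.isOpen.prod isOpen_univ

theorem GoodOn.contDiffOn_aug (hv : GoodOn v J) : ContDiffOn ℝ 1 (aug v) (J ×ˢ univ) :=
  contDiffOn_const.prodMk hv.contDiffOn

variable [FiniteDimensional ℝ E]

/-- Key existence lemma, for both signs of time. -/
theorem GoodOn.mem_dom_sign (hv : GoodOn v J) {σ : ℝ} (hσ : σ = 1 ∨ σ = -1) {s t : ℝ}
    (hs : s ∈ J) (ht : t ∈ J) (hst : 0 ≤ σ * (t - s)) (x : E) :
    ((s, x), σ * (t - s)) ∈ dom (fun p => σ • aug v p) (J ×ˢ univ) := by
  have : CompleteSpace E := FiniteDimensional.complete ℝ E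
  have hσ2 : σ * σ = 1 := by rcases hσ with rfl | rfl <;> norm_num
  have hσn : ‖σ‖ = 1 := by rcases hσ with rfl | rfl <;> simp
  set w : ℝ × E → ℝ × E := fun p => σ • aug v p with hw
  have hwU : ContDiffOn ℝ 1 w (J ×ˢ univ) := hv.contDiffOn_aug.const_smul σ
  obtain ⟨K, hK⟩ := hv.growth (min s t) (by rcases min_choice s t with h | h <;> rw [h] <;> assumption)
    (max s t) (by rcases max_choice s t with h | h <;> rw [h] <;> assumption)
  have hK0 : 0 ≤ K := by
    have := (norm_nonneg _).trans (hK s ⟨min_le_left _ _, le_max_left _ _⟩ 0)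
    simpa using this
  set T := σ * (t - s) with hT
  set R : ℝ := gronwallBound ‖x‖ K K T with hR
  refine mem_dom_of_compact hv.isOpenU hwU
    (K := Icc (min s t) (max s t) ×ˢ Metric.closedBall (0 : E) R)
    (isCompact_Icc.prod (isCompact_closedBall _ _)) ?_ ⟨hs, mem_univ _⟩ ?_ hst
  · rintro ⟨u, y⟩ ⟨hu, -⟩
    refine ⟨hv.ordConn.out ?_ ?_ hu, mem_univ _⟩
    · rcases min_choice s t with h | h <;> rw [h] <;> assumption
    · rcases max_choice s t with h | h <;> rw [h] <;> assumption
  intro l hl hmem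
  have hdom : ∀ r ∈ Icc (0 : ℝ) l, ((s, x), r) ∈ dom w (J ×ˢ univ) := by
    intro r hr
    refine mem_dom_of_uIcc hmem ?_
    rw [uIcc_of_le hl.1]; exact hr
  have hder : ∀ r ∈ Icc (0 : ℝ) l, HasDerivAt (fun r => flow w (J ×ˢ univ) ((s, x), r))
      (w (flow w (J ×ˢ univ) ((s, x), r))) r := fun r hr => hasDerivAt_flow hv.isOpenU hwU (hdom r hr)
  have hzero : flow w (J ×ˢ univ) ((s, x), 0) = (s, x) := flow_zero hv.isOpenU hwU ⟨hs, mem_univ _⟩
  -- first component
  have hfst : ∀ r ∈ Icc (0 : ℝ) l, (flow w (J ×ˢ univ) ((s, x), r)).1 = s + σ * r := by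
    have hc : ContinuousOn (fun r => (flow w (J ×ˢ univ) ((s, x), r)).1 - (s + σ * r)) (Icc 0 l) := by
      intro r hr
      have h1 := (hder r hr).continuousAt
      exact ((continuous_fst.continuousAt.comp h1).sub (by fun_prop)).continuousWithinAt
    have hd : ∀ r ∈ Ico (0 : ℝ) l, HasDerivWithinAt
        (fun r => (flow w (J ×ˢ univ) ((s, x), r)).1 - (s + σ * r)) 0 (Ici r) r := by
      intro r hr
      have h1 := hder r ⟨hr.1, hr.2.le⟩
      have h2 : HasDerivAt (fun r => (flow w (J ×ˢ univ) ((s, x), r)).1) σ r := by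
        have := (ContinuousLinearMap.fst ℝ ℝ E).hasFDerivAt.comp_hasDerivAt r h1
        simpa [aug, hw, Function.comp_def] using this
      have h3 := h2.fun_sub (((hasDerivAt_id r).const_mul σ).const_add s)
      simpa using h3.hasDerivWithinAt
    intro r hr
    have := constant_of_has_deriv_right_zero hc hd r hr
    simp only [hzero] at this
    linarith
  -- second component
  have hsnd : ∀ r ∈ Icc (0 : ℝ) l, ‖(flow w (J ×ˢ univ) ((s, x), r)).2‖ ≤
      gronwallBound ‖x‖ K K (r - 0) := by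
    refine norm_le_gronwallBound_of_norm_deriv_right_le
      (f := fun r => (flow w (J ×ˢ univ) ((s, x), r)).2)
      (f' := fun r => σ • v (s + σ * r) ((flow w (J ×ˢ univ) ((s, x), r)).2))
      (fun r hr => (continuous_snd.continuousAt.comp (hder r hr).continuousAt).continuousWithinAt)
      (fun r hr => ?_) (by simp only [hzero]; exact le_rfl) (fun r hr => ?_)
    · have h1 := hder r ⟨hr.1, hr.2.le⟩
      have h2 := (ContinuousLinearMap.snd ℝ ℝ E).hasFDerivAt.comp_hasDerivAt r h1
      have h3 : HasDerivAt (fun r => (flow w (J ×ˢ univ) ((s, x), r)).2)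
          (σ • v ((flow w (J ×ˢ univ) ((s, x), r)).1) ((flow w (J ×ˢ univ) ((s, x), r)).2)) r := by
        simpa [aug, hw, Function.comp_def] using h2
      rw [hfst r ⟨hr.1, hr.2.le⟩] at h3
      exact h3.hasDerivWithinAt
    · rw [norm_smul, hσn, one_mul]
      refine hK _ ?_ _
      have hr2 : r ≤ T := hr.2.le.trans hl.2.le
      rcases hσ with rfl | rfl
      · simp only [one_mul] at hT ⊢
        constructor
        · exact (min_le_left _ _).trans (by linarith [hr.1])
        · exact le_trans (by linarith) (le_max_right s t)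
      · constructor
        · exact (min_le_right s t).trans (by linarith)
        · exact le_trans (by linarith [hr.1]) (le_max_left s t)
  have hl' : l ∈ Icc (0 : ℝ) l := ⟨hl.1, le_rfl⟩
  refine ⟨?_, ?_⟩
  · rw [hfst l hl']
    have hl2 : l ≤ T := hl.2.le
    rcases hσ with rfl | rfl
    · simp only [one_mul] at hT ⊢
      constructor
      · exact (min_le_left _ _).trans (by linarith [hl.1])
      · exact le_trans (by linarith) (le_max_right s t)
    · constructor
      · exact (min_le_right s t).trans (by linarith)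
      · exact le_trans (by linarith [hl.1]) (le_max_left s t)
  · rw [mem_closedBall_zero_iff]
    refine (hsnd l hl').trans ?_
    rw [hR]
    exact gronwallBound_mono (norm_nonneg _) hK0 hK0 (by linarith [hl.2])

theorem GoodOn.mem_dom (hv : GoodOn v J) {s t : ℝ} (hs : s ∈ J) (ht : t ∈ J) (x : E) :
    ((s, x), t - s) ∈ dom (aug v) (J ×ˢ univ) := by
  rcases le_total s t with h | h
  · have := hv.mem_dom_sign (σ := 1) (Or.inl rfl) hs ht (by linarith) x
    simpa using this
  · have := hv.mem_dom_sign (σ := -1) (Or.inr rfl) hs ht (by linarith) x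
    have h2 : ((s, x), -(t - s)) ∈ dom (fun p => -aug v p) (J ×ˢ univ) := by
      simpa using this
    exact neg_mem_dom_iff.1 h2

/-- The evolution from time `s` to time `t` of a time dependent field. -/
def evol (v : ℝ → E → E) (J : Set ℝ) (s t : ℝ) (x : E) : E :=
  (flow (aug v) (J ×ˢ univ) ((s, x), t - s)).2

omit [FiniteDimensional ℝ E] in
/-- The time component of the augmented flow. -/
theorem GoodOn.flow_fst [CompleteSpace E] (hv : GoodOn v J) {s l : ℝ} (x : E)
    (h : ((s, x), l) ∈ dom (aug v) (J ×ˢ univ)) :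
    (flow (aug v) (J ×ˢ univ) ((s, x), l)).1 = s + l := by
  have hdom : ∀ r ∈ uIcc (0 : ℝ) l, ((s, x), r) ∈ dom (aug v) (J ×ˢ univ) :=
    fun r hr => mem_dom_of_uIcc h hr
  have hd : ∀ r ∈ uIcc (0 : ℝ) l, HasDerivAt
      (fun l => (flow (aug v) (J ×ˢ univ) ((s, x), l)).1 - (s + l)) 0 r := by
    intro r hr
    have h1 := hasDerivAt_flow hv.isOpenU hv.contDiffOn_aug (hdom r hr)
    have h2 : HasDerivAt (fun l => (flow (aug v) (J ×ˢ univ) ((s, x), l)).1) 1 r := by
      have := (ContinuousLinearMap.fst ℝ ℝ E).hasFDerivAt.comp_hasDerivAt r h1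
      simpa [aug, Function.comp_def] using this
    have h3 := h2.fun_sub ((hasDerivAt_id r).const_add s)
    simpa using h3
  have hconst := (convex_uIcc (0 : ℝ) l).norm_image_sub_le_of_norm_hasDerivWithin_le (C := 0)
    (fun r hr => (hd r hr).hasDerivWithinAt) (fun r hr => by simp)
    left_mem_uIcc right_mem_uIcc
  have h0 : flow (aug v) (J ×ˢ univ) ((s, x), 0) = (s, x) :=
    flow_zero hv.isOpenU hv.contDiffOn_aug (mem_of_mem_dom (hdom 0 left_mem_uIcc))
  simp only [h0, zero_mul, norm_le_zero_iff] at hconst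
  linarith

theorem GoodOn.flow_eq (hv : GoodOn v J) {s t : ℝ} (hs : s ∈ J) (ht : t ∈ J) (x : E) :
    flow (aug v) (J ×ˢ univ) ((s, x), t - s) = (t, evol v J s t x) := by
  have : CompleteSpace E := FiniteDimensional.complete ℝ E
  refine Prod.ext ?_ rfl
  rw [hv.flow_fst x (hv.mem_dom hs ht x)]
  ring

theorem GoodOn.evol_self (hv : GoodOn v J) {s : ℝ} (hs : s ∈ J) (x : E) :
    evol v J s s x = x := by
  have : CompleteSpace E := FiniteDimensional.complete ℝ E
  unfold evol
  rw [sub_self, flow_zero hv.isOpenU hv.contDiffOn_aug ⟨hs, mem_univ _⟩]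

theorem GoodOn.hasDerivAt_evol (hv : GoodOn v J) {s t : ℝ} (hs : s ∈ J) (ht : t ∈ J) (x : E) :
    HasDerivAt (fun t => evol v J s t x) (v t (evol v J s t x)) t := by
  have : CompleteSpace E := FiniteDimensional.complete ℝ E
  have h1 := hasDerivAt_flow hv.isOpenU hv.contDiffOn_aug (hv.mem_dom hs ht x)
  have h2 := h1.scomp t ((hasDerivAt_id t).sub_const s)
  have h3 := (ContinuousLinearMap.snd ℝ ℝ E).hasFDerivAt.comp_hasDerivAt t h2
  have e : (aug v (flow (aug v) (J ×ˢ univ) ((s, x), t - s))).2 = v t (evol v J s t x) := by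
    rw [hv.flow_eq hs ht]; rfl
  have h4 : HasDerivAt (fun t => evol v J s t x)
      ((aug v (flow (aug v) (J ×ˢ univ) ((s, x), t - s))).2) t := by
    simpa [Function.comp_def, evol] using h3
  rwa [e] at h4

theorem GoodOn.evol_evol (hv : GoodOn v J) {s t u : ℝ} (hs : s ∈ J) (ht : t ∈ J) (hu : u ∈ J)
    (x : E) : evol v J t u (evol v J s t x) = evol v J s u x := by
  have : CompleteSpace E := FiniteDimensional.complete ℝ E
  have h1 := flow_add hv.isOpenU hv.contDiffOn_aug (x := (s, x)) (s := t - s) (t := u - t)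
    (hv.mem_dom hs ht x) (by rw [hv.flow_eq hs ht]; exact hv.mem_dom ht hu _)
  have h2 := h1.2
  rw [show t - s + (u - t) = u - s by ring, hv.flow_eq hs hu, hv.flow_eq hs ht,
    hv.flow_eq ht hu] at h2
  exact (congrArg Prod.snd h2).symm

theorem GoodOn.contDiffOn_evol (hv : GoodOn v J) :
    ContDiffOn ℝ 1 (fun p : ℝ × ℝ × E => evol v J p.1 p.2.1 p.2.2) (J ×ˢ J ×ˢ univ) := by
  have : CompleteSpace E := FiniteDimensional.complete ℝ E
  have h1 : ContDiffOn ℝ 1 (flow (aug v) (J ×ˢ univ)) (dom (aug v) (J ×ˢ univ)) :=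
    contDiffOn_flow (n := 1) le_rfl hv.isOpenU hv.contDiffOn_aug
  have h2 : ContDiff ℝ 1 (fun p : ℝ × ℝ × E => (((p.1, p.2.2), p.2.1 - p.1) : (ℝ × E) × ℝ)) := by
    fun_prop
  exact contDiff_snd.comp_contDiffOn (h1.comp h2.contDiffOn
    (fun p hp => hv.mem_dom hp.1 hp.2.1 p.2.2))

/-- Uniqueness: every solution on a time interval is given by the evolution. -/
theorem GoodOn.eq_evol (hv : GoodOn v J) {c : ℝ → E} {s t : ℝ} (hs : s ∈ J) (ht : t ∈ J)
    (hc : ∀ r ∈ uIcc s t, HasDerivAt c (v r (c r)) r) : c t = evol v J s t (c s) := by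
  have : CompleteSpace E := FiniteDimensional.complete ℝ E
  have hmem : ∀ l ∈ uIcc 0 (t - s), s + l ∈ uIcc s t := by
    intro l hl
    rw [mem_uIcc] at hl ⊢
    rcases hl with hl | hl
    · exact Or.inl ⟨by linarith [hl.1], by linarith [hl.2]⟩
    · exact Or.inr ⟨by linarith [hl.1], by linarith [hl.2]⟩
  have h := flow_of_integralCurve' hv.isOpenU hv.contDiffOn_aug
    (c := fun l => ((s + l, c (s + l)) : ℝ × E)) (x := (s, c s)) (l := t - s) (by simp)
    (fun l hl => ⟨hv.ordConn.uIcc_subset hs ht (hmem l hl), mem_univ _⟩) (fun l hl => by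
      have h1 : HasDerivAt (fun l => c (s + l)) (v (s + l) (c (s + l))) l := by
        have := (hc (s + l) (hmem l hl)).scomp l ((hasDerivAt_id l).const_add s)
        simpa [Function.comp_def] using this
      have h2 : HasDerivAt (fun l : ℝ => s + l) 1 l := (hasDerivAt_id l).const_add s
      exact h2.prodMk h1)
  have h2 := h.2
  rw [hv.flow_eq hs ht] at h2
  have := congrArg Prod.snd h2
  simpa using this.symm

theorem GoodOn.continuous_evol (hv : GoodOn v J) {s t : ℝ} (hs : s ∈ J) (ht : t ∈ J) :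
    Continuous (evol v J s t) := by
  rw [← continuousOn_univ]
  exact hv.contDiffOn_evol.continuousOn.comp (f := fun x : E => (s, t, x)) (by fun_prop)
    (fun x _ => ⟨hs, ht, mem_univ _⟩)

/-- The evolution as a homeomorphism. -/
def GoodOn.homeo (hv : GoodOn v J) {s t : ℝ} (hs : s ∈ J) (ht : t ∈ J) : E ≃ₜ E where
  toFun := evol v J s t
  invFun := evol v J t s
  left_inv x := by rw [hv.evol_evol hs ht hs, hv.evol_self hs]
  right_inv x := by rw [hv.evol_evol ht hs ht, hv.evol_self ht]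
  continuous_toFun := hv.continuous_evol hs ht
  continuous_invFun := hv.continuous_evol ht hs

end Crest.Agent.R285
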