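import Mathlib
import Crest.Agent.R285.Evol

/-!
Row 285: Liouville's theorem, time dependent version.  If `∂ₜρ + div (ρ v) = 0` then the evolution
of `v` transports `ρ s • μ` to `ρ t • μ`.
-/

set_option autoImplicit false

open Set Filter Topology MeasureTheory

noncomputable section

namespace Crest.Agent.R285

variable {E : Type} [NormedAddCommGroup E] [NormedSpace ℝ E] [FiniteDimensional ℝ E]

/-- The divergence of a vector field (basis free). -/
def dvg (w : E → E) (x : E) : ℝ := LinearMap.trace ℝ E (fderiv ℝ w x : E →ₗ[ℝ] E)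

theorem trace_eq_sum_coord (L : E →L[ℝ] E) :
    LinearMap.trace ℝ E (L : E →ₗ[ℝ] E) =
      ∑ i, (Module.finBasis ℝ E).coord i (L (Module.finBasis ℝ E i)) := by
  rw [LinearMap.trace_eq_matrix_trace ℝ (Module.finBasis ℝ E), Matrix.trace]
  refine Finset.sum_congr rfl fun i _ => ?_
  rw [Matrix.diag_apply, LinearMap.toMatrix_apply]
  rfl

theorem trace_smulRight (l : E →L[ℝ] ℝ) (u : E) :
    LinearMap.trace ℝ E (l.smulRight u : E →ₗ[ℝ] E) = l u := by
  rw [trace_eq_sum_coord]
  have h : u = ∑ i, (Module.finBasis ℝ E).coord i u • Module.finBasis ℝ E i := by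
    simp
  calc ∑ i, (Module.finBasis ℝ E).coord i ((l.smulRight u) (Module.finBasis ℝ E i))
      = ∑ i, (Module.finBasis ℝ E).coord i u * l (Module.finBasis ℝ E i) := by
        refine Finset.sum_congr rfl fun i _ => ?_
        simp [mul_comm]
    _ = l (∑ i, (Module.finBasis ℝ E).coord i u • Module.finBasis ℝ E i) := by
        rw [map_sum]
        simp only [map_smul, smul_eq_mul]
    _ = l u := by rw [← h]

theorem dvg_smul {g : E → ℝ} {w : E → E} {x : E} (hg : DifferentiableAt ℝ g x)
    (hw : DifferentiableAt ℝ w x) :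
    dvg (fun y => g y • w y) x = fderiv ℝ g x (w x) + g x * dvg w x := by
  unfold dvg
  rw [fderiv_fun_smul hg hw]
  rw [show ((g x • fderiv ℝ w x + (fderiv ℝ g x).smulRight (w x) : E →L[ℝ] E) : E →ₗ[ℝ] E)
      = g x • (fderiv ℝ w x : E →ₗ[ℝ] E) + ((fderiv ℝ g x).smulRight (w x) : E →ₗ[ℝ] E) from rfl,
    map_add, map_smul, trace_smulRight, smul_eq_mul]
  ring

variable [MeasurableSpace E] [BorelSpace E] (μ : Measure E) [μ.IsAddHaarMeasure]

theorem integral_fderiv_eq_zero_of_compact {g : E → ℝ} (hg : ContDiff ℝ 1 g)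
    (hc : HasCompactSupport g) (u : E) : ∫ x, fderiv ℝ g x u ∂μ = 0 := by
  have h1 : Integrable (fun x => fderiv ℝ g x u) μ := by
    refine Continuous.integrable_of_hasCompactSupport ?_ ?_
    · exact (hg.continuous_fderiv one_ne_zero).clm_apply continuous_const
    · exact (hc.fderiv (𝕜 := ℝ)).comp_left (g := fun L : E →L[ℝ] ℝ => L u) rfl
  have h2 : Integrable g μ := hg.continuous.integrable_of_hasCompactSupport hc
  have := integral_mul_fderiv_eq_neg_fderiv_mul_of_integrable (μ := μ) (f := fun _ : E => (1 : ℝ))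
    (g := g) (v := u) (by simp) (by simpa using h1) (by simpa using h2)
    (fun x _ => differentiableAt_const _) (fun x _ => (hg.differentiable one_ne_zero) x)
  simpa using this

theorem integral_dvg_eq_zero {w : E → E} (hw : ContDiff ℝ 1 w) (hc : HasCompactSupport w) :
    ∫ x, dvg w x ∂μ = 0 := by
  let c : (i : Fin (Module.finrank ℝ E)) → E →L[ℝ] ℝ := fun i =>
    LinearMap.toContinuousLinearMap ((Module.finBasis ℝ E).coord i)
  have hci : ∀ i, ContDiff ℝ 1 (fun x => c i (w x)) := fun i => (c i).contDiff.comp hw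
  have hcc : ∀ i, HasCompactSupport (fun x => c i (w x)) := fun i =>
    hc.comp_left (g := fun y => c i y) (map_zero _)
  have h1 : ∀ x, dvg w x = ∑ i, fderiv ℝ (fun x => c i (w x)) x (Module.finBasis ℝ E i) := by
    intro x
    unfold dvg
    rw [trace_eq_sum_coord]
    refine Finset.sum_congr rfl fun i _ => ?_
    have h2 : HasFDerivAt (fun x => c i (w x)) ((c i).comp (fderiv ℝ w x)) x :=
      (c i).hasFDerivAt.comp x ((hw.differentiable one_ne_zero) x).hasFDerivAt
    rw [h2.fderiv]
    rfl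
  simp_rw [h1]
  rw [integral_finsetSum]
  · exact Finset.sum_eq_zero fun i _ => integral_fderiv_eq_zero_of_compact μ (hci i) (hcc i) _
  · intro i _
    refine Continuous.integrable_of_hasCompactSupport ?_ ?_
    · exact ((hci i).continuous_fderiv one_ne_zero).clm_apply continuous_const
    · exact ((hcc i).fderiv (𝕜 := ℝ)).comp_left
        (g := fun L : E →L[ℝ] ℝ => L (Module.finBasis ℝ E i)) rfl

variable {v : ℝ → E → E} {J : Set ℝ} {ρ : ℝ → E → ℝ}

omit [MeasurableSpace E] [BorelSpace E] in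
/-- Backward equation for the evolution. -/
theorem GoodOn.fderiv_evol_left (hv : GoodOn v J) {r t : ℝ} (hr : r ∈ J) (ht : t ∈ J) (x : E) :
    fderiv ℝ (fun p : ℝ × E => evol v J p.1 t p.2) (r, x) (1, v r x) = 0 := by
  have hopen : IsOpen (J ×ˢ (univ : Set E)) := hv.isOpen.prod isOpen_univ
  have hF : ContDiffOn ℝ 1 (fun p : ℝ × E => evol v J p.1 t p.2) (J ×ˢ univ) :=
    hv.contDiffOn_evol.comp (f := fun p : ℝ × E => (p.1, t, p.2)) (by fun_prop)
      (fun p hp => ⟨hp.1, ht, mem_univ _⟩)
  have hFd : HasFDerivAt (fun p : ℝ × E => evol v J p.1 t p.2)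
      (fderiv ℝ (fun p : ℝ × E => evol v J p.1 t p.2) (r, x)) (r, x) :=
    ((hF.differentiableOn one_ne_zero).differentiableAt
      (hopen.mem_nhds ⟨hr, mem_univ _⟩)).hasFDerivAt
  have hc : HasDerivAt (fun r' => ((r', evol v J r r' x) : ℝ × E)) (1, v r x) r := by
    have := (hasDerivAt_id r).prodMk (hv.hasDerivAt_evol hr hr x)
    rw [hv.evol_self hr] at this
    simpa using this
  have hFd' : HasFDerivAt (fun p : ℝ × E => evol v J p.1 t p.2)
      (fderiv ℝ (fun p : ℝ × E => evol v J p.1 t p.2) (r, x)) (r, evol v J r r x) := by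
    rw [hv.evol_self hr]; exact hFd
  have h1 := hFd'.comp_hasDerivAt r hc
  have h2 : (fun r' => evol v J r' t (evol v J r r' x)) =ᶠ[𝓝 r] fun _ => evol v J r t x := by
    filter_upwards [hv.isOpen.mem_nhds hr] with r' hr'
    exact hv.evol_evol hr hr' ht x
  have h3 : HasDerivAt (fun r' => evol v J r' t (evol v J r r' x)) 0 r :=
    (hasDerivAt_const r _).congr_of_eventuallyEq h2
  exact h1.unique h3

/-- Conservation of the test integrals. -/
theorem GoodOn.integral_evol (hv : GoodOn v J)
    (hρ : ContDiffOn ℝ 1 (fun p : ℝ × E => ρ p.1 p.2) (J ×ˢ univ))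
    (hcont : ∀ t ∈ J, ∀ x, fderiv ℝ (fun p : ℝ × E => ρ p.1 p.2) (t, x) (1, v t x)
      + ρ t x * dvg (v t) x = 0)
    {f : E → ℝ} (hf : ContDiff ℝ 1 f) (hfc : HasCompactSupport f) {s t : ℝ} (hs : s ∈ J)
    (ht : t ∈ J) :
    ∫ x, f (evol v J s t x) * ρ s x ∂μ = ∫ x, f x * ρ t x ∂μ := by
  have hopen : IsOpen (J ×ˢ (univ : Set E)) := hv.isOpen.prod isOpen_univ
  set F : ℝ × E → E := fun p => evol v J p.1 t p.2 with hFdef
  have hF : ContDiffOn ℝ 1 F (J ×ˢ univ) :=
    hv.contDiffOn_evol.comp (f := fun p : ℝ × E => (p.1, t, p.2)) (by fun_prop)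
      (fun p hp => ⟨hp.1, ht, mem_univ _⟩)
  set H : ℝ × E → ℝ := fun p => f (F p) * ρ p.1 p.2 with hHdef
  have hG : ContDiffOn ℝ 1 (fun p => f (F p)) (J ×ˢ univ) := hf.comp_contDiffOn hF
  have hH : ContDiffOn ℝ 1 H (J ×ˢ univ) := hG.mul hρ
  have hHd : ∀ r ∈ J, ∀ x, HasFDerivAt H (fderiv ℝ H (r, x)) (r, x) := fun r hr x =>
    ((hH.differentiableOn one_ne_zero).differentiableAt
      (hopen.mem_nhds ⟨hr, mem_univ _⟩)).hasFDerivAt
  have hH' : ContinuousOn (fun p => fderiv ℝ H p (1, 0)) (J ×ˢ univ) := by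
    have := hH.continuousOn_fderiv_of_isOpen hopen le_rfl
    exact this.clm_apply continuousOn_const
  -- slices
  have hslice : ∀ r ∈ J, ContDiff ℝ 1 (fun x => H (r, x)) := by
    intro r hr
    rw [← contDiffOn_univ]
    exact hH.comp (f := fun x : E => (r, x)) (by fun_prop) (fun x _ => ⟨hr, mem_univ _⟩)
  have hvslice : ∀ r ∈ J, ContDiff ℝ 1 (v r) := by
    intro r hr
    rw [← contDiffOn_univ]
    exact hv.contDiffOn.comp (f := fun x : E => (r, x)) (by fun_prop) (fun x _ => ⟨hr, mem_univ _⟩)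
  -- compact set containing the supports
  have hsupp : ∀ a ∈ J, ∀ b ∈ J, ∃ C : Set E, IsCompact C ∧ ∀ r ∈ Icc a b, ∀ x, x ∉ C →
      F (r, x) ∉ tsupport f := by
    intro a ha b hb
    refine ⟨(fun p : ℝ × E => evol v J t p.1 p.2) '' (Icc a b ×ˢ tsupport f), ?_, ?_⟩
    · refine (isCompact_Icc.prod hfc).image_of_continuousOn ?_
      exact hv.contDiffOn_evol.continuousOn.comp (f := fun p : ℝ × E => (t, p.1, p.2))
        (by fun_prop) (fun p hp => ⟨ht, hv.ordConn.out ha hb hp.1, mem_univ _⟩)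
    · intro r hr x hx hmem
      refine hx ⟨(r, F (r, x)), ⟨hr, hmem⟩, ?_⟩
      have hrJ := hv.ordConn.out ha hb hr
      simp only [hFdef]
      rw [hv.evol_evol hrJ ht hrJ, hv.evol_self hrJ]
  have hcsupp : ∀ r ∈ J, HasCompactSupport (fun x => H (r, x)) := by
    intro r hr
    obtain ⟨C, hC, hC'⟩ := hsupp r hr r hr
    refine HasCompactSupport.intro hC fun x hx => ?_
    have : f (F (r, x)) = 0 := image_eq_zero_of_notMem_tsupport (hC' r ⟨le_rfl, le_rfl⟩ x hx)
    simp [hHdef, this]
  -- the derivative of the integral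
  have hderiv : ∀ r ∈ J, HasDerivAt (fun r => ∫ x, H (r, x) ∂μ)
      (∫ x, fderiv ℝ H (r, x) (1, 0) ∂μ) r := by
    intro r hr
    obtain ⟨ε, hε, hball⟩ := Metric.isOpen_iff.1 hv.isOpen r hr
    have ha : r - ε / 2 ∈ J := hball (by
      rw [Metric.mem_ball, Real.dist_eq, show r - ε / 2 - r = -(ε / 2) by ring, abs_neg,
        abs_of_pos (by linarith)]
      linarith)
    have hb : r + ε / 2 ∈ J := hball (by
      rw [Metric.mem_ball, Real.dist_eq, show r + ε / 2 - r = ε / 2 by ring,
        abs_of_pos (by linarith)]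
      linarith)
    obtain ⟨C, hC, hC'⟩ := hsupp _ ha _ hb
    have hIJ : Icc (r - ε / 2) (r + ε / 2) ⊆ J := hv.ordConn.out ha hb
    obtain ⟨M, hM⟩ := ((isCompact_Icc (a := r - ε / 2) (b := r + ε / 2)).prod hC).bddAbove_image
      (f := fun p : ℝ × E => ‖fderiv ℝ H p (1, 0)‖)
      ((hH'.mono (fun p hp => ⟨hIJ hp.1, mem_univ _⟩)).norm)
    have hzero : ∀ r' ∈ Icc (r - ε / 2) (r + ε / 2), ∀ x, x ∉ C → fderiv ℝ H (r', x) = 0 := by
      intro r' hr' x hx
      have h1 : ∀ᶠ p in 𝓝 (r', x), F p ∉ tsupport f := by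
        have hcF : ContinuousAt F (r', x) :=
          hF.continuousOn.continuousAt (hopen.mem_nhds ⟨hIJ hr', mem_univ _⟩)
        exact hcF.eventually ((isClosed_tsupport f).isOpen_compl.mem_nhds (hC' r' hr' x hx))
      have h2 : H =ᶠ[𝓝 (r', x)] fun _ => 0 := by
        filter_upwards [h1] with p hp
        simp [hHdef, image_eq_zero_of_notMem_tsupport hp]
      rw [h2.fderiv_eq]
      simp
    have hs' : Ioo (r - ε / 2) (r + ε / 2) ∈ 𝓝 r := Ioo_mem_nhds (by linarith) (by linarith)
    refine (hasDerivAt_integral_of_dominated_loc_of_deriv_le (μ := μ)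
      (F := fun r x => H (r, x)) (F' := fun r x => fderiv ℝ H (r, x) (1, 0))
      (bound := C.indicator fun _ => M) hs' ?_ ?_ ?_ ?_ ?_ ?_).2
    · filter_upwards [hs'] with r' hr'
      exact (hslice r' (hIJ ⟨hr'.1.le, hr'.2.le⟩)).continuous.aestronglyMeasurable
    · exact (hslice r hr).continuous.integrable_of_hasCompactSupport (hcsupp r hr)
    · have : Continuous fun x => fderiv ℝ H (r, x) (1, 0) := by
        rw [← continuousOn_univ]
        exact hH'.comp (f := fun x : E => (r, x)) (by fun_prop) (fun x _ => ⟨hr, mem_univ _⟩)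
      exact this.aestronglyMeasurable
    · refine ae_of_all _ fun x r' hr' => ?_
      by_cases hx : x ∈ C
      · rw [indicator_of_mem hx]
        exact hM ⟨(r', x), ⟨⟨hr'.1.le, hr'.2.le⟩, hx⟩, rfl⟩
      · rw [indicator_of_notMem hx, hzero r' ⟨hr'.1.le, hr'.2.le⟩ x hx]
        simp
    · exact (integrable_indicator_iff hC.measurableSet).2
        (integrableOn_const hC.measure_lt_top.ne)
    · refine ae_of_all _ fun x r' hr' => ?_
      have hcurve : HasDerivAt (fun r : ℝ => ((r, x) : ℝ × E)) ((1 : ℝ), (0 : E)) r' :=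
        (hasDerivAt_id r').prodMk (hasDerivAt_const r' x)
      exact (hHd r' (hIJ ⟨hr'.1.le, hr'.2.le⟩) x).comp_hasDerivAt r' hcurve
  -- the derivative vanishes
  have hvan : ∀ r ∈ J, ∫ x, fderiv ℝ H (r, x) (1, 0) ∂μ = 0 := by
    intro r hr
    have hw : ContDiff ℝ 1 (fun x => H (r, x) • v r x) := (hslice r hr).smul (hvslice r hr)
    have hwc : HasCompactSupport (fun x => H (r, x) • v r x) := (hcsupp r hr).smul_right
    have key : ∀ x, fderiv ℝ H (r, x) (1, 0) = - dvg (fun x => H (r, x) • v r x) x := by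
      intro x
      have hd1 : HasFDerivAt (fun x => H (r, x))
          ((fderiv ℝ H (r, x)).comp (ContinuousLinearMap.inr ℝ ℝ E)) x := by
        have hi : HasFDerivAt (fun x : E => ((r, x) : ℝ × E)) (ContinuousLinearMap.inr ℝ ℝ E) x := by
          have h0 := (hasFDerivAt_const r x).prodMk (hasFDerivAt_id (𝕜 := ℝ) x)
          exact h0
        exact (hHd r hr x).comp x hi
      rw [dvg_smul hd1.differentiableAt ((hvslice r hr).differentiable one_ne_zero x), hd1.fderiv]
      -- the full derivative along (1, v)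
      have hGd : HasFDerivAt (fun p => f (F p)) ((fderiv ℝ f (F (r, x))).comp (fderiv ℝ F (r, x)))
          (r, x) := by
        have h1 : HasFDerivAt F (fderiv ℝ F (r, x)) (r, x) :=
          ((hF.differentiableOn one_ne_zero).differentiableAt
            (hopen.mem_nhds ⟨hr, mem_univ _⟩)).hasFDerivAt
        exact ((hf.differentiable one_ne_zero) _).hasFDerivAt.comp (r, x) h1
      have hρd : HasFDerivAt (fun p : ℝ × E => ρ p.1 p.2)
          (fderiv ℝ (fun p : ℝ × E => ρ p.1 p.2) (r, x)) (r, x) :=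
        ((hρ.differentiableOn one_ne_zero).differentiableAt
          (hopen.mem_nhds ⟨hr, mem_univ _⟩)).hasFDerivAt
      have hHd' := hGd.mul hρd
      have e1 : fderiv ℝ H (r, x) (1, v r x) = f (F (r, x)) *
          fderiv ℝ (fun p : ℝ × E => ρ p.1 p.2) (r, x) (1, v r x) := by
        have h5 : fderiv ℝ H (r, x) = _ := hHd'.fderiv
        rw [h5]
        have h6 := hv.fderiv_evol_left hr ht x
        simp only [_root_.add_apply, _root_.smul_apply,
          ContinuousLinearMap.comp_apply, smul_eq_mul]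
        have h7 : fderiv ℝ F (r, x) (1, v r x) = 0 := h6
        rw [h7]
        simp
      have e2 : fderiv ℝ H (r, x) (1, v r x) = fderiv ℝ H (r, x) (1, 0)
          + fderiv ℝ H (r, x) (0, v r x) := by
        rw [← map_add]; simp
      have e3 := hcont r hr x
      have e4 : H (r, x) = f (F (r, x)) * ρ r x := rfl
      simp only [ContinuousLinearMap.comp_apply, ContinuousLinearMap.inr_apply]
      rw [e4]
      have e5 : f (F (r, x)) * (fderiv ℝ (fun p : ℝ × E => ρ p.1 p.2) (r, x) (1, v r x)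
          + ρ r x * dvg (v r) x) = 0 := by rw [e3, mul_zero]
      linarith [e1, e2, e5]
    simp_rw [key]
    rw [integral_neg, integral_dvg_eq_zero μ hw hwc, neg_zero]
  have hconst : (fun r => ∫ x, H (r, x) ∂μ) s = (fun r => ∫ x, H (r, x) ∂μ) t := by
    have h1 := (convex_uIcc s t).norm_image_sub_le_of_norm_hasDerivWithin_le (C := 0)
      (f := fun r => ∫ x, H (r, x) ∂μ) (f' := fun r => ∫ x, fderiv ℝ H (r, x) (1, 0) ∂μ)
      (fun r hr => (hderiv r (hv.ordConn.uIcc_subset hs ht hr)).hasDerivWithinAt)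
      (fun r hr => by rw [hvan r (hv.ordConn.uIcc_subset hs ht hr)]; simp)
      right_mem_uIcc left_mem_uIcc
    rw [zero_mul, norm_le_zero_iff, sub_eq_zero] at h1
    exact h1
  simpa [hHdef, hFdef, hv.evol_self ht] using hconst

omit [NormedSpace ℝ E] [FiniteDimensional ℝ E] [MeasurableSpace E] [BorelSpace E] in
theorem pi_bounded_open : IsPiSystem {U : Set E | IsOpen U ∧ Bornology.IsBounded U} := by
  rintro U ⟨hU, hU'⟩ V ⟨hV, -⟩ -
  exact ⟨hU.inter hV, hU'.subset inter_subset_left⟩

omit μ in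
/-- Two measures which are finite on bounded sets and agree on `C¹` compactly supported
functions are equal. -/
theorem measure_ext_of_contDiff {ν₁ ν₂ : Measure E}
    (h₁ : ∀ U : Set E, Bornology.IsBounded U → ν₁ U ≠ ⊤)
    (h₂ : ∀ U : Set E, Bornology.IsBounded U → ν₂ U ≠ ⊤)
    (h : ∀ f : E → ℝ, ContDiff ℝ 1 f → HasCompactSupport f → ∫ x, f x ∂ν₁ = ∫ x, f x ∂ν₂) :
    ν₁ = ν₂ := by
  have key : ∀ U : Set E, IsOpen U → Bornology.IsBounded U → ν₁ U = ν₂ U := by
    intro U hU hU'
    obtain ⟨f, hfU, hf, hf01⟩ := hU.exists_contDiff_support_eq (n := 1)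
    have hf0 : ∀ x, 0 ≤ f x := fun x => (hf01 ⟨x, rfl⟩).1
    have hf1 : ∀ x, f x ≤ 1 := fun x => (hf01 ⟨x, rfl⟩).2
    set g : ℕ → E → ℝ := fun n x => 1 - (1 - f x) ^ n with hg
    have hgc : ∀ n, ContDiff ℝ 1 (g n) := fun n => by
      have : ContDiff ℝ 1 f := by exact_mod_cast hf
      exact contDiff_const.sub ((contDiff_const.sub this).pow n)
    have hgs : ∀ n x, x ∉ U → g n x = 0 := by
      intro n x hx
      have : f x = 0 := by
        by_contra h
        exact hx (hfU ▸ h)
      simp [hg, this]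
    have hgcs : ∀ n, HasCompactSupport (g n) := fun n =>
      HasCompactSupport.intro (K := closure U) hU'.isCompact_closure
        (fun x hx => hgs n x (fun h => hx (subset_closure h)))
    have hgb : ∀ n x, ‖g n x‖ ≤ U.indicator (fun _ => (1 : ℝ)) x := by
      intro n x
      by_cases hx : x ∈ U
      · rw [indicator_of_mem hx, Real.norm_eq_abs, abs_le]
        have h1 : 0 ≤ 1 - f x := by linarith [hf1 x]
        have h2 : (1 - f x) ^ n ≤ 1 := pow_le_one₀ h1 (by linarith [hf0 x])
        have h3 : 0 ≤ (1 - f x) ^ n := pow_nonneg h1 n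
        constructor <;> simp only [hg] <;> linarith
      · rw [indicator_of_notMem hx, hgs n x hx]; simp
    have hlim : ∀ x, Tendsto (fun n => g n x) atTop (𝓝 (U.indicator (fun _ => (1 : ℝ)) x)) := by
      intro x
      by_cases hx : x ∈ U
      · rw [indicator_of_mem hx]
        have hfx : f x ≠ 0 := by
          have : x ∈ Function.support f := by rw [hfU]; exact hx
          exact this
        have h1 : 0 < f x := lt_of_le_of_ne (hf0 x) (Ne.symm hfx)
        have h2 : Tendsto (fun n => (1 - f x) ^ n) atTop (𝓝 0) :=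
          tendsto_pow_atTop_nhds_zero_of_lt_one (by linarith [hf1 x]) (by linarith)
        simpa [hg] using h2.const_sub 1
      · rw [indicator_of_notMem hx]
        simp_rw [fun n => hgs n x hx]
        exact tendsto_const_nhds
    have hint : ∀ ν : Measure E, ν U ≠ ⊤ →
        Tendsto (fun n => ∫ x, g n x ∂ν) atTop (𝓝 ((ν U).toReal)) := by
      intro ν hν
      have h1 := tendsto_integral_of_dominated_convergence (μ := ν)
        (F := g) (f := U.indicator fun _ => (1 : ℝ)) (bound := U.indicator fun _ => (1 : ℝ))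
        (fun n => (hgc n).continuous.aestronglyMeasurable)
        ((integrable_indicator_iff hU.measurableSet).2 (integrableOn_const hν))
        (fun n => ae_of_all _ (hgb n)) (ae_of_all _ hlim)
      rwa [integral_indicator hU.measurableSet, setIntegral_const, smul_eq_mul, mul_one] at h1
    have e1 := hint ν₁ (h₁ U hU')
    have e2 := hint ν₂ (h₂ U hU')
    simp_rw [fun n => h (g n) (hgc n) (hgcs n)] at e1
    have e3 := tendsto_nhds_unique e1 e2
    exact (ENNReal.toReal_eq_toReal_iff' (h₁ U hU') (h₂ U hU')).1 e3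
  refine Measure.ext_of_generateFrom_of_iUnion {U : Set E | IsOpen U ∧ Bornology.IsBounded U}
    (fun n : ℕ => Metric.ball (0 : E) n) ?_ pi_bounded_open ?_ ?_ ?_ ?_
  · refine le_antisymm ?_ (MeasurableSpace.generateFrom_le fun U hU => hU.1.measurableSet)
    rw [BorelSpace.measurable_eq (α := E), borel]
    refine MeasurableSpace.generateFrom_le fun U hU => ?_
    have : U = ⋃ n : ℕ, (U ∩ Metric.ball (0 : E) n) := by
      rw [← inter_iUnion, Metric.iUnion_ball_nat, inter_univ]
    rw [this]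
    refine MeasurableSet.iUnion fun n => MeasurableSpace.measurableSet_generateFrom
      ⟨IsOpen.inter hU Metric.isOpen_ball, Metric.isBounded_ball.subset inter_subset_right⟩
  · exact Metric.iUnion_ball_nat 0
  · exact fun n => ⟨Metric.isOpen_ball, Metric.isBounded_ball⟩
  · exact fun n => h₁ _ Metric.isBounded_ball
  · exact fun U hU => key U hU.1 hU.2

/-- **Liouville**: transport of densities by the evolution. -/
theorem GoodOn.map_evol (hv : GoodOn v J)
    (hρ : ContDiffOn ℝ 1 (fun p : ℝ × E => ρ p.1 p.2) (J ×ˢ univ))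
    (hρ0 : ∀ t ∈ J, ∀ x, 0 ≤ ρ t x)
    (hcont : ∀ t ∈ J, ∀ x, fderiv ℝ (fun p : ℝ × E => ρ p.1 p.2) (t, x) (1, v t x)
      + ρ t x * dvg (v t) x = 0)
    {s t : ℝ} (hs : s ∈ J) (ht : t ∈ J) :
    (μ.withDensity fun x => ENNReal.ofReal (ρ s x)).map (evol v J s t)
      = μ.withDensity fun x => ENNReal.ofReal (ρ t x) := by
  have hρc : ∀ r ∈ J, Continuous (ρ r) := by
    intro r hr
    rw [← continuousOn_univ]
    exact hρ.continuousOn.comp (f := fun x : E => (r, x)) (by fun_prop)
      (fun x _ => ⟨hr, mem_univ _⟩)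
  have hfin : ∀ r ∈ J, ∀ U : Set E, Bornology.IsBounded U →
      (μ.withDensity fun x => ENNReal.ofReal (ρ r x)) U ≠ ⊤ := by
    intro r hr U hU
    have hK := hU.isCompact_closure
    refine ne_top_of_le_ne_top ?_ (measure_mono subset_closure)
    rw [withDensity_apply _ hK.measurableSet]
    have h1 : IntegrableOn (ρ r) (closure U) μ := (hρc r hr).continuousOn.integrableOn_compact hK
    exact (h1.lintegral_lt_top).ne
  have hcts := hv.continuous_evol hs ht
  refine measure_ext_of_contDiff ?_ ?_ ?_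
  · intro U hU
    have hK := hU.isCompact_closure
    refine ne_top_of_le_ne_top ?_ (measure_mono subset_closure)
    rw [Measure.map_apply hcts.measurable hK.measurableSet]
    have : IsCompact (evol v J s t ⁻¹' closure U) := by
      have := (hv.homeo hs ht).isCompact_preimage.2 hK
      exact this
    exact hfin s hs _ this.isBounded
  · exact fun U hU => hfin t ht U hU
  · intro f hf hfc
    rw [integral_map hcts.measurable.aemeasurable hf.continuous.aestronglyMeasurable]
    have e : ∀ r ∈ J, ∀ g : E → ℝ, ∫ x, g x ∂(μ.withDensity fun x => ENNReal.ofReal (ρ r x))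
        = ∫ x, g x * ρ r x ∂μ := by
      intro r hr g
      rw [integral_withDensity_eq_integral_toReal_smul
        ((hρc r hr).measurable.ennreal_ofReal) (ae_of_all _ fun x => ENNReal.ofReal_lt_top)]
      refine integral_congr_ae (ae_of_all _ fun x => ?_)
      simp only [ENNReal.toReal_ofReal (hρ0 r hr x), smul_eq_mul]
      ring
    rw [e s hs, e t ht]
    exact hv.integral_evol μ hρ hcont hf hfc hs ht

end Crest.Agent.R285
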