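import Mathlib
import Crest.Agent.R285.Avg
import Crest.Agent.R285.Liouville
import Crest.Agent.R285.Defs

/-!
Row 285: convex potentials `U` with curvature in `[0, h]`: elementary bounds.
-/

set_option autoImplicit false
set_option maxSynthPendingDepth 3
set_option linter.unusedSectionVars false

open MeasureTheory ProbabilityTheory Real Filter Topology Set
open scoped RealInnerProductSpace

noncomputable section

namespace Crest.Agent.R285

variable {V : Type} [NormedAddCommGroup V] [InnerProductSpace ℝ V]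

/-- A symmetric bilinear form with values between `0` and `h ‖v‖²`. -/
theorem bil_le {h : ℝ} (B : V →L[ℝ] V →L[ℝ] ℝ) (hs : ∀ v w, B v w = B w v)
    (lo : ∀ v, 0 ≤ B v v) (hi : ∀ v, B v v ≤ h * ‖v‖ ^ 2) (v w : V) :
    |B v w| ≤ h * ‖v‖ * ‖w‖ := by
  have key : ∀ v w, B v w ≤ h * ‖v‖ * ‖w‖ := by
    intro v w
    by_cases hv : v = 0
    · simp [hv]
    by_cases hw : w = 0
    · simp [hw]
    have hv' : 0 < ‖v‖ := norm_pos_iff.2 hv
    have hw' : 0 < ‖w‖ := norm_pos_iff.2 hw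
    have h1 := hi (‖w‖ • v + ‖v‖ • w)
    have h2 := lo (‖w‖ • v - ‖v‖ • w)
    have h3 : ‖‖w‖ • v + ‖v‖ • w‖ ≤ 2 * ‖v‖ * ‖w‖ := by
      refine (norm_add_le _ _).trans ?_
      rw [norm_smul, norm_smul, norm_norm, norm_norm]
      linarith
    have h0 : 0 ≤ h := by
      have := (lo v).trans (hi v)
      by_contra hneg
      push Not at hneg
      have : h * ‖v‖ ^ 2 < 0 := mul_neg_of_neg_of_pos hneg (by positivity)
      linarith
    have h4 : ‖‖w‖ • v + ‖v‖ • w‖ ^ 2 ≤ (2 * ‖v‖ * ‖w‖) ^ 2 := by gcongr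
    have h5 := mul_le_mul_of_nonneg_left h4 h0
    simp only [map_add, map_sub, map_smul, _root_.add_apply, _root_.sub_apply, _root_.smul_apply,
      smul_eq_mul] at h1 h2
    have h6 := hs v w
    have h7 : 0 < ‖v‖ * ‖w‖ := by positivity
    have h8 : (‖v‖ * ‖w‖) * B v w ≤ (‖v‖ * ‖w‖) * (h * ‖v‖ * ‖w‖) := by
      rw [← h6] at h1 h2
      nlinarith
    exact le_of_mul_le_mul_left h8 h7
  rw [abs_le]
  constructor
  · have := key (-v) w
    simp only [map_neg, _root_.neg_apply, norm_neg] at this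
    linarith
  · exact key v w

variable [FiniteDimensional ℝ V]

/-- `Pot` with nonnegative `h` (automatic unless `V = 0`). -/
structure PotP (h : ℝ) (U : V → ℝ) : Prop extends Pot h U where
  hh : 0 ≤ h

variable {h : ℝ} {U : V → ℝ}

theorem pot_symm (hU : PotP h U) (x v w : V) :
    fderiv ℝ (fderiv ℝ U) x v w = fderiv ℝ (fderiv ℝ U) x w v := by
  have := (hU.cd.contDiffAt (x := x)).isSymmSndFDerivAt (by simp)
  exact this v w

theorem pot_lo (hU : PotP h U) (x v : V) : 0 ≤ fderiv ℝ (fderiv ℝ U) x v v := by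
  have := hU.lo x v
  rwa [iteratedFDeriv_two_apply] at this

theorem pot_hi (hU : PotP h U) (x v : V) : fderiv ℝ (fderiv ℝ U) x v v ≤ h * ‖v‖ ^ 2 := by
  have := hU.hi x v
  rwa [iteratedFDeriv_two_apply] at this

theorem pot_d2_norm (hU : PotP h U) (x : V) : ‖fderiv ℝ (fderiv ℝ U) x‖ ≤ h := by
  refine ContinuousLinearMap.opNorm_le_bound _ hU.hh fun v => ?_
  refine ContinuousLinearMap.opNorm_le_bound _ (mul_nonneg hU.hh (norm_nonneg _)) fun w => ?_
  exact bil_le _ (pot_symm hU x) (pot_lo hU x) (pot_hi hU x) v w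

theorem pot_cd1 (hU : PotP h U) : ContDiff ℝ 1 (fderiv ℝ U) :=
  hU.cd.fderiv_right (by norm_num)

theorem pot_lip (hU : PotP h U) (x y : V) : ‖fderiv ℝ U x - fderiv ℝ U y‖ ≤ h * ‖x - y‖ :=
  convex_univ.norm_image_sub_le_of_norm_fderiv_le (𝕜 := ℝ)
    (fun z _ => (pot_cd1 hU).differentiable one_ne_zero z) (fun z _ => pot_d2_norm hU z)
    (mem_univ _) (mem_univ _)

theorem inner_gradient (f : V → ℝ) (x v : V) : ⟪gradient f x, v⟫ = fderiv ℝ f x v := by
  rw [gradient, InnerProductSpace.toDual_symm_apply]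

theorem pot_fderiv_zero (hU : PotP h U) : fderiv ℝ U 0 = 0 := by
  ext v
  rw [← inner_gradient, hU.grad0]
  simp

theorem pot_fderiv_le (hU : PotP h U) (x : V) : ‖fderiv ℝ U x‖ ≤ h * ‖x‖ := by
  have := pot_lip hU x 0
  simpa [pot_fderiv_zero hU] using this

theorem hasDerivAt_line (hU : PotP h U) (y v : V) (t : ℝ) :
    HasDerivAt (fun t : ℝ => U (y + t • v)) (fderiv ℝ U (y + t • v) v) t := by
  have h1 : HasDerivAt (fun t : ℝ => y + t • v) v t := by
    simpa using ((hasDerivAt_id t).smul_const v).const_add y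
  exact ((hU.cd.differentiable two_ne_zero) _).hasFDerivAt.comp_hasDerivAt t h1

theorem hasDerivAt_line' (hU : PotP h U) (y v : V) (t : ℝ) :
    HasDerivAt (fun t : ℝ => fderiv ℝ U (y + t • v) v) (fderiv ℝ (fderiv ℝ U) (y + t • v) v v) t := by
  have h1 : HasDerivAt (fun t : ℝ => y + t • v) v t := by
    simpa using ((hasDerivAt_id t).smul_const v).const_add y
  have h2 := (((pot_cd1 hU).differentiable one_ne_zero) (y + t • v)).hasFDerivAt.comp_hasDerivAt t h1
  exact h2.clm_apply (hasDerivAt_const t v) |>.congr_deriv (by simp)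

theorem quad_bounds {φ φ' φ'' : ℝ → ℝ} (h1 : ∀ t, HasDerivAt φ (φ' t) t)
    (h2 : ∀ t, HasDerivAt φ' (φ'' t) t) {a b : ℝ} (ha : ∀ t, a ≤ φ'' t) (hb : ∀ t, φ'' t ≤ b) :
    a ≤ φ' 1 - φ' 0 ∧ φ' 1 - φ' 0 ≤ b ∧ a / 2 ≤ φ 1 - φ 0 - φ' 0 ∧ φ 1 - φ 0 - φ' 0 ≤ b / 2 := by
  have hm1 : Monotone fun t => φ' t - a * t := by
    refine monotone_of_hasDerivAt_nonneg (f' := fun t => φ'' t - a) (fun t => ?_)
      (fun t => sub_nonneg.2 (ha t))
    simpa using (h2 t).fun_sub ((hasDerivAt_id t).const_mul a)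
  have hm2 : Monotone fun t => b * t - φ' t := by
    refine monotone_of_hasDerivAt_nonneg (f' := fun t => b - φ'' t) (fun t => ?_)
      (fun t => sub_nonneg.2 (hb t))
    simpa using ((hasDerivAt_id t).const_mul b).fun_sub (h2 t)
  have hq1 : MonotoneOn (fun t => φ t - φ' 0 * t - a / 2 * t ^ 2) (Icc 0 1) := by
    refine monotoneOn_of_hasDerivWithinAt_nonneg (convex_Icc 0 1)
      (f' := fun t => φ' t - φ' 0 - a * t) ?_ (fun t _ => ?_) (fun t ht => ?_)
    · intro t _
      exact (((h1 t).continuousAt).sub (by fun_prop)).sub (by fun_prop) |>.continuousWithinAt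
    · have h3 := ((h1 t).sub ((hasDerivAt_id t).const_mul (φ' 0))).sub
        (((hasDerivAt_id t).pow 2).const_mul (a / 2))
      refine HasDerivAt.hasDerivWithinAt (h3.congr_deriv ?_)
      simp
      ring
    · have h3 := hm1 (interior_subset ht).1
      simp only [mul_zero, sub_zero] at h3
      linarith
  have hq2 : MonotoneOn (fun t => b / 2 * t ^ 2 - (φ t - φ' 0 * t)) (Icc 0 1) := by
    refine monotoneOn_of_hasDerivWithinAt_nonneg (convex_Icc 0 1)
      (f' := fun t => b * t - (φ' t - φ' 0)) ?_ (fun t _ => ?_) (fun t ht => ?_)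
    · intro t _
      exact ContinuousAt.sub (by fun_prop) (((h1 t).continuousAt).sub (by fun_prop))
        |>.continuousWithinAt
    · have h3 := (((hasDerivAt_id t).pow 2).const_mul (b / 2)).sub
        ((h1 t).sub ((hasDerivAt_id t).const_mul (φ' 0)))
      refine HasDerivAt.hasDerivWithinAt (h3.congr_deriv ?_)
      simp
      ring
    · have h3 := hm2 (interior_subset ht).1
      simp only [mul_zero, zero_sub] at h3
      linarith
  have e1 := hm1 (zero_le_one (α := ℝ))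
  have e2 := hm2 (zero_le_one (α := ℝ))
  have e3 := hq1 (left_mem_Icc.2 zero_le_one) (right_mem_Icc.2 zero_le_one) (zero_le_one (α := ℝ))
  have e4 := hq2 (left_mem_Icc.2 zero_le_one) (right_mem_Icc.2 zero_le_one) (zero_le_one (α := ℝ))
  simp only [mul_zero, sub_zero, mul_one, one_pow, ne_eq, OfNat.ofNat_ne_zero, not_false_eq_true,
    zero_pow, zero_sub] at e1 e2 e3 e4
  refine ⟨by linarith, by linarith, by linarith, by linarith⟩

theorem pot_quad (hU : PotP h U) (y v : V) :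
    0 ≤ (fderiv ℝ U (y + v) - fderiv ℝ U y) v ∧ (fderiv ℝ U (y + v) - fderiv ℝ U y) v ≤ h * ‖v‖ ^ 2 ∧
    0 ≤ U (y + v) - U y - fderiv ℝ U y v ∧ U (y + v) - U y - fderiv ℝ U y v ≤ h * ‖v‖ ^ 2 / 2 := by
  have := quad_bounds (hasDerivAt_line hU y v) (hasDerivAt_line' hU y v)
    (fun t => pot_lo hU (y + t • v) v) (fun t => pot_hi hU (y + t • v) v)
  simpa using this

theorem pot_nonneg (hU : PotP h U) (x : V) : 0 ≤ U x := by
  have := (pot_quad hU 0 x).2.2.1
  simpa [pot_fderiv_zero hU, hU.zero] using this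

theorem pot_le (hU : PotP h U) (x : V) : U x ≤ h * ‖x‖ ^ 2 / 2 := by
  have := (pot_quad hU 0 x).2.2.2
  simpa [pot_fderiv_zero hU, hU.zero] using this

theorem pot_convex (hU : PotP h U) : ConvexOn ℝ univ U := by
  refine ⟨convex_univ, fun x _ y _ a b ha hb hab => ?_⟩
  set m := a • x + b • y with hm
  have h1 := (pot_quad hU m (x - m)).2.2.1
  have h2 := (pot_quad hU m (y - m)).2.2.1
  rw [add_sub_cancel] at h1 h2
  have h3 : a • (x - m) + b • (y - m) = 0 := by
    rw [smul_sub, smul_sub, sub_add_sub_comm, ← hm, ← add_smul, hab, one_smul, sub_self]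
  have h4 : a * fderiv ℝ U m (x - m) + b * fderiv ℝ U m (y - m) = 0 := by
    have := congrArg (fderiv ℝ U m) h3
    simpa using this
  have h5 := mul_nonneg ha h1
  have h6 := mul_nonneg hb h2
  simp only [smul_eq_mul]
  have h7 : a * U m + b * U m = U m := by rw [← add_mul, hab, one_mul]
  nlinarith

/-! ### `exp (-U)` -/

/-- `exp (-U)`. -/
def Ph (U : V → ℝ) (y : V) : ℝ := rexp (-U y)

theorem ph_pos (U : V → ℝ) (y : V) : 0 < Ph U y := exp_pos _

theorem ph_le_one (hU : PotP h U) (y : V) : Ph U y ≤ 1 := by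
  unfold Ph
  have := pot_nonneg hU y
  exact exp_le_one_iff.2 (by linarith)

theorem ph_cd (hU : PotP h U) : ContDiff ℝ 2 (Ph U) := hU.cd.neg.exp

theorem hasFDerivAt_ph (hU : PotP h U) (y : V) :
    HasFDerivAt (Ph U) (-(Ph U y • fderiv ℝ U y)) y := by
  have h1 := (((hU.cd.differentiable two_ne_zero) y).hasFDerivAt).neg.exp
  rwa [smul_neg] at h1

theorem fderiv_ph (hU : PotP h U) : fderiv ℝ (Ph U) = fun y => -(Ph U y • fderiv ℝ U y) :=
  funext fun y => (hasFDerivAt_ph hU y).fderiv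

theorem ph_cd1 (hU : PotP h U) : ContDiff ℝ 1 (fderiv ℝ (Ph U)) :=
  (ph_cd hU).fderiv_right (by norm_num)

/-- The second derivative of `exp (-U)`. -/
theorem fderiv2_ph (hU : PotP h U) (y : V) : fderiv ℝ (fderiv ℝ (Ph U)) y =
    Ph U y • ((fderiv ℝ U y).smulRight (fderiv ℝ U y) - fderiv ℝ (fderiv ℝ U) y) := by
  have h1 := (((hasFDerivAt_ph hU y).smul
    (((pot_cd1 hU).differentiable one_ne_zero) y).hasFDerivAt)).neg
  rw [fderiv_ph hU]
  refine h1.fderiv.trans ?_
  ext v w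
  simp
  ring

theorem ph_d1_le (hU : PotP h U) (y : V) : ‖fderiv ℝ (Ph U) y‖ ≤ h * ‖y‖ := by
  rw [fderiv_ph hU, norm_neg, norm_smul, Real.norm_of_nonneg (ph_pos U y).le]
  have h1 := ph_le_one hU y
  have h2 := pot_fderiv_le hU y
  calc Ph U y * ‖fderiv ℝ U y‖ ≤ 1 * (h * ‖y‖) :=
        mul_le_mul h1 h2 (norm_nonneg _) zero_le_one
    _ = _ := one_mul _

theorem ph_d2_le (hU : PotP h U) (y : V) :
    ‖fderiv ℝ (fderiv ℝ (Ph U)) y‖ ≤ h ^ 2 * ‖y‖ ^ 2 + h := by
  rw [fderiv2_ph hU, norm_smul, Real.norm_of_nonneg (ph_pos U y).le]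
  have h1 := ph_le_one hU y
  have h2 := pot_fderiv_le hU y
  have h3 : ‖(fderiv ℝ U y).smulRight (fderiv ℝ U y) - fderiv ℝ (fderiv ℝ U) y‖ ≤
      h ^ 2 * ‖y‖ ^ 2 + h := by
    refine (norm_sub_le _ _).trans ?_
    rw [ContinuousLinearMap.norm_smulRight_apply]
    refine add_le_add ?_ (pot_d2_norm hU y)
    calc ‖fderiv ℝ U y‖ * ‖fderiv ℝ U y‖ ≤ (h * ‖y‖) * (h * ‖y‖) :=
          mul_le_mul h2 h2 (norm_nonneg _) (mul_nonneg hU.hh (norm_nonneg _))
      _ = _ := by ring
  calc Ph U y * _ ≤ 1 * (h ^ 2 * ‖y‖ ^ 2 + h) :=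
        mul_le_mul h1 h3 (norm_nonneg _) zero_le_one
    _ = _ := one_mul _

end Crest.Agent.R285
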