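import Mathlib
import Crest.Agent.R285.Pot

/-!
Row 285: the smoothed potential `Ub U σ x = -log ∫ exp (-U (x + σ g)) dγ(g)`, joint `C¹`
regularity, heat equation and Hamilton–Jacobi equation.
-/

set_option autoImplicit false
set_option maxSynthPendingDepth 3
set_option linter.unusedSectionVars false

open MeasureTheory ProbabilityTheory Real Filter Topology Set
open scoped RealInnerProductSpace

noncomputable section

namespace Crest.Agent.R285

variable {V : Type} [NormedAddCommGroup V] [InnerProductSpace ℝ V] [FiniteDimensional ℝ V]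

/-! ### Riesz map and Laplacian in the standard orthonormal basis -/

/-- Riesz map. -/
def rz (V : Type) [NormedAddCommGroup V] [InnerProductSpace ℝ V] [FiniteDimensional ℝ V] :
    (V →L[ℝ] ℝ) →L[ℝ] V :=
  ∑ i, (ContinuousLinearMap.apply ℝ ℝ (stdOrthonormalBasis ℝ V i)).smulRight
    (stdOrthonormalBasis ℝ V i)

theorem rz_apply (l : V →L[ℝ] ℝ) :
    rz V l = ∑ i, l (stdOrthonormalBasis ℝ V i) • stdOrthonormalBasis ℝ V i := by
  simp [rz]

@[simp] theorem inner_rz (l : V →L[ℝ] ℝ) (v : V) : ⟪rz V l, v⟫ = l v := by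
  rw [rz_apply, sum_inner]
  simp_rw [inner_smul_left]
  conv_rhs => rw [← (stdOrthonormalBasis ℝ V).sum_repr' v, map_sum]
  refine Finset.sum_congr rfl fun i _ => ?_
  simp [mul_comm]

@[simp] theorem inner_rz' (l : V →L[ℝ] ℝ) (v : V) : ⟪v, rz V l⟫ = l v := by
  rw [real_inner_comm, inner_rz]

theorem gradient_eq_rz (f : V → ℝ) (x : V) : gradient f x = rz V (fderiv ℝ f x) := by
  refine ext_inner_right ℝ fun v => ?_
  rw [inner_gradient, inner_rz]

theorem rz_norm_sq (l : V →L[ℝ] ℝ) : ‖rz V l‖ ^ 2 = l (rz V l) := by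
  rw [← inner_rz, real_inner_self_eq_norm_sq]

theorem norm_rz (l : V →L[ℝ] ℝ) : ‖rz V l‖ = ‖l‖ := by
  apply le_antisymm
  · have h1 := rz_norm_sq l
    have h2 : l (rz V l) ≤ ‖l‖ * ‖rz V l‖ := (le_abs_self _).trans (l.le_opNorm _)
    rcases eq_or_lt_of_le (norm_nonneg (rz V l)) with h | h
    · rw [← h]; exact norm_nonneg _
    · nlinarith
  · refine ContinuousLinearMap.opNorm_le_bound _ (norm_nonneg _) fun v => ?_
    rw [← inner_rz]
    exact norm_inner_le_norm _ _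

/-- Trace of a bilinear form. -/
def lap (V : Type) [NormedAddCommGroup V] [InnerProductSpace ℝ V] [FiniteDimensional ℝ V] :
    (V →L[ℝ] V →L[ℝ] ℝ) →L[ℝ] ℝ :=
  ∑ i, (ContinuousLinearMap.apply ℝ ℝ (stdOrthonormalBasis ℝ V i)).comp
    (ContinuousLinearMap.apply ℝ (V →L[ℝ] ℝ) (stdOrthonormalBasis ℝ V i))

theorem lap_apply (B : V →L[ℝ] V →L[ℝ] ℝ) :
    lap V B = ∑ i, B (stdOrthonormalBasis ℝ V i) (stdOrthonormalBasis ℝ V i) := by
  simp [lap]

theorem trace_eq_sum_inner' (L : V →L[ℝ] V) :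
    LinearMap.trace ℝ V (L : V →ₗ[ℝ] V) =
      ∑ i, ⟪stdOrthonormalBasis ℝ V i, L (stdOrthonormalBasis ℝ V i)⟫ :=
  LinearMap.trace_eq_sum_inner (L : V →ₗ[ℝ] V) (stdOrthonormalBasis ℝ V)

theorem trace_rz_comp (B : V →L[ℝ] V →L[ℝ] ℝ) :
    LinearMap.trace ℝ V (((rz V).comp B : V →L[ℝ] V) : V →ₗ[ℝ] V) = lap V B := by
  rw [trace_eq_sum_inner', lap_apply]
  refine Finset.sum_congr rfl fun i _ => ?_
  rw [ContinuousLinearMap.comp_apply, inner_rz']

theorem lap_smulRight (l : V →L[ℝ] ℝ) : lap V (l.smulRight l) = ‖rz V l‖ ^ 2 := by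
  rw [lap_apply, rz_norm_sq, rz_apply, map_sum]
  refine Finset.sum_congr rfl fun i _ => ?_
  simp

theorem dvg_rz {Ψ : V → V →L[ℝ] ℝ} {x : V} (h : DifferentiableAt ℝ Ψ x) :
    dvg (fun y => rz V (Ψ y)) x = lap V (fderiv ℝ Ψ x) := by
  unfold dvg
  have h1 : HasFDerivAt (fun y => rz V (Ψ y)) ((rz V).comp (fderiv ℝ Ψ x)) x :=
    (rz V).hasFDerivAt.comp x h.hasFDerivAt
  rw [h1.fderiv]
  exact trace_rz_comp _

variable [MeasurableSpace V] [BorelSpace V]

/-! ### Partial derivatives of averages -/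

section

variable {H : Type} [NormedAddCommGroup H] [NormedSpace ℝ H]

/-- Gaussian growth of order `C¹`. -/
structure GG (C h : ℝ) (Φ : V → H) : Prop where
  cd : ContDiff ℝ 1 Φ
  hC : 0 ≤ C
  hh : 0 ≤ h
  b0 : ∀ y, ‖Φ y‖ ≤ C * rexp (C * ‖y‖ + h * ‖y‖ ^ 2 / 2)
  b1 : ∀ y, ‖fderiv ℝ Φ y‖ ≤ C * rexp (C * ‖y‖ + h * ‖y‖ ^ 2 / 2)

variable {C h : ℝ} {Φ : V → H}

theorem GG.integrable_fderiv (hΦ : GG C h Φ) {p : ℝ × V} (hp : p ∈ adm V h) :
    Integrable (fun g => (fderiv ℝ Φ (p.2 + p.1 • g)).comp (dirMap g)) (stdGaussian V) := by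
  refine integrable_avg_gen (Ψ := fun y g => (fderiv ℝ Φ y).comp (dirMap g)) ?_ hΦ.hC hΦ.hh
    (k := 1) ?_ hp
  · exact ((hΦ.cd.continuous_fderiv one_ne_zero).comp continuous_fst).clm_comp
      (continuous_dirMap.comp continuous_snd)
  · intro y g
    refine (ContinuousLinearMap.opNorm_comp_le _ _).trans ?_
    rw [mul_comm, pow_one]
    exact mul_le_mul (norm_dirMap_le g) (hΦ.b1 _) (norm_nonneg _) (by positivity)

theorem GG.hasFDerivAt_x [CompleteSpace H] (hΦ : GG C h Φ) {σ : ℝ} {x : V} (hp : (σ, x) ∈ adm V h) :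
    HasFDerivAt (fun x => avg Φ (σ, x)) (avg (fderiv ℝ Φ) (σ, x)) x := by
  have h1 := hasFDerivAt_avg hΦ.cd hΦ.hC hΦ.hh hΦ.b0 hΦ.b1 hp
  have h2 : HasFDerivAt (fun x : V => ((σ, x) : ℝ × V)) (ContinuousLinearMap.inr ℝ ℝ V) x := by
    have h0 := (hasFDerivAt_const (𝕜 := ℝ) σ x).prodMk (hasFDerivAt_id (𝕜 := ℝ) x)
    exact h0
  have h3 : HasFDerivAt (fun x => avg Φ (σ, x)) _ x := h1.comp x h2
  refine h3.congr_fderiv ?_
  ext v
  rw [ContinuousLinearMap.comp_apply, ContinuousLinearMap.inr_apply,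
    ContinuousLinearMap.integral_apply (hΦ.integrable_fderiv hp), avg,
    ContinuousLinearMap.integral_apply]
  · refine integral_congr_ae (ae_of_all _ fun g => ?_)
    simp
  · refine integrable_avg_gen (Ψ := fun y _ => fderiv ℝ Φ y) ?_ hΦ.hC hΦ.hh (k := 0) ?_ hp
    · exact (hΦ.cd.continuous_fderiv one_ne_zero).comp continuous_fst
    · intro y g
      simpa using hΦ.b1 y

theorem GG.hasDerivAt_σ [CompleteSpace H] (hΦ : GG C h Φ) {σ : ℝ} {x : V} (hp : (σ, x) ∈ adm V h) :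
    HasDerivAt (fun σ => avg Φ (σ, x)) (∫ g, fderiv ℝ Φ (x + σ • g) g ∂(stdGaussian V)) σ := by
  have h1 := hasFDerivAt_avg hΦ.cd hΦ.hC hΦ.hh hΦ.b0 hΦ.b1 hp
  have h2 : HasDerivAt (fun σ : ℝ => ((σ, x) : ℝ × V)) ((1 : ℝ), (0 : V)) σ :=
    (hasDerivAt_id σ).prodMk (hasDerivAt_const σ x)
  have h3 := h1.comp_hasDerivAt σ h2
  refine HasDerivAt.congr_deriv (f := fun σ => avg Φ (σ, x)) h3 ?_
  rw [ContinuousLinearMap.integral_apply (hΦ.integrable_fderiv hp)]
  refine integral_congr_ae (ae_of_all _ fun g => ?_)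
  simp

end

/-! ### Gaussian integration by parts -/

theorem integral_dvg_eq_zero_of_integrable (μ : Measure V) [μ.IsAddHaarMeasure] {w : V → V}
    (hw : ContDiff ℝ 1 w) (hi : Integrable w μ) (hi' : Integrable (fderiv ℝ w) μ) :
    ∫ x, dvg w x ∂μ = 0 := by
  set e := stdOrthonormalBasis ℝ V
  have h1 : ∀ x, dvg w x = ∑ i, ⟪e i, fderiv ℝ w x (e i)⟫ := fun x => trace_eq_sum_inner' _
  simp_rw [h1]
  have hI : ∀ i, Integrable (fun x => ⟪e i, fderiv ℝ w x (e i)⟫) μ := fun i =>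
    (hi'.apply_continuousLinearMap (e i)).const_inner (e i)
  rw [integral_finsetSum _ fun i _ => hI i]
  refine Finset.sum_eq_zero fun i _ => ?_
  have hd : ∀ x, HasFDerivAt (fun x => ⟪e i, w x⟫) ((innerSL ℝ (e i)).comp (fderiv ℝ w x)) x :=
    fun x => (innerSL ℝ (e i)).hasFDerivAt.comp x ((hw.differentiable one_ne_zero) x).hasFDerivAt
  have h2 := integral_mul_fderiv_eq_neg_fderiv_mul_of_integrable (μ := μ) (f := fun _ : V => (1 : ℝ))
    (g := fun x => ⟪e i, w x⟫) (v := e i) (by simp) ?_ ?_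
    (fun x _ => differentiableAt_const _) (fun x _ => (hd x).differentiableAt)
  · simp_rw [(hd _).fderiv] at h2
    simpa using h2
  · simp_rw [(hd _).fderiv]
    simpa using hI i
  · simpa using hi.const_inner (e i)

theorem hasFDerivAt_gdens (g : V) : HasFDerivAt (gdens (V := V)) (-(gdens g • innerSL ℝ g)) g := by
  have h1 : HasFDerivAt (fun g : V => -‖g‖ ^ 2 / 2) (-(innerSL ℝ g)) g := by
    have h2 := ((hasStrictFDerivAt_norm_sq g).hasFDerivAt.neg).mul_const (2 : ℝ)⁻¹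
    refine (h2.congr_fderiv ?_).congr_of_eventuallyEq (Eventually.of_forall fun x => ?_)
    · ext v
      simp
    · simp only [Pi.neg_apply]
      ring
  have h3 := h1.exp.const_mul ((2 * π) ^ (-(Module.finrank ℝ V : ℝ) / 2))
  refine h3.congr_fderiv ?_
  ext v
  simp [gdens]
  ring

theorem contDiff_gdens {n : WithTop ℕ∞} : ContDiff ℝ n (gdens (V := V)) := by
  unfold gdens
  refine contDiff_const.mul (ContDiff.exp ?_)
  exact ((contDiff_norm_sq ℝ).neg).div_const _

/-- Stein identity. -/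
theorem stein {F : V → V} (hF : ContDiff ℝ 1 F)
    (h0 : Integrable (fun g => F g) (stdGaussian V))
    (h1 : Integrable (fun g => ‖g‖ * ‖F g‖) (stdGaussian V))
    (h2 : Integrable (fun g => fderiv ℝ F g) (stdGaussian V)) :
    ∫ g, ⟪g, F g⟫ ∂(stdGaussian V) = ∫ g, dvg F g ∂(stdGaussian V) := by
  set w : V → V := fun g => gdens g • F g with hw
  have hwc : ContDiff ℝ 1 w := contDiff_gdens.smul hF
  have hd : ∀ g, HasFDerivAt w (gdens g • fderiv ℝ F g + (-(gdens g • innerSL ℝ g)).smulRight (F g)) g :=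
    fun g => (hasFDerivAt_gdens g).smul ((hF.differentiable one_ne_zero) g).hasFDerivAt
  have hdv : ∀ g, dvg w g = gdens g * dvg F g - gdens g * ⟪g, F g⟫ := by
    intro g
    rw [hw, dvg_smul (hasFDerivAt_gdens g).differentiableAt ((hF.differentiable one_ne_zero) g),
      (hasFDerivAt_gdens g).fderiv]
    simp
    ring
  have hA : Integrable (fun g => gdens g • F g) := (integrable_stdGaussian_iff _).1 h0
  have hB : Integrable (fun g => gdens g • (‖g‖ * ‖F g‖)) := (integrable_stdGaussian_iff _).1 h1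
  have hC : Integrable (fun g => gdens g • fderiv ℝ F g) := (integrable_stdGaussian_iff _).1 h2
  have hw' : Integrable (fderiv ℝ w) := by
    have : fderiv ℝ w = fun g => gdens g • fderiv ℝ F g +
        (-(gdens g • innerSL ℝ g)).smulRight (F g) := funext fun g => (hd g).fderiv
    rw [this]
    refine hC.add ?_
    refine hB.mono' ?_ (ae_of_all _ fun g => ?_)
    · refine Continuous.aestronglyMeasurable ?_
      have hc : Continuous fun p : (V →L[ℝ] ℝ) × V => p.1.smulRight p.2 := by fun_prop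
      refine hc.comp ((Continuous.neg (continuous_gdens.smul (innerSL ℝ).continuous)).prodMk
        hF.continuous)
    · rw [ContinuousLinearMap.norm_smulRight_apply, norm_neg, norm_smul,
        Real.norm_of_nonneg (gdens_pos g).le, innerSL_apply_norm, smul_eq_mul]
      exact le_of_eq (by ring)
  have hz := integral_dvg_eq_zero_of_integrable (volume : Measure V) hwc hA hw'
  simp_rw [hdv] at hz
  have hI1 : Integrable (fun g => gdens g * dvg F g) := by
    have h3 : Continuous fun L : V →L[ℝ] V => LinearMap.trace ℝ V (L : V →ₗ[ℝ] V) := by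
      simp_rw [trace_eq_sum_inner']
      fun_prop
    let T : (V →L[ℝ] V) →L[ℝ] ℝ :=
      ∑ i, (innerSL ℝ (stdOrthonormalBasis ℝ V i)).comp
        (ContinuousLinearMap.apply ℝ V (stdOrthonormalBasis ℝ V i))
    have hT : ∀ L, T L = LinearMap.trace ℝ V (L : V →ₗ[ℝ] V) := by
      intro L
      rw [trace_eq_sum_inner']
      simp [T]
    refine (T.integrable_comp hC).congr (ae_of_all _ fun g => ?_)
    change T (gdens g • fderiv ℝ F g) = _
    rw [map_smul, hT]
    rfl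
  have hI2 : Integrable (fun g => gdens g * ⟪g, F g⟫) := by
    refine hB.mono' ?_ (ae_of_all _ fun g => ?_)
    · exact (continuous_gdens.mul (continuous_id.inner hF.continuous)).aestronglyMeasurable
    · rw [norm_mul, Real.norm_of_nonneg (gdens_pos g).le, smul_eq_mul]
      exact mul_le_mul_of_nonneg_left (norm_inner_le_norm _ _) (gdens_pos g).le
  rw [integral_sub hI1 hI2, sub_eq_zero] at hz
  rw [integral_stdGaussian, integral_stdGaussian]
  simp only [smul_eq_mul]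
  exact hz.symm

/-! ### The partition function -/

variable {h : ℝ} {U : V → ℝ}

/-- Growth constant. -/
def gC (h : ℝ) : ℝ := 2 * (h + h ^ 2 + 1) * rexp 1

theorem gC_pos (hh : 0 ≤ h) : 1 ≤ gC h := by
  unfold gC
  have : 1 ≤ rexp 1 := one_le_exp zero_le_one
  nlinarith [sq_nonneg h]

theorem le_gC {C : ℝ} (hh : 0 ≤ h) {y : ℝ} (hy : 0 ≤ y) (hC : C ≤ h ^ 2 * y ^ 2 + h * y + h + 1) :
    C ≤ gC h * rexp (gC h * y + 0 * y ^ 2 / 2) := by
  have h1 : (1 + y) ^ 2 ≤ 2 * rexp (1 + y) := by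
    have := pow_le_exp_mul hy 2
    simpa using this
  have h2 : C ≤ (h + h ^ 2 + 1) * (1 + y) ^ 2 := by
    refine hC.trans ?_
    have : 0 ≤ h ^ 2 := sq_nonneg h
    nlinarith [mul_nonneg hh hy, mul_nonneg this hy, mul_nonneg hh (sq_nonneg y), sq_nonneg y]
  have h3 : rexp (1 + y) ≤ rexp 1 * rexp (gC h * y + 0 * y ^ 2 / 2) := by
    rw [← exp_add]
    refine exp_le_exp.2 ?_
    nlinarith [mul_le_mul_of_nonneg_right (gC_pos hh) hy]
  calc C ≤ (h + h ^ 2 + 1) * (2 * (rexp 1 * rexp (gC h * y + 0 * y ^ 2 / 2))) := by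
        refine h2.trans (mul_le_mul_of_nonneg_left (h1.trans ?_) (by positivity))
        linarith
    _ = _ := by unfold gC; ring

theorem gg_ph (hU : PotP h U) : GG (gC h) 0 (Ph U) where
  cd := (ph_cd hU).of_le (by norm_num)
  hC := zero_le_one.trans (gC_pos hU.hh)
  hh := le_rfl
  b0 := fun y => le_gC hU.hh (norm_nonneg y) (by
    rw [Real.norm_of_nonneg (ph_pos U y).le]
    have h1 := ph_le_one hU y
    have := hU.hh
    have h3 := norm_nonneg y
    have : 0 ≤ h ^ 2 * ‖y‖ ^ 2 + h * ‖y‖ + h := by positivity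
    linarith)
  b1 := fun y => le_gC hU.hh (norm_nonneg y) (by
    have h1 := ph_d1_le hU y
    have := hU.hh
    have : 0 ≤ h ^ 2 * ‖y‖ ^ 2 + h := by positivity
    linarith)

theorem gg_ph' (hU : PotP h U) : GG (gC h) 0 (fderiv ℝ (Ph U)) where
  cd := ph_cd1 hU
  hC := zero_le_one.trans (gC_pos hU.hh)
  hh := le_rfl
  b0 := (gg_ph hU).b1
  b1 := fun y => le_gC hU.hh (norm_nonneg y) (by
    have h1 := ph_d2_le hU y
    have := hU.hh
    have h3 := norm_nonneg y
    have : 0 ≤ h * ‖y‖ := by positivity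
    linarith)

theorem mem_adm_zero (p : ℝ × V) : p ∈ adm V 0 := by simp [adm]

theorem adm_zero : adm V 0 = univ := eq_univ_of_forall mem_adm_zero

/-- The partition function. -/
def Zp (U : V → ℝ) (p : ℝ × V) : ℝ := avg (Ph U) p

/-- Its gradient in `x`. -/
def Zp1 (U : V → ℝ) (p : ℝ × V) : V →L[ℝ] ℝ := avg (fderiv ℝ (Ph U)) p

/-- Its Hessian in `x`. -/
def Zp2 (U : V → ℝ) (p : ℝ × V) : V →L[ℝ] V →L[ℝ] ℝ := avg (fderiv ℝ (fderiv ℝ (Ph U))) p

theorem contDiff_zp (hU : PotP h U) : ContDiff ℝ 1 (Zp U) := by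
  have h1 := contDiffOn_avg (gg_ph hU).cd (gg_ph hU).hC le_rfl (gg_ph hU).b0 (gg_ph hU).b1
  rw [adm_zero, contDiffOn_univ] at h1
  exact h1

theorem contDiff_zp1 (hU : PotP h U) : ContDiff ℝ 1 (Zp1 U) := by
  have h1 := contDiffOn_avg (gg_ph' hU).cd (gg_ph' hU).hC le_rfl (gg_ph' hU).b0 (gg_ph' hU).b1
  rw [adm_zero, contDiffOn_univ] at h1
  exact h1

theorem integrable_ph (hU : PotP h U) (p : ℝ × V) :
    Integrable (fun g => Ph U (p.2 + p.1 • g)) (stdGaussian V) := by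
  refine integrable_avg_gen (Ψ := fun y _ => Ph U y) ?_ (gg_ph hU).hC le_rfl (k := 0) ?_
    (mem_adm_zero p)
  · exact (ph_cd hU).continuous.comp continuous_fst
  · intro y g
    simpa using (gg_ph hU).b0 y

theorem integrable_ph1 (hU : PotP h U) (p : ℝ × V) :
    Integrable (fun g => fderiv ℝ (Ph U) (p.2 + p.1 • g)) (stdGaussian V) := by
  refine integrable_avg_gen (Ψ := fun y _ => fderiv ℝ (Ph U) y) ?_ (gg_ph hU).hC le_rfl (k := 0) ?_
    (mem_adm_zero p)
  · exact (ph_cd1 hU).continuous.comp continuous_fst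
  · intro y g
    simpa using (gg_ph hU).b1 y

theorem integrable_ph2 (hU : PotP h U) (p : ℝ × V) :
    Integrable (fun g => fderiv ℝ (fderiv ℝ (Ph U)) (p.2 + p.1 • g)) (stdGaussian V) := by
  refine integrable_avg_gen (Ψ := fun y _ => fderiv ℝ (fderiv ℝ (Ph U)) y) ?_ (gg_ph hU).hC
    le_rfl (k := 0) ?_ (mem_adm_zero p)
  · exact ((ph_cd1 hU).continuous_fderiv one_ne_zero).comp continuous_fst
  · intro y g
    simpa using (gg_ph' hU).b1 y

theorem zp_pos (hU : PotP h U) (p : ℝ × V) : 0 < Zp U p := by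
  have : NeZero (stdGaussian V) := ⟨IsProbabilityMeasure.ne_zero _⟩
  exact integral_exp_pos (integrable_ph hU p)

theorem zp_le_one (hU : PotP h U) (p : ℝ × V) : Zp U p ≤ 1 := by
  have h1 : Zp U p ≤ ∫ _, (1 : ℝ) ∂(stdGaussian V) :=
    integral_mono (integrable_ph hU p) (integrable_const _) fun g => ph_le_one hU _
  simpa using h1

theorem hasFDerivAt_zp_x (hU : PotP h U) (σ : ℝ) (x : V) :
    HasFDerivAt (fun x => Zp U (σ, x)) (Zp1 U (σ, x)) x :=
  (gg_ph hU).hasFDerivAt_x (mem_adm_zero _)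

theorem hasFDerivAt_zp1_x (hU : PotP h U) (σ : ℝ) (x : V) :
    HasFDerivAt (fun x => Zp1 U (σ, x)) (Zp2 U (σ, x)) x :=
  (gg_ph' hU).hasFDerivAt_x (mem_adm_zero _)

/-- Heat equation. -/
theorem hasDerivAt_zp_σ (hU : PotP h U) (σ : ℝ) (x : V) :
    HasDerivAt (fun σ => Zp U (σ, x)) (σ * lap V (Zp2 U (σ, x))) σ := by
  refine ((gg_ph hU).hasDerivAt_σ (mem_adm_zero (σ, x))).congr_deriv ?_
  set F : V → V := fun g => rz V (fderiv ℝ (Ph U) (x + σ • g)) with hF
  have hin : ∀ g, HasFDerivAt (fun g : V => x + σ • g) (σ • ContinuousLinearMap.id ℝ V) g :=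
    fun g => ((hasFDerivAt_id g).const_smul σ).const_add x
  have hd : ∀ g, HasFDerivAt (fun g => fderiv ℝ (Ph U) (x + σ • g))
      (σ • fderiv ℝ (fderiv ℝ (Ph U)) (x + σ • g)) g := by
    intro g
    have h1 := (((ph_cd1 hU).differentiable one_ne_zero) (x + σ • g)).hasFDerivAt.comp g (hin g)
    refine h1.congr_fderiv ?_
    ext v w
    simp
  have hFc : ContDiff ℝ 1 F := (rz V).contDiff.comp ((ph_cd1 hU).comp (by fun_prop))
  have hFn : ∀ g, ‖F g‖ = ‖fderiv ℝ (Ph U) (x + σ • g)‖ := fun g => norm_rz _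
  have hst := stein hFc ?_ ?_ ?_
  · have e1 : ∀ g, ⟪g, F g⟫ = fderiv ℝ (Ph U) (x + σ • g) g := fun g => inner_rz' _ _
    have e2 : ∀ g, dvg F g = σ * lap V (fderiv ℝ (fderiv ℝ (Ph U)) (x + σ • g)) := by
      intro g
      rw [hF, dvg_rz (hd g).differentiableAt, (hd g).fderiv, map_smul, smul_eq_mul]
    simp_rw [e1, e2] at hst
    rw [hst, integral_const_mul, Zp2, avg, (lap V).integral_comp_comm (integrable_ph2 hU (σ, x))]
  · exact (rz V).integrable_comp (integrable_ph1 hU (σ, x))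
  · have h1 : Integrable (fun g => ‖g‖ • fderiv ℝ (Ph U) (x + σ • g)) (stdGaussian V) := by
      refine integrable_avg_gen (Ψ := fun y g => ‖g‖ • fderiv ℝ (Ph U) y) ?_ (gg_ph hU).hC
        le_rfl (k := 1) ?_ (mem_adm_zero (σ, x))
      · exact (continuous_norm.comp continuous_snd).smul ((ph_cd1 hU).continuous.comp continuous_fst)
      · intro y g
        rw [norm_smul, norm_norm, pow_one]
        exact mul_le_mul (by linarith [norm_nonneg g]) ((gg_ph hU).b1 y) (norm_nonneg _)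
          (by positivity)
    refine h1.norm.congr (ae_of_all _ fun g => ?_)
    simp only [norm_smul, norm_norm]
    rw [hFn]
  · have h1 : ∀ g, fderiv ℝ F g = (rz V).comp (σ • fderiv ℝ (fderiv ℝ (Ph U)) (x + σ • g)) :=
      fun g => ((rz V).hasFDerivAt.comp g (hd g)).fderiv
    simp_rw [h1]
    exact ((ContinuousLinearMap.compL ℝ V (V →L[ℝ] ℝ) V (rz V)).integrable_comp
      ((integrable_ph2 hU (σ, x)).smul σ))

end Crest.Agent.R285
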