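import Mathlib
import Crest.Agent.R285.Heat
import Crest.Agent.Lib.PrekopaLeindler

/-!
Row 285: the smoothed potential `Ub U σ x = -log ∫ exp (-U (x + σ g)) dγ(g)`: bounds `0 ≤ D² ≤ h`
and the Hamilton–Jacobi equation.
-/

set_option autoImplicit false
set_option maxSynthPendingDepth 3
set_option linter.unusedSectionVars false

open MeasureTheory ProbabilityTheory Real Filter Topology Set
open scoped RealInnerProductSpace

noncomputable section

namespace Crest.Agent.R285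

variable {V : Type} [NormedAddCommGroup V] [InnerProductSpace ℝ V] [FiniteDimensional ℝ V]
  [MeasurableSpace V] [BorelSpace V]

theorem ub_eq (U : V → ℝ) (σ : ℝ) (x : V) : Ub U σ x = -Real.log (Zp U (σ, x)) := rfl

/-- The derivative of `Ub` as a form. -/
def Ub1 (U : V → ℝ) (p : ℝ × V) : V →L[ℝ] ℝ := -((Zp U p)⁻¹ • Zp1 U p)

/-- The second derivative of `Ub` as a form. -/
def Ub2 (U : V → ℝ) (p : ℝ × V) : V →L[ℝ] V →L[ℝ] ℝ :=
  (Zp1 U p).smulRight (((Zp U p) ^ 2)⁻¹ • Zp1 U p) - (Zp U p)⁻¹ • Zp2 U p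

variable {h : ℝ} {U : V → ℝ}

theorem contDiff_ub (hU : PotP h U) : ContDiff ℝ 1 (fun p : ℝ × V => Ub U p.1 p.2) := by
  have h1 : ContDiff ℝ 1 fun p : ℝ × V => -Real.log (Zp U p) :=
    ((contDiff_zp hU).log fun p => (zp_pos hU p).ne').neg
  exact h1

theorem contDiff_ub1 (hU : PotP h U) : ContDiff ℝ 1 (Ub1 U) :=
  (((contDiff_zp hU).inv fun p => (zp_pos hU p).ne').smul (contDiff_zp1 hU)).neg

theorem hasFDerivAt_ub_x (hU : PotP h U) (σ : ℝ) (x : V) :
    HasFDerivAt (Ub U σ) (Ub1 U (σ, x)) x :=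
  ((hasFDerivAt_zp_x hU σ x).log (zp_pos hU _).ne').neg

theorem hasFDerivAt_ub1_x (hU : PotP h U) (σ : ℝ) (x : V) :
    HasFDerivAt (fun x => Ub1 U (σ, x)) (Ub2 U (σ, x)) x := by
  have hz := hasFDerivAt_zp_x hU σ x
  have hz1 := hasFDerivAt_zp1_x hU σ x
  have hi : HasFDerivAt (fun x => (Zp U (σ, x))⁻¹) (-((Zp U (σ, x) ^ 2)⁻¹ • Zp1 U (σ, x))) x :=
    (hasDerivAt_inv (zp_pos hU (σ, x)).ne').comp_hasFDerivAt x hz |>.congr_fderiv (by
      ext v; simp)
  refine ((hi.smul hz1).neg).congr_fderiv ?_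
  ext v w
  simp [Ub2]
  ring

theorem gr_eq (hU : PotP h U) (σ : ℝ) (x : V) : G U σ x = rz V (Ub1 U (σ, x)) := by
  rw [G, gradient_eq_rz, (hasFDerivAt_ub_x hU σ x).fderiv]

theorem inner_gr (hU : PotP h U) (σ : ℝ) (x v : V) : ⟪G U σ x, v⟫ = Ub1 U (σ, x) v := by
  rw [gr_eq hU, inner_rz]

theorem contDiff_gr (hU : PotP h U) : ContDiff ℝ 1 (fun p : ℝ × V => G U p.1 p.2) := by
  simp_rw [gr_eq hU]
  exact (rz V).contDiff.comp (contDiff_ub1 hU)

/-- The derivative of `G` in `x`. -/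
def DGr (U : V → ℝ) (p : ℝ × V) : V →L[ℝ] V := (rz V).comp (Ub2 U p)

theorem hasFDerivAt_gr_x (hU : PotP h U) (σ : ℝ) (x : V) :
    HasFDerivAt (G U σ) (DGr U (σ, x)) x := by
  have h1 : G U σ = fun x => rz V (Ub1 U (σ, x)) := funext fun x => gr_eq hU σ x
  rw [h1]
  exact (rz V).hasFDerivAt.comp x (hasFDerivAt_ub1_x hU σ x)

theorem dvg_gr (hU : PotP h U) (σ : ℝ) (x : V) : dvg (G U σ) x = lap V (Ub2 U (σ, x)) := by
  unfold dvg
  rw [(hasFDerivAt_gr_x hU σ x).fderiv]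
  exact trace_rz_comp _

/-- **Hamilton–Jacobi equation.** -/
theorem hasDerivAt_ub_σ (hU : PotP h U) (σ : ℝ) (x : V) :
    HasDerivAt (fun σ => Ub U σ x) (σ * (dvg (G U σ) x - ‖G U σ x‖ ^ 2)) σ := by
  have h1 := ((hasDerivAt_zp_σ hU σ x).log (zp_pos hU _).ne').neg
  refine HasDerivAt.congr_deriv (f := fun σ => Ub U σ x) h1 ?_
  rw [dvg_gr hU, gr_eq hU, Ub2, map_sub, map_smul]
  have hz := (zp_pos hU (σ, x)).ne'
  have e1 : lap V ((Zp1 U (σ, x)).smulRight (((Zp U (σ, x)) ^ 2)⁻¹ • Zp1 U (σ, x)))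
      = (Zp U (σ, x) ^ 2)⁻¹ * ‖rz V (Zp1 U (σ, x))‖ ^ 2 := by
    rw [← lap_smulRight, ← smul_eq_mul, ← map_smul]
    congr 1
    ext v w
    simp
    ring
  have e2 : ‖rz V (Ub1 U (σ, x))‖ ^ 2 = (Zp U (σ, x) ^ 2)⁻¹ * ‖rz V (Zp1 U (σ, x))‖ ^ 2 := by
    rw [Ub1, map_neg, map_smul, norm_neg, norm_smul, mul_pow, norm_inv, inv_pow, Real.norm_eq_abs,
      sq_abs]
  rw [e1, e2, smul_eq_mul]
  field_simp
  ring

/-! ### Bounds on the Hessian -/

theorem ub2_symm (hU : PotP h U) (p : ℝ × V) (v w : V) : Ub2 U p v w = Ub2 U p w v := by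
  have hz : ∀ v w, Zp2 U p v w = Zp2 U p w v := by
    intro v w
    have h1 : ∀ v w, Zp2 U p v w = ∫ g, fderiv ℝ (fderiv ℝ (Ph U)) (p.2 + p.1 • g) v w
        ∂(stdGaussian V) := by
      intro v w
      rw [Zp2, avg, ContinuousLinearMap.integral_apply (integrable_ph2 hU p),
        ContinuousLinearMap.integral_apply ((integrable_ph2 hU p).apply_continuousLinearMap v)]
    rw [h1, h1]
    refine integral_congr_ae (ae_of_all _ fun g => ?_)
    have := ((ph_cd hU).contDiffAt (x := p.2 + p.1 • g)).isSymmSndFDerivAt (by simp)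
    exact this v w
  simp only [Ub2, _root_.sub_apply, ContinuousLinearMap.smulRight_apply, _root_.smul_apply,
    smul_eq_mul, hz v w]
  ring

theorem ub2_hi (hU : PotP h U) (p : ℝ × V) (v : V) : Ub2 U p v v ≤ h * ‖v‖ ^ 2 := by
  set γ := stdGaussian V
  set φ : V → ℝ := fun g => Ph U (p.2 + p.1 • g) with hφ
  set a : V → ℝ := fun g => fderiv ℝ U (p.2 + p.1 • g) v with ha
  set b : V → ℝ := fun g => fderiv ℝ (fderiv ℝ U) (p.2 + p.1 • g) v v with hb
  have hIφ : Integrable φ γ := integrable_ph hU p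
  have hIφa : Integrable (fun g => φ g * a g) γ := by
    have h1 := (integrable_ph1 hU p).apply_continuousLinearMap v
    rw [fderiv_ph hU] at h1
    refine h1.neg.congr (ae_of_all _ fun g => ?_)
    simp [hφ, ha]
  have hI2 : Integrable (fun g => φ g * (a g * a g - b g)) γ := by
    have h1 := ((integrable_ph2 hU p).apply_continuousLinearMap v).apply_continuousLinearMap v
    refine h1.congr (ae_of_all _ fun g => ?_)
    simp only [fderiv2_ph hU]
    simp [hφ, ha, hb]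
  have hcont : Continuous fun g : V => p.2 + p.1 • g := by fun_prop
  have hφc : Continuous φ := (ph_cd hU).continuous.comp hcont
  have hac : Continuous a := ((pot_cd1 hU).continuous.comp hcont).clm_apply continuous_const
  have hbc : Continuous b := ((((pot_cd1 hU).continuous_fderiv one_ne_zero).comp hcont).clm_apply
    continuous_const).clm_apply continuous_const
  have hIφb : Integrable (fun g => φ g * b g) γ := by
    refine (hIφ.mul_const (h * ‖v‖ ^ 2)).mono' (hφc.mul hbc).aestronglyMeasurable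
      (ae_of_all _ fun g => ?_)
    rw [norm_mul, Real.norm_of_nonneg (ph_pos U _).le, Real.norm_of_nonneg (pot_lo hU _ _)]
    exact mul_le_mul_of_nonneg_left (pot_hi hU _ _) (ph_pos U _).le
  have hIφaa : Integrable (fun g => φ g * (a g * a g)) γ := by
    refine (hI2.add hIφb).congr (ae_of_all _ fun g => ?_)
    simp only [Pi.add_apply]
    ring
  have e0 : Zp U p = ∫ g, φ g ∂γ := rfl
  have e1 : Zp1 U p v = -∫ g, φ g * a g ∂γ := by
    rw [Zp1, avg, ContinuousLinearMap.integral_apply (integrable_ph1 hU p), ← integral_neg]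
    refine integral_congr_ae (ae_of_all _ fun g => ?_)
    simp only [fderiv_ph hU]
    simp [hφ, ha]
  have e2 : Zp2 U p v v = ∫ g, φ g * (a g * a g) ∂γ - ∫ g, φ g * b g ∂γ := by
    rw [Zp2, avg, ContinuousLinearMap.integral_apply (integrable_ph2 hU p),
      ContinuousLinearMap.integral_apply ((integrable_ph2 hU p).apply_continuousLinearMap v),
      ← integral_sub hIφaa hIφb]
    refine integral_congr_ae (ae_of_all _ fun g => ?_)
    simp only [fderiv2_ph hU]
    simp [hφ, ha, hb]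
    ring
  have hb_le : ∫ g, φ g * b g ∂γ ≤ h * ‖v‖ ^ 2 * ∫ g, φ g ∂γ := by
    rw [← integral_const_mul]
    refine integral_mono hIφb (hIφ.const_mul _) fun g => ?_
    simp only
    rw [mul_comm]
    exact mul_le_mul_of_nonneg_right (pot_hi hU _ _) (ph_pos U _).le
  set A := ∫ g, φ g * a g ∂γ
  set Z := ∫ g, φ g ∂γ
  set Q := ∫ g, φ g * (a g * a g) ∂γ
  have hZ : 0 < Z := zp_pos hU p
  have hcs : 0 ≤ Q - 2 * (A / Z) * A + (A / Z) ^ 2 * Z := by
    have h1 : ∫ g, φ g * (a g - A / Z) ^ 2 ∂γ = Q - 2 * (A / Z) * A + (A / Z) ^ 2 * Z := by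
      have h2 : ∀ g, φ g * (a g - A / Z) ^ 2 = φ g * (a g * a g) - 2 * (A / Z) * (φ g * a g)
          + (A / Z) ^ 2 * φ g := fun g => by ring
      simp_rw [h2]
      have hs1 : Integrable (fun g => φ g * (a g * a g) - 2 * (A / Z) * (φ g * a g)) γ :=
        hIφaa.sub (hIφa.const_mul _)
      rw [integral_add hs1 (hIφ.const_mul _),
        integral_sub hIφaa (hIφa.const_mul _), integral_const_mul, integral_const_mul]
    rw [← h1]
    exact integral_nonneg fun g => mul_nonneg (ph_pos U _).le (sq_nonneg _)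
  have hcs' : A ^ 2 / Z ≤ Q := by
    have h3 : Q - 2 * (A / Z) * A + (A / Z) ^ 2 * Z = Q - A ^ 2 / Z := by
      field_simp
      ring
    rw [h3] at hcs
    linarith
  have e3 : Ub2 U p v v = A ^ 2 / Z ^ 2 - (Q - ∫ g, φ g * b g ∂γ) / Z := by
    simp only [Ub2, _root_.sub_apply, ContinuousLinearMap.smulRight_apply, _root_.smul_apply,
      smul_eq_mul, e1, e2, e0]
    field_simp
  rw [e3]
  have h4 : A ^ 2 / Z ^ 2 ≤ Q / Z := by
    rw [div_le_div_iff₀ (by positivity) hZ]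
    rw [div_le_iff₀ hZ] at hcs'
    nlinarith
  have h5 : (∫ g, φ g * b g ∂γ) / Z ≤ h * ‖v‖ ^ 2 := by
    rw [div_le_iff₀ hZ]
    exact hb_le
  have h6 : (Q - ∫ g, φ g * b g ∂γ) / Z = Q / Z - (∫ g, φ g * b g ∂γ) / Z := sub_div _ _ _
  rw [h6]
  linarith

open Crest.Agent.Lib.PrekopaLeindler in
theorem PL_inner : PL V (volume : Measure V) :=
  PL.of_measurePreserving _ ((stdOrthonormalBasis ℝ V).measurePreserving_repr_symm)
    (fun a b x y => by
      change (stdOrthonormalBasis ℝ V).repr.symm _ = _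
      rw [map_add, map_smul, map_smul]) (PL_euclidean _)

theorem ub_convex (hU : PotP h U) (σ : ℝ) : ConvexOn ℝ univ (Ub U σ) := by
  refine ⟨convex_univ, fun x _ y _ a b ha hb hab => ?_⟩
  rcases ha.eq_or_lt with ha0 | ha0
  · subst ha0
    have : b = 1 := by linarith
    subst this
    simp
  rcases hb.eq_or_lt with hb0 | hb0
  · subst hb0
    have : a = 1 := by linarith
    subst this
    simp
  have hb1 : b < 1 := by linarith
  have hab' : 1 - b = a := by linarith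
  set f : V → V → ENNReal := fun x g => ENNReal.ofReal (gdens g * Ph U (x + σ • g)) with hf
  have hfc : ∀ x, Continuous fun g : V => gdens g * Ph U (x + σ • g) := fun x =>
    continuous_gdens.mul ((ph_cd hU).continuous.comp (by fun_prop))
  have hfm : ∀ x, Measurable (f x) := fun x => (hfc x).measurable.ennreal_ofReal
  have hint : ∀ x, ∫⁻ g, f x g = ENNReal.ofReal (Zp U (σ, x)) := by
    intro x
    rw [Zp, avg, integral_stdGaussian]
    simp only [smul_eq_mul]
    rw [ofReal_integral_eq_lintegral_ofReal]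
    · have := (integrable_stdGaussian_iff _).1 (integrable_ph hU (σ, x))
      simpa using this
    · exact ae_of_all _ fun g => mul_nonneg (gdens_pos g).le (ph_pos U _).le
  have key := PL_inner (V := V) b hb0 hb1 (f x) (f y) (f (a • x + b • y)) (hfm x) (hfm y) (hfm _) ?_
  · rw [hint, hint, hint, hab', ENNReal.ofReal_rpow_of_pos (zp_pos hU _),
      ENNReal.ofReal_rpow_of_pos (zp_pos hU _), ← ENNReal.ofReal_mul (by
        exact rpow_nonneg (zp_pos hU _).le _),
      ENNReal.ofReal_le_ofReal_iff (zp_pos hU _).le] at key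
    have h1 := Real.log_le_log (mul_pos (rpow_pos_of_pos (zp_pos hU _) _)
      (rpow_pos_of_pos (zp_pos hU _) _)) key
    rw [Real.log_mul (rpow_pos_of_pos (zp_pos hU _) _).ne' (rpow_pos_of_pos (zp_pos hU _) _).ne',
      Real.log_rpow (zp_pos hU _), Real.log_rpow (zp_pos hU _)] at h1
    simp only [ub_eq, smul_eq_mul]
    linarith
  · intro g g'
    rw [hab']
    simp only [hf]
    rw [ENNReal.ofReal_rpow_of_pos (mul_pos (gdens_pos g) (ph_pos U _)),
      ENNReal.ofReal_rpow_of_pos (mul_pos (gdens_pos g') (ph_pos U _)), ← ENNReal.ofReal_mul (by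
        exact rpow_nonneg (mul_pos (gdens_pos g) (ph_pos U _)).le _)]
    refine ENNReal.ofReal_le_ofReal ?_
    set c : ℝ := (2 * π) ^ (-(Module.finrank ℝ V : ℝ) / 2) with hc
    have hc0 : 0 < c := by positivity
    have e : ∀ x g : V, gdens g * Ph U (x + σ • g) = c * rexp (-(‖g‖ ^ 2 / 2 + U (x + σ • g))) := by
      intro x g
      rw [gdens, Ph, ← hc, mul_assoc, ← exp_add]
      congr 2
      ring
    rw [e, e, e, Real.mul_rpow hc0.le (exp_pos _).le, Real.mul_rpow hc0.le (exp_pos _).le,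
      ← Real.exp_mul, ← Real.exp_mul]
    have e3 : c ^ a * rexp (-(‖g‖ ^ 2 / 2 + U (x + σ • g)) * a) *
        (c ^ b * rexp (-(‖g'‖ ^ 2 / 2 + U (y + σ • g')) * b)) =
        c * rexp (-(a * (‖g‖ ^ 2 / 2 + U (x + σ • g)) + b * (‖g'‖ ^ 2 / 2 + U (y + σ • g')))) := by
      have h1 : c ^ a * c ^ b = c := by rw [← rpow_add hc0, hab, rpow_one]
      rw [show -(a * (‖g‖ ^ 2 / 2 + U (x + σ • g)) + b * (‖g'‖ ^ 2 / 2 + U (y + σ • g'))) =
        -(‖g‖ ^ 2 / 2 + U (x + σ • g)) * a + -(‖g'‖ ^ 2 / 2 + U (y + σ • g')) * b by ring, exp_add]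
      nth_rewrite 3 [← h1]
      ring
    rw [e3]
    refine mul_le_mul_of_nonneg_left (exp_le_exp.2 (neg_le_neg ?_)) hc0.le
    have h1 := (pot_convex hU).2 (mem_univ (x + σ • g)) (mem_univ (y + σ • g')) ha hb hab
    have h2 : a • (x + σ • g) + b • (y + σ • g') = a • x + b • y + σ • (a • g + b • g') := by
      rw [smul_add, smul_add, smul_add, smul_comm σ a, smul_comm σ b]
      abel
    rw [h2, smul_eq_mul, smul_eq_mul] at h1
    have h3 : ‖a • g + b • g'‖ ^ 2 ≤ a * ‖g‖ ^ 2 + b * ‖g'‖ ^ 2 := by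
      have h4 := (convexOn_univ_norm (E := V)).2 (mem_univ g) (mem_univ g') ha hb hab
      simp only [smul_eq_mul] at h4
      have h5 : ‖a • g + b • g'‖ ^ 2 ≤ (a * ‖g‖ + b * ‖g'‖) ^ 2 := by gcongr
      have h6 : (a * ‖g‖ + b * ‖g'‖) ^ 2 = a * ‖g‖ ^ 2 + b * ‖g'‖ ^ 2 - a * b * (‖g‖ - ‖g'‖) ^ 2 := by
        have : a = 1 - b := by linarith
        subst this
        ring
      have h7 : 0 ≤ a * b * (‖g‖ - ‖g'‖) ^ 2 := by positivity
      linarith
    linarith

theorem ub2_lo (hU : PotP h U) (p : ℝ × V) (v : V) : 0 ≤ Ub2 U p v v := by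
  obtain ⟨σ, x⟩ := p
  have hline : ∀ t : ℝ, HasDerivAt (fun t : ℝ => x + t • v) v t := fun t => by
    simpa using ((hasDerivAt_id t).smul_const v).const_add x
  have h1 : ∀ t : ℝ, HasDerivAt (fun t : ℝ => Ub U σ (x + t • v)) (Ub1 U (σ, x + t • v) v) t :=
    fun t => (hasFDerivAt_ub_x hU σ _).comp_hasDerivAt t (hline t)
  have h2 : HasDerivAt (fun t : ℝ => Ub1 U (σ, x + t • v) v) (Ub2 U (σ, x) v v) 0 := by
    have h3 := HasFDerivAt.comp_hasDerivAt (f := fun t : ℝ => x + t • v) (0 : ℝ)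
      (l := fun y => Ub1 U (σ, y)) (hasFDerivAt_ub1_x hU σ _) (hline 0)
    have h4 := h3.clm_apply (hasDerivAt_const (0 : ℝ) v)
    simpa using h4
  have hconv : ConvexOn ℝ univ (fun t : ℝ => Ub U σ (x + t • v)) := by
    refine ⟨convex_univ, fun s _ t _ a b ha hb hab => ?_⟩
    have h3 := (ub_convex hU σ).2 (mem_univ (x + s • v)) (mem_univ (x + t • v)) ha hb hab
    have h4 : a • (x + s • v) + b • (x + t • v) = x + (a • s + b • t) • v := by
      rw [smul_add, smul_add, smul_smul, smul_smul, add_smul, smul_eq_mul, smul_eq_mul]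
      have : a • x + b • x = x := by rw [← add_smul, hab, one_smul]
      rw [add_add_add_comm, this]
    rwa [h4] at h3
  have hmono : Monotone (fun t : ℝ => Ub1 U (σ, x + t • v) v) := by
    have h3 := hconv.monotoneOn_deriv fun t _ => (h1 t).differentiableAt
    have h4 : deriv (fun t : ℝ => Ub U σ (x + t • v)) = fun t => Ub1 U (σ, x + t • v) v :=
      funext fun t => (h1 t).deriv
    rw [h4] at h3
    exact monotoneOn_univ.1 h3
  exact h2.nonneg_of_monotone hmono

theorem ub2_norm (hU : PotP h U) (p : ℝ × V) : ‖Ub2 U p‖ ≤ h := by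
  refine ContinuousLinearMap.opNorm_le_bound _ hU.hh fun v => ?_
  refine ContinuousLinearMap.opNorm_le_bound _ (mul_nonneg hU.hh (norm_nonneg _)) fun w => ?_
  exact bil_le _ (ub2_symm hU p) (ub2_lo hU p) (ub2_hi hU p) v w

theorem dgr_norm (hU : PotP h U) (p : ℝ × V) : ‖DGr U p‖ ≤ h := by
  refine ContinuousLinearMap.opNorm_le_bound _ hU.hh fun v => ?_
  rw [DGr, ContinuousLinearMap.comp_apply, norm_rz]
  exact (Ub2 U p).le_of_opNorm_le (ub2_norm hU p) v

theorem gr_lip (hU : PotP h U) (σ : ℝ) (x y : V) : ‖G U σ x - G U σ y‖ ≤ h * ‖x - y‖ :=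
  convex_univ.norm_image_sub_le_of_norm_hasFDerivWithin_le (𝕜 := ℝ)
    (fun z _ => (hasFDerivAt_gr_x hU σ z).hasFDerivWithinAt) (fun _ _ => dgr_norm hU _)
    (mem_univ _) (mem_univ _)

theorem gr_growth (hU : PotP h U) (R : ℝ) : ∃ C, 0 ≤ C ∧ ∀ σ : ℝ, |σ| ≤ R → ∀ x : V,
    ‖G U σ x‖ ≤ C + h * ‖x‖ := by
  have hc : Continuous fun σ : ℝ => ‖G U σ (0 : V)‖ :=
    ((contDiff_gr hU).continuous.comp (f := fun σ : ℝ => (σ, (0 : V))) (by fun_prop)).norm
  obtain ⟨M, hM⟩ := (isCompact_Icc (a := -R) (b := R)).bddAbove_image hc.continuousOn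
  refine ⟨max M 0, le_max_right _ _, fun σ hσ x => ?_⟩
  have h1 : ‖G U σ (0 : V)‖ ≤ M := hM ⟨σ, abs_le.1 hσ, rfl⟩
  have h2 := gr_lip hU σ x 0
  rw [sub_zero] at h2
  have h3 : ‖G U σ x‖ ≤ ‖G U σ x - G U σ 0‖ + ‖G U σ (0 : V)‖ := by
    simpa using norm_add_le (G U σ x - G U σ 0) (G U σ (0 : V))
  linarith [le_max_left M 0]

end Crest.Agent.R285
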