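import Mathlib
import Crest.Agent.R285.ExpFam
import Crest.Agent.R285.HJ

/-!
Row 285: for `σ > 0` the averages `(σ, x) ↦ ∫ Φ (x + σ g) dγ(g)` are `C^∞`.
-/

set_option autoImplicit false
set_option maxSynthPendingDepth 3
set_option linter.unusedSectionVars false

open MeasureTheory ProbabilityTheory Real Filter Topology Set
open scoped RealInnerProductSpace

noncomputable section

namespace Crest.Agent.R285

variable {V : Type} [NormedAddCommGroup V] [InnerProductSpace ℝ V] [FiniteDimensional ℝ V]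

/-- The statistic `T z (a, b) = -a |z|²/2 + ⟪z, b⟫`. -/
def TT (z : V) : ℝ × V →L[ℝ] ℝ :=
  (-(‖z‖ ^ 2 / 2)) • ContinuousLinearMap.fst ℝ ℝ V +
    (innerSL ℝ z).comp (ContinuousLinearMap.snd ℝ ℝ V)

theorem TT_apply (z : V) (a : ℝ) (b : V) : TT z (a, b) = -(‖z‖ ^ 2 / 2) * a + ⟪z, b⟫ := by
  simp [TT]

theorem norm_TT_le (z : V) : ‖TT z‖ ≤ ‖z‖ ^ 2 / 2 + ‖z‖ := by
  refine ContinuousLinearMap.opNorm_le_bound _ (by positivity) fun q => ?_
  obtain ⟨a, b⟩ := q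
  rw [TT_apply]
  have h1 : ‖a‖ ≤ ‖(a, b)‖ := norm_fst_le (a, b)
  have h2 : ‖b‖ ≤ ‖(a, b)‖ := norm_snd_le (a, b)
  refine (norm_add_le _ _).trans ?_
  rw [norm_mul, norm_neg, Real.norm_of_nonneg (by positivity : 0 ≤ ‖z‖ ^ 2 / 2)]
  have h3 : ‖⟪z, b⟫‖ ≤ ‖z‖ * ‖b‖ := norm_inner_le_norm _ _
  have h4 := mul_le_mul_of_nonneg_left h2 (norm_nonneg z)
  have h5 := mul_le_mul_of_nonneg_left h1 (by positivity : 0 ≤ ‖z‖ ^ 2 / 2)
  nlinarith

theorem continuous_TT : Continuous (TT (V := V)) := by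
  unfold TT
  refine Continuous.add ?_ ?_
  · have h1 : Continuous fun z : V => -(‖z‖ ^ 2 / 2) := by fun_prop
    exact h1.smul continuous_const
  · exact ((ContinuousLinearMap.compL ℝ (ℝ × V) V ℝ).flip
      (ContinuousLinearMap.snd ℝ ℝ V)).continuous.comp (innerSL ℝ).continuous

variable [MeasurableSpace V] [BorelSpace V]

theorem integrable_exp_neg_sq_add {b : ℝ} (hb : 0 < b) (c : ℝ) :
    Integrable (fun z : V => rexp (-b * ‖z‖ ^ 2 + c * ‖z‖)) := by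
  have h1 := (integrable_exp_neg_sq (V := V) (half_pos hb)).const_mul (rexp (c ^ 2 / (2 * b)))
  have hcont : Continuous (fun z : V => rexp (-b * ‖z‖ ^ 2 + c * ‖z‖)) := by fun_prop
  refine h1.mono' hcont.aestronglyMeasurable (ae_of_all _ fun g => ?_)
  rw [Real.norm_of_nonneg (exp_pos _).le, ← exp_add]
  refine exp_le_exp.2 ?_
  have h4 : c * ‖g‖ ≤ c ^ 2 / (2 * b) + b / 2 * ‖g‖ ^ 2 := by
    rw [← sub_nonneg]
    have : c ^ 2 / (2 * b) + b / 2 * ‖g‖ ^ 2 - c * ‖g‖ = (c - b * ‖g‖) ^ 2 / (2 * b) := by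
      field_simp
      ring
    rw [this]
    positivity
  linarith

variable {H : Type} [NormedAddCommGroup H] [NormedSpace ℝ H]

theorem pow_bound {x : ℝ} (hx : 0 ≤ x) (k : ℕ) :
    (x ^ 2 / 2 + x) ^ k ≤ (Nat.factorial (2 * k)) * rexp (1 + x) := by
  refine le_trans ?_ (pow_le_exp_mul hx (2 * k))
  rw [pow_mul]
  refine pow_le_pow_left₀ (by positivity) ?_ k
  nlinarith [sq_nonneg x]

theorem expDom_TT {Φ : V → H} (hΦ : Continuous Φ) {C : ℝ} (hb : ∀ y, ‖Φ y‖ ≤ C * rexp (C * ‖y‖)) :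
    ExpDom (volume : Measure V) TT {p : ℝ × V | 0 < p.1} Φ := by
  have hC : 0 ≤ C := by
    have := (norm_nonneg _).trans (hb 0)
    simpa using this
  refine ⟨hΦ.aestronglyMeasurable, fun θ hθ => ⟨θ.1 / 2, half_pos hθ, fun k => ?_⟩⟩
  obtain ⟨a, b⟩ := θ
  have ha : 0 < a := hθ
  have h1 := (integrable_exp_neg_sq_add (V := V) (show 0 < a / 4 by positivity)
    (‖b‖ + a / 2 + C + 1)).const_mul ((Nat.factorial (2 * k)) * rexp 1 * C)
  refine h1.mono' ?_ (ae_of_all _ fun z => ?_)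
  · have hc := continuous_TT (V := V)
    refine Continuous.aestronglyMeasurable ?_
    exact ((hc.norm.pow k).mul hΦ.norm).mul
      (Real.continuous_exp.comp ((hc.clm_apply continuous_const).add (continuous_const.mul hc.norm)))
  · rw [Real.norm_of_nonneg (by positivity)]
    have hT := norm_TT_le z
    have e1 : ‖TT z‖ ^ k ≤ (Nat.factorial (2 * k)) * rexp (1 + ‖z‖) :=
      (pow_le_pow_left₀ (norm_nonneg _) hT k).trans (pow_bound (norm_nonneg z) k)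
    have e2 : TT z (a, b) + a / 2 * ‖TT z‖ ≤ -(a / 4) * ‖z‖ ^ 2 + (‖b‖ + a / 2) * ‖z‖ := by
      rw [TT_apply]
      have h3 : ⟪z, b⟫ ≤ ‖z‖ * ‖b‖ := real_inner_le_norm _ _
      have h4 := mul_le_mul_of_nonneg_left hT (by positivity : 0 ≤ a / 2)
      nlinarith
    calc ‖TT z‖ ^ k * ‖Φ z‖ * rexp (TT z (a, b) + a / 2 * ‖TT z‖)
        ≤ ((Nat.factorial (2 * k)) * rexp (1 + ‖z‖)) * (C * rexp (C * ‖z‖)) *
          rexp (-(a / 4) * ‖z‖ ^ 2 + (‖b‖ + a / 2) * ‖z‖) := by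
          gcongr
          exact hb z
      _ = _ := by
          rw [show (‖b‖ + a / 2 + C + 1) * ‖z‖ = (‖b‖ + a / 2) * ‖z‖ + C * ‖z‖ + ‖z‖ by ring]
          rw [exp_add 1, exp_add, exp_add, exp_add, exp_add]
          ring

/-- Kernel form of the average. -/
theorem avg_eq_expInt (Φ : V → H) {σ : ℝ} (hσ : 0 < σ) (x : V) :
    avg Φ (σ, x) = ((2 * π) ^ (-(Module.finrank ℝ V : ℝ) / 2) *
      (σ ^ Module.finrank ℝ V)⁻¹ * rexp (-(‖x‖ ^ 2 / (2 * σ ^ 2)))) •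
        expInt (volume : Measure V) TT Φ ((σ ^ 2)⁻¹, (σ ^ 2)⁻¹ • x) := by
  rw [avg, integral_stdGaussian]
  have h1 : ∫ g, gdens g • Φ (x + σ • g) =
      (σ ^ Module.finrank ℝ V)⁻¹ • ∫ g, gdens (σ⁻¹ • g) • Φ (x + g) := by
    have h2 := Measure.integral_comp_smul (volume : Measure V)
      (fun g => gdens (σ⁻¹ • g) • Φ (x + g)) σ
    rw [abs_of_pos (by positivity)] at h2
    rw [← h2]
    refine integral_congr_ae (ae_of_all _ fun g => ?_)
    simp only [smul_smul, inv_mul_cancel₀ hσ.ne', one_smul]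
  have h3 : ∫ g, gdens (σ⁻¹ • g) • Φ (x + g) = ∫ z, gdens (σ⁻¹ • (z - x)) • Φ z := by
    rw [← integral_add_left_eq_self (μ := (volume : Measure V))
      (fun z => gdens (σ⁻¹ • (z - x)) • Φ z) x]
    refine integral_congr_ae (ae_of_all _ fun g => ?_)
    simp
  simp only
  rw [h1, h3, expInt, ← integral_smul, ← integral_smul]
  refine integral_congr_ae (ae_of_all _ fun z => ?_)
  simp only [smul_smul]
  congr 1
  rw [gdens, TT_apply, norm_smul, norm_inv, Real.norm_of_nonneg hσ.le, mul_pow,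
    norm_sub_sq_real, inner_smul_right]
  rw [show -(σ⁻¹ ^ 2 * (‖z‖ ^ 2 - 2 * ⟪z, x⟫ + ‖x‖ ^ 2)) / 2 = -(‖x‖ ^ 2 / (2 * σ ^ 2)) +
    (-(‖z‖ ^ 2 / 2) * (σ ^ 2)⁻¹ + (σ ^ 2)⁻¹ * ⟪z, x⟫) by field_simp; ring, exp_add]
  ring

theorem contDiffOn_avg_top {Φ : V → H} (hΦ : Continuous Φ) {C : ℝ}
    (hb : ∀ y, ‖Φ y‖ ≤ C * rexp (C * ‖y‖)) :
    ContDiffOn ℝ (⊤ : ℕ∞) (avg Φ) {p : ℝ × V | 0 < p.1} := by
  have h1 := contDiffOn_expInt (m := (volume : Measure V)) continuous_TT.aestronglyMeasurable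
    (isOpen_lt (f := fun _ : ℝ × V => (0 : ℝ)) (g := fun p : ℝ × V => p.1) continuous_const
      continuous_fst) (expDom_TT hΦ hb)
  have hinv : ContDiffOn ℝ (⊤ : ℕ∞) (fun p : ℝ × V => (p.1 ^ 2)⁻¹) {p : ℝ × V | 0 < p.1} := by
    refine ContDiffOn.inv (by fun_prop) fun p hp => ?_
    have : 0 < p.1 := hp
    positivity
  have h2 : ContDiffOn ℝ (⊤ : ℕ∞) (fun p : ℝ × V => expInt (volume : Measure V) TT Φ
      ((p.1 ^ 2)⁻¹, (p.1 ^ 2)⁻¹ • p.2)) {p : ℝ × V | 0 < p.1} := by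
    refine h1.comp (hinv.prodMk (hinv.smul contDiff_snd.contDiffOn)) fun p hp => ?_
    have : 0 < p.1 := hp
    simp only [mem_ofPred_eq]
    positivity
  have h3 : ContDiffOn ℝ (⊤ : ℕ∞) (fun p : ℝ × V => ((2 * π) ^ (-(Module.finrank ℝ V : ℝ) / 2) *
      (p.1 ^ Module.finrank ℝ V)⁻¹ * rexp (-(‖p.2‖ ^ 2 / (2 * p.1 ^ 2)))))
      {p : ℝ × V | 0 < p.1} := by
    refine ContDiffOn.mul (ContDiffOn.mul contDiffOn_const ?_) ?_
    · refine ContDiffOn.inv (by fun_prop) fun p hp => ?_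
      have : 0 < p.1 := hp
      positivity
    · refine ContDiffOn.exp (ContDiffOn.neg (ContDiffOn.div ?_ (by fun_prop) fun p hp => ?_))
      · exact ((contDiff_norm_sq ℝ).comp contDiff_snd).contDiffOn
      · have : 0 < p.1 := hp
        positivity
  exact (h3.smul h2).congr fun p hp => avg_eq_expInt Φ hp p.2

variable {h : ℝ} {U : V → ℝ}

theorem contDiffOn_zp_top (hU : PotP h U) :
    ContDiffOn ℝ (⊤ : ℕ∞) (Zp U) {p : ℝ × V | 0 < p.1} :=
  contDiffOn_avg_top (ph_cd hU).continuous (C := gC h) fun y => by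
    simpa using (gg_ph hU).b0 y

theorem contDiffOn_zp1_top (hU : PotP h U) :
    ContDiffOn ℝ (⊤ : ℕ∞) (Zp1 U) {p : ℝ × V | 0 < p.1} :=
  contDiffOn_avg_top (ph_cd1 hU).continuous (C := gC h) fun y => by
    simpa using (gg_ph hU).b1 y

theorem contDiffOn_ub_top (hU : PotP h U) :
    ContDiffOn ℝ (⊤ : ℕ∞) (fun p : ℝ × V => Ub U p.1 p.2) {p : ℝ × V | 0 < p.1} :=
  ((contDiffOn_zp_top hU).log fun p _ => (zp_pos hU p).ne').neg

theorem contDiffOn_ub1_top (hU : PotP h U) :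
    ContDiffOn ℝ (⊤ : ℕ∞) (Ub1 U) {p : ℝ × V | 0 < p.1} :=
  (((contDiffOn_zp_top hU).inv fun p _ => (zp_pos hU p).ne').smul (contDiffOn_zp1_top hU)).neg

theorem contDiffOn_gr_top (hU : PotP h U) :
    ContDiffOn ℝ (⊤ : ℕ∞) (fun p : ℝ × V => G U p.1 p.2) {p : ℝ × V | 0 < p.1} := by
  simp_rw [gr_eq hU]
  exact (rz V).contDiff.comp_contDiffOn (contDiffOn_ub1_top hU)

end Crest.Agent.R285
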