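import Crest.Agent.R285.SobSm

/-!
Row 285: export of the abstract smoothness theorem.
-/

set_option autoImplicit false
set_option linter.unusedSectionVars false
set_option linter.unusedVariables false

open Finset

namespace Crest.Agent.R285.Sob

variable {c : ℕ → ℝ}

/-- constant fields with one slot -/
def cst (S : Sett c) (v : S.N → ℝ) : Fl S (Unit ⊕ Empty) :=
  fun J => algebraMap ℝ S.A (v (J (Sum.inl ())))

theorem grad_cst (S : Sett c) (v : S.N → ℝ) : grad _ S (cst S v) = 0 := by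
  funext J
  rw [grad_apply]
  exact Derivation.map_algebraMap _ _

theorem gradb_cst (S : Sett c) (v : S.N → ℝ) : gradb _ S (cst S v) = 0 := by
  funext J
  rw [gradb_apply]
  exact Derivation.map_algebraMap _ _

theorem Xop_cst (S : Sett c) (v : S.N → ℝ) : Xop S _ (cst S v) = 0 := by
  funext J
  exact Derivation.map_algebraMap _ _

theorem nsq_cst (S : Sett c) (v : S.N → ℝ) : nsq S (cst S v) = ∑ i, v i ^ 2 := by
  unfold nsq
  rw [sum_unit_sum_arrow]
  refine sum_congr rfl fun i _ => ?_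
  rw [Fintype.sum_unique]
  have : cst S v (Sum.elim (fun _ => i) default) * cst S v (Sum.elim (fun _ => i) default) =
      (v i ^ 2) • (1 : S.A) := by
    rw [← Algebra.algebraMap_eq_smul_one, sq, map_mul]
    rfl
  rw [this, map_smul, S.I_one, smul_eq_mul, mul_one]

theorem Sq_cst (S : Sett c) (v : S.N → ℝ) (r : ℕ) : Sq r S _ (cst S v) = ∑ i, v i ^ 2 := by
  induction r with
  | zero => exact nsq_cst S v
  | succ r ih => rw [Sq_succ, grad_cst, gradb_cst, Sq_null, ih, add_zero, add_zero]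

/-- the unique multi-index without slots -/
def J0 (S : Sett c) : Empty → S.N := fun x => x.elim

theorem Sm.scalar (n : ℕ) : ∀ (O : Op c (Unit ⊕ Empty) Empty), Sm n O →
    ∃ (C : ℝ) (P : ℕ), 0 ≤ C ∧ ∀ (S : Sett c) (v : S.N → ℝ), ∑ i, v i ^ 2 ≤ 1 →
      S.I ((fun f => S.X f)^[n] (O S (cst S v) (J0 S)) *
        (fun f => S.X f)^[n] (O S (cst S v) (J0 S))) ≤ C * S.K ^ P := by
  induction n with
  | zero =>
    intro O hO
    obtain ⟨C, P, m, hC, H⟩ := hO 0
    refine ⟨C, P, hC, fun S v hv => ?_⟩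
    have h := H S (cst S v)
    rw [Sq_cst, Sq_zero] at h
    unfold nsq at h
    rw [Fintype.sum_unique] at h
    have e : (default : Empty → S.N) = J0 S := Subsingleton.elim _ _
    rw [e] at h
    refine h.trans ?_
    have := K_pos S
    calc C * S.K ^ P * ∑ i, v i ^ 2 ≤ C * S.K ^ P * 1 := by gcongr
      _ = _ := mul_one _
  | succ n ih =>
    intro O hO
    obtain ⟨C, P, hC, H⟩ := ih (ad O) hO.2
    refine ⟨C, P, hC, fun S v hv => ?_⟩
    have h := H S v hv
    have e : ad O S (cst S v) (J0 S) = S.X (O S (cst S v) (J0 S)) := by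
      rw [ad_apply, Xop_cst, map_zero, Pi.zero_apply, sub_zero]
    rw [e] at h
    rw [Function.iterate_succ_apply]
    exact h

theorem MT_cst (S : Sett c) (v : S.N → ℝ) (l : S.N) :
    MT Unit Unit Empty S (cst S v) (Sum.elim (fun _ => l) (J0 S)) =
      ∑ i, v i • S.T {l, i} := by
  rw [MT_unit_apply]
  refine sum_congr rfl fun i _ => ?_
  rw [Sum.elim_inl, mul_comm, Algebra.smul_def]
  rfl

theorem e_MT_cst (S : Sett c) (v : S.N → ℝ) (k l : S.N) :
    S.e k (∑ i, v i • S.T {l, i}) = 0 := by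
  rw [map_sum]
  refine sum_eq_zero fun i _ => ?_
  rw [Derivation.map_smul, e_T_pair, smul_zero]

theorem X_T_single (S : Sett c) (i : S.N) : S.X (S.T {i}) =
    (∑ l, (S.w l * S.T {l, i} - S.d l (S.T {l, i}))) +
      S.et • (S.eps * ∑ k, ∑ l, S.b k * (S.T {k, l} * S.T {l, i})) := by
  have h := S.X_T Unit (fun _ => i)
  have e0 : (univ : Finset Unit).val.map (fun _ => i) = {i} := rfl
  rw [e0] at h
  have e1 : (univ : Finset Unit).powerset.filter (fun s => s.Nonempty ∧ sᶜ.Nonempty) = ∅ := by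
    decide
  rw [e1, sum_empty, mul_zero, smul_zero, add_zero] at h
  exact h

/-- **Export, scalar form.** -/
theorem export_scalar (c : ℕ → ℝ) (n : ℕ) : ∃ (C : ℝ) (P : ℕ), 0 ≤ C ∧ ∀ (S : Sett c)
    (v : S.N → ℝ), ∑ i, v i ^ 2 ≤ 1 →
    S.I ((fun f => S.X f)^[n + 1] (∑ i, v i • S.T {i}) *
      (fun f => S.X f)^[n + 1] (∑ i, v i • S.T {i})) ≤ C * S.K ^ P ∧
    S.I ((fun f => S.X f)^[n] (∑ k, S.b k * ∑ i, v i • S.T {k, i}) *
      (fun f => S.X f)^[n] (∑ k, S.b k * ∑ i, v i • S.T {k, i})) ≤ C * S.K ^ P ∧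
    S.I ((fun f => S.X f)^[n] (∑ k, S.b k * ∑ l, S.T {k, l} * ∑ i, v i • S.T {l, i}) *
      (fun f => S.X f)^[n] (∑ k, S.b k * ∑ l, S.T {k, l} * ∑ i, v i • S.T {l, i})) ≤
        C * S.K ^ P := by
  have A := allSm c n
  have hM : Sm n (MT (c := c) Unit Unit Empty) := A.MT _ _ _
  have h1 : Sm n (fun S => div Empty S ∘ₗ MT (c := c) Unit Unit Empty S +
      S.et • (epsop _ S ∘ₗ divb Empty S ∘ₗ MT Unit Unit Empty S ∘ₗ MT Unit Unit Empty S)) :=
    ((A.div Empty).comp hM).add (((Sm.epsop _ n).comp ((A.divb Empty).comp (hM.comp hM))).et)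
  have h2 : Sm n (fun S => divb Empty S ∘ₗ MT (c := c) Unit Unit Empty S) :=
    (A.divb Empty).comp hM
  have h3 : Sm n (fun S => divb Empty S ∘ₗ MT (c := c) Unit Unit Empty S ∘ₗ
      MT Unit Unit Empty S) := (A.divb Empty).comp (hM.comp hM)
  obtain ⟨C₁, P₁, hC₁, H₁⟩ := Sm.scalar n _ h1
  obtain ⟨C₂, P₂, hC₂, H₂⟩ := Sm.scalar n _ h2
  obtain ⟨C₃, P₃, hC₃, H₃⟩ := Sm.scalar n _ h3
  refine ⟨C₁ + C₂ + C₃, P₁ + P₂ + P₃, by positivity, fun S v hv => ?_⟩
  have hK := S.one_le_K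
  have hKp := K_pos S
  have b1 : C₁ * S.K ^ P₁ ≤ (C₁ + C₂ + C₃) * S.K ^ (P₁ + P₂ + P₃) := by
    have := pow_le_pow_right₀ hK (show P₁ ≤ P₁ + P₂ + P₃ by omega)
    have h0 : 0 ≤ S.K ^ P₁ := by positivity
    exact mul_le_mul (by linarith) this h0 (by positivity)
  have b2 : C₂ * S.K ^ P₂ ≤ (C₁ + C₂ + C₃) * S.K ^ (P₁ + P₂ + P₃) := by
    have := pow_le_pow_right₀ hK (show P₂ ≤ P₁ + P₂ + P₃ by omega)
    have h0 : 0 ≤ S.K ^ P₂ := by positivity
    exact mul_le_mul (by linarith) this h0 (by positivity)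
  have b3 : C₃ * S.K ^ P₃ ≤ (C₁ + C₂ + C₃) * S.K ^ (P₁ + P₂ + P₃) := by
    have := pow_le_pow_right₀ hK (show P₃ ≤ P₁ + P₂ + P₃ by omega)
    have h0 : 0 ≤ S.K ^ P₃ := by positivity
    exact mul_le_mul (by linarith) this h0 (by positivity)
  have MM : ∀ l, MT Unit Unit Empty S (MT Unit Unit Empty S (cst S v))
      (Sum.elim (fun _ => l) (J0 S)) = ∑ m, S.T {l, m} * ∑ i, v i • S.T {m, i} := by
    intro l
    rw [MT_unit_apply]
    refine sum_congr rfl fun m _ => ?_
    rw [Sum.elim_comp_inr, MT_cst, Sum.elim_inl]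
  have eMM : ∀ k l, S.e k (∑ m, S.T {l, m} * ∑ i, v i • S.T {m, i}) = 0 := by
    intro k l
    rw [map_sum]
    refine sum_eq_zero fun m _ => ?_
    rw [Derivation.leibniz, e_T_pair, e_MT_cst]
    simp
  refine ⟨(le_of_eq ?_).trans ((H₁ S v hv).trans b1), (le_of_eq ?_).trans ((H₂ S v hv).trans b2),
    (le_of_eq ?_).trans ((H₃ S v hv).trans b3)⟩
  · have e : S.X (∑ i, v i • S.T {i}) = (div Empty S ∘ₗ MT Unit Unit Empty S +
      S.et • (epsop _ S ∘ₗ divb Empty S ∘ₗ MT Unit Unit Empty S ∘ₗ MT Unit Unit Empty S))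
        (cst S v) (J0 S) := by
      rw [LinearMap.add_apply, LinearMap.smul_apply, Pi.add_apply, Pi.smul_apply]
      simp only [LinearMap.comp_apply, epsop_apply, div_apply, divb_apply, MM, MT_cst, eMM,
        sub_zero]
      rw [map_sum]
      simp only [Derivation.map_smul, X_T_single, smul_add, sum_add_distrib]
      congr 1
      · simp only [smul_sum, mul_sum, map_sum, ← sum_sub_distrib]
        rw [sum_comm]
        refine sum_congr rfl fun l _ => sum_congr rfl fun i _ => ?_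
        rw [Derivation.map_smul, mul_smul_comm, ← smul_sub]
      · simp only [smul_sum, mul_sum]
        rw [sum_comm]
        refine sum_congr rfl fun k _ => ?_
        rw [sum_comm]
        refine sum_congr rfl fun l _ => sum_congr rfl fun i _ => ?_
        simp only [mul_smul_comm, smul_smul, mul_comm (v i) S.et]
    rw [Function.iterate_succ_apply, e]
  · have e : (∑ k, S.b k * ∑ i, v i • S.T {k, i}) =
        (divb Empty S ∘ₗ MT Unit Unit Empty S) (cst S v) (J0 S) := by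
      simp only [LinearMap.comp_apply, divb_apply, MT_cst, e_MT_cst, sub_zero]
    rw [e]
  · have e : (∑ k, S.b k * ∑ l, S.T {k, l} * ∑ i, v i • S.T {l, i}) =
        (divb Empty S ∘ₗ MT Unit Unit Empty S ∘ₗ MT Unit Unit Empty S) (cst S v) (J0 S) := by
      simp only [LinearMap.comp_apply, divb_apply, MM, eMM, sub_zero]
    rw [e]

/-- **Export, coordinates.** -/
theorem export_coord (c : ℕ → ℝ) (n : ℕ) : ∃ (C : ℝ) (P : ℕ), 0 ≤ C ∧ ∀ (S : Sett c) (i : S.N),
    S.I ((fun f => S.X f)^[n + 1] (S.T {i}) * (fun f => S.X f)^[n + 1] (S.T {i})) ≤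
      C * S.K ^ P ∧
    S.I ((fun f => S.X f)^[n] (∑ k, S.T {i, k} * S.b k) *
      (fun f => S.X f)^[n] (∑ k, S.T {i, k} * S.b k)) ≤ C * S.K ^ P ∧
    S.I ((fun f => S.X f)^[n] (∑ l, S.T {i, l} * ∑ k, S.T {l, k} * S.b k) *
      (fun f => S.X f)^[n] (∑ l, S.T {i, l} * ∑ k, S.T {l, k} * S.b k)) ≤ C * S.K ^ P := by
  obtain ⟨C, P, hC, H⟩ := export_scalar c n
  refine ⟨C, P, hC, fun S i => ?_⟩
  have hv : ∑ j, (Pi.single i (1 : ℝ) : S.N → ℝ) j ^ 2 ≤ 1 := by
    rw [Finset.sum_eq_single i]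
    · simp
    · intro j _ hj; rw [Pi.single_eq_of_ne hj]; simp
    · intro h; exact absurd (mem_univ i) h
  have h := H S (Pi.single i 1) hv
  have e1 : ∀ g : S.N → S.A, ∑ j, (Pi.single i (1 : ℝ) : S.N → ℝ) j • g j = g i := by
    intro g
    rw [Finset.sum_eq_single i]
    · simp
    · intro j _ hj; rw [Pi.single_eq_of_ne hj, zero_smul]
    · intro h; exact absurd (mem_univ i) h
  simp only [e1] at h
  refine ⟨h.1, ?_, ?_⟩
  · have e2 : ∑ k, S.T {i, k} * S.b k = ∑ k, S.b k * S.T {k, i} :=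
      sum_congr rfl fun k _ => by rw [Multiset.pair_comm i k, mul_comm]
    rw [e2]
    exact h.2.1
  · have e3 : ∑ l, S.T {i, l} * ∑ k, S.T {l, k} * S.b k =
        ∑ k, S.b k * ∑ l, S.T {k, l} * S.T {l, i} := by
      simp only [mul_sum]
      rw [sum_comm]
      refine sum_congr rfl fun k _ => sum_congr rfl fun l _ => ?_
      rw [Multiset.pair_comm i l, Multiset.pair_comm l k]
      ring
    rw [e3]
    exact h.2.2

end Crest.Agent.R285.Sob
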