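import Crest.Agent.R285.SM2
import Crest.Agent.R285.SobExp
import Crest.Agent.R285.Inner

/-!
Row 285 (S0430): final smoothness statement (SM2) for the uncoupled flow (1) and for the inner flow
at a frozen centre, in original units: from the flattening bounds `AFall c` (helper635) and the
abstract bounds (`Sob.export_coord`, helper682).
-/

set_option autoImplicit false
set_option linter.unusedSectionVars false

open MeasureTheory ProbabilityTheory Real Filter Topology Set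
open Crest.OracleSampling (E)
open scoped RealInnerProductSpace ENNReal ContDiff

noncomputable section

namespace Crest.Agent.R285.SM

open Crest.Agent.R285 Crest.Agent.R285.Inst Crest.Agent.R285.InstFix Crest.Agent.R285.PolyDv

/-- All flattening bounds, with universal constants `c`. -/
def AFall (c : ℕ → ℝ) : Prop :=
  ∀ {d : ℕ} {f : E d → ℝ} {τ κ : ℝ}, PotP τ f → 0 < τ → τ ≤ 1 → 0 < κ → κ ≤ 1 →
    AFB c κ⁻¹ τ f κ

variable {c : ℕ → ℝ}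

theorem kappa_le {t : ℝ} : √(1 - t ^ 2) ≤ 1 := by
  rw [Real.sqrt_le_left (by norm_num)]
  nlinarith [sq_nonneg t]

/-- The smoothness constant. -/
theorem exists_law1 (hAF : AFall c) (n : ℕ) : ∃ (C : ℝ) (P : ℕ), 0 ≤ C ∧
    ∀ {d : ℕ} {f : E d → ℝ} {τ : ℝ}, PotP τ f → 0 < τ → τ ≤ 1 → ∀ (a : E d) {t : ℝ},
      t ∈ Ioo (-1 : ℝ) 1 →
      eLpNorm ((Dv (vY f a 1))^[n + 1] (vY f a 1) t) 2 (Scale.law1 f a t) ≤
        ENNReal.ofReal (τ * (C * (√(1 - t ^ 2))⁻¹ ^ P) * √d) := by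
  obtain ⟨C, P, hC, H⟩ := Sob.export_coord c n
  refine ⟨C + 1, P, by linarith, fun {d f τ} hf hτ hτ1 a t ht => ?_⟩
  have hκ := sqrt_pos' ht
  have hK : 1 ≤ (√(1 - t ^ 2))⁻¹ := (one_le_inv₀ hκ).2 kappa_le
  have hKp : 1 ≤ (√(1 - t ^ 2))⁻¹ ^ P := one_le_pow₀ hK
  refine eLpNorm_vY_law1 hf hτ hτ1 a (n + 1) ht hK (hAF hf hτ hτ1 hκ kappa_le)
    (by positivity) ?_
  intro het hε hτ0 hτ1' i
  have h1 := (H (fixSett c (√(1 - t ^ 2))⁻¹ 0 hK het hf (sqrt_pos' ht) a t hε hτ0 hτ1'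
    (hAF hf hτ hτ1 hκ kappa_le)) i).1
  refine le_trans h1 ?_
  have e : (fixSett c (√(1 - t ^ 2))⁻¹ 0 hK het hf (sqrt_pos' ht) a t hε hτ0 hτ1'
    (hAF hf hτ hτ1 hκ kappa_le)).K = (√(1 - t ^ 2))⁻¹ := rfl
  rw [e, mul_pow]
  set X := (√(1 - t ^ 2))⁻¹ ^ P with hX
  have h2 : C * X ≤ (C + 1) ^ 2 * X := by
    have : C ≤ (C + 1) ^ 2 := by nlinarith
    exact mul_le_mul_of_nonneg_right this (by positivity)
  have h3 : (C + 1) ^ 2 * X ≤ (C + 1) ^ 2 * X ^ 2 := by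
    have : X ≤ X ^ 2 := by nlinarith
    exact mul_le_mul_of_nonneg_left this (by positivity)
  exact h2.trans h3

/-- **SM2**: smoothness along flow (1), original units. -/
theorem exists_vY (hAF : AFall c) (n : ℕ) : ∃ (C : ℝ) (P : ℕ), 0 ≤ C ∧
    ∀ {d : ℕ} {U : E d → ℝ} {h s : ℝ}, PotP h U → 0 < h → 0 < s → h * s ^ 2 ≤ 1 →
      ∀ (y : E d) {t : ℝ}, t ∈ Ioo (-1 : ℝ) 1 →
      eLpNorm (fun x => ((Dv (vY U y s))^[n + 1] (vY U y s)) t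
        (evol (vY U y s) (Ioo (-1 : ℝ) 1) 0 t x)) 2 (stdGaussian (E d)) ≤
        ENNReal.ofReal (h * s ^ 2 * (C * (√(1 - t ^ 2))⁻¹ ^ P) * √d) := by
  obtain ⟨C, P, hC, H⟩ := exists_law1 hAF n
  refine ⟨C, P, hC, fun {d U h s} hU hh hs hτ1 y t ht => ?_⟩
  have hf := Scale.potP_fs hU s
  have hτ : 0 < h * s ^ 2 := by positivity
  have h1 := H hf hτ hτ1 (s⁻¹ • y) ht
  rw [← Scale.map_evol_law1 hf (s⁻¹ • y) ht] at h1
  rw [Scale.vY_fs' hU hs.ne' y]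
  have hc0 : Continuous ((Dv (vY (Scale.fs U s) (s⁻¹ • y) 1))^[n + 1]
      (vY (Scale.fs U s) (s⁻¹ • y) 1) t) := by
    rw [← continuousOn_univ]
    exact ((smOn_vY hf (s⁻¹ • y) one_pos).iterate_Dv isOpen_Ioo
      (smOn_vY hf (s⁻¹ • y) one_pos) (n + 1)).continuousOn.comp
      (f := fun x : E d => (t, x)) (by fun_prop) (fun x _ => ⟨ht, mem_univ _⟩)
  have hm : Measurable (evol (vY (Scale.fs U s) (s⁻¹ • y) 1) (Ioo (-1 : ℝ) 1) 0 t) :=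
    ((goodOn_vY hf (s⁻¹ • y) one_pos).continuous_evol ⟨by norm_num, by norm_num⟩ ht).measurable
  rw [eLpNorm_map_measure hc0.aestronglyMeasurable hm.aemeasurable] at h1
  exact h1

/-- **SM2 at a frozen centre** in the shape of `InnB`. -/
theorem exists_InnB (hAF : AFall c) (n : ℕ) : ∃ (C : ℝ) (P : ℕ), 0 ≤ C ∧
    ∀ {d : ℕ} {U : E d → ℝ} {h s : ℝ}, PotP h U → 0 < h → 0 < s → h * s ^ 2 ≤ 1 →
      ∀ (y : E d) {t0 : ℝ}, 0 < t0 → t0 < 1 →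
      InnB U y s (n + 1) t0
        (ENNReal.ofReal (h * s ^ 2 * (C * (√(1 - t0 ^ 2))⁻¹ ^ P) * √d)) := by
  obtain ⟨C, P, hC, H⟩ := exists_vY hAF n
  refine ⟨C, P, hC, fun {d U h s} hU hh hs hτ1 y t0 h0 h1 t ht => ?_⟩
  have ht' : t ∈ Ioo (-1 : ℝ) 1 := ⟨by linarith [ht.1], ht.2.trans_lt h1⟩
  refine (H hU hh hs hτ1 y ht').trans (ENNReal.ofReal_le_ofReal ?_)
  have e1 : √(1 - t0 ^ 2) ≤ √(1 - t ^ 2) := by
    refine Real.sqrt_le_sqrt ?_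
    have := ht.1
    have := ht.2
    nlinarith
  have e2 : (√(1 - t ^ 2))⁻¹ ≤ (√(1 - t0 ^ 2))⁻¹ :=
    inv_anti₀ (sqrt_pos' ⟨by linarith, h1⟩) e1
  have e3 : (√(1 - t ^ 2))⁻¹ ^ P ≤ (√(1 - t0 ^ 2))⁻¹ ^ P := pow_le_pow_left₀ (by positivity) e2 P
  gcongr

end Crest.Agent.R285.SM
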