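import Crest.Agent.R285.AF
import Crest.Agent.R285.AFIter
import Crest.Agent.R285.SMInner

/-!
Row 285 (S0430), module AF: the hypothesis `SM.AFall` and boundedness lemmas (helper635).
-/

set_option autoImplicit false

open Crest.OracleSampling (E)

noncomputable section

namespace Crest.Agent.R285.AF

/-- **AFall.** -/
theorem AFall_afc : SM.AFall afc := by
  intro d f τ κ hf hτ hτ1 hκ hκ1 p q y x
  exact AF_op' hf hτ hτ1 hκ le_rfl hκ1 p q y x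

theorem exists_AFall : ∃ c, SM.AFall c := ⟨afc, AFall_afc⟩

variable {d : ℕ} {h : ℝ} {U : E d → ℝ}

/-- all derivatives of order `p + q ≥ 2` of `Ub U σ` -/
theorem norm_iteratedFDeriv_Ub_le (hU : PotP h U) {σ : ℝ} (hσ : 0 < σ) (hhσ : h * σ ^ 2 ≤ 1)
    {n : ℕ} (hn : 2 ≤ n) (x : E d) :
    ‖iteratedFDeriv ℝ n (Ub U σ) x‖ ≤ afc n * (h * σ ^ 2 / σ ^ n) := by
  obtain ⟨p, rfl⟩ : ∃ p, n = (p + 1) + 1 := ⟨n - 2, by omega⟩
  have h1 := AF_FB_Ub hU hσ hhσ x (Fin (p + 1)) (Fin 1)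
  simp only [Fintype.card_fin] at h1
  have hh := hU.hh
  have hc := afc_pos (p + 1 + 1)
  exact norm_iteratedFDeriv_le_of_FB (contDiff_Ub hU hσ) (by positivity) x h1

/-- all derivatives of order `n ≥ 1` of `G U σ` -/
theorem norm_iteratedFDeriv_G_le (hU : PotP h U) {σ : ℝ} (hσ : 0 < σ) (hhσ : h * σ ^ 2 ≤ 1)
    {n : ℕ} (hn : 1 ≤ n) (x : E d) :
    ‖iteratedFDeriv ℝ n (G U σ) x‖ ≤ afc (n + 1) * (h * σ ^ 2 / σ ^ (n + 1)) := by
  have h1 := norm_iteratedFDeriv_Ub_le hU hσ hhσ (n := n + 1) (by omega) x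
  rw [← norm_iteratedFDeriv_gradient] at h1
  exact h1

end Crest.Agent.R285.AF
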