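import Mathlib

/-!
# Row 285, module AF: the Gaussian average `hS δ Φ y = E Φ (y + √δ g)`
-/

set_option autoImplicit false

open MeasureTheory ProbabilityTheory

noncomputable section

namespace Crest.Agent.R285

/-- Gaussian average (heat semigroup at time `δ`). -/
def hS {V : Type} [NormedAddCommGroup V] [InnerProductSpace ℝ V] [FiniteDimensional ℝ V]
    [MeasurableSpace V] [BorelSpace V] {F : Type*} [NormedAddCommGroup F] [NormedSpace ℝ F]
    (δ : ℝ) (Φ : V → F) (y : V) : F :=
  ∫ g, Φ (y + √δ • g) ∂(stdGaussian V)

end Crest.Agent.R285
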