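import Mathlib
import Crest.Agent.R285.AFDefs
import Crest.Agent.R285.Gauss
import Crest.Agent.R285.ExpFam
import Crest.Agent.R285.PoinBase

/-!
# Row 285, module AF, step A1: derivative of posterior averages
-/

set_option autoImplicit false

open MeasureTheory ProbabilityTheory Real Filter Topology Set
open scoped InnerProductSpace

noncomputable section

namespace Crest.Agent.R285.AFK

variable {V : Type} [NormedAddCommGroup V] [InnerProductSpace ℝ V] [FiniteDimensional ℝ V]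
  [MeasurableSpace V] [BorelSpace V]
variable {F : Type} [NormedAddCommGroup F] [NormedSpace ℝ F]

/-- the exponential statistic -/
def TT (δ : ℝ) (x : V) : V →L[ℝ] ℝ := δ⁻¹ • innerSL ℝ x

/-- Gaussian weight times `Φ` -/
def PP (δ : ℝ) (Φ : V → F) (x : V) : F := rexp (-‖x‖ ^ 2 / (2 * δ)) • Φ x

/-- unnormalised posterior integral -/
def NN (δ : ℝ) (Φ : V → F) (y : V) : F := expInt volume (TT δ) (PP δ Φ) y

omit [FiniteDimensional ℝ V] [MeasurableSpace V] [BorelSpace V] in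
lemma TT_apply (δ : ℝ) (x v : V) : TT δ x v = δ⁻¹ * ⟪x, v⟫_ℝ := by simp [TT]

omit [FiniteDimensional ℝ V] [MeasurableSpace V] [BorelSpace V] in
lemma norm_TT {δ : ℝ} (hδ : 0 < δ) (x : V) : ‖TT δ x‖ = δ⁻¹ * ‖x‖ := by
  rw [TT, norm_smul, Real.norm_of_nonneg (by positivity), innerSL_apply_norm]

lemma meas_TT (δ : ℝ) : AEStronglyMeasurable (TT δ : V → V →L[ℝ] ℝ) volume := by
  have : Continuous (TT δ : V → V →L[ℝ] ℝ) := by
    unfold TT
    fun_prop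
  exact this.aestronglyMeasurable

omit [FiniteDimensional ℝ V] [MeasurableSpace V] [BorelSpace V] in
lemma strong_quad {δ : ℝ} : StrongConvexOn univ δ⁻¹ (fun x : V => ‖x‖ ^ 2 / (2 * δ)) := by
  rw [strongConvexOn_iff_convex]
  have : (fun x : V => ‖x‖ ^ 2 / (2 * δ) - δ⁻¹ / 2 * ‖x‖ ^ 2) = fun _ => (0 : ℝ) := by
    funext x
    rw [div_eq_mul_inv, mul_inv]
    ring
  rw [this]
  exact convexOn_const 0 convex_univ

lemma integrable_wt {δ : ℝ} (hδ : 0 < δ) (n : ℕ) (a : ℝ) :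
    Integrable (fun x : V => (1 + ‖x‖) ^ n * rexp (a * ‖x‖) * rexp (-‖x‖ ^ 2 / (2 * δ))) := by
  have h := Poin.StrongConvexOn.integrable_mul (E := V) (inv_pos.2 hδ) (strong_quad (δ := δ))
    (by fun_prop) n a
  refine h.congr (ae_of_all _ fun x => ?_)
  simp only [neg_div]

lemma expDom_PP {δ : ℝ} (hδ : 0 < δ) {Φ : V → F} (hΦ : AEStronglyMeasurable Φ volume)
    {C : ℝ} {n : ℕ} (hb : ∀ x, ‖Φ x‖ ≤ C * (1 + ‖x‖) ^ n) :
    ExpDom volume (TT δ) univ (PP δ Φ) := by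
  have hC : 0 ≤ C := by
    have := (norm_nonneg _).trans (hb 0)
    simpa using this
  have hPm : AEStronglyMeasurable (PP δ Φ) volume := by
    unfold PP
    exact (by fun_prop : Continuous fun x : V => rexp (-‖x‖ ^ 2 / (2 * δ))).aestronglyMeasurable.smul hΦ
  refine ⟨hPm, fun θ _ => ⟨1, one_pos, fun k => ?_⟩⟩
  have hint := (integrable_wt (V := V) hδ (k + n) (δ⁻¹ * (‖θ‖ + 1))).const_mul (δ⁻¹ ^ k * C)
  refine hint.mono' ?_ (ae_of_all _ fun x => ?_)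
  · refine AEStronglyMeasurable.mul (AEStronglyMeasurable.mul ?_ hPm.norm) ?_
    · exact (continuous_pow k).comp_aestronglyMeasurable (meas_TT δ).norm
    · refine continuous_exp.comp_aestronglyMeasurable ?_
      exact ((ContinuousLinearMap.apply ℝ ℝ θ).continuous.comp_aestronglyMeasurable
        (meas_TT δ)).add ((meas_TT δ).norm.const_mul 1)
  · rw [Real.norm_of_nonneg (by positivity), norm_TT hδ]
    have h1 : ‖PP δ Φ x‖ ≤ rexp (-‖x‖ ^ 2 / (2 * δ)) * (C * (1 + ‖x‖) ^ n) := by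
      rw [PP, norm_smul, Real.norm_of_nonneg (exp_pos _).le]
      gcongr
      exact hb x
    have h2 : TT δ x θ + 1 * (δ⁻¹ * ‖x‖) ≤ δ⁻¹ * (‖θ‖ + 1) * ‖x‖ := by
      rw [TT_apply]
      have := real_inner_le_norm x θ
      have h3 : δ⁻¹ * ⟪x, θ⟫_ℝ ≤ δ⁻¹ * (‖x‖ * ‖θ‖) := by gcongr
      nlinarith
    have h4 : (δ⁻¹ * ‖x‖) ^ k ≤ δ⁻¹ ^ k * (1 + ‖x‖) ^ k := by
      rw [mul_pow]
      gcongr
      linarith
    calc (δ⁻¹ * ‖x‖) ^ k * ‖PP δ Φ x‖ * rexp (TT δ x θ + 1 * (δ⁻¹ * ‖x‖))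
        ≤ (δ⁻¹ ^ k * (1 + ‖x‖) ^ k) * (rexp (-‖x‖ ^ 2 / (2 * δ)) * (C * (1 + ‖x‖) ^ n))
          * rexp (δ⁻¹ * (‖θ‖ + 1) * ‖x‖) := by gcongr
      _ = _ := by rw [pow_add]; ring

/-- the constant -/
def cc (V : Type) [NormedAddCommGroup V] [InnerProductSpace ℝ V] (δ : ℝ) : ℝ :=
  (√δ ^ Module.finrank ℝ V)⁻¹ * (2 * π) ^ (-(Module.finrank ℝ V : ℝ) / 2)

omit [FiniteDimensional ℝ V] [MeasurableSpace V] [BorelSpace V] in
lemma cc_pos {δ : ℝ} (hδ : 0 < δ) : 0 < cc V δ := by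
  unfold cc
  positivity

lemma hS_eq {δ : ℝ} (hδ : 0 < δ) (Φ : V → F) (y : V) :
    hS δ Φ y = (cc V δ * rexp (-‖y‖ ^ 2 / (2 * δ))) • NN δ Φ y := by
  have hs : 0 < √δ := Real.sqrt_pos.2 hδ
  rw [hS, integral_stdGaussian]
  -- change of variables
  have h1 : ∫ g : V, gdens g • Φ (y + √δ • g)
      = ∫ g : V, (fun x => gdens ((√δ)⁻¹ • (x - y)) • Φ x) (y + √δ • g) := by
    refine integral_congr_ae (ae_of_all _ fun g => ?_)
    simp only [add_sub_cancel_left, smul_smul]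
    rw [inv_mul_cancel₀ hs.ne', one_smul]
  rw [h1]
  have h2 : ∫ g : V, (fun x => gdens ((√δ)⁻¹ • (x - y)) • Φ x) (y + √δ • g)
      = (√δ ^ Module.finrank ℝ V)⁻¹ • ∫ x : V, gdens ((√δ)⁻¹ • (x - y)) • Φ x := by
    have h3 := Measure.integral_comp_smul (volume : Measure V)
      (fun x => (fun x => gdens ((√δ)⁻¹ • (x - y)) • Φ x) (y + x)) √δ
    rw [h3, abs_of_nonneg (by positivity)]
    congr 1
    exact integral_add_left_eq_self (fun x => gdens ((√δ)⁻¹ • (x - y)) • Φ x) y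
  rw [h2, NN, expInt, ← integral_smul, ← integral_smul]
  refine integral_congr_ae (ae_of_all _ fun x => ?_)
  simp only [PP, smul_smul, TT_apply, gdens, cc]
  congr 1
  rw [norm_smul, norm_inv, Real.norm_of_nonneg hs.le, mul_pow, inv_pow, Real.sq_sqrt hδ.le,
    norm_sub_sq_real]
  have h4 : rexp (-(δ⁻¹ * (‖x‖ ^ 2 - 2 * ⟪x, y⟫_ℝ + ‖y‖ ^ 2)) / 2)
      = rexp (-‖y‖ ^ 2 / (2 * δ)) * (rexp (δ⁻¹ * ⟪x, y⟫_ℝ) * rexp (-‖x‖ ^ 2 / (2 * δ))) := by
    rw [← Real.exp_add, ← Real.exp_add]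
    congr 1
    field_simp
    ring
  rw [h4]
  ring

/-- derivative of the unnormalised integral, real valued -/
lemma hasFDerivAt_NN {δ : ℝ} (hδ : 0 < δ) {Φ : V → ℝ} (hΦ : AEStronglyMeasurable Φ volume)
    {C : ℝ} {n : ℕ} (hb : ∀ x, ‖Φ x‖ ≤ C * (1 + ‖x‖) ^ n) (y : V) :
    HasFDerivAt (NN δ Φ) (expInt volume (TT δ) (fun z => (TT δ z).smulRight (PP δ Φ z)) y) y :=
  hasFDerivAt_expInt (meas_TT δ) (expDom_PP hδ hΦ hb) (mem_univ y)

lemma integrable_NN {δ : ℝ} (hδ : 0 < δ) {Φ : V → F} (hΦ : AEStronglyMeasurable Φ volume)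
    {C : ℝ} {n : ℕ} (hb : ∀ x, ‖Φ x‖ ≤ C * (1 + ‖x‖) ^ n) (y : V) :
    Integrable (fun z => rexp (TT δ z y) • PP δ Φ z) :=
  (expDom_PP hδ hΦ hb).integrable (meas_TT δ) (mem_univ y)

lemma expInt_apply {δ : ℝ} (hδ : 0 < δ) {Φ : V → ℝ} (hΦ : AEStronglyMeasurable Φ volume)
    {C : ℝ} {n : ℕ} (hb : ∀ x, ‖Φ x‖ ≤ C * (1 + ‖x‖) ^ n) (y v : V) :
    expInt volume (TT δ) (fun z => (TT δ z).smulRight (PP δ Φ z)) y v
      = δ⁻¹ * NN δ (fun x => Φ x * ⟪x, v⟫_ℝ) y := by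
  rw [expInt, ContinuousLinearMap.integral_apply, NN, expInt, ← smul_eq_mul, ← integral_smul]
  · refine integral_congr_ae (ae_of_all _ fun x => ?_)
    simp only [FunLike.coe_smul, Pi.smul_apply, ContinuousLinearMap.smulRight_apply,
      TT_apply, PP, smul_eq_mul]
    ring
  · exact ((expDom_PP hδ hΦ hb).step (meas_TT δ)).integrable (meas_TT δ) (mem_univ y)

omit [FiniteDimensional ℝ V] [MeasurableSpace V] [BorelSpace V] in
lemma growth_mul_inner {Φ : V → ℝ} {C : ℝ} {n : ℕ} (hb : ∀ x, ‖Φ x‖ ≤ C * (1 + ‖x‖) ^ n)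
    (v : V) (x : V) : ‖Φ x * ⟪x, v⟫_ℝ‖ ≤ (C * ‖v‖) * (1 + ‖x‖) ^ (n + 1) := by
  rw [norm_mul]
  have hC : 0 ≤ C := by
    have := (norm_nonneg _).trans (hb 0)
    simpa using this
  calc ‖Φ x‖ * ‖⟪x, v⟫_ℝ‖ ≤ (C * (1 + ‖x‖) ^ n) * ((1 + ‖x‖) * ‖v‖) := by
        gcongr
        · exact hb x
        · refine (norm_inner_le_norm x v).trans ?_
          gcongr
          linarith
    _ = _ := by ring

lemma hasFDerivAt_NN' {δ : ℝ} (hδ : 0 < δ) {Φ : V → ℝ} (hΦ : AEStronglyMeasurable Φ volume)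
    {C : ℝ} {n : ℕ} (hb : ∀ x, ‖Φ x‖ ≤ C * (1 + ‖x‖) ^ n) (y : V) :
    ∃ L : V →L[ℝ] ℝ, HasFDerivAt (NN δ Φ) L y ∧
      ∀ v, L v = δ⁻¹ * NN δ (fun x => Φ x * ⟪x, v⟫_ℝ) y :=
  ⟨_, hasFDerivAt_NN hδ hΦ hb y, fun v => expInt_apply hδ hΦ hb y v⟩

lemma NN_pos {δ : ℝ} (hδ : 0 < δ) {H : V → ℝ} (hH : AEStronglyMeasurable H volume)
    (hH0 : ∀ x, 0 < H x) {C : ℝ} {n : ℕ} (hb : ∀ x, ‖H x‖ ≤ C * (1 + ‖x‖) ^ n) (y : V) :
    0 < NN δ H y := by
  rw [NN, expInt, integral_pos_iff_support_of_nonneg]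
  · have : Function.support (fun z => rexp (TT δ z y) • PP δ H z) = univ := by
      ext z
      simp only [PP, Function.mem_support, mem_univ, iff_true, smul_eq_mul]
      have := hH0 z
      positivity
    rw [this]
    exact Measure.measure_univ_pos.2 (NeZero.ne _)
  · intro z
    simp only [PP, smul_eq_mul, Pi.zero_apply]
    have := hH0 z
    positivity
  · exact integrable_NN hδ hH hb y

lemma hS_pos {δ : ℝ} (hδ : 0 < δ) {H : V → ℝ} (hH : AEStronglyMeasurable H volume)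
    (hH0 : ∀ x, 0 < H x) {C : ℝ} {n : ℕ} (hb : ∀ x, ‖H x‖ ≤ C * (1 + ‖x‖) ^ n) (y : V) :
    0 < hS δ H y := by
  rw [hS_eq hδ, smul_eq_mul]
  have h1 := NN_pos hδ hH hH0 hb y
  have h2 := cc_pos (V := V) hδ
  positivity

/-- Posterior expectation. -/
def EK (δ : ℝ) (H Φ : V → ℝ) (y : V) : ℝ := hS δ (fun x => Φ x * H x) y / hS δ H y

lemma EK_eq {δ : ℝ} (hδ : 0 < δ) (H Φ : V → ℝ) (y : V) :
    EK δ H Φ y = NN δ (fun x => Φ x * H x) y / NN δ H y := by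
  rw [EK, hS_eq hδ, hS_eq hδ, smul_eq_mul, smul_eq_mul, mul_div_mul_left]
  have := cc_pos (V := V) hδ
  positivity

/-- smoothness of Gaussian averages -/
theorem contDiff_hS {δ : ℝ} (hδ : 0 < δ) {Φ : V → F} (hΦ : AEStronglyMeasurable Φ volume)
    {C : ℝ} {n : ℕ} (hb : ∀ x, ‖Φ x‖ ≤ C * (1 + ‖x‖) ^ n) : ContDiff ℝ (⊤ : ℕ∞) (hS δ Φ) := by
  have h1 : hS δ Φ = fun y => (cc V δ * rexp (-‖y‖ ^ 2 / (2 * δ))) • NN δ Φ y := by
    funext y
    exact hS_eq hδ Φ y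
  rw [h1]
  have h2 : ContDiff ℝ (⊤ : ℕ∞) (NN δ Φ) := by
    rw [← contDiffOn_univ]
    exact contDiffOn_expInt (meas_TT δ) isOpen_univ (expDom_PP hδ hΦ hb)
  refine ContDiff.smul ?_ h2
  have h3 : ContDiff ℝ (⊤ : ℕ∞) (fun y : V => ‖y‖ ^ 2) := contDiff_norm_sq ℝ
  exact contDiff_const.mul ((h3.neg.div_const _).exp)

section main

variable {δ : ℝ} {H : V → ℝ}

/-- **A1 (a)**: derivative of a posterior average, polynomial growth. -/
theorem hasFDerivAt_EK (hδ : 0 < δ) (hHm : AEStronglyMeasurable H volume) (hH0 : ∀ x, 0 < H x)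
    (hH1 : ∀ x, H x ≤ 1) {Φ : V → ℝ} (hΦ : AEStronglyMeasurable Φ volume) {C : ℝ} {n : ℕ}
    (hb : ∀ x, ‖Φ x‖ ≤ C * (1 + ‖x‖) ^ n) (y : V) :
    ∃ L : V →L[ℝ] ℝ, HasFDerivAt (EK δ H Φ) L y ∧ ∀ v, L v = δ⁻¹ *
      (EK δ H (fun x => Φ x * ⟪x, v⟫_ℝ) y - EK δ H Φ y * EK δ H (fun x => ⟪x, v⟫_ℝ) y) := by
  have hC : 0 ≤ C := by
    have := (norm_nonneg _).trans (hb 0)
    simpa using this
  have hHb : ∀ x, ‖H x‖ ≤ 1 * (1 + ‖x‖) ^ 0 := fun x => by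
    rw [Real.norm_of_nonneg (hH0 x).le]; simpa using hH1 x
  have hΦHb : ∀ x, ‖Φ x * H x‖ ≤ C * (1 + ‖x‖) ^ n := fun x => by
    rw [norm_mul, Real.norm_of_nonneg (hH0 x).le]
    calc ‖Φ x‖ * H x ≤ ‖Φ x‖ * 1 := by gcongr; exact hH1 x
      _ ≤ _ := by rw [mul_one]; exact hb x
  have hΦHm : AEStronglyMeasurable (fun x => Φ x * H x) volume := hΦ.mul hHm
  obtain ⟨L1, hL1, hL1v⟩ := hasFDerivAt_NN' hδ hΦHm hΦHb y
  obtain ⟨L2, hL2, hL2v⟩ := hasFDerivAt_NN' hδ hHm hHb y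
  have hN : NN δ H y ≠ 0 := (NN_pos hδ hHm hH0 hHb y).ne'
  have hfun : EK δ H Φ = fun z => NN δ (fun x => Φ x * H x) z * (NN δ H z)⁻¹ := by
    funext z
    rw [EK_eq hδ H Φ z, div_eq_mul_inv]
  have hd := hL1.mul ((hasDerivAt_inv hN).comp_hasFDerivAt y hL2)
  refine ⟨_, by rw [hfun]; exact hd, fun v => ?_⟩
  have e1 : (fun x => Φ x * H x * ⟪x, v⟫_ℝ) = fun x => Φ x * ⟪x, v⟫_ℝ * H x := by
    funext x; ring
  have e2 : (fun x => H x * ⟪x, v⟫_ℝ) = fun x => ⟪x, v⟫_ℝ * H x := by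
    funext x; ring
  simp only [add_apply, FunLike.coe_smul, Pi.smul_apply,
    smul_eq_mul, Function.comp_apply, hL1v, hL2v, EK_eq hδ, e1, e2]
  field_simp
  ring

/-- The posterior kernel `K(y) ∝ H(x) N(y, δ)(dx)`. -/
def KK (δ : ℝ) (H : V → ℝ) (y : V) : Measure V :=
  volume.withDensity fun x => ENNReal.ofReal (rexp (TT δ x y) * PP δ H x / NN δ H y)

lemma kk_dens_nonneg (hδ : 0 < δ) (hHm : Measurable H) (hH0 : ∀ x, 0 < H x)
    (hH1 : ∀ x, H x ≤ 1) (y x : V) : 0 ≤ rexp (TT δ x y) * PP δ H x / NN δ H y := by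
  have hHb : ∀ x, ‖H x‖ ≤ 1 * (1 + ‖x‖) ^ 0 := fun x => by
    rw [Real.norm_of_nonneg (hH0 x).le]; simpa using hH1 x
  have h1 := NN_pos hδ hHm.aestronglyMeasurable hH0 hHb y
  have h2 := hH0 x
  unfold PP
  simp only [smul_eq_mul]
  positivity

lemma kk_dens_meas (hHm : Measurable H) (y : V) :
    Measurable fun x => rexp (TT δ x y) * PP δ H x / NN δ H y := by
  have h1 : Measurable fun x : V => rexp (TT δ x y) := by
    simp only [TT_apply]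
    fun_prop
  have h2 : Measurable fun x : V => PP δ H x := by
    unfold PP
    simp only [smul_eq_mul]
    exact (by fun_prop : Measurable fun x : V => rexp (-‖x‖ ^ 2 / (2 * δ))).mul hHm
  exact (h1.mul h2).div_const _

lemma integral_KK (hδ : 0 < δ) (hHm : Measurable H) (hH0 : ∀ x, 0 < H x)
    (hH1 : ∀ x, H x ≤ 1) (y : V) (Φ : V → ℝ) : ∫ x, Φ x ∂(KK δ H y) = EK δ H Φ y := by
  rw [KK, integral_withDensity_eq_integral_toReal_smul (kk_dens_meas hHm y).ennreal_ofReal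
    (ae_of_all _ fun x => ENNReal.ofReal_lt_top), EK_eq hδ]
  have h : NN δ (fun x => Φ x * H x) y
      = ∫ x, rexp (TT δ x y) • PP δ (fun x => Φ x * H x) x := rfl
  rw [h, div_eq_mul_inv, ← integral_mul_const]
  refine integral_congr_ae (ae_of_all _ fun x => ?_)
  simp only []
  rw [ENNReal.toReal_ofReal (kk_dens_nonneg hδ hHm hH0 hH1 y x)]
  simp only [smul_eq_mul, PP]
  ring

lemma integrable_KK_iff (hδ : 0 < δ) (hHm : Measurable H) (hH0 : ∀ x, 0 < H x)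
    (hH1 : ∀ x, H x ≤ 1) (y : V) (Φ : V → ℝ) :
    Integrable Φ (KK δ H y) ↔
      Integrable (fun x => rexp (TT δ x y) • PP δ (fun x => Φ x * H x) x) := by
  have hHb : ∀ x, ‖H x‖ ≤ 1 * (1 + ‖x‖) ^ 0 := fun x => by
    rw [Real.norm_of_nonneg (hH0 x).le]; simpa using hH1 x
  have hN := NN_pos hδ hHm.aestronglyMeasurable hH0 hHb y
  rw [KK, integrable_withDensity_iff_integrable_smul' (kk_dens_meas hHm y).ennreal_ofReal
    (ae_of_all _ fun x => ENNReal.ofReal_lt_top)]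
  rw [← integrable_const_mul_iff (c := NN δ H y) hN.ne'.isUnit]
  refine integrable_congr (ae_of_all _ fun x => ?_)
  simp only []
  rw [ENNReal.toReal_ofReal (kk_dens_nonneg hδ hHm hH0 hH1 y x)]
  simp only [smul_eq_mul, PP]
  field_simp

lemma integrable_KK (hδ : 0 < δ) (hHm : Measurable H) (hH0 : ∀ x, 0 < H x)
    (hH1 : ∀ x, H x ≤ 1) (y : V) {Φ : V → ℝ} (hΦ : AEStronglyMeasurable Φ volume) {C : ℝ} {n : ℕ}
    (hb : ∀ x, ‖Φ x‖ ≤ C * (1 + ‖x‖) ^ n) : Integrable Φ (KK δ H y) := by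
  rw [integrable_KK_iff hδ hHm hH0 hH1 y]
  refine integrable_NN (C := C) (n := n) hδ (hΦ.mul hHm.aestronglyMeasurable) (fun x => ?_) y
  rw [Pi.mul_apply, norm_mul, Real.norm_of_nonneg (hH0 x).le]
  calc ‖Φ x‖ * H x ≤ ‖Φ x‖ * 1 := by gcongr; exact hH1 x
    _ ≤ _ := by rw [mul_one]; exact hb x

lemma prob_KK (hδ : 0 < δ) (hHm : Measurable H) (hH0 : ∀ x, 0 < H x)
    (hH1 : ∀ x, H x ≤ 1) (y : V) : IsProbabilityMeasure (KK δ H y) := by
  have hHb : ∀ x, ‖H x‖ ≤ 1 * (1 + ‖x‖) ^ 0 := fun x => by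
    rw [Real.norm_of_nonneg (hH0 x).le]; simpa using hH1 x
  have hN := NN_pos hδ hHm.aestronglyMeasurable hH0 hHb y
  constructor
  rw [KK, withDensity_apply _ MeasurableSet.univ, Measure.restrict_univ,
    ← ofReal_integral_eq_lintegral_ofReal]
  · have : ∫ x, rexp (TT δ x y) * PP δ H x / NN δ H y = 1 := by
      simp_rw [div_eq_mul_inv]
      rw [integral_mul_const]
      have : ∫ x, rexp (TT δ x y) * PP δ H x = NN δ H y := rfl
      rw [this, mul_inv_cancel₀ hN.ne']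
    rw [this]
    simp
  · exact (integrable_NN hδ hHm.aestronglyMeasurable hHb y).div_const _
  · exact ae_of_all _ fun x => kk_dens_nonneg hδ hHm hH0 hH1 y x

/-- **A1**: the covariance bound `Cov_K ≤ δ` from convexity of `-log hS δ H`. -/
theorem var_KK_le (hδ : 0 < δ) (hHm : Measurable H) (hH0 : ∀ x, 0 < H x)
    (hH1 : ∀ x, H x ≤ 1) (hconv : ConvexOn ℝ univ fun y => -Real.log (hS δ H y)) (y v : V) :
    EK δ H (fun x => ⟪x, v⟫_ℝ * ⟪x, v⟫_ℝ) y - EK δ H (fun x => ⟪x, v⟫_ℝ) y ^ 2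
      ≤ δ * ‖v‖ ^ 2 := by
  have hHb : ∀ x, ‖H x‖ ≤ 1 * (1 + ‖x‖) ^ 0 := fun x => by
    rw [Real.norm_of_nonneg (hH0 x).le]; simpa using hH1 x
  have hNpos : ∀ z, 0 < NN δ H z := fun z => NN_pos hδ hHm.aestronglyMeasurable hH0 hHb z
  -- the convex function along the line
  set ψ : ℝ → ℝ := fun r => -Real.log (hS δ H (y + r • v)) with hψ
  have hψc : ConvexOn ℝ univ ψ := by
    refine ⟨convex_univ, fun r _ r' _ a b ha hb hab => ?_⟩
    have h := hconv.2 (mem_univ (y + r • v)) (mem_univ (y + r' • v)) ha hb hab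
    have e : a • (y + r • v) + b • (y + r' • v) = y + (a • r + b • r') • v := by
      have : a • y + b • y = y := by rw [← add_smul, hab, one_smul]
      calc a • (y + r • v) + b • (y + r' • v) = (a • y + b • y) + (a • r + b • r') • v := by
            simp only [smul_add, smul_smul, add_smul, smul_eq_mul]
            abel
        _ = _ := by rw [this]
    rw [e] at h
    exact h
  set φ : ℝ → ℝ := fun r =>
    δ⁻¹ * ⟪y + r • v, v⟫_ℝ - δ⁻¹ * EK δ H (fun x => ⟪x, v⟫_ℝ) (y + r • v) with hφ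
  have hline : ∀ r, HasDerivAt (fun r : ℝ => y + r • v) v r := fun r => by
    simpa using ((hasDerivAt_id r).smul_const v).const_add y
  have hψd : ∀ r, HasDerivAt ψ (φ r) r := by
    intro r
    have h1 : ψ = fun r => -Real.log (cc V δ) + ‖y + r • v‖ ^ 2 / (2 * δ)
        - Real.log (NN δ H (y + r • v)) := by
      funext r
      simp only [hψ]
      rw [hS_eq hδ, smul_eq_mul, Real.log_mul (by have := cc_pos (V := V) hδ; positivity)
        (hNpos _).ne', Real.log_mul (cc_pos hδ).ne' (Real.exp_pos _).ne', Real.log_exp]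
      ring
    rw [h1]
    obtain ⟨L, hL, hLv⟩ := hasFDerivAt_NN' hδ hHm.aestronglyMeasurable hHb (y + r • v)
    have h2 : HasDerivAt (fun r => Real.log (NN δ H (y + r • v)))
        (L v / NN δ H (y + r • v)) r :=
      (hL.comp_hasDerivAt r (hline r)).log (hNpos _).ne'
    have h3 : HasDerivAt (fun r : ℝ => ‖y + r • v‖ ^ 2) (2 * ⟪y + r • v, v⟫_ℝ) r :=
      (hline r).norm_sq
    have h4 := ((h3.div_const (2 * δ)).const_add (-Real.log (cc V δ))).sub h2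
    refine HasDerivAt.congr_deriv (f := fun r => -Real.log (cc V δ) + ‖y + r • v‖ ^ 2 / (2 * δ)
        - Real.log (NN δ H (y + r • v))) h4 ?_
    show _ = δ⁻¹ * ⟪y + r • v, v⟫_ℝ - δ⁻¹ * EK δ H (fun x => ⟪x, v⟫_ℝ) (y + r • v)
    rw [hLv, EK_eq hδ]
    have e2 : (fun x => H x * ⟪x, v⟫_ℝ) = fun x => ⟪x, v⟫_ℝ * H x := by
      funext x; ring
    rw [e2]
    field_simp
  have hmono : ∀ r, 0 < r → φ 0 ≤ φ r := by
    intro r hr
    exact (hψc.le_slope_of_hasDerivAt (mem_univ 0) (mem_univ r) hr (hψd 0)).trans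
      (hψc.slope_le_of_hasDerivAt (mem_univ 0) (mem_univ r) hr (hψd r))
  -- derivative of φ at 0
  have hinb : ∀ x : V, ‖⟪x, v⟫_ℝ‖ ≤ ‖v‖ * (1 + ‖x‖) ^ 1 := by
    intro x
    refine (norm_inner_le_norm x v).trans ?_
    nlinarith [norm_nonneg x, norm_nonneg v]
  obtain ⟨L, hL, hLv⟩ := hasFDerivAt_EK hδ hHm.aestronglyMeasurable hH0 hH1
    (Φ := fun x => ⟪x, v⟫_ℝ) (by fun_prop) hinb y
  have hφd : HasDerivAt φ (δ⁻¹ * ‖v‖ ^ 2 - δ⁻¹ * L v) 0 := by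
    have h1 : HasDerivAt (fun r : ℝ => ⟪y + r • v, v⟫_ℝ) (‖v‖ ^ 2) 0 := by
      have := (hline 0).inner ℝ (hasDerivAt_const 0 v)
      simpa [real_inner_self_eq_norm_sq] using this
    have h2 : HasDerivAt (fun r : ℝ => EK δ H (fun x => ⟪x, v⟫_ℝ) (y + r • v)) (L v) 0 := by
      have h3 : HasFDerivAt (EK δ H fun x => ⟪x, v⟫_ℝ) L (y + (0 : ℝ) • v) := by simpa using hL
      exact h3.comp_hasDerivAt 0 (hline 0)
    exact (h1.const_mul _).sub (h2.const_mul _)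
  have hlim := hφd.tendsto_slope_zero_right
  have hge : 0 ≤ δ⁻¹ * ‖v‖ ^ 2 - δ⁻¹ * L v := by
    refine ge_of_tendsto hlim ?_
    filter_upwards [self_mem_nhdsWithin] with r hr
    have hr' : 0 < r := hr
    have := hmono r hr'
    simp only [zero_add, smul_eq_mul]
    have h5 : 0 ≤ r⁻¹ := by positivity
    nlinarith
  rw [hLv v] at hge
  have h6 : EK δ H (fun x => ⟪x, v⟫_ℝ * ⟪x, v⟫_ℝ) y
      - EK δ H (fun x => ⟪x, v⟫_ℝ) y * EK δ H (fun x => ⟪x, v⟫_ℝ) y ≤ δ * ‖v‖ ^ 2 := by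
    have h7 : 0 ≤ δ ^ 2 * (δ⁻¹ * ‖v‖ ^ 2 - δ⁻¹ * (δ⁻¹ *
      (EK δ H (fun x => ⟪x, v⟫_ℝ * ⟪x, v⟫_ℝ) y
        - EK δ H (fun x => ⟪x, v⟫_ℝ) y * EK δ H (fun x => ⟪x, v⟫_ℝ) y))) :=
      mul_nonneg (by positivity) hge
    have h8 : δ ^ 2 * (δ⁻¹ * ‖v‖ ^ 2 - δ⁻¹ * (δ⁻¹ *
      (EK δ H (fun x => ⟪x, v⟫_ℝ * ⟪x, v⟫_ℝ) y
        - EK δ H (fun x => ⟪x, v⟫_ℝ) y * EK δ H (fun x => ⟪x, v⟫_ℝ) y)))
        = δ * ‖v‖ ^ 2 - (EK δ H (fun x => ⟪x, v⟫_ℝ * ⟪x, v⟫_ℝ) y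
        - EK δ H (fun x => ⟪x, v⟫_ℝ) y * EK δ H (fun x => ⟪x, v⟫_ℝ) y) := by
      field_simp
    rw [h8] at h7
    linarith
  rw [sq]
  exact h6

lemma EK_bdd (hδ : 0 < δ) (hHm : Measurable H) (hH0 : ∀ x, 0 < H x)
    (hH1 : ∀ x, H x ≤ 1) (y : V) {Φ : V → ℝ} {M : ℝ} (hM : ∀ x, |Φ x| ≤ M) :
    |EK δ H Φ y| ≤ M := by
  have hp := prob_KK hδ hHm hH0 hH1 y
  rw [← integral_KK hδ hHm hH0 hH1 y, ← Real.norm_eq_abs]
  have hM0 : 0 ≤ M := (abs_nonneg _).trans (hM 0)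
  calc ‖∫ x, Φ x ∂(KK δ H y)‖ ≤ M * (KK δ H y).real univ :=
        norm_integral_le_of_norm_le_const (ae_of_all _ hM)
    _ = M := by simp

omit [FiniteDimensional ℝ V] [MeasurableSpace V] [BorelSpace V] in
lemma inner_growth (v x : V) : ‖⟪x, v⟫_ℝ‖ ≤ ‖v‖ * (1 + ‖x‖) ^ 1 := by
  refine (norm_inner_le_norm x v).trans ?_
  nlinarith [norm_nonneg x, norm_nonneg v]

/-- **A1 (a)**, `fderiv` form for bounded functions. -/
theorem fderiv_EK (hδ : 0 < δ) (hHm : Measurable H) (hH0 : ∀ x, 0 < H x)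
    (hH1 : ∀ x, H x ≤ 1) {Φ : V → ℝ} (hΦ : Measurable Φ) {C : ℝ} {n : ℕ}
    (hb : ∀ x, ‖Φ x‖ ≤ C * (1 + ‖x‖) ^ n) (y v : V) :
    DifferentiableAt ℝ (EK δ H Φ) y ∧ fderiv ℝ (EK δ H Φ) y v = δ⁻¹ *
      (EK δ H (fun x => Φ x * ⟪x, v⟫_ℝ) y - EK δ H Φ y * EK δ H (fun x => ⟪x, v⟫_ℝ) y) := by
  obtain ⟨L, hL, hLv⟩ := hasFDerivAt_EK hδ hHm.aestronglyMeasurable hH0 hH1
    hΦ.aestronglyMeasurable hb y
  exact ⟨hL.differentiableAt, by rw [hL.fderiv, hLv]⟩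

/-- **A1 (b)**: the derivative of a Hilbert valued posterior average is bounded in
Hilbert–Schmidt norm by `δ^{-1/2} sup |F|`, in coordinates. -/
theorem sum_fderiv_EK_le (hδ : 0 < δ) (hHm : Measurable H) (hH0 : ∀ x, 0 < H x)
    (hH1 : ∀ x, H x ≤ 1) (hconv : ConvexOn ℝ univ fun y => -Real.log (hS δ H y))
    {ι α : Type*} [Fintype ι] [Fintype α] (e : OrthonormalBasis ι ℝ V)
    {Φ : α → V → ℝ} (hΦ : ∀ i, Measurable (Φ i)) {M : ℝ} (hM0 : 0 ≤ M)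
    (hM : ∀ x, ∑ i, Φ i x ^ 2 ≤ M ^ 2) (a : ι → α → ℝ) (y : V) :
    |∑ l, ∑ i, a l i * fderiv ℝ (EK δ H (Φ i)) y (e l)|
      ≤ (√δ)⁻¹ * M * √(∑ l, ∑ i, a l i ^ 2) := by
  have hp := prob_KK hδ hHm hH0 hH1 y
  set K := KK δ H y with hK
  have hΦM : ∀ i x, |Φ i x| ≤ M := by
    intro i x
    have h1 : Φ i x ^ 2 ≤ M ^ 2 :=
      (Finset.single_le_sum (f := fun i => Φ i x ^ 2) (fun i _ => sq_nonneg _)
        (Finset.mem_univ i)).trans (hM x)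
    exact abs_le_of_sq_le_sq h1 hM0
  have hΦb : ∀ i x, ‖Φ i x‖ ≤ M * (1 + ‖x‖) ^ 0 := fun i x => by simpa using hΦM i x
  set A : α → V := fun i => ∑ l, a l i • e l with hA
  have hAn : ∀ i, ‖A i‖ ^ 2 = ∑ l, a l i ^ 2 := by
    intro i
    have h1 : ∀ l, ⟪A i, e l⟫_ℝ = a l i := by
      intro l
      simp only [hA, sum_inner, real_inner_smul_left]
      rw [Finset.sum_eq_single l]
      · rw [real_inner_self_eq_norm_sq, e.norm_eq_one]; ring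
      · intro b _ hb
        rw [e.inner_eq_zero hb, mul_zero]
      · simp
    rw [← e.sum_sq_norm_inner_left (A i)]
    refine Finset.sum_congr rfl fun l _ => ?_
    rw [h1, Real.norm_eq_abs, sq_abs]
  set m : α → ℝ := fun i => EK δ H (fun x => ⟪x, A i⟫_ℝ) y with hm
  set W : α → V → ℝ := fun i x => ⟪x, A i⟫_ℝ - m i with hW
  have hWm : ∀ i, Measurable (W i) := fun i => by simp only [hW]; fun_prop
  have hWb : ∀ i x, ‖W i x‖ ≤ (‖A i‖ + |m i|) * (1 + ‖x‖) ^ 1 := by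
    intro i x
    simp only [hW]
    refine (norm_sub_le _ _).trans ?_
    have h1 := inner_growth (A i) x
    have h2 : ‖m i‖ ≤ |m i| * (1 + ‖x‖) ^ 1 := by
      rw [Real.norm_eq_abs]
      nlinarith [abs_nonneg (m i), norm_nonneg x]
    calc ‖⟪x, A i⟫_ℝ‖ + ‖m i‖ ≤ ‖A i‖ * (1 + ‖x‖) ^ 1 + |m i| * (1 + ‖x‖) ^ 1 := by gcongr
      _ = _ := by ring
  -- integrability
  have hΦi : ∀ i, Integrable (Φ i) K := fun i =>
    integrable_KK hδ hHm hH0 hH1 y (hΦ i).aestronglyMeasurable (hΦb i)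
  have hvi : ∀ v : V, Integrable (fun x => ⟪x, v⟫_ℝ) K := fun v =>
    integrable_KK hδ hHm hH0 hH1 y (by fun_prop) (inner_growth v)
  have hΦvi : ∀ i (v : V), Integrable (fun x => Φ i x * ⟪x, v⟫_ℝ) K := fun i v =>
    integrable_KK hδ hHm hH0 hH1 y ((hΦ i).mul (by fun_prop)).aestronglyMeasurable
      (growth_mul_inner (hΦb i) v)
  have hWi : ∀ i, Integrable (W i) K := fun i => (hvi (A i)).sub (integrable_const _)
  have hW2b : ∀ i x, ‖W i x ^ 2‖ ≤ (‖A i‖ + |m i|) ^ 2 * (1 + ‖x‖) ^ 2 := by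
    intro i x
    rw [norm_pow]
    calc ‖W i x‖ ^ 2 ≤ ((‖A i‖ + |m i|) * (1 + ‖x‖) ^ 1) ^ 2 := by gcongr; exact hWb i x
      _ = _ := by ring
  have hW2i : ∀ i, Integrable (fun x => W i x ^ 2) K := fun i =>
    integrable_KK hδ hHm hH0 hH1 y ((hWm i).pow_const 2).aestronglyMeasurable (hW2b i)
  have hΦWi : ∀ i, Integrable (fun x => Φ i x * W i x) K := fun i => by
    have := (hΦvi i (A i)).sub ((hΦi i).mul_const (m i))
    refine this.congr (ae_of_all _ fun x => ?_)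
    simp only [hW, Pi.sub_apply]
    ring
  -- the sum as an integral
  have hsum : ∑ l, ∑ i, a l i * fderiv ℝ (EK δ H (Φ i)) y (e l)
      = δ⁻¹ * ∫ x, ∑ i, Φ i x * W i x ∂K := by
    rw [Finset.sum_comm, integral_finsetSum _ fun i _ => hΦWi i, Finset.mul_sum]
    refine Finset.sum_congr rfl fun i _ => ?_
    have h1 : ∑ l, a l i * fderiv ℝ (EK δ H (Φ i)) y (e l)
        = fderiv ℝ (EK δ H (Φ i)) y (A i) := by
      simp only [hA, map_sum, map_smul, smul_eq_mul]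
    rw [h1, (fderiv_EK hδ hHm hH0 hH1 (hΦ i) (hΦb i) y (A i)).2]
    congr 1
    rw [← integral_KK hδ hHm hH0 hH1 y, ← integral_KK hδ hHm hH0 hH1 y (Φ i), ← hK,
      ← integral_mul_const, ← integral_sub (hΦvi i (A i)) ((hΦi i).mul_const _)]
    refine integral_congr_ae (ae_of_all _ fun x => ?_)
    simp only [hW, hm]
    ring
  -- variance
  have hvar : ∀ i, ∫ x, W i x ^ 2 ∂K ≤ δ * ∑ l, a l i ^ 2 := by
    intro i
    have h1 := var_KK_le hδ hHm hH0 hH1 hconv y (A i)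
    rw [hAn] at h1
    refine le_trans (le_of_eq ?_) h1
    have hii : Integrable (fun x => ⟪x, A i⟫_ℝ * ⟪x, A i⟫_ℝ) K :=
      integrable_KK hδ hHm hH0 hH1 y (by fun_prop) (growth_mul_inner (inner_growth (A i)) (A i))
    have h2 : ∀ x, W i x ^ 2 = ⟪x, A i⟫_ℝ * ⟪x, A i⟫_ℝ - 2 * m i * ⟪x, A i⟫_ℝ + m i ^ 2 := by
      intro x
      simp only [hW]
      ring
    simp_rw [h2]
    have hii2 : Integrable (fun x => ⟪x, A i⟫_ℝ * ⟪x, A i⟫_ℝ - 2 * m i * ⟪x, A i⟫_ℝ) K :=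
      hii.sub ((hvi (A i)).const_mul _)
    rw [integral_add hii2 (integrable_const _),
      integral_sub hii ((hvi (A i)).const_mul _), integral_const_mul,
      integral_KK hδ hHm hH0 hH1 y, integral_KK hδ hHm hH0 hH1 y]
    simp only [integral_const, probReal_univ, smul_eq_mul, one_mul]
    simp only [hm]
    ring
  -- Cauchy–Schwarz
  set X : V → ℝ := fun x => ∑ i, Φ i x * W i x with hX
  have hXi : Integrable X K := integrable_finsetSum _ fun i _ => hΦWi i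
  have hX2 : ∀ x, X x ^ 2 ≤ M ^ 2 * ∑ i, W i x ^ 2 := by
    intro x
    refine (Finset.sum_mul_sq_le_sq_mul_sq _ _ _).trans ?_
    have := hM x
    have h3 : 0 ≤ ∑ i, W i x ^ 2 := Finset.sum_nonneg fun i _ => sq_nonneg _
    gcongr
  have hsW : Integrable (fun x => M ^ 2 * ∑ i, W i x ^ 2) K :=
    (integrable_finsetSum _ fun i _ => hW2i i).const_mul _
  have hX2i : Integrable (fun x => X x ^ 2) K := by
    refine hsW.mono' ((hXi.aestronglyMeasurable.pow 2)) (ae_of_all _ fun x => ?_)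
    rw [Real.norm_of_nonneg (sq_nonneg _)]
    exact hX2 x
  have hJ : (∫ x, X x ∂K) ^ 2 ≤ ∫ x, X x ^ 2 ∂K := by
    set c := ∫ x, X x ∂K with hc
    have h1 : 0 ≤ ∫ x, (X x - c) ^ 2 ∂K := integral_nonneg fun x => sq_nonneg _
    have h2 : ∀ x, (X x - c) ^ 2 = X x ^ 2 - 2 * c * X x + c ^ 2 := fun x => by ring
    simp_rw [h2] at h1
    have hX3 : Integrable (fun x => X x ^ 2 - 2 * c * X x) K := hX2i.sub (hXi.const_mul _)
    rw [integral_add hX3 (integrable_const _),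
      integral_sub hX2i (hXi.const_mul _), integral_const_mul, ← hc] at h1
    simp only [integral_const, probReal_univ, smul_eq_mul, one_mul] at h1
    nlinarith
  have hfin : (∫ x, X x ∂K) ^ 2 ≤ M ^ 2 * (δ * ∑ l, ∑ i, a l i ^ 2) := by
    refine hJ.trans ?_
    calc ∫ x, X x ^ 2 ∂K ≤ ∫ x, M ^ 2 * ∑ i, W i x ^ 2 ∂K := integral_mono hX2i hsW hX2
      _ = M ^ 2 * ∑ i, ∫ x, W i x ^ 2 ∂K := by
          rw [integral_const_mul, integral_finsetSum _ fun i _ => hW2i i]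
      _ ≤ M ^ 2 * ∑ i, δ * ∑ l, a l i ^ 2 := by
          gcongr with i
          exact hvar i
      _ = M ^ 2 * (δ * ∑ l, ∑ i, a l i ^ 2) := by
          rw [← Finset.mul_sum, Finset.sum_comm]
  rw [hsum, abs_mul, abs_of_pos (inv_pos.2 hδ)]
  have h4 : |∫ x, X x ∂K| ≤ M * (√δ * √(∑ l, ∑ i, a l i ^ 2)) := by
    have h5 := Real.abs_le_sqrt hfin
    rwa [Real.sqrt_mul (sq_nonneg M), Real.sqrt_sq hM0, Real.sqrt_mul hδ.le] at h5
  have hs : 0 < √δ := Real.sqrt_pos.2 hδ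
  calc δ⁻¹ * |∫ x, X x ∂K| ≤ δ⁻¹ * (M * (√δ * √(∑ l, ∑ i, a l i ^ 2))) := by gcongr
    _ = (√δ)⁻¹ * M * √(∑ l, ∑ i, a l i ^ 2) := by
        have : δ⁻¹ * √δ = (√δ)⁻¹ := by
          nth_rewrite 1 [← Real.mul_self_sqrt hδ.le]
          field_simp
        rw [← this]
        ring

end main

end Crest.Agent.R285.AFK
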