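import Crest.Agent.R285.PDM
import Crest.Agent.R285.AFKernel

/-!
Row 285 (S0430), module AF: gradient bound of a function given by a Duhamel formula with
posterior kernels (helper635).
-/

set_option autoImplicit false

open Set MeasureTheory ProbabilityTheory
open Crest.OracleSampling (E)
open scoped ContDiff RealInnerProductSpace Topology

noncomputable section

namespace Crest.Agent.R285.AF

open AFK

variable {d : ℕ}

theorem integrable_norm_std : Integrable (fun g : E d => ‖g‖) (stdGaussian (E d)) := by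
  have h := (IsGaussian.memLp_id (stdGaussian (E d)) 1 (by simp)).integrable le_rfl
  simpa using h.norm

/-- Continuity in `s` of `hS (t - s) (Ψ s) y`. -/
theorem continuousOn_hS {r t : ℝ} (hr : 0 < r) {Ψ : ℝ → E d → ℝ}
    (hΨ : ContinuousOn (fun p : ℝ × E d => Ψ p.1 p.2) (Ioi 0 ×ˢ univ)) {C : ℝ}
    (hb : ∀ s ∈ Icc r t, ∀ x, |Ψ s x| ≤ C * (1 + ‖x‖)) (y : E d) :
    ContinuousOn (fun s => hS (t - s) (Ψ s) y) (Icc r t) := by
  have hslice : ∀ s ∈ Icc r t, Continuous (Ψ s) := by
    intro s hs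
    have hs0 : 0 < s := hr.trans_le hs.1
    have h1 : Continuous fun x : E d => ((s, x) : ℝ × E d) := by fun_prop
    have h2 := hΨ.comp_continuous h1 fun x => ⟨hs0, mem_univ _⟩
    exact h2
  unfold hS
  refine continuousOn_of_dominated (bound := fun g => C * (1 + ‖y‖ + √(t - r) * ‖g‖)) ?_ ?_ ?_ ?_
  · intro s hs
    exact ((hslice s hs).comp (by fun_prop)).aestronglyMeasurable
  · intro s hs
    refine ae_of_all _ fun g => ?_
    refine (hb s hs _).trans ?_
    have hC : 0 ≤ C := by
      have := (abs_nonneg _).trans (hb s hs 0)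
      simpa using this
    refine mul_le_mul_of_nonneg_left ?_ hC
    have h1 : ‖y + √(t - s) • g‖ ≤ ‖y‖ + √(t - s) * ‖g‖ := by
      refine (norm_add_le _ _).trans ?_
      rw [norm_smul, Real.norm_of_nonneg (Real.sqrt_nonneg _)]
    have h2 : √(t - s) ≤ √(t - r) := Real.sqrt_le_sqrt (by linarith [hs.1])
    have h3 := mul_le_mul_of_nonneg_right h2 (norm_nonneg g)
    linarith
  · refine Integrable.const_mul ?_ C
    exact (integrable_const _).add (integrable_norm_std.const_mul _)
  · refine ae_of_all _ fun g => ?_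
    have h1 : ContinuousOn (fun s : ℝ => ((s, y + √(t - s) • g) : ℝ × E d)) (Icc r t) := by
      fun_prop
    refine hΨ.comp h1 fun s hs => ⟨hr.trans_le hs.1, mem_univ _⟩

theorem integral_inv_sqrt {r t : ℝ} (hrt : r ≤ t) :
    IntervalIntegrable (fun s => (√(t - s))⁻¹) volume r t ∧
      ∫ s in r..t, (√(t - s))⁻¹ = 2 * √(t - r) := by
  have e : ∀ x : ℝ, 0 ≤ x → (√x)⁻¹ = x ^ (-(1 / 2) : ℝ) := fun x hx => by
    rw [Real.rpow_neg hx, ← Real.sqrt_eq_rpow]
  have hI : IntervalIntegrable (fun x : ℝ => (√x)⁻¹) volume 0 (t - r) := by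
    have h1 : IntervalIntegrable (fun x : ℝ => x ^ (-(1 / 2) : ℝ)) volume 0 (t - r) :=
      intervalIntegral.intervalIntegrable_rpow' (by norm_num)
    refine h1.congr ?_
    intro x hx
    rw [uIoc_of_le (by linarith)] at hx
    exact (e x hx.1.le).symm
  constructor
  · have h2 := hI.comp_sub_left t
    simpa using h2.symm
  · have h3 : ∫ s in r..t, (√(t - s))⁻¹ = ∫ x in (t - t)..(t - r), (√x)⁻¹ :=
      intervalIntegral.integral_comp_sub_left (fun x => (√x)⁻¹) t
    rw [h3, sub_self]
    have h4 : ∫ x in (0 : ℝ)..(t - r), (√x)⁻¹ = ∫ x in (0 : ℝ)..(t - r), x ^ (-(1 / 2) : ℝ) := by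
      refine intervalIntegral.integral_congr fun x hx => ?_
      rw [uIcc_of_le (by linarith)] at hx
      exact e x hx.1
    rw [h4, integral_rpow (Or.inl (by norm_num)), Real.sqrt_eq_rpow]
    norm_num
    ring

/-- **Gradient bound from Duhamel's formula.** -/
theorem core {r t : ℝ} (hr : 0 < r) (hrt : r < t) {H : ℝ → E d → ℝ}
    (hHc : ContinuousOn (fun p : ℝ × E d => H p.1 p.2) (Ioi 0 ×ˢ univ))
    (hH0 : ∀ s, 0 < s → ∀ x, 0 < H s x) (hH1 : ∀ s, 0 < s → ∀ x, H s x ≤ 1)
    (hconv : ∀ s ∈ Ico r t, ConvexOn ℝ univ fun y => -Real.log (hS (t - s) (H s) y))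
    {α : Type} [Fintype α] {w0 : α → E d → ℝ} (hw0 : ∀ i, Measurable (w0 i))
    {n : α → ℝ → E d → ℝ}
    (hn : ∀ i, ContinuousOn (fun p : ℝ × E d => n i p.1 p.2) (Ioi 0 ×ˢ univ)) {M N : ℝ}
    (hM0 : 0 ≤ M) (hN0 : 0 ≤ N) (hM : ∀ x, ∑ i, w0 i x ^ 2 ≤ M ^ 2)
    (hN : ∀ s ∈ Icc r t, ∀ x, ∑ i, n i s x ^ 2 ≤ N ^ 2) {w : α → E d → ℝ}
    (hw : ∀ i y, w i y = EK (t - r) (H r) (w0 i) y -
      2⁻¹ * ∫ s in r..t, EK (t - s) (H s) (n i s) y) (y : E d)
    (hwd : ∀ i, DifferentiableAt ℝ (w i) y) (a : Fin d → α → ℝ) :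
    |∑ l, ∑ i, a l i * pd l (w i) y| ≤
      ((√(t - r))⁻¹ * M + √(t - r) * N) * √(∑ l, ∑ i, a l i ^ 2) := by
  classical
  have hslice : ∀ {Ψ : ℝ → E d → ℝ} (_ : ContinuousOn (fun p : ℝ × E d => Ψ p.1 p.2)
      (Ioi 0 ×ˢ univ)) {s : ℝ} (_ : 0 < s), Continuous (Ψ s) := by
    intro Ψ hΨ s hs
    have h1 : Continuous fun x : E d => ((s, x) : ℝ × E d) := by fun_prop
    exact hΨ.comp_continuous h1 fun x => ⟨hs, mem_univ _⟩
  have hHm : ∀ s, 0 < s → Measurable (H s) := fun s hs => (hslice hHc hs).measurable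
  have hnb : ∀ i, ∀ s ∈ Icc r t, ∀ x, |n i s x| ≤ N := by
    intro i s hs x
    refine abs_le_of_sq_le_sq (b := N) ((?_ : n i s x ^ 2 ≤ _).trans (hN s hs x)) hN0
    exact Finset.single_le_sum (f := fun i => n i s x ^ 2) (fun _ _ => sq_nonneg _)
      (Finset.mem_univ i)
  -- basis
  set e := EuclideanSpace.basisFun (Fin d) ℝ with he
  have hel : ∀ l, e l = ev l := fun l => by simp [he, ev]
  have hnorm : ∀ l : Fin d, ‖ev l‖ = 1 := fun l => by simp [ev]
  -- pointwise bound of one directional derivative of the kernel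
  have hone : ∀ i (l : Fin d), ∀ s ∈ Ico r t, ∀ z, 
      |fderiv ℝ (EK (t - s) (H s) (n i s)) z (ev l)| ≤ (√(t - s))⁻¹ * N := by
    intro i l s hs z
    have hs0 : 0 < s := hr.trans_le hs.1
    have h1 := sum_fderiv_EK_le (α := Unit) (δ := t - s) (by linarith [hs.2]) (hHm s hs0)
      (hH0 s hs0) (hH1 s hs0) (hconv s hs) e (Φ := fun _ => n i s)
      (fun _ => (hslice (hn i) hs0).measurable) hN0
      (fun x => by
        simp only [Finset.univ_unique, Finset.sum_const, Finset.card_singleton, one_smul]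
        have h2 := hnb i s ⟨hs.1, hs.2.le⟩ x
        exact sq_le_sq' (by linarith [(abs_le.1 h2).1]) (abs_le.1 h2).2)
      (fun k _ => if k = l then 1 else 0) z
    simpa [hel] using h1
  -- derivative of the time integral
  have hder : ∀ i (l : Fin d),
      IntervalIntegrable (fun s => fderiv ℝ (EK (t - s) (H s) (n i s)) y (ev l)) volume r t ∧
      HasDerivAt
      (fun ε : ℝ => ∫ s in r..t, EK (t - s) (H s) (n i s) (y + ε • ev l))
      (∫ s in r..t, fderiv ℝ (EK (t - s) (H s) (n i s)) y (ev l)) 0 := by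
    intro i l
    have hEKc : ∀ z, ContinuousOn (fun s => EK (t - s) (H s) (n i s) z) (Icc r t) := by
      intro z
      unfold EK
      refine ContinuousOn.div ?_ ?_ ?_
      · refine continuousOn_hS (C := N) hr (Ψ := fun s x => n i s x * H s x) ((hn i).mul hHc) ?_ z
        intro s hs x
        have hs0 : 0 < s := hr.trans_le hs.1
        rw [abs_mul, abs_of_pos (hH0 s hs0 x)]
        have h1 := hnb i s hs x
        have h2 := hH1 s hs0 x
        have h3 : |n i s x| * H s x ≤ N * 1 := mul_le_mul h1 h2 (hH0 s hs0 x).le hN0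
        nlinarith [norm_nonneg x]
      · refine continuousOn_hS (C := 1) hr hHc ?_ z
        intro s hs x
        have hs0 : 0 < s := hr.trans_le hs.1
        rw [abs_of_pos (hH0 s hs0 x)]
        linarith [hH1 s hs0 x, norm_nonneg x]
      · intro s hs
        have hs0 : 0 < s := hr.trans_le hs.1
        rcases eq_or_lt_of_le hs.2 with h | h
        · have : hS (t - s) (H s) z = H s z := by
            rw [h, sub_self]; unfold hS; simp
          rw [this]
          exact (hH0 s hs0 z).ne'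
        · exact (hS_pos (by linarith) (hHm s hs0).aestronglyMeasurable (hH0 s hs0) (C := 1) (n := 0)
            (fun x => by rw [Real.norm_of_nonneg (hH0 s hs0 x).le]; simpa using hH1 s hs0 x) z).ne'
    have hdiff : ∀ s ∈ Ioo r t, ∀ z, DifferentiableAt ℝ (EK (t - s) (H s) (n i s)) z ∧
        ∀ v, fderiv ℝ (EK (t - s) (H s) (n i s)) z v = (t - s)⁻¹ *
          (EK (t - s) (H s) (fun x => n i s x * ⟪x, v⟫) z -
            EK (t - s) (H s) (n i s) z * EK (t - s) (H s) (fun x => ⟪x, v⟫) z) := by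
      intro s hs z
      have hs0 : 0 < s := hr.trans hs.1
      have h1 := fun v => fderiv_EK (δ := t - s) (by linarith [hs.2]) (hHm s hs0) (hH0 s hs0)
        (hH1 s hs0) (Φ := n i s) (hslice (hn i) hs0).measurable (C := N) (n := 0)
        (fun x => by simpa using hnb i s ⟨hs.1.le, hs.2.le⟩ x) z v
      exact ⟨(h1 0).1, fun v => (h1 v).2⟩
    have hline : ∀ ε : ℝ, HasDerivAt (fun ε : ℝ => y + ε • ev l) (ev l) ε := fun ε => by
      simpa using ((hasDerivAt_id ε).smul_const (ev l)).const_add y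
    have key := intervalIntegral.hasDerivAt_integral_of_dominated_loc_of_deriv_le
      (μ := volume) (a := r) (b := t) (x₀ := (0 : ℝ)) (s := Metric.ball 0 1)
      (bound := fun s => (√(t - s))⁻¹ * N)
      (F := fun ε s => EK (t - s) (H s) (n i s) (y + ε • ev l))
      (F' := fun ε s => fderiv ℝ (EK (t - s) (H s) (n i s)) (y + ε • ev l) (ev l))
      (Metric.ball_mem_nhds 0 one_pos) ?_ ?_ ?_ ?_ ?_ ?_
    · simpa using key
    · refine Filter.Eventually.of_forall fun ε => ?_
      rw [uIoc_of_le hrt.le]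
      exact ((hEKc _).mono Ioc_subset_Icc_self).aestronglyMeasurable measurableSet_Ioc
    · refine ContinuousOn.intervalIntegrable ?_
      rw [uIcc_of_le hrt.le]
      exact hEKc _
    · rw [uIoc_of_le hrt.le, ← restrict_Ioo_eq_restrict_Ioc]
      have hc : ContinuousOn (fun s => (t - s)⁻¹ *
          (EK (t - s) (H s) (fun x => n i s x * ⟪x, ev l⟫) (y + (0 : ℝ) • ev l) -
            EK (t - s) (H s) (n i s) (y + (0 : ℝ) • ev l) *
            EK (t - s) (H s) (fun x => ⟪x, ev l⟫) (y + (0 : ℝ) • ev l))) (Ioo r t) := by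
        set z := y + (0 : ℝ) • ev l with hz
        have hden : ContinuousOn (fun s => hS (t - s) (H s) z) (Icc r t) := by
          refine continuousOn_hS (C := 1) hr hHc ?_ z
          intro s hs x
          have hs0 : 0 < s := hr.trans_le hs.1
          rw [abs_of_pos (hH0 s hs0 x)]
          linarith [hH1 s hs0 x, norm_nonneg x]
        have hden0 : ∀ s ∈ Ioo r t, hS (t - s) (H s) z ≠ 0 := by
          intro s hs
          have hs0 : 0 < s := hr.trans hs.1
          exact (hS_pos (by linarith [hs.2]) (hHm s hs0).aestronglyMeasurable (hH0 s hs0) (C := 1)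
            (n := 0) (fun x => by
              rw [Real.norm_of_nonneg (hH0 s hs0 x).le]; simpa using hH1 s hs0 x) z).ne'
        have hin : ContinuousOn (fun p : ℝ × E d => ⟪p.2, ev l⟫) (Ioi 0 ×ˢ univ) := by fun_prop
        have hinb : ∀ x : E d, |⟪x, ev l⟫| ≤ ‖x‖ := fun x => by
          have := abs_real_inner_le_norm x (ev l)
          rwa [hnorm, mul_one] at this
        have c1 : ContinuousOn (fun s => EK (t - s) (H s) (fun x => n i s x * ⟪x, ev l⟫) z)
            (Ioo r t) := by
          unfold EK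
          refine ContinuousOn.div ?_ (hden.mono Ioo_subset_Icc_self) hden0
          refine (continuousOn_hS (C := N) hr
            (Ψ := fun s x => (n i s x * ⟪x, ev l⟫) * H s x) (((hn i).mul hin).mul hHc) ?_ z).mono
            Ioo_subset_Icc_self
          intro s hs x
          have hs0 : 0 < s := hr.trans_le hs.1
          rw [abs_mul, abs_mul, abs_of_pos (hH0 s hs0 x)]
          have h1 := hnb i s hs x
          have h2 := hH1 s hs0 x
          have h4 := hinb x
          have h5 : |n i s x| * |⟪x, ev l⟫| ≤ N * ‖x‖ :=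
            mul_le_mul h1 h4 (abs_nonneg _) hN0
          have h3 : |n i s x| * |⟪x, ev l⟫| * H s x ≤ N * ‖x‖ * 1 :=
            mul_le_mul h5 h2 (hH0 s hs0 x).le (mul_nonneg hN0 (norm_nonneg _))
          nlinarith [norm_nonneg x]
        have c3 : ContinuousOn (fun s => EK (t - s) (H s) (fun x => ⟪x, ev l⟫) z)
            (Ioo r t) := by
          unfold EK
          refine ContinuousOn.div ?_ (hden.mono Ioo_subset_Icc_self) hden0
          refine (continuousOn_hS (C := 1) hr
            (Ψ := fun s x => ⟪x, ev l⟫ * H s x) (hin.mul hHc) ?_ z).mono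
            Ioo_subset_Icc_self
          intro s hs x
          have hs0 : 0 < s := hr.trans_le hs.1
          rw [abs_mul, abs_of_pos (hH0 s hs0 x)]
          have h2 := hH1 s hs0 x
          have h4 := hinb x
          have h3 : |⟪x, ev l⟫| * H s x ≤ ‖x‖ * 1 :=
            mul_le_mul h4 h2 (hH0 s hs0 x).le (norm_nonneg _)
          nlinarith [norm_nonneg x]
        have c4 : ContinuousOn (fun s : ℝ => (t - s)⁻¹) (Ioo r t) := by
          refine ContinuousOn.inv₀ (by fun_prop) fun s hs => ?_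
          have := hs.2
          intro h0
          linarith
        exact c4.mul (c1.sub (((hEKc z).mono Ioo_subset_Icc_self).mul c3))
      refine (hc.aestronglyMeasurable measurableSet_Ioo).congr ?_
      refine (ae_restrict_iff' measurableSet_Ioo).2 (ae_of_all _ fun s hs => ?_)
      exact ((hdiff s hs _).2 _).symm
    · have hne : ∀ᵐ s : ℝ ∂volume, s ≠ t := by
        rw [ae_iff]; simp
      filter_upwards [hne] with s hst hs ε _
      rw [uIoc_of_le hrt.le] at hs
      exact hone i l s ⟨hs.1.le, lt_of_le_of_ne hs.2 hst⟩ _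
    · exact (integral_inv_sqrt hrt.le).1.mul_const _
    · have hne : ∀ᵐ s : ℝ ∂volume, s ≠ t := by
        rw [ae_iff]; simp
      filter_upwards [hne] with s hst hs ε _
      rw [uIoc_of_le hrt.le] at hs
      exact ((hdiff s ⟨hs.1, lt_of_le_of_ne hs.2 hst⟩ _).1.hasFDerivAt).comp_hasDerivAt ε (hline ε)
  have hline : ∀ l (ε : ℝ), HasDerivAt (fun ε : ℝ => y + ε • ev l) (ev l) ε := fun l ε => by
    simpa using ((hasDerivAt_id ε).smul_const (ev l)).const_add y
  have hw0b : ∀ i x, |w0 i x| ≤ M := fun i x => by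
    refine abs_le_of_sq_le_sq (b := M) ((?_ : w0 i x ^ 2 ≤ _).trans (hM x)) hM0
    exact Finset.single_le_sum (f := fun i => w0 i x ^ 2) (fun _ _ => sq_nonneg _)
      (Finset.mem_univ i)
  have hpd : ∀ i l, pd l (w i) y = fderiv ℝ (EK (t - r) (H r) (w0 i)) y (ev l) -
      2⁻¹ * ∫ s in r..t, fderiv ℝ (EK (t - s) (H s) (n i s)) y (ev l) := by
    intro i l
    have h0 : DifferentiableAt ℝ (EK (t - r) (H r) (w0 i)) (y + (0 : ℝ) • ev l) :=
      (fderiv_EK (δ := t - r) (by linarith) (hHm r hr) (hH0 r hr) (hH1 r hr) (hw0 i) (C := M)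
        (n := 0) (fun x => by simpa using hw0b i x) _ 0).1
    have h1 := h0.hasFDerivAt.comp_hasDerivAt (0 : ℝ) (hline l 0)
    have h2 := h1.sub ((hder i l).2.const_mul (2⁻¹ : ℝ))
    have h3 : HasDerivAt (fun ε : ℝ => w i (y + ε • ev l)) (pd l (w i) y) 0 := by
      have h4 : HasFDerivAt (w i) (fderiv ℝ (w i) y) (y + (0 : ℝ) • ev l) := by
        simpa using (hwd i).hasFDerivAt
      exact h4.comp_hasDerivAt (0 : ℝ) (hline l 0)
    have h5 : (fun ε : ℝ => w i (y + ε • ev l)) = (EK (t - r) (H r) (w0 i) ∘ fun ε : ℝ => y + ε • ev l) -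
        fun ε : ℝ => 2⁻¹ * ∫ s in r..t, EK (t - s) (H s) (n i s) (y + ε • ev l) := by
      funext ε
      simp only [Pi.sub_apply, Function.comp_apply, hw]
    rw [h5] at h3
    have h6 := h3.unique h2
    rw [h6]
    simp
  have hsum : ∑ l, ∑ i, a l i * pd l (w i) y =
      ∑ l, ∑ i, a l i * fderiv ℝ (EK (t - r) (H r) (w0 i)) y (e l) -
      2⁻¹ * ∫ s in r..t, ∑ l, ∑ i, a l i * fderiv ℝ (EK (t - s) (H s) (n i s)) y (e l) := by
    rw [intervalIntegral.integral_finsetSum]
    · rw [Finset.mul_sum, ← Finset.sum_sub_distrib]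
      refine Finset.sum_congr rfl fun l _ => ?_
      rw [intervalIntegral.integral_finsetSum]
      · rw [Finset.mul_sum, ← Finset.sum_sub_distrib]
        refine Finset.sum_congr rfl fun i _ => ?_
        rw [hpd, intervalIntegral.integral_const_mul, hel]
        ring
      · intro i _
        simp only [hel]
        exact (hder i l).1.const_mul _
    · intro l _
      have h7 := IntervalIntegrable.sum (μ := volume) (a := r) (b := t) Finset.univ
        (f := fun (i : α) (s : ℝ) => a l i * fderiv ℝ (EK (t - s) (H s) (n i s)) y (e l))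
        (fun i _ => by simp only [hel]; exact (hder i l).1.const_mul _)
      refine h7.congr ?_
      intro s _
      simp only [Finset.sum_apply]
  rw [hsum]
  set A := √(∑ l, ∑ i, a l i ^ 2) with hA
  have hA0 : 0 ≤ A := Real.sqrt_nonneg _
  have b1 : |∑ l, ∑ i, a l i * fderiv ℝ (EK (t - r) (H r) (w0 i)) y (e l)| ≤
      (√(t - r))⁻¹ * M * A :=
    sum_fderiv_EK_le (by linarith) (hHm r hr) (hH0 r hr) (hH1 r hr)
      (hconv r ⟨le_rfl, hrt⟩) e hw0 hM0 hM a y
  have b2 : |∫ s in r..t, ∑ l, ∑ i, a l i * fderiv ℝ (EK (t - s) (H s) (n i s)) y (e l)| ≤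
      2 * √(t - r) * (N * A) := by
    rw [← Real.norm_eq_abs]
    have h1 := intervalIntegral.norm_integral_le_of_norm_le (μ := volume) hrt.le
      (f := fun s => ∑ l, ∑ i, a l i * fderiv ℝ (EK (t - s) (H s) (n i s)) y (e l))
      (g := fun s => (√(t - s))⁻¹ * (N * A)) ?_ ?_
    · rw [intervalIntegral.integral_mul_const, (integral_inv_sqrt hrt.le).2] at h1
      exact h1
    · have hne : ∀ᵐ s : ℝ ∂volume, s ≠ t := by
        rw [ae_iff]; simp
      filter_upwards [hne] with s hst hs
      have hs0 : 0 < s := hr.trans hs.1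
      have hst' : s < t := lt_of_le_of_ne hs.2 hst
      rw [Real.norm_eq_abs, ← mul_assoc]
      exact sum_fderiv_EK_le (by linarith) (hHm s hs0) (hH0 s hs0) (hH1 s hs0)
        (hconv s ⟨hs.1.le, hst'⟩) e (fun i => (hslice (hn i) hs0).measurable) hN0
        (hN s ⟨hs.1.le, hs.2⟩) a y
    · exact (integral_inv_sqrt hrt.le).1.mul_const _
  refine (abs_sub _ _).trans ?_
  rw [abs_mul, abs_of_pos (by norm_num : (0 : ℝ) < 2⁻¹)]
  have b3 := mul_le_mul_of_nonneg_left b2 (by norm_num : (0 : ℝ) ≤ 2⁻¹)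
  linarith

end Crest.Agent.R285.AF
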