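import Crest.Agent.R285.AFTens
import Crest.Agent.R285.Defs

/-!
Row 285 (S0430): iterated coordinate derivatives indexed by multisets, joint smoothness in
`(t, x)`, commutation with `∂_t`, and the differentiated Hamilton-Jacobi hierarchy (helper635).
-/

set_option autoImplicit false

open Finset Set
open Crest.OracleSampling (E)
open scoped ContDiff

noncomputable section

namespace Crest.Agent.R285.AF

variable {d : ℕ}

/-- coordinate vector -/
def ev (l : Fin d) : E d := EuclideanSpace.single l (1 : ℝ)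

/-- partial derivative -/
def pd (l : Fin d) (F : E d → ℝ) (x : E d) : ℝ := fderiv ℝ F x (ev l)

/-- iterated partial derivatives along a list -/
def pdl (L : List (Fin d)) (F : E d → ℝ) : E d → ℝ := L.foldr pd F

/-- iterated partial derivatives along a multiset -/
def pdm (m : Multiset (Fin d)) (F : E d → ℝ) : E d → ℝ := pdl m.toList F

@[simp] theorem pdl_nil (F : E d → ℝ) : pdl [] F = F := rfl

@[simp] theorem pdl_cons (l : Fin d) (L : List (Fin d)) (F : E d → ℝ) :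
    pdl (l :: L) F = pd l (pdl L F) := rfl

@[simp] theorem pdm_zero (F : E d → ℝ) : pdm 0 F = F := by simp [pdm]

theorem contDiff_pd {F : E d → ℝ} (hF : ContDiff ℝ ∞ F) (l : Fin d) : ContDiff ℝ ∞ (pd l F) :=
  (hF.fderiv_right (m := ∞) (by simp)).clm_apply contDiff_const

theorem contDiff_pdl {F : E d → ℝ} (hF : ContDiff ℝ ∞ F) (L : List (Fin d)) :
    ContDiff ℝ ∞ (pdl L F) := by
  induction L with
  | nil => exact hF
  | cons l L ih => exact contDiff_pd ih l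

theorem contDiff_pdm {F : E d → ℝ} (hF : ContDiff ℝ ∞ F) (m : Multiset (Fin d)) :
    ContDiff ℝ ∞ (pdm m F) := contDiff_pdl hF _

theorem pd_pd {F : E d → ℝ} (hF : ContDiff ℝ ∞ F) (l k : Fin d) (x : E d) :
    pd l (pd k F) x = fderiv ℝ (fderiv ℝ F) x (ev l) (ev k) := by
  have h1 : DifferentiableAt ℝ (fderiv ℝ F) x :=
    ((hF.fderiv_right (m := 1) (by norm_cast)).differentiable one_ne_zero) x
  have h2 : HasFDerivAt (pd k F) _ x := h1.hasFDerivAt.clm_apply (hasFDerivAt_const (ev k) x)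
  unfold pd at h2 ⊢
  rw [h2.fderiv]
  simp

theorem pd_comm {F : E d → ℝ} (hF : ContDiff ℝ ∞ F) (l k : Fin d) :
    pd l (pd k F) = pd k (pd l F) := by
  funext x
  rw [pd_pd hF, pd_pd hF]
  have h2 : ContDiff ℝ 2 F := hF.of_le (by norm_cast)
  exact (h2.contDiffAt (x := x)).isSymmSndFDerivAt (by simp) (ev l) (ev k)

theorem pdl_perm {F : E d → ℝ} (hF : ContDiff ℝ ∞ F) {L L' : List (Fin d)} (h : L.Perm L') :
    pdl L F = pdl L' F := by
  induction h with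
  | nil => rfl
  | cons l _ ih => rw [pdl_cons, pdl_cons, ih]
  | swap l k L =>
    rw [pdl_cons, pdl_cons, pdl_cons, pdl_cons]
    exact pd_comm (contDiff_pdl hF L) _ _
  | trans _ _ ih1 ih2 => rw [ih1, ih2]

theorem pdm_coe {F : E d → ℝ} (hF : ContDiff ℝ ∞ F) (L : List (Fin d)) :
    pdm (L : Multiset (Fin d)) F = pdl L F := by
  unfold pdm
  refine pdl_perm hF ?_
  exact Multiset.coe_eq_coe.1 (Multiset.coe_toList _)

theorem pdm_cons {F : E d → ℝ} (hF : ContDiff ℝ ∞ F) (l : Fin d) (m : Multiset (Fin d)) :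
    pdm (l ::ₘ m) F = pd l (pdm m F) := by
  induction m using Quotient.inductionOn with
  | h L =>
    have : (l ::ₘ (⟦L⟧ : Multiset (Fin d))) = ((l :: L : List (Fin d)) : Multiset (Fin d)) := rfl
    rw [this, pdm_coe hF]
    change _ = pd l (pdm (L : Multiset (Fin d)) F)
    rw [pdm_coe hF, pdl_cons]

theorem pdm_single {F : E d → ℝ} (hF : ContDiff ℝ ∞ F) (l : Fin d) : pdm {l} F = pd l F := by
  have := pdm_cons hF l 0
  simpa using this

/-! ### joint smoothness -/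

section joint

variable {J : Set ℝ} {u : ℝ → E d → ℝ}

theorem joint_open (hJ : IsOpen J) : IsOpen (J ×ˢ (univ : Set (E d))) := hJ.prod isOpen_univ

theorem joint_slice (hu : ContDiffOn ℝ ∞ (fun p : ℝ × E d => u p.1 p.2) (J ×ˢ univ)) {t : ℝ}
    (ht : t ∈ J) : ContDiff ℝ ∞ (u t) := by
  have h1 : ContDiff ℝ ∞ (fun x : E d => ((t, x) : ℝ × E d)) := contDiff_prodMk_right t
  have h2 := hu.comp_contDiff h1 fun x => ⟨ht, mem_univ _⟩
  exact h2

theorem joint_diffAt (hJ : IsOpen J) (hu : ContDiffOn ℝ ∞ (fun p : ℝ × E d => u p.1 p.2) (J ×ˢ univ))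
    {t : ℝ} (ht : t ∈ J) (x : E d) : DifferentiableAt ℝ (fun p : ℝ × E d => u p.1 p.2) (t, x) :=
  (hu.contDiffAt ((joint_open hJ).mem_nhds ⟨ht, mem_univ _⟩)).differentiableAt (by simp)

theorem fderiv_slice (hJ : IsOpen J)
    (hu : ContDiffOn ℝ ∞ (fun p : ℝ × E d => u p.1 p.2) (J ×ˢ univ)) {t : ℝ} (ht : t ∈ J)
    (x v : E d) : fderiv ℝ (u t) x v = fderiv ℝ (fun p : ℝ × E d => u p.1 p.2) (t, x) (0, v) := by
  have h1 := (joint_diffAt hJ hu ht x).hasFDerivAt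
  have h2 : HasFDerivAt (fun x : E d => ((t, x) : ℝ × E d)) (ContinuousLinearMap.inr ℝ ℝ (E d)) x :=
    hasFDerivAt_prodMk_right t x
  have h3 : HasFDerivAt (u t) _ x := h1.comp x h2
  rw [h3.fderiv]
  simp

theorem hasDerivAt_slice (hJ : IsOpen J)
    (hu : ContDiffOn ℝ ∞ (fun p : ℝ × E d => u p.1 p.2) (J ×ˢ univ)) {t : ℝ} (ht : t ∈ J)
    (x : E d) : HasDerivAt (fun s => u s x)
      (fderiv ℝ (fun p : ℝ × E d => u p.1 p.2) (t, x) (1, 0)) t := by
  have h1 := (joint_diffAt hJ hu ht x).hasFDerivAt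
  have h2 : HasDerivAt (fun s : ℝ => ((s, x) : ℝ × E d)) (1, 0) t :=
    (hasDerivAt_id t).prodMk (hasDerivAt_const t x)
  exact h1.comp_hasDerivAt t h2

theorem joint_pd (hJ : IsOpen J) (hu : ContDiffOn ℝ ∞ (fun p : ℝ × E d => u p.1 p.2) (J ×ˢ univ))
    (l : Fin d) : ContDiffOn ℝ ∞ (fun p : ℝ × E d => pd l (u p.1) p.2) (J ×ˢ univ) := by
  have h1 : ContDiffOn ℝ ∞ (fderiv ℝ (fun p : ℝ × E d => u p.1 p.2)) (J ×ˢ univ) :=
    hu.fderiv_of_isOpen (joint_open hJ) (by simp)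
  have h2 : ContDiffOn ℝ ∞ (fun q : ℝ × E d =>
      fderiv ℝ (fun p : ℝ × E d => u p.1 p.2) q ((0, ev l) : ℝ × E d)) (J ×ˢ univ) :=
    h1.clm_apply contDiffOn_const
  refine h2.congr ?_
  rintro ⟨t, x⟩ ⟨ht, -⟩
  exact fderiv_slice hJ hu ht x _

theorem joint_pdl (hJ : IsOpen J) (hu : ContDiffOn ℝ ∞ (fun p : ℝ × E d => u p.1 p.2) (J ×ˢ univ))
    (L : List (Fin d)) : ContDiffOn ℝ ∞ (fun p : ℝ × E d => pdl L (u p.1) p.2) (J ×ˢ univ) := by
  induction L with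
  | nil => exact hu
  | cons l L ih => exact joint_pd (u := fun t => pdl L (u t)) hJ ih l

theorem joint_pdm (hJ : IsOpen J) (hu : ContDiffOn ℝ ∞ (fun p : ℝ × E d => u p.1 p.2) (J ×ˢ univ))
    (m : Multiset (Fin d)) : ContDiffOn ℝ ∞ (fun p : ℝ × E d => pdm m (u p.1) p.2) (J ×ˢ univ) :=
  joint_pdl hJ hu _

/-- time derivative -/
def dtf (u : ℝ → E d → ℝ) (t : ℝ) (x : E d) : ℝ := deriv (fun s => u s x) t

theorem dtf_eq (hJ : IsOpen J) (hu : ContDiffOn ℝ ∞ (fun p : ℝ × E d => u p.1 p.2) (J ×ˢ univ))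
    {t : ℝ} (ht : t ∈ J) (x : E d) :
    dtf u t x = fderiv ℝ (fun p : ℝ × E d => u p.1 p.2) (t, x) (1, 0) :=
  (hasDerivAt_slice hJ hu ht x).deriv

theorem hasDerivAt_dtf (hJ : IsOpen J)
    (hu : ContDiffOn ℝ ∞ (fun p : ℝ × E d => u p.1 p.2) (J ×ˢ univ)) {t : ℝ} (ht : t ∈ J)
    (x : E d) : HasDerivAt (fun s => u s x) (dtf u t x) t := by
  rw [dtf_eq hJ hu ht]
  exact hasDerivAt_slice hJ hu ht x

theorem joint_dtf (hJ : IsOpen J) (hu : ContDiffOn ℝ ∞ (fun p : ℝ × E d => u p.1 p.2) (J ×ˢ univ)) :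
    ContDiffOn ℝ ∞ (fun p : ℝ × E d => dtf u p.1 p.2) (J ×ˢ univ) := by
  have h1 : ContDiffOn ℝ ∞ (fderiv ℝ (fun p : ℝ × E d => u p.1 p.2)) (J ×ˢ univ) :=
    hu.fderiv_of_isOpen (joint_open hJ) (by simp)
  have h2 : ContDiffOn ℝ ∞ (fun q : ℝ × E d =>
      fderiv ℝ (fun p : ℝ × E d => u p.1 p.2) q ((1, 0) : ℝ × E d)) (J ×ˢ univ) :=
    h1.clm_apply contDiffOn_const
  refine h2.congr ?_
  rintro ⟨t, x⟩ ⟨ht, -⟩
  exact dtf_eq hJ hu ht x

theorem dtf_pd (hJ : IsOpen J) (hu : ContDiffOn ℝ ∞ (fun p : ℝ × E d => u p.1 p.2) (J ×ˢ univ))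
    {t : ℝ} (ht : t ∈ J) (x : E d) (l : Fin d) :
    dtf (fun s => pd l (u s)) t x = pd l (dtf u t) x := by
  have hO := joint_open (d := d) hJ
  have hp : ((t, x) : ℝ × E d) ∈ J ×ˢ (univ : Set (E d)) := ⟨ht, mem_univ _⟩
  set F : ℝ × E d → ℝ := fun p => u p.1 p.2 with hF
  have hd : DifferentiableAt ℝ (fderiv ℝ F) (t, x) :=
    ((hu.fderiv_of_isOpen hO (m := 1) (by norm_cast)).contDiffAt
      (hO.mem_nhds hp)).differentiableAt one_ne_zero
  rw [dtf_eq hJ (joint_pd hJ hu l) ht x]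
  have e1 : (fun p : ℝ × E d => pd l (u p.1) p.2) =ᶠ[nhds (t, x)]
      fun q => fderiv ℝ F q ((0, ev l) : ℝ × E d) := by
    filter_upwards [hO.mem_nhds hp] with q hq
    exact fderiv_slice hJ hu hq.1 q.2 _
  have e2 : HasFDerivAt (fun q => fderiv ℝ F q ((0, ev l) : ℝ × E d)) _ (t, x) :=
    hd.hasFDerivAt.clm_apply (hasFDerivAt_const ((0, ev l) : ℝ × E d) (t, x))
  rw [e1.fderiv_eq, e2.fderiv]
  unfold pd
  rw [fderiv_slice hJ (joint_dtf hJ hu) ht x]
  have e3 : (fun p : ℝ × E d => dtf u p.1 p.2) =ᶠ[nhds (t, x)]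
      fun q => fderiv ℝ F q ((1, 0) : ℝ × E d) := by
    filter_upwards [hO.mem_nhds hp] with q hq
    exact dtf_eq hJ hu hq.1 q.2
  have e4 : HasFDerivAt (fun q => fderiv ℝ F q ((1, 0) : ℝ × E d)) _ (t, x) :=
    hd.hasFDerivAt.clm_apply (hasFDerivAt_const ((1, 0) : ℝ × E d) (t, x))
  rw [e3.fderiv_eq, e4.fderiv]
  have h2 : ContDiffAt ℝ 2 F (t, x) :=
    (hu.contDiffAt (hO.mem_nhds hp)).of_le (by norm_cast)
  have := h2.isSymmSndFDerivAt (by simp) ((1, 0) : ℝ × E d) ((0, ev l) : ℝ × E d)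
  simpa using this

theorem dtf_pdl (hJ : IsOpen J) (hu : ContDiffOn ℝ ∞ (fun p : ℝ × E d => u p.1 p.2) (J ×ˢ univ))
    {t : ℝ} (ht : t ∈ J) (L : List (Fin d)) :
    dtf (fun s => pdl L (u s)) t = pdl L (dtf u t) := by
  induction L with
  | nil => rfl
  | cons l L ih =>
    funext x
    rw [pdl_cons, ← ih]
    exact dtf_pd (u := fun s => pdl L (u s)) hJ (joint_pdl hJ hu L) ht x l

theorem dtf_pdm (hJ : IsOpen J) (hu : ContDiffOn ℝ ∞ (fun p : ℝ × E d => u p.1 p.2) (J ×ˢ univ))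
    {t : ℝ} (ht : t ∈ J) (m : Multiset (Fin d)) :
    dtf (fun s => pdm m (u s)) t = pdm m (dtf u t) := dtf_pdl hJ hu ht _

end joint

/-! ### the Hamilton-Jacobi hierarchy -/

section HJ

theorem pd_multiset_sum {κ : Type} (S : Multiset κ) (φ : κ → E d → ℝ) (k : Fin d) (x : E d)
    (hφ : ∀ p ∈ S, DifferentiableAt ℝ (φ p) x) :
    DifferentiableAt ℝ (fun x => (S.map fun p => φ p x).sum) x ∧
      pd k (fun x => (S.map fun p => φ p x).sum) x = (S.map fun p => pd k (φ p) x).sum := by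
  induction S using Multiset.induction_on with
  | empty => simp [pd]
  | cons p S ih =>
    obtain ⟨h1, h2⟩ := ih fun q hq => hφ q (Multiset.mem_cons_of_mem hq)
    have h0 := hφ p (Multiset.mem_cons_self p S)
    simp only [Multiset.map_cons, Multiset.sum_cons]
    refine ⟨h0.add h1, ?_⟩
    unfold pd at h2 ⊢
    rw [fderiv_fun_add h0 h1, add_apply, h2]

theorem pd_sum {κ : Type} (S : Finset κ) (φ : κ → E d → ℝ) (k : Fin d) (x : E d)
    (hφ : ∀ p ∈ S, DifferentiableAt ℝ (φ p) x) :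
    pd k (fun x => ∑ p ∈ S, φ p x) x = ∑ p ∈ S, pd k (φ p) x :=
  (pd_multiset_sum S.val φ k x hφ).2

theorem pd_mul {f g : E d → ℝ} (k : Fin d) (x : E d) (hf : DifferentiableAt ℝ f x)
    (hg : DifferentiableAt ℝ g x) :
    pd k (fun x => f x * g x) x = pd k f x * g x + f x * pd k g x := by
  unfold pd
  rw [fderiv_fun_mul hf hg]
  simp only [add_apply, smul_apply, smul_eq_mul]
  ring

variable {F : E d → ℝ}

theorem diff_pdm (hF : ContDiff ℝ ∞ F) (m : Multiset (Fin d)) (x : E d) :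
    DifferentiableAt ℝ (pdm m F) x := (contDiff_pdm hF m).differentiable (by simp) x

theorem diff_qterm (hF : ContDiff ℝ ∞ F) (a b : Multiset (Fin d)) (x : E d) :
    DifferentiableAt ℝ (fun x => ∑ l, pdm (l ::ₘ a) F x * pdm (l ::ₘ b) F x) x := by
  refine DifferentiableAt.fun_sum fun l _ => ?_
  exact (diff_pdm hF _ x).mul (diff_pdm hF _ x)

theorem pd_Nfull (hF : ContDiff ℝ ∞ F) (m : Multiset (Fin d)) (k : Fin d) (x : E d) :
    DifferentiableAt ℝ (fun x => Nfull (fun m => pdm m F x) m) x ∧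
    pd k (fun x => Nfull (fun m => pdm m F x) m) x = Nfull (fun m => pdm m F x) (k ::ₘ m) := by
  have h1 := pd_multiset_sum m.antidiagonal
    (fun (p : Multiset (Fin d) × Multiset (Fin d)) (x : E d) =>
      ∑ l, pdm (l ::ₘ p.1) F x * pdm (l ::ₘ p.2) F x) k x
    (fun p _ => diff_qterm hF p.1 p.2 x)
  refine ⟨h1.1, ?_⟩
  have h2 : pd k (fun x => Nfull (fun m => pdm m F x) m) x =
      (m.antidiagonal.map fun p => pd k (fun x =>
        ∑ l, pdm (l ::ₘ p.1) F x * pdm (l ::ₘ p.2) F x) x).sum := h1.2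
  rw [h2]
  unfold Nfull
  rw [qsum_cons, ← qsum_add]
  unfold qsum
  congr 1
  refine Multiset.map_congr rfl fun p _ => ?_
  beta_reduce
  rw [pd_sum univ (fun l x => pdm (l ::ₘ p.1) F x * pdm (l ::ₘ p.2) F x) k x
    (fun l _ => (diff_pdm hF _ x).mul (diff_pdm hF _ x)), ← sum_add_distrib]
  refine sum_congr rfl fun l _ => ?_
  rw [pd_mul k x (diff_pdm hF _ x) (diff_pdm hF _ x), Multiset.cons_swap l k p.1,
    Multiset.cons_swap l k p.2, pdm_cons hF k, pdm_cons hF k]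
  ring

theorem contDiff_Nfull (hF : ContDiff ℝ ∞ F) (m : Multiset (Fin d)) :
    ContDiff ℝ ∞ (fun x => Nfull (fun m => pdm m F x) m) := by
  have key : ∀ S : Multiset (Multiset (Fin d) × Multiset (Fin d)), ContDiff ℝ ∞ (fun x : E d =>
      (S.map fun p => ∑ l, pdm (l ::ₘ p.1) F x * pdm (l ::ₘ p.2) F x).sum) := by
    intro S
    induction S using Multiset.induction_on with
    | empty => simpa using contDiff_const
    | cons p S ih =>
      simp only [Multiset.map_cons, Multiset.sum_cons]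
      refine ContDiff.add ?_ ih
      exact ContDiff.sum fun l _ => (contDiff_pdm hF _).mul (contDiff_pdm hF _)
  exact key _

/-- The right-hand side of the Hamilton-Jacobi equation, differentiated. -/
def HJr (F : E d → ℝ) (m : Multiset (Fin d)) (x : E d) : ℝ :=
  2⁻¹ * ∑ l, pdm (l ::ₘ l ::ₘ m) F x - 2⁻¹ * Nfull (fun m => pdm m F x) m

theorem contDiff_HJr (hF : ContDiff ℝ ∞ F) (m : Multiset (Fin d)) : ContDiff ℝ ∞ (HJr F m) :=
  (contDiff_const.mul (ContDiff.sum fun _ _ => contDiff_pdm hF _)).sub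
    (contDiff_const.mul (contDiff_Nfull hF m))

theorem pd_HJr (hF : ContDiff ℝ ∞ F) (m : Multiset (Fin d)) (k : Fin d) :
    pd k (HJr F m) = HJr F (k ::ₘ m) := by
  funext x
  have h1 := pd_Nfull hF m k x
  have h2 : DifferentiableAt ℝ (fun x => ∑ l, pdm (l ::ₘ l ::ₘ m) F x) x :=
    DifferentiableAt.fun_sum fun l _ => diff_pdm hF _ x
  have h3 : pd k (fun x => ∑ l, pdm (l ::ₘ l ::ₘ m) F x) x =
      ∑ l, pdm (l ::ₘ l ::ₘ k ::ₘ m) F x := by
    rw [pd_sum _ _ k x (fun l _ => diff_pdm hF _ x)]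
    refine sum_congr rfl fun l _ => ?_
    rw [← pdm_cons hF, Multiset.cons_swap k l, Multiset.cons_swap k l]
  have h4 : pd k (HJr F m) x = 2⁻¹ * pd k (fun x => ∑ l, pdm (l ::ₘ l ::ₘ m) F x) x -
      2⁻¹ * pd k (fun x => Nfull (fun m => pdm m F x) m) x := by
    unfold pd HJr
    rw [fderiv_fun_sub (h2.const_mul _) (h1.1.const_mul _), fderiv_const_mul h2,
      fderiv_const_mul h1.1]
    simp
  rw [h4, h3, h1.2]
  rfl

theorem pdm_HJr (hF : ContDiff ℝ ∞ F) (m : Multiset (Fin d)) :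
    pdm m (HJr F 0) = HJr F m := by
  induction m using Multiset.induction_on with
  | empty => simp
  | cons k m ih => rw [pdm_cons (contDiff_HJr hF 0), ih, pd_HJr hF]

variable {J : Set ℝ} {u : ℝ → E d → ℝ}

/-- **Differentiated Hamilton-Jacobi equation**, time variable `t` (`∂ₜu = Δu/2 - |∇u|²/2`). -/
theorem hasDerivAt_pdm (hJ : IsOpen J)
    (hu : ContDiffOn ℝ ∞ (fun p : ℝ × E d => u p.1 p.2) (J ×ˢ univ))
    (hHJ : ∀ t ∈ J, ∀ x, dtf u t x = HJr (u t) 0 x) {t : ℝ} (ht : t ∈ J)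
    (m : Multiset (Fin d)) (x : E d) :
    HasDerivAt (fun s => pdm m (u s) x) (HJr (u t) m x) t := by
  have h1 := hasDerivAt_dtf (u := fun s => pdm m (u s)) hJ (joint_pdm hJ hu m) ht x
  rw [dtf_pdm hJ hu ht m] at h1
  have h2 : dtf u t = HJr (u t) 0 := funext fun y => hHJ t ht y
  rw [h2, pdm_HJr (joint_slice hu ht)] at h1
  exact h1

/-- Change of the time variable in the differentiated Hamilton-Jacobi equation. -/
theorem hasDerivAt_pdm_comp (hJ : IsOpen J)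
    (hu : ContDiffOn ℝ ∞ (fun p : ℝ × E d => u p.1 p.2) (J ×ˢ univ))
    (hHJ : ∀ t ∈ J, ∀ x, dtf u t x = HJr (u t) 0 x) {τ : ℝ → ℝ} {r τ' : ℝ} (hr : τ r ∈ J)
    (hτ : HasDerivAt τ τ' r) (m : Multiset (Fin d)) (x : E d) :
    HasDerivAt (fun s => pdm m (u (τ s)) x) (τ' * HJr (u (τ r)) m x) r := by
  have h1 := (hasDerivAt_pdm hJ hu hHJ hr m x).comp r hτ
  rw [mul_comm]
  exact h1

end HJ

end Crest.Agent.R285.AF
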