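import Crest.Agent.R285.AFDefs
import Crest.Agent.R285.PDM
import Crest.Agent.R285.IBP

/-!
Row 285 (S0430), module AF, part A2: Duhamel's formula for the heat equation
`∂ₛ Φ - ½ ΔΦ = Ψ` with bounded `Φ`, `Ψ` (no growth condition on the derivatives), helper367.
-/

set_option autoImplicit false

open Finset Set MeasureTheory ProbabilityTheory Filter Topology
open Crest.OracleSampling (E)
open Crest.Agent.R285.AF Crest.Agent.R285.IBP
open scoped ContDiff RealInnerProductSpace

noncomputable section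

namespace Crest.Agent.R285.AFD

variable {d : ℕ}

/-! ### coordinates -/

theorem inner_ev (x : E d) (l : Fin d) : ⟪x, ev l⟫ = x l := by
  unfold ev
  rw [EuclideanSpace.inner_single_right]
  simp

theorem sum_ev (v : E d) : ∑ l, v l • ev l = v := by
  have h := (EuclideanSpace.basisFun (Fin d) ℝ).sum_repr v
  simpa [ev] using h

theorem fderiv_eq_sum (F : E d → ℝ) (x v : E d) : fderiv ℝ F x v = ∑ l, v l * pd l F x := by
  conv_lhs => rw [← sum_ev v, map_sum]
  refine sum_congr rfl fun l _ => ?_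
  rw [map_smul, smul_eq_mul]
  rfl

theorem abs_coord_le (x : E d) (l : Fin d) : |x l| ≤ ‖x‖ := by
  rw [← inner_ev x l]
  refine (abs_real_inner_le_norm _ _).trans ?_
  have : ‖(ev l : E d)‖ = 1 := by simp [ev]
  rw [this, mul_one]

/-! ### Gaussian integration by parts -/

theorem gauss_ibp {W : E d → ℝ} (hW : ContDiff ℝ 1 W) {B : ℝ} (hB : ∀ x, |W x| ≤ B) (l : Fin d)
    (hB' : ∀ x, |pd l W x| ≤ B) (σ : ℝ) (y : E d) :
    ∫ g, W (y + σ • g) * g l ∂(stdGaussian (E d)) =
      σ * ∫ g, pd l W (y + σ • g) ∂(stdGaussian (E d)) := by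
  have hWd : Differentiable ℝ W := hW.differentiable one_ne_zero
  have hpc : Continuous (pd l W) := by
    unfold pd
    exact (hW.continuous_fderiv one_ne_zero).clm_apply continuous_const
  have hline : ∀ g : E d, HasLineDerivAt ℝ (fun g => W (y + σ • g)) (σ * pd l W (y + σ • g)) g (ev l) := by
    intro g
    have h1 : HasFDerivAt (fun g : E d => y + σ • g) (σ • ContinuousLinearMap.id ℝ (E d)) g := by
      have := ((hasFDerivAt_id (𝕜 := ℝ) g).const_smul σ).const_add y
      simpa using this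
    have h2 : HasFDerivAt (fun g : E d => W (y + σ • g)) _ g :=
      (hWd (y + σ • g)).hasFDerivAt.comp g h1
    have h3 := h2.hasLineDerivAt (ev l)
    refine h3.congr_deriv ?_
    simp [pd]
  have key := ibp_dens (μ := (volume : Measure (E d))) (ρ := gdens (V := E d))
    (β := fun x => ⟪x, ev l⟫) RD.gdens (v := ev l) (fun x => hasLineDerivAt_gdens x (ev l))
    (PB.of_linear (C := 1) fun x => by
      rw [Real.norm_eq_abs, inner_ev]
      linarith [abs_coord_le x l, norm_nonneg x])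
    (by fun_prop)
    (F := fun g => W (y + σ • g)) (F' := fun g => σ * pd l W (y + σ • g))
    (G := fun _ => 1) (G' := fun _ => 0) hline
    (fun x => (hasDerivAt_const (0 : ℝ) (1 : ℝ) : HasDerivAt (fun _ : ℝ => (1 : ℝ)) 0 0))
    (PB.of_bound (C := B) fun x => hB _)
    (PB.of_bound (C := |σ| * B) fun x => by
      rw [Real.norm_eq_abs, abs_mul]
      exact mul_le_mul_of_nonneg_left (hB' _) (abs_nonneg _))
    (PB.const 1) (PB.const 0)
    (hW.continuous.comp (by fun_prop)) (continuous_const.mul (hpc.comp (by fun_prop)))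
    continuous_const continuous_const
  rw [← stdGaussian_eq_dens] at key
  simp only [mul_one, sub_zero] at key
  rw [integral_const_mul] at key
  rw [key]
  refine integral_congr_ae (ae_of_all _ fun g => ?_)
  simp only [inner_ev]

/-! ### integrability -/

theorem integrable_norm_std : Integrable (fun g : E d => ‖g‖) (stdGaussian (E d)) := by
  rw [stdGaussian_eq_dens]
  exact PB.integrable_dens RD.gdens (PB.id.norm) (by fun_prop)

/-- first absolute moment -/
def C1 (d : ℕ) : ℝ := ∫ g : E d, ‖g‖ ∂(stdGaussian (E d))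

theorem C1_nonneg : 0 ≤ C1 d := integral_nonneg fun _ => norm_nonneg _

theorem integrable_bdd {f : E d → ℝ} (hf : Continuous f) {M : ℝ} (hM : ∀ x, |f x| ≤ M) :
    Integrable f (stdGaussian (E d)) := by
  refine Integrable.mono' (integrable_const M) hf.aestronglyMeasurable (ae_of_all _ fun x => ?_)
  exact hM x

theorem integrable_hS {f : E d → ℝ} (hf : Continuous f) {M : ℝ} (hM : ∀ x, |f x| ≤ M) (σ : ℝ)
    (y : E d) : Integrable (fun g => f (y + σ • g)) (stdGaussian (E d)) :=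
  integrable_bdd (hf.comp (by fun_prop)) fun _ => hM _

theorem abs_hS_le {f : E d → ℝ} {M : ℝ} (hM : ∀ x, |f x| ≤ M) (δ : ℝ)
    (y : E d) : |hS δ f y| ≤ M := by
  unfold hS
  have := norm_integral_le_of_norm_le_const (μ := stdGaussian (E d))
    (f := fun g => f (y + √δ • g)) (ae_of_all _ fun g => by exact hM (y + √δ • g))
  simpa using this

/-! ### continuity in time -/

theorem continuousOn_hS {r t M : ℝ} {G : ℝ → E d → ℝ}
    (hG : ContinuousOn (fun p : ℝ × E d => G p.1 p.2) (Icc r t ×ˢ univ))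
    (hM : ∀ s ∈ Icc r t, ∀ x, |G s x| ≤ M) (y : E d) :
    ContinuousOn (fun s => hS (t - s) (G s) y) (Icc r t) := by
  unfold hS
  refine continuousOn_of_dominated (bound := fun _ => M) ?_ ?_ (integrable_const M) ?_
  · intro s hs
    have h1 : Continuous (G s) := by
      have h2 : Continuous fun x : E d => ((s, x) : ℝ × E d) := by fun_prop
      exact hG.comp_continuous h2 fun x => ⟨hs, mem_univ _⟩
    exact (h1.comp (by fun_prop)).aestronglyMeasurable
  · intro s hs
    exact ae_of_all _ fun g => hM s hs _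
  · refine ae_of_all _ fun g => ?_
    have h2 : ContinuousOn (fun s : ℝ => ((s, y + √(t - s) • g) : ℝ × E d)) (Icc r t) := by
      fun_prop
    exact hG.comp h2 fun s hs => ⟨hs, mem_univ _⟩

/-! ### compactly supported case -/

section cpt

variable {J : Set ℝ} {F : ℝ → E d → ℝ} {ρ : ℝ}

theorem bdd_of_supp {W : Type*} [NormedAddCommGroup W] {r t : ℝ} {G : ℝ × E d → W}
    (hG : ContinuousOn G (J ×ˢ univ)) (hsub : Icc r t ⊆ J)
    (hs : ∀ s ∈ J, ∀ x : E d, ρ < ‖x‖ → G (s, x) = 0) :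
    ∃ B : ℝ, 0 ≤ B ∧ ∀ s ∈ Icc r t, ∀ x, ‖G (s, x)‖ ≤ B := by
  have hK : IsCompact (Icc r t ×ˢ Metric.closedBall (0 : E d) ρ) :=
    isCompact_Icc.prod (isCompact_closedBall _ _)
  obtain ⟨B, hB⟩ := hK.exists_bound_of_continuousOn
    (hG.mono (prod_mono hsub (subset_univ _)))
  refine ⟨max B 0, le_max_right _ _, fun s hs' x => ?_⟩
  by_cases hx : ‖x‖ ≤ ρ
  · exact (hB (s, x) ⟨hs', by simpa using hx⟩).trans (le_max_left _ _)
  · rw [hs s (hsub hs') x (not_le.mp hx), norm_zero]
    exact le_max_right _ _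

theorem supp_fderiv (hJ : IsOpen J) (hs : ∀ s ∈ J, ∀ x : E d, ρ < ‖x‖ → F s x = 0) :
    ∀ s ∈ J, ∀ x : E d, ρ < ‖x‖ → fderiv ℝ (fun p : ℝ × E d => F p.1 p.2) (s, x) = 0 := by
  intro s hsJ x hx
  have hO : IsOpen (J ×ˢ {x : E d | ρ < ‖x‖}) := hJ.prod (isOpen_lt continuous_const continuous_norm)
  have : (fun p : ℝ × E d => F p.1 p.2) =ᶠ[𝓝 (s, x)] fun _ => 0 := by
    filter_upwards [hO.mem_nhds ⟨hsJ, hx⟩] with p hp
    exact hs p.1 hp.1 p.2 hp.2
  rw [this.fderiv_eq]
  simp

theorem supp_pd (hs : ∀ s ∈ J, ∀ x : E d, ρ < ‖x‖ → F s x = 0) (l : Fin d) :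
    ∀ s ∈ J, ∀ x : E d, ρ < ‖x‖ → pd l (F s) x = 0 := by
  intro s hsJ x hx
  have hO : IsOpen {x : E d | ρ < ‖x‖} := isOpen_lt continuous_const continuous_norm
  have : F s =ᶠ[𝓝 x] fun _ => 0 := by
    filter_upwards [hO.mem_nhds hx] with p hp
    exact hs s hsJ p hp
  unfold pd
  rw [this.fderiv_eq]
  simp

theorem supp_dtf (hJ : IsOpen J) (hs : ∀ s ∈ J, ∀ x : E d, ρ < ‖x‖ → F s x = 0) :
    ∀ s ∈ J, ∀ x : E d, ρ < ‖x‖ → dtf F s x = 0 := by
  intro s hsJ x hx
  have : (fun s => F s x) =ᶠ[𝓝 s] fun _ => 0 := by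
    filter_upwards [hJ.mem_nhds hsJ] with p hp
    exact hs p hp x hx
  unfold dtf
  rw [this.deriv_eq]
  simp

/-- heat operator -/
def heatOp (F : ℝ → E d → ℝ) (s : ℝ) (x : E d) : ℝ :=
  dtf F s x - 2⁻¹ * ∑ l, pd l (pd l (F s)) x

theorem joint_heatOp (hJ : IsOpen J)
    (hF : ContDiffOn ℝ ∞ (fun p : ℝ × E d => F p.1 p.2) (J ×ˢ univ)) :
    ContDiffOn ℝ ∞ (fun p : ℝ × E d => heatOp F p.1 p.2) (J ×ˢ univ) := by
  unfold heatOp
  refine (joint_dtf hJ hF).sub (contDiffOn_const.mul (ContDiffOn.sum fun l _ => ?_))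
  exact joint_pd (u := fun s => pd l (F s)) hJ (joint_pd hJ hF l) l

theorem hasDerivAt_path (hJ : IsOpen J)
    (hF : ContDiffOn ℝ ∞ (fun p : ℝ × E d => F p.1 p.2) (J ×ˢ univ)) {s t : ℝ} (hs : s ∈ J)
    (hst : s < t) (y g : E d) :
    HasDerivAt (fun s => F s (y + √(t - s) • g))
      (fderiv ℝ (fun p : ℝ × E d => F p.1 p.2) (s, y + √(t - s) • g)
        (1, -(2 * √(t - s))⁻¹ • g)) s := by
  have h1 := (joint_diffAt hJ hF hs (y + √(t - s) • g)).hasFDerivAt
  have h2 : HasDerivAt (fun s : ℝ => √(t - s)) (-(2 * √(t - s))⁻¹) s := by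
    have h3 : HasDerivAt (fun s : ℝ => t - s) (-1) s := by
      simpa using (hasDerivAt_id s).const_sub t
    have h4 := h3.sqrt (sub_pos.mpr hst).ne'
    refine h4.congr_deriv ?_
    rw [neg_div, one_div]
  have h5 : HasDerivAt (fun s : ℝ => ((s, y + √(t - s) • g) : ℝ × E d))
      ((1 : ℝ), -(2 * √(t - s))⁻¹ • g) s :=
    (hasDerivAt_id s).prodMk ((h2.smul_const g).const_add y)
  exact h1.comp_hasDerivAt s h5

theorem fderiv_path_eq (hJ : IsOpen J)
    (hF : ContDiffOn ℝ ∞ (fun p : ℝ × E d => F p.1 p.2) (J ×ˢ univ)) {s : ℝ} (hs : s ∈ J)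
    (z g : E d) (c : ℝ) :
    fderiv ℝ (fun p : ℝ × E d => F p.1 p.2) (s, z) (1, c • g) =
      dtf F s z + c * ∑ l, pd l (F s) z * g l := by
  have h1 : ((1, c • g) : ℝ × E d) = (1, 0) + (0, c • g) := by simp
  rw [h1, map_add, ← dtf_eq hJ hF hs, ← fderiv_slice hJ hF hs, map_smul, smul_eq_mul,
    fderiv_eq_sum]
  congr 2
  exact sum_congr rfl fun l _ => mul_comm _ _

theorem hasDerivAt_hS (hJ : IsOpen J)
    (hF : ContDiffOn ℝ ∞ (fun p : ℝ × E d => F p.1 p.2) (J ×ˢ univ))
    (hsupp : ∀ s ∈ J, ∀ x : E d, ρ < ‖x‖ → F s x = 0) {r s t : ℝ} (hsub : Icc r t ⊆ J)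
    (hrs : r < s) (hst : s < t) (y : E d) :
    HasDerivAt (fun s => hS (t - s) (F s) y) (hS (t - s) (heatOp F s) y) s := by
  have hsI : s ∈ Icc r t := ⟨hrs.le, hst.le⟩
  have hsJ := hsub hsI
  -- bounds
  obtain ⟨B, hB0, hB⟩ := bdd_of_supp (ρ := ρ)
    (G := fderiv ℝ (fun p : ℝ × E d => F p.1 p.2))
    ((hF.fderiv_of_isOpen (joint_open hJ) (m := 0) (by simp)).continuousOn) hsub
    (supp_fderiv hJ hsupp)
  obtain ⟨B0, -, hB0'⟩ := bdd_of_supp (ρ := ρ) (G := fun p : ℝ × E d => F p.1 p.2)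
    hF.continuousOn hsub hsupp
  obtain ⟨B1, -, hB1⟩ := bdd_of_supp (ρ := ρ) (G := fun p : ℝ × E d => dtf F p.1 p.2)
    (joint_dtf hJ hF).continuousOn hsub (supp_dtf hJ hsupp)
  have hcont : ∀ s ∈ J, Continuous (F s) := fun s hs => (joint_slice hF hs).continuous
  -- neighbourhood
  set m := (s + t) / 2 with hm
  have hsm : s < m := by rw [hm]; linarith
  have hmt : m < t := by rw [hm]; linarith
  set c := (2 * √(t - m))⁻¹ with hc
  have hcpos : 0 < c := by
    rw [hc]
    have : 0 < √(t - m) := Real.sqrt_pos.mpr (sub_pos.mpr hmt)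
    positivity
  have hcle : ∀ s' ∈ Ioo r m, (2 * √(t - s'))⁻¹ ≤ c := by
    intro s' hs'
    rw [hc]
    have h0 : 0 < √(t - m) := Real.sqrt_pos.mpr (sub_pos.mpr hmt)
    have h1 : √(t - m) ≤ √(t - s') := Real.sqrt_le_sqrt (by linarith [hs'.2])
    gcongr
  have key := hasDerivAt_integral_of_dominated_loc_of_deriv_le (μ := stdGaussian (E d))
    (F := fun s g => F s (y + √(t - s) • g))
    (F' := fun s g => fderiv ℝ (fun p : ℝ × E d => F p.1 p.2) (s, y + √(t - s) • g)
        (1, -(2 * √(t - s))⁻¹ • g)) (x₀ := s) (s := Ioo r m)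
    (bound := fun g => B * (1 + c * ‖g‖)) (Ioo_mem_nhds hrs hsm) ?_ ?_ ?_ ?_ ?_ ?_
  · have h2 := key.2
    refine h2.congr_deriv ?_
    -- identify the derivative
    have hδ : 0 < √(t - s) := Real.sqrt_pos.mpr (sub_pos.mpr hst)
    set σ := √(t - s) with hσ
    have e1 : ∀ g : E d, fderiv ℝ (fun p : ℝ × E d => F p.1 p.2) (s, y + σ • g)
        (1, -(2 * σ)⁻¹ • g) = dtf F s (y + σ • g) +
          (-(2 * σ)⁻¹) * ∑ l, pd l (F s) (y + σ • g) * g l := fun g =>
      fderiv_path_eq hJ hF hsJ _ g _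
    have hFs : ContDiff ℝ ∞ (F s) := joint_slice hF hsJ
    have hbd : ∀ l, ∃ B, (∀ x, |pd l (F s) x| ≤ B) ∧ ∀ x, |pd l (pd l (F s)) x| ≤ B := by
      intro l
      obtain ⟨b1, -, h1⟩ := bdd_of_supp (ρ := ρ) (G := fun p : ℝ × E d => pd l (F p.1) p.2)
        (joint_pd hJ hF l).continuousOn hsub (supp_pd hsupp l)
      obtain ⟨b2, -, h2⟩ := bdd_of_supp (ρ := ρ) (G := fun p : ℝ × E d => pd l (pd l (F p.1)) p.2)
        (joint_pd (u := fun s => pd l (F s)) hJ (joint_pd hJ hF l) l).continuousOn hsub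
        (supp_pd (F := fun s => pd l (F s)) (supp_pd hsupp l) l)
      exact ⟨max b1 b2, fun x => (h1 s hsI x).trans (le_max_left _ _),
        fun x => (h2 s hsI x).trans (le_max_right _ _)⟩
    have hint1 : ∀ l, Integrable (fun g : E d => pd l (F s) (y + σ • g) * g l)
        (stdGaussian (E d)) := by
      intro l
      obtain ⟨b, hb1, -⟩ := hbd l
      refine (integrable_norm_std.const_mul b).mono' ?_ (ae_of_all _ fun g => ?_)
      · have h3 : Continuous (pd l (F s)) := (contDiff_pd hFs l).continuous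
        refine Continuous.aestronglyMeasurable ?_
        exact (h3.comp (by fun_prop)).mul (by fun_prop)
      · rw [Real.norm_eq_abs, abs_mul]
        exact mul_le_mul (hb1 _) (abs_coord_le g l) (abs_nonneg _) ((abs_nonneg _).trans (hb1 0))
    have hint0 : Integrable (fun g : E d => dtf F s (y + σ • g)) (stdGaussian (E d)) := by
      refine integrable_hS (M := B1) ?_ (fun x => hB1 s hsI x) σ y
      have h4 : Continuous fun x : E d => ((s, x) : ℝ × E d) := by fun_prop
      exact (joint_dtf hJ hF).continuousOn.comp_continuous h4 fun x => ⟨hsJ, mem_univ _⟩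
    have hint2 : ∀ l, Integrable (fun g : E d => pd l (pd l (F s)) (y + σ • g))
        (stdGaussian (E d)) := by
      intro l
      obtain ⟨b, -, hb2⟩ := hbd l
      exact integrable_hS (contDiff_pd (contDiff_pd hFs l) l).continuous hb2 σ y
    simp_rw [e1]
    rw [integral_add hint0 ((integrable_finsetSum _ fun l _ => hint1 l).const_mul _),
      integral_const_mul, integral_finsetSum _ fun l _ => hint1 l]
    have e2 : ∀ l, ∫ g, pd l (F s) (y + σ • g) * g l ∂(stdGaussian (E d)) =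
        σ * ∫ g, pd l (pd l (F s)) (y + σ • g) ∂(stdGaussian (E d)) := by
      intro l
      obtain ⟨b, hb1, hb2⟩ := hbd l
      exact gauss_ibp ((contDiff_pd hFs l).of_le (by norm_cast)) hb1 l hb2 σ y
    simp_rw [e2]
    unfold hS heatOp
    rw [integral_sub hint0 ((integrable_finsetSum _ fun l _ => hint2 l).const_mul _),
      integral_const_mul, integral_finsetSum _ fun l _ => hint2 l, ← mul_sum]
    field_simp
    ring
  · -- measurability of F
    filter_upwards [Ioo_mem_nhds hrs hst] with s' hs'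
    exact ((hcont s' (hsub ⟨hs'.1.le, hs'.2.le⟩)).comp (by fun_prop)).aestronglyMeasurable
  · exact integrable_hS (hcont s hsJ) (fun x => hB0' s hsI x) _ y
  · -- measurability of F'
    refine Continuous.aestronglyMeasurable ?_
    have h6 : ContinuousOn (fderiv ℝ (fun p : ℝ × E d => F p.1 p.2)) (J ×ˢ univ) :=
      (hF.fderiv_of_isOpen (joint_open hJ) (m := 0) (by simp)).continuousOn
    have h7 : Continuous fun g : E d => ((s, y + √(t - s) • g) : ℝ × E d) := by fun_prop
    exact (h6.comp_continuous h7 fun x => ⟨hsJ, mem_univ _⟩).clm_apply (by fun_prop)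
  · refine ae_of_all _ fun g s' hs' => ?_
    have hs'' : s' ∈ Icc r t := ⟨hs'.1.le, (hs'.2.trans hmt).le⟩
    refine (ContinuousLinearMap.le_opNorm _ _).trans ?_
    refine mul_le_mul (hB s' hs'' _) ?_ (norm_nonneg _) hB0
    rw [Prod.norm_def, norm_one, norm_smul, norm_neg, Real.norm_of_nonneg (by positivity)]
    have h8 := hcle s' hs'
    have h9 : (2 * √(t - s'))⁻¹ * ‖g‖ ≤ c * ‖g‖ := mul_le_mul_of_nonneg_right h8 (norm_nonneg _)
    refine max_le ?_ ?_
    · have : 0 ≤ c * ‖g‖ := by positivity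
      linarith
    · linarith
  · exact ((integrable_const (1 : ℝ)).add (integrable_norm_std.const_mul c)).const_mul B
  · refine ae_of_all _ fun g s' hs' => ?_
    exact hasDerivAt_path hJ hF (hsub ⟨hs'.1.le, (hs'.2.trans hmt).le⟩) (hs'.2.trans hmt) y g

theorem hS_zero (f : E d → ℝ) (y : E d) : hS 0 f y = f y := by
  unfold hS
  simp

theorem duhamel_cpt (hJ : IsOpen J)
    (hF : ContDiffOn ℝ ∞ (fun p : ℝ × E d => F p.1 p.2) (J ×ˢ univ))
    (hsupp : ∀ s ∈ J, ∀ x : E d, ρ < ‖x‖ → F s x = 0) {r t : ℝ} (hrt : r ≤ t) (hsub : Icc r t ⊆ J)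
    (y : E d) :
    F t y = hS (t - r) (F r) y + ∫ s in r..t, hS (t - s) (heatOp F s) y := by
  obtain ⟨B0, -, hB0'⟩ := bdd_of_supp (ρ := ρ) (G := fun p : ℝ × E d => F p.1 p.2)
    hF.continuousOn hsub hsupp
  have hsup2 : ∀ s ∈ J, ∀ x : E d, ρ < ‖x‖ → heatOp F s x = 0 := by
    intro s hs x hx
    unfold heatOp
    rw [supp_dtf hJ hsupp s hs x hx, Finset.sum_eq_zero fun l _ =>
      supp_pd (F := fun s => pd l (F s)) (supp_pd hsupp l) l s hs x hx]
    simp
  obtain ⟨B1, -, hB1⟩ := bdd_of_supp (ρ := ρ) (G := fun p : ℝ × E d => heatOp F p.1 p.2)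
    (joint_heatOp hJ hF).continuousOn hsub hsup2
  have hc0 := continuousOn_hS (hF.continuousOn.mono (prod_mono hsub (subset_univ _)))
    (fun s hs x => hB0' s hs x) y
  have hc1 := continuousOn_hS
    ((joint_heatOp hJ hF).continuousOn.mono (prod_mono hsub (subset_univ _)))
    (fun s hs x => hB1 s hs x) y
  have key := intervalIntegral.integral_eq_sub_of_hasDerivAt_of_le hrt hc0
    (fun s hs => hasDerivAt_hS hJ hF hsupp hsub hs.1 hs.2 y)
    (hc1.intervalIntegrable_of_Icc hrt)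
  rw [key, sub_self, hS_zero]
  ring

end cpt

/-! ### cutoff -/

/-- the basic bump -/
def chi (d : ℕ) : ContDiffBump (0 : E d) := ⟨1, 2, one_pos, one_lt_two⟩

/-- cutoff at radius `R` -/
def cut (R : ℝ) (x : E d) : ℝ := chi d (R⁻¹ • x)

theorem contDiff_scale (c : ℝ) : ContDiff ℝ ∞ (fun x : E d => c • x) := contDiff_const_smul c

theorem contDiff_cut (R : ℝ) : ContDiff ℝ ∞ (cut (d := d) R) :=
  have h : ContDiff ℝ ∞ (chi d : E d → ℝ) := (chi d).contDiff
  h.comp (contDiff_scale R⁻¹)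

theorem cut_nonneg (R : ℝ) (x : E d) : 0 ≤ cut R x := (chi d).nonneg

theorem cut_le_one (R : ℝ) (x : E d) : cut R x ≤ 1 := (chi d).le_one

theorem cut_eq_zero {R : ℝ} (hR : 0 < R) {x : E d} (hx : 2 * R < ‖x‖) : cut R x = 0 := by
  refine (chi d).zero_of_le_dist ?_
  rw [dist_zero_right, norm_smul, norm_inv, Real.norm_of_nonneg hR.le]
  change (2 : ℝ) ≤ _
  rw [inv_mul_eq_div, le_div_iff₀ hR]
  exact hx.le

theorem one_sub_cut_le {R : ℝ} (hR : 0 < R) (x : E d) : |1 - cut R x| ≤ ‖x‖ / R := by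
  by_cases hx : ‖x‖ ≤ R
  · have : cut R x = 1 := by
      refine (chi d).one_of_mem_closedBall ?_
      rw [mem_closedBall_zero_iff, norm_smul, norm_inv, Real.norm_of_nonneg hR.le]
      change _ ≤ (1 : ℝ)
      rw [inv_mul_eq_div, div_le_one hR]
      exact hx
    rw [this, sub_self, abs_zero]
    positivity
  · rw [abs_of_nonneg (sub_nonneg.mpr (cut_le_one R x))]
    have h1 : 1 ≤ ‖x‖ / R := by
      rw [one_le_div hR]
      exact (not_le.mp hx).le
    linarith [cut_nonneg R x]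

theorem pd_comp_smul {f : E d → ℝ} (hf : Differentiable ℝ f) (c : ℝ) (l : Fin d) (x : E d) :
    pd l (fun x => f (c • x)) x = c * pd l f (c • x) := by
  have h1 : HasFDerivAt (fun g : E d => c • g) (c • ContinuousLinearMap.id ℝ (E d)) x :=
    (hasFDerivAt_id (𝕜 := ℝ) x).const_smul c
  have h2 : HasFDerivAt (fun g : E d => f (c • g)) _ x := (hf (c • x)).hasFDerivAt.comp x h1
  unfold pd
  rw [h2.fderiv]
  simp

theorem chi_contDiff : ContDiff ℝ ∞ (chi d : E d → ℝ) := (chi d).contDiff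

theorem pd_cut (R : ℝ) (l : Fin d) (x : E d) :
    pd l (cut R) x = R⁻¹ * pd l (chi d) (R⁻¹ • x) :=
  pd_comp_smul (chi_contDiff.differentiable (by simp)) _ l x

theorem pd_pd_cut (R : ℝ) (l : Fin d) (x : E d) :
    pd l (pd l (cut R)) x = R⁻¹ * (R⁻¹ * pd l (pd l (chi d)) (R⁻¹ • x)) := by
  have h1 : pd l (cut (d := d) R) = fun x => R⁻¹ * pd l (chi d) (R⁻¹ • x) := funext (pd_cut R l)
  have h2 : ContDiff ℝ ∞ (pd l (chi d : E d → ℝ)) := contDiff_pd chi_contDiff l
  have h3 := pd_comp_smul (h2.differentiable (by simp)) R⁻¹ l x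
  have h4 : DifferentiableAt ℝ (fun x => pd l (chi d) (R⁻¹ • x)) x :=
    ((h2.comp (contDiff_scale R⁻¹)).differentiable (by simp)) x
  rw [h1, ← h3]
  have h5 : fderiv ℝ (fun x => R⁻¹ * pd l (chi d) (R⁻¹ • x)) x =
      R⁻¹ • fderiv ℝ (fun x => pd l (chi d) (R⁻¹ • x)) x := fderiv_const_mul h4 _
  change fderiv ℝ (fun x => R⁻¹ * pd l (chi d) (R⁻¹ • x)) x (ev l) = _
  rw [h5]
  rfl

theorem exists_cut_bound (d : ℕ) : ∃ B : ℝ, 0 ≤ B ∧ ∀ R : ℝ, 1 ≤ R → ∀ (l : Fin d) (x : E d),
    |pd l (cut R) x| ≤ B / R ∧ |pd l (pd l (cut R)) x| ≤ B / R := by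
  have h0 : ∀ s ∈ (univ : Set ℝ), ∀ x : E d, (2 : ℝ) < ‖x‖ → (chi d : E d → ℝ) x = 0 := by
    intro s _ x hx
    refine (chi d).zero_of_le_dist ?_
    rw [dist_zero_right]
    exact hx.le
  have key : ∀ l : Fin d, ∃ B : ℝ, 0 ≤ B ∧ ∀ x : E d, |pd l (chi d) x| ≤ B ∧
      |pd l (pd l (chi d)) x| ≤ B := by
    intro l
    have hc1 : ContDiff ℝ ∞ (pd l (chi d : E d → ℝ)) := contDiff_pd chi_contDiff l
    have hc2 : ContDiff ℝ ∞ (pd l (pd l (chi d : E d → ℝ))) := contDiff_pd hc1 l
    have s1 := supp_pd (J := univ) (F := fun _ : ℝ => (chi d : E d → ℝ)) h0 l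
    have s2 := supp_pd (J := univ) (F := fun _ : ℝ => pd l (chi d : E d → ℝ)) s1 l
    obtain ⟨b1, h1, hb1⟩ := bdd_of_supp (J := univ) (ρ := 2) (r := 0) (t := 0)
      (G := fun p : ℝ × E d => pd l (chi d : E d → ℝ) p.2)
      (hc1.continuous.comp continuous_snd).continuousOn (subset_univ _) s1
    obtain ⟨b2, h2, hb2⟩ := bdd_of_supp (J := univ) (ρ := 2) (r := 0) (t := 0)
      (G := fun p : ℝ × E d => pd l (pd l (chi d : E d → ℝ)) p.2)
      (hc2.continuous.comp continuous_snd).continuousOn (subset_univ _) s2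
    exact ⟨max b1 b2, h1.trans (le_max_left _ _), fun x =>
      ⟨(hb1 0 (by simp) x).trans (le_max_left _ _), (hb2 0 (by simp) x).trans (le_max_right _ _)⟩⟩
  choose B hB0 hB using key
  refine ⟨∑ l, B l, Finset.sum_nonneg fun l _ => hB0 l, fun R hR l x => ?_⟩
  have hR0 : 0 < R := by linarith
  have hle : B l ≤ ∑ l, B l := Finset.single_le_sum (fun l _ => hB0 l) (Finset.mem_univ l)
  have hRi : R⁻¹ ≤ 1 := inv_le_one_of_one_le₀ hR
  constructor
  · rw [pd_cut, abs_mul, abs_of_pos (inv_pos.mpr hR0), div_eq_inv_mul]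
    exact mul_le_mul_of_nonneg_left (((hB l _).1).trans hle) (inv_pos.mpr hR0).le
  · rw [pd_pd_cut, abs_mul, abs_mul, abs_of_pos (inv_pos.mpr hR0), div_eq_inv_mul]
    refine mul_le_mul_of_nonneg_left ?_ (inv_pos.mpr hR0).le
    calc R⁻¹ * |pd l (pd l (chi d)) (R⁻¹ • x)| ≤ 1 * B l :=
          mul_le_mul hRi (hB l _).2 (abs_nonneg _) zero_le_one
      _ ≤ _ := by linarith

/-! ### the bounded case -/

theorem norm_shift_integral_le (y : E d) (σ : ℝ) (hσ : 0 ≤ σ) :
    ∫ g : E d, ‖y + σ • g‖ ∂(stdGaussian (E d)) ≤ ‖y‖ + σ * C1 d := by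
  have h1 : ∫ g : E d, ‖y + σ • g‖ ∂(stdGaussian (E d)) ≤
      ∫ g : E d, (‖y‖ + σ * ‖g‖) ∂(stdGaussian (E d)) := by
    refine integral_mono_of_nonneg (ae_of_all _ fun g => norm_nonneg _)
      ((integrable_const _).add (integrable_norm_std.const_mul σ)) (ae_of_all _ fun g => ?_)
    refine (norm_add_le _ _).trans ?_
    rw [norm_smul, Real.norm_of_nonneg hσ]
  refine h1.trans (le_of_eq ?_)
  rw [integral_add (integrable_const _) (integrable_norm_std.const_mul σ), integral_const_mul]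
  simp [C1]

theorem hS_cut_sub_le {R : ℝ} (hR : 0 < R) {ψ : E d → ℝ} (hψ : Continuous ψ) {N : ℝ}
    (hN : ∀ x, |ψ x| ≤ N) (δ : ℝ) (y : E d) :
    |hS δ (fun x => cut R x * ψ x) y - hS δ ψ y| ≤ N / R * (‖y‖ + √δ * C1 d) := by
  have hN0 : 0 ≤ N := (abs_nonneg _).trans (hN 0)
  have hc : Continuous (cut (d := d) R) := (contDiff_cut R).continuous
  have hb : ∀ x : E d, |cut R x * ψ x| ≤ N := by
    intro x
    rw [abs_mul, abs_of_nonneg (cut_nonneg R x)]
    calc cut R x * |ψ x| ≤ 1 * N := mul_le_mul (cut_le_one R x) (hN x) (abs_nonneg _) zero_le_one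
      _ = N := one_mul N
  unfold hS
  rw [← integral_sub (integrable_hS (f := fun x => cut R x * ψ x) (hc.mul hψ) hb _ y)
    (integrable_hS hψ hN _ y)]
  have hcn : Continuous fun g : E d => ‖y + √δ • g‖ := by fun_prop
  have hint : Integrable (fun g : E d => ‖y + √δ • g‖) (stdGaussian (E d)) := by
    refine (((integrable_const ‖y‖).add (integrable_norm_std.const_mul (√δ)))).mono'
      hcn.aestronglyMeasurable (ae_of_all _ fun g => ?_)
    rw [norm_norm]
    refine (norm_add_le _ _).trans ?_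
    rw [norm_smul, Real.norm_of_nonneg (Real.sqrt_nonneg δ)]
    rfl
  have h1 := norm_integral_le_of_norm_le (μ := stdGaussian (E d))
    (f := fun g => cut R (y + √δ • g) * ψ (y + √δ • g) - ψ (y + √δ • g))
    (g := fun g => N / R * ‖y + √δ • g‖) (hint.const_mul _) (ae_of_all _ fun g => by
      have e : cut R (y + √δ • g) * ψ (y + √δ • g) - ψ (y + √δ • g) =
        -((1 - cut R (y + √δ • g)) * ψ (y + √δ • g)) := by ring
      rw [e, norm_neg, Real.norm_eq_abs, abs_mul]
      calc _ ≤ ‖y + √δ • g‖ / R * N :=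
            mul_le_mul (one_sub_cut_le hR _) (hN _) (abs_nonneg _) (by positivity)
        _ = _ := by ring)
  rw [integral_const_mul] at h1
  refine h1.trans ?_
  exact mul_le_mul_of_nonneg_left (norm_shift_integral_le y _ (Real.sqrt_nonneg δ)) (by positivity)

theorem hS_pd_le {W : E d → ℝ} (hW : ContDiff ℝ 1 W) {A : ℝ} (hA : ∀ x, |W x| ≤ A) (l : Fin d)
    {B : ℝ} (hB : ∀ x, |pd l W x| ≤ B) {δ : ℝ} (hδ : 0 < δ) (y : E d) :
    |hS δ (pd l W) y| ≤ (√δ)⁻¹ * (A * C1 d) := by
  have hs : 0 < √δ := Real.sqrt_pos.mpr hδ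
  have hA0 : 0 ≤ A := (abs_nonneg _).trans (hA 0)
  have h1 := gauss_ibp hW (B := max A B) (fun x => (hA x).trans (le_max_left _ _)) l
    (fun x => (hB x).trans (le_max_right _ _)) (√δ) y
  have h2 : hS δ (pd l W) y = (√δ)⁻¹ * ∫ g, W (y + √δ • g) * g l ∂(stdGaussian (E d)) := by
    rw [h1]
    unfold hS
    field_simp
  rw [h2, abs_mul, abs_of_pos (inv_pos.mpr hs)]
  refine mul_le_mul_of_nonneg_left ?_ (inv_pos.mpr hs).le
  have h3 := norm_integral_le_of_norm_le (μ := stdGaussian (E d))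
    (f := fun g => W (y + √δ • g) * g l) (g := fun g => A * ‖g‖)
    (integrable_norm_std.const_mul A) (ae_of_all _ fun g => by
      rw [Real.norm_eq_abs, abs_mul]
      exact mul_le_mul (hA _) (abs_coord_le g l) (abs_nonneg _) hA0)
  rw [integral_const_mul] at h3
  exact h3

theorem heatOp_cut {J : Set ℝ} (hJ : IsOpen J) {Φ : ℝ → E d → ℝ}
    (hΦ : ContDiffOn ℝ ∞ (fun p : ℝ × E d => Φ p.1 p.2) (J ×ˢ univ)) {s : ℝ} (hs : s ∈ J)
    (R : ℝ) (x : E d) :
    heatOp (fun s x => cut R x * Φ s x) s x = cut R x * heatOp Φ s x -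
      (∑ l, pd l (fun x => pd l (cut R) x * Φ s x) x) +
      2⁻¹ * ∑ l, pd l (pd l (cut R)) x * Φ s x := by
  have hΦs : ContDiff ℝ ∞ (Φ s) := joint_slice hΦ hs
  have hΦd : Differentiable ℝ (Φ s) := hΦs.differentiable (by simp)
  have hcd : Differentiable ℝ (cut (d := d) R) := (contDiff_cut R).differentiable (by simp)
  have h1 : dtf (fun s x => cut R x * Φ s x) s x = cut R x * dtf Φ s x := by
    have h2 := (hasDerivAt_dtf hJ hΦ hs x).const_mul (cut R x)
    unfold dtf at h2 ⊢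
    exact h2.deriv
  have h3 : ∀ l, pd l (pd l (fun x => cut R x * Φ s x)) x = cut R x * pd l (pd l (Φ s)) x +
      2 * (pd l (fun x => pd l (cut R) x * Φ s x) x) - pd l (pd l (cut R)) x * Φ s x := by
    intro l
    have hp1 : Differentiable ℝ (pd l (cut (d := d) R)) :=
      (contDiff_pd (contDiff_cut R) l).differentiable (by simp)
    have hp2 : Differentiable ℝ (pd l (Φ s)) := (contDiff_pd hΦs l).differentiable (by simp)
    have e1 : pd l (fun x => cut R x * Φ s x) =
        fun x => pd l (cut R) x * Φ s x + cut R x * pd l (Φ s) x :=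
      funext fun x => pd_mul l x (hcd x) (hΦd x)
    have e2 : pd l (fun x => pd l (cut R) x * Φ s x + cut R x * pd l (Φ s) x) x =
        pd l (fun x => pd l (cut R) x * Φ s x) x + pd l (fun x => cut R x * pd l (Φ s) x) x := by
      unfold pd
      exact congrArg (fun L => L (ev l))
        (fderiv_fun_add (((hp1 x).mul (hΦd x))) (((hcd x).mul (hp2 x))))
    rw [e1, e2, pd_mul l x (hp1 x) (hΦd x), pd_mul l x (hcd x) (hp2 x)]
    ring
  unfold heatOp
  rw [h1]
  simp_rw [h3]
  rw [sum_sub_distrib, sum_add_distrib, ← mul_sum, ← mul_sum]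
  ring

/-- **Duhamel's formula** for bounded data. -/
theorem duhamel {J : Set ℝ} (hJ : IsOpen J) {Φ Ψ : ℝ → E d → ℝ}
    (hΦ : ContDiffOn ℝ ∞ (fun p : ℝ × E d => Φ p.1 p.2) (J ×ˢ univ)) {r t M N : ℝ} (hrt : r ≤ t)
    (hsub : Icc r t ⊆ J) (hM : ∀ s ∈ Icc r t, ∀ x, |Φ s x| ≤ M)
    (hN : ∀ s ∈ Icc r t, ∀ x, |Ψ s x| ≤ N)
    (heq : ∀ s ∈ Icc r t, ∀ x, heatOp Φ s x = Ψ s x) (y : E d) :
    Φ t y = hS (t - r) (Φ r) y + ∫ s in r..t, hS (t - s) (Ψ s) y := by
  obtain ⟨B, hB0, hB⟩ := exists_cut_bound d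
  have hM0 : 0 ≤ M := (abs_nonneg _).trans (hM r ⟨le_rfl, hrt⟩ 0)
  have hN0 : 0 ≤ N := (abs_nonneg _).trans (hN r ⟨le_rfl, hrt⟩ 0)
  have hC1 : 0 ≤ C1 d := C1_nonneg
  have hΨc : ContinuousOn (fun p : ℝ × E d => Ψ p.1 p.2) (Icc r t ×ˢ univ) := by
    refine ((joint_heatOp hJ hΦ).continuousOn.mono (prod_mono hsub (subset_univ _))).congr ?_
    rintro ⟨s, x⟩ ⟨hs, -⟩
    exact (heq s hs x).symm
  have hΨs : ∀ s ∈ Icc r t, Continuous (Ψ s) := by
    intro s hs
    have h2 : Continuous fun x : E d => ((s, x) : ℝ × E d) := by fun_prop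
    exact hΨc.comp_continuous h2 fun x => ⟨hs, mem_univ _⟩
  -- the integrable majorant
  set D : ℝ := (d : ℝ) with hD
  set g : ℝ → ℝ := fun s => (N * (‖y‖ + √(t - r) * C1 d) + D * (B * M)) +
    (D * (B * M * C1 d)) * (t - s) ^ (-(1 / 2) : ℝ) with hg
  have hgi : IntervalIntegrable g volume r t := by
    have h0 : IntervalIntegrable (fun x : ℝ => x ^ (-(1 / 2) : ℝ)) volume (t - r) (t - t) :=
      intervalIntegral.intervalIntegrable_rpow' (by norm_num)
    have h1 := h0.comp_sub_left t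
    simp only [sub_sub_cancel] at h1
    exact (intervalIntegrable_const).add (h1.const_mul _)
  have main : ∀ R : ℝ, 1 ≤ R →
      |Φ t y - (hS (t - r) (Φ r) y + ∫ s in r..t, hS (t - s) (Ψ s) y)| ≤
      (M * ‖y‖ + M * (‖y‖ + √(t - r) * C1 d) + ∫ s in r..t, g s) / R := by
    intro R hR
    have hR0 : 0 < R := by linarith
    have hF : ContDiffOn ℝ ∞ (fun p : ℝ × E d => cut R p.2 * Φ p.1 p.2) (J ×ˢ univ) :=
      (((contDiff_cut R).comp contDiff_snd).contDiffOn).mul hΦ
    have hFs : ∀ s ∈ J, ∀ x : E d, 2 * R < ‖x‖ → cut R x * Φ s x = 0 := by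
      intro s _ x hx
      rw [cut_eq_zero hR0 hx, zero_mul]
    have e0 := duhamel_cpt (F := fun s x => cut R x * Φ s x) hJ hF hFs hrt hsub y
    have hJi : ∀ s ∈ Ico r t, |hS (t - s) (heatOp (fun s x => cut R x * Φ s x) s) y -
        hS (t - s) (Ψ s) y| ≤ g s / R := by
      intro s hs
      have hsI : s ∈ Icc r t := ⟨hs.1, hs.2.le⟩
      have hsJ := hsub hsI
      have hδ : 0 < t - s := sub_pos.mpr hs.2
      have hΦs : ContDiff ℝ ∞ (Φ s) := joint_slice hΦ hsJ
      have hpc : ∀ l : Fin d, ContDiff ℝ ∞ (fun x => pd l (cut R) x * Φ s x) := fun l =>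
        (contDiff_pd (contDiff_cut R) l).mul hΦs
      have hA : ∀ l : Fin d, ∀ x, |pd l (cut R) x * Φ s x| ≤ B / R * M := by
        intro l x
        rw [abs_mul]
        exact mul_le_mul (hB R hR l x).1 (hM s hsI x) (abs_nonneg _) (by positivity)
      have hA2 : ∀ l : Fin d, ∀ x, |pd l (pd l (cut R)) x * Φ s x| ≤ B / R * M := by
        intro l x
        rw [abs_mul]
        exact mul_le_mul (hB R hR l x).2 (hM s hsI x) (abs_nonneg _) (by positivity)
      have hbd : ∀ l : Fin d, ∃ b, ∀ x, |pd l (fun x => pd l (cut R) x * Φ s x) x| ≤ b := by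
        intro l
        have s0 : ∀ s' ∈ (univ : Set ℝ), ∀ x : E d, 2 * R < ‖x‖ → cut R x = 0 :=
          fun _ _ x hx => cut_eq_zero hR0 hx
        have s1 := supp_pd (J := univ) (F := fun _ : ℝ => cut (d := d) R) s0 l
        have s2 : ∀ s' ∈ (univ : Set ℝ), ∀ x : E d, 2 * R < ‖x‖ →
            (fun _ : ℝ => fun x => pd l (cut R) x * Φ s x) s' x = 0 := by
          intro s' hs' x hx
          simp only
          rw [s1 s' hs' x hx, zero_mul]
        have s3 := supp_pd (J := univ) (F := fun _ : ℝ => fun x => pd l (cut R) x * Φ s x) s2 l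
        obtain ⟨b, -, hb⟩ := bdd_of_supp (J := univ) (ρ := 2 * R) (r := 0) (t := 0)
          (G := fun p : ℝ × E d => pd l (fun x => pd l (cut R) x * Φ s x) p.2)
          ((contDiff_pd (hpc l) l).continuous.comp continuous_snd).continuousOn
          (subset_univ _) s3
        exact ⟨b, fun x => hb 0 (by simp) x⟩
      have hcutΨ : Continuous fun x : E d => cut R x * Ψ s x :=
        (contDiff_cut R).continuous.mul (hΨs s hsI)
      have hcutb : ∀ x : E d, |cut R x * Ψ s x| ≤ N := by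
        intro x
        rw [abs_mul, abs_of_nonneg (cut_nonneg R x)]
        calc cut R x * |Ψ s x| ≤ 1 * N :=
              mul_le_mul (cut_le_one R x) (hN s hsI x) (abs_nonneg _) zero_le_one
          _ = N := one_mul N
      have split : hS (t - s) (heatOp (fun s x => cut R x * Φ s x) s) y =
          hS (t - s) (fun x => cut R x * Ψ s x) y -
            (∑ l, hS (t - s) (pd l (fun x => pd l (cut R) x * Φ s x)) y) +
            2⁻¹ * ∑ l, hS (t - s) (fun x => pd l (pd l (cut R)) x * Φ s x) y := by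
        have e1 : heatOp (fun s x => cut R x * Φ s x) s = fun x => cut R x * Ψ s x -
            (∑ l, pd l (fun x => pd l (cut R) x * Φ s x) x) +
            2⁻¹ * ∑ l, pd l (pd l (cut R)) x * Φ s x := by
          funext x
          rw [heatOp_cut hJ hΦ hsJ R x, heq s hsI x]
        rw [e1]
        unfold hS
        have i1 := integrable_hS hcutΨ hcutb (√(t - s)) y
        have i2 : ∀ l : Fin d, Integrable (fun g : E d =>
            pd l (fun x => pd l (cut R) x * Φ s x) (y + √(t - s) • g)) (stdGaussian (E d)) := by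
          intro l
          obtain ⟨b, hb⟩ := hbd l
          exact integrable_hS (contDiff_pd (hpc l) l).continuous hb _ y
        have i3 : ∀ l : Fin d, Integrable (fun g : E d =>
            pd l (pd l (cut R)) (y + √(t - s) • g) * Φ s (y + √(t - s) • g))
              (stdGaussian (E d)) := by
          intro l
          exact integrable_hS (f := fun x => pd l (pd l (cut R)) x * Φ s x)
            ((contDiff_pd (contDiff_pd (contDiff_cut R) l) l).continuous.mul hΦs.continuous)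
            (hA2 l) _ y
        have j2 := integrable_finsetSum (univ : Finset (Fin d)) fun l _ => i2 l
        have j3 := integrable_finsetSum (univ : Finset (Fin d)) fun l _ => i3 l
        have q1 := integral_add (i1.sub j2) (j3.const_mul 2⁻¹)
        have q2 := integral_sub i1 j2
        have q3 : ∫ g, 2⁻¹ * (∑ l, pd l (pd l (cut R)) (y + √(t - s) • g) *
            Φ s (y + √(t - s) • g)) ∂(stdGaussian (E d)) = _ := integral_const_mul _ _
        rw [integral_finsetSum _ fun l _ => i2 l] at q2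
        rw [integral_finsetSum _ fun l _ => i3 l] at q3
        rw [← q2, ← q3]
        exact q1
      have b1 := hS_cut_sub_le hR0 (hΨs s hsI) (hN s hsI) (t - s) y
      have b2 : |∑ l, hS (t - s) (pd l (fun x => pd l (cut R) x * Φ s x)) y| ≤
          D * ((√(t - s))⁻¹ * (B / R * M * C1 d)) := by
        refine (Finset.abs_sum_le_sum_abs _ _).trans ?_
        have : ∀ l ∈ (univ : Finset (Fin d)),
            |hS (t - s) (pd l (fun x => pd l (cut R) x * Φ s x)) y| ≤
              (√(t - s))⁻¹ * (B / R * M * C1 d) := by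
          intro l _
          obtain ⟨b, hb⟩ := hbd l
          exact hS_pd_le ((hpc l).of_le (by norm_cast)) (hA l) l hb hδ y
        refine (Finset.sum_le_sum this).trans (le_of_eq ?_)
        simp [hD]
      have b3 : |2⁻¹ * ∑ l, hS (t - s) (fun x => pd l (pd l (cut R)) x * Φ s x) y| ≤
          D * (B / R * M) := by
        rw [abs_mul]
        have h5 : |∑ l, hS (t - s) (fun x => pd l (pd l (cut R)) x * Φ s x) y| ≤
            D * (B / R * M) := by
          refine (Finset.abs_sum_le_sum_abs _ _).trans ?_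
          refine (Finset.sum_le_sum fun l _ => abs_hS_le (hA2 l) (t - s) y).trans (le_of_eq ?_)
          simp [hD]
        have h6 : |(2⁻¹ : ℝ)| ≤ 1 := by rw [abs_of_pos (by norm_num)]; norm_num
        calc _ ≤ 1 * (D * (B / R * M)) := mul_le_mul h6 h5 (abs_nonneg _) zero_le_one
          _ = _ := one_mul _
      have e2 : (√(t - s))⁻¹ = (t - s) ^ (-(1 / 2) : ℝ) := by
        rw [Real.rpow_neg hδ.le, Real.sqrt_eq_rpow]
      have h7 : √(t - s) ≤ √(t - r) := Real.sqrt_le_sqrt (by linarith [hs.1])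
      have b1' : N / R * (‖y‖ + √(t - s) * C1 d) ≤ N / R * (‖y‖ + √(t - r) * C1 d) := by
        gcongr
      rw [split]
      have tri : ∀ a b c e : ℝ, |a - b + c - e| ≤ |a - e| + |b| + |c| := by
        intro a b c e
        have : a - b + c - e = (a - e) + (-b) + c := by ring
        rw [this]
        refine (abs_add_three _ _ _).trans ?_
        rw [abs_neg]
      refine (tri _ _ _ _).trans ?_
      refine (add_le_add (add_le_add (b1.trans b1') b2) b3).trans (le_of_eq ?_)
      rw [e2, hg]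
      field_simp
      ring
    -- integrate
    have hci1 : IntervalIntegrable (fun s => hS (t - s) (Ψ s) y) volume r t :=
      (continuousOn_hS hΨc hN y).intervalIntegrable_of_Icc hrt
    have hci2 : IntervalIntegrable
        (fun s => hS (t - s) (heatOp (fun s x => cut R x * Φ s x) s) y) volume r t := by
      have hsup2 : ∀ s ∈ J, ∀ x : E d, 2 * R < ‖x‖ → heatOp (fun s x => cut R x * Φ s x) s x = 0 := by
        intro s hs x hx
        unfold heatOp
        rw [supp_dtf hJ hFs s hs x hx, Finset.sum_eq_zero fun l _ =>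
          supp_pd (F := fun s => pd l (fun x => cut R x * Φ s x)) (supp_pd hFs l) l s hs x hx]
        simp
      obtain ⟨B1, -, hB1⟩ := bdd_of_supp (ρ := 2 * R)
        (G := fun p : ℝ × E d => heatOp (fun s x => cut R x * Φ s x) p.1 p.2)
        (joint_heatOp hJ hF).continuousOn hsub hsup2
      exact (continuousOn_hS
        ((joint_heatOp hJ hF).continuousOn.mono (prod_mono hsub (subset_univ _)))
        (fun s hs x => hB1 s hs x) y).intervalIntegrable_of_Icc hrt
    have hdiff : |(∫ s in r..t, hS (t - s) (heatOp (fun s x => cut R x * Φ s x) s) y) -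
        ∫ s in r..t, hS (t - s) (Ψ s) y| ≤ (∫ s in r..t, g s) / R := by
      rw [← intervalIntegral.integral_sub hci2 hci1, ← intervalIntegral.integral_div]
      rw [← Real.norm_eq_abs]
      refine intervalIntegral.norm_integral_le_of_norm_le hrt ?_ (hgi.div_const R)
      have hne : ∀ᵐ s ∂(volume : Measure ℝ), s ≠ t := by
        simp [ae_iff, measure_singleton]
      filter_upwards [hne] with s hst hs
      exact hJi s ⟨hs.1.le, lt_of_le_of_ne hs.2 hst⟩
    have c1 : |cut R y * Φ t y - Φ t y| ≤ M * ‖y‖ / R := by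
      have e : cut R y * Φ t y - Φ t y = -((1 - cut R y) * Φ t y) := by ring
      rw [e, abs_neg, abs_mul]
      calc _ ≤ ‖y‖ / R * M := mul_le_mul (one_sub_cut_le hR0 y) (hM t ⟨hrt, le_rfl⟩ y)
            (abs_nonneg _) (by positivity)
        _ = _ := by ring
    have c2 := hS_cut_sub_le hR0 (joint_slice hΦ (hsub ⟨le_rfl, hrt⟩)).continuous
      (hM r ⟨le_rfl, hrt⟩) (t - r) y
    have e3 : Φ t y - (hS (t - r) (Φ r) y + ∫ s in r..t, hS (t - s) (Ψ s) y) =
        -(cut R y * Φ t y - Φ t y) +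
        (hS (t - r) (fun x => cut R x * Φ r x) y - hS (t - r) (Φ r) y) +
        ((∫ s in r..t, hS (t - s) (heatOp (fun s x => cut R x * Φ s x) s) y) -
          ∫ s in r..t, hS (t - s) (Ψ s) y) := by
      rw [e0]
      ring
    rw [e3]
    refine (abs_add_three _ _ _).trans ?_
    rw [abs_neg]
    refine (add_le_add (add_le_add c1 c2) hdiff).trans (le_of_eq ?_)
    field_simp
  -- let `R → ∞`
  set K := M * ‖y‖ + M * (‖y‖ + √(t - r) * C1 d) + ∫ s in r..t, g s with hK
  have hlim : Tendsto (fun R : ℝ => K / R) atTop (𝓝 0) := tendsto_const_nhds.div_atTop tendsto_id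
  have hle : |Φ t y - (hS (t - r) (Φ r) y + ∫ s in r..t, hS (t - s) (Ψ s) y)| ≤ 0 := by
    refine ge_of_tendsto hlim ?_
    filter_upwards [eventually_ge_atTop 1] with R hR
    exact main R hR
  have := abs_eq_zero.mp (le_antisymm hle (abs_nonneg _))
  linarith

end Crest.Agent.R285.AFD
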