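import Crest.Agent.R285.AFPot
import Crest.Agent.R285.AFCore
import Crest.Agent.R285.AFDuhamel

/-!
Row 285 (S0430), module AF: the heat semigroup representation of the derivatives of the coarse
potentials (helper635).
-/

set_option autoImplicit false

open Set MeasureTheory ProbabilityTheory
open Crest.OracleSampling (E)
open scoped ContDiff RealInnerProductSpace Topology

noncomputable section

namespace Crest.Agent.R285.AF

open AFK

variable {d : ℕ} {h : ℝ} {U : E d → ℝ}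

/-- `exp (- uT U t)` -/
def Hf (U : E d → ℝ) (t : ℝ) (x : E d) : ℝ := Real.exp (-uT U t x)

theorem Hf_pos (U : E d → ℝ) (t : ℝ) (x : E d) : 0 < Hf U t x := Real.exp_pos _

theorem Hf_le_one (hU : PotP h U) (t : ℝ) (x : E d) : Hf U t x ≤ 1 := by
  unfold Hf uT
  rw [ub_eq, neg_neg, Real.exp_log (zp_pos hU _)]
  exact zp_le_one hU _

theorem joint_Hf (hU : PotP h U) :
    ContDiffOn ℝ ∞ (fun p : ℝ × E d => Hf U p.1 p.2) (Ioi 0 ×ˢ univ) :=
  (joint_uT hU).neg.exp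

theorem pd_Hf (hU : PotP h U) {t : ℝ} (ht : 0 < t) (l : Fin d) :
    pd l (Hf U t) = fun x => -(Hf U t x * pd l (uT U t) x) := by
  funext x
  have h1 : HasFDerivAt (uT U t) (fderiv ℝ (uT U t) x) x :=
    ((contDiff_uT hU ht).differentiable (by simp) x).hasFDerivAt
  have h2 : HasFDerivAt (Hf U t) _ x := h1.neg.exp
  unfold pd
  rw [h2.fderiv]
  simp [Hf]

theorem dtf_Hf (hU : PotP h U) {t : ℝ} (ht : 0 < t) (x : E d) :
    dtf (Hf U) t x = -(Hf U t x * dtf (uT U) t x) := by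
  have h1 := hasDerivAt_dtf isOpen_Ioi (joint_uT hU) (mem_Ioi.2 ht) x
  have h2 : HasDerivAt (fun s => Hf U s x) _ t := h1.neg.exp
  unfold dtf at h2 ⊢
  rw [h2.deriv]
  simp only [Pi.neg_apply, Hf]
  ring

theorem HJr_zero' {F : E d → ℝ} (hF : ContDiff ℝ ∞ F) (x : E d) :
    HJr F 0 x = 2⁻¹ * ∑ l, pd l (pd l F) x - 2⁻¹ * ∑ l, pd l F x ^ 2 := by
  rw [HJr_zero hF, dvg_gradient hF, norm_sq_gradient]
  ring

/-- The source term of the transported equation. -/
def src (U : E d → ℝ) (D : ℝ → E d → ℝ) (t : ℝ) (x : E d) : ℝ :=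
  ∑ l, pd l (pd l (D t)) x - 2 * ∑ l, pd l (uT U t) x * pd l (D t) x - 2 * dtf D t x

theorem joint_src (hU : PotP h U) {D : ℝ → E d → ℝ}
    (hD : ContDiffOn ℝ ∞ (fun p : ℝ × E d => D p.1 p.2) (Ioi 0 ×ˢ univ)) :
    ContDiffOn ℝ ∞ (fun p : ℝ × E d => src U D p.1 p.2) (Ioi 0 ×ˢ univ) := by
  unfold src
  refine ContDiffOn.sub (ContDiffOn.sub ?_ ?_) ?_
  · refine ContDiffOn.sum fun l _ => ?_
    exact joint_pd (u := fun t => pd l (D t)) isOpen_Ioi (joint_pd isOpen_Ioi hD l) l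
  · refine contDiffOn_const.mul (ContDiffOn.sum fun l _ => ?_)
    exact (joint_pd isOpen_Ioi (joint_uT hU) l).mul (joint_pd isOpen_Ioi hD l)
  · exact contDiffOn_const.mul (joint_dtf isOpen_Ioi hD)

theorem pde_mul (hU : PotP h U) {D : ℝ → E d → ℝ}
    (hD : ContDiffOn ℝ ∞ (fun p : ℝ × E d => D p.1 p.2) (Ioi 0 ×ˢ univ)) {t : ℝ} (ht : 0 < t)
    (x : E d) :
    dtf (fun s x => D s x * Hf U s x) t x -
      2⁻¹ * ∑ l, pd l (pd l (fun x => D t x * Hf U t x)) x = -2⁻¹ * (src U D t x * Hf U t x) := by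
  have ht' : t ∈ Ioi (0 : ℝ) := mem_Ioi.2 ht
  have hDs := joint_slice hD ht'
  have hHs := joint_slice (joint_Hf hU) ht'
  have hus := joint_slice (joint_uT hU) ht'
  have h1 : dtf (fun s x => D s x * Hf U s x) t x = dtf D t x * Hf U t x + D t x * dtf (Hf U) t x :=
    ((hasDerivAt_dtf isOpen_Ioi hD ht' x).mul
      (hasDerivAt_dtf isOpen_Ioi (joint_Hf hU) ht' x)).deriv
  have dd : ∀ {F : E d → ℝ}, ContDiff ℝ ∞ F → ∀ x, DifferentiableAt ℝ F x := fun hF x =>
    hF.differentiable (by simp) x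
  have h2 : ∀ l, pd l (fun x => D t x * Hf U t x) = fun x =>
      pd l (D t) x * Hf U t x + D t x * pd l (Hf U t) x := fun l => by
    funext x
    exact pd_mul l x (dd hDs x) (dd hHs x)
  have h3 : ∀ l, pd l (pd l (fun x => D t x * Hf U t x)) x =
      (pd l (pd l (D t)) x * Hf U t x + pd l (D t) x * pd l (Hf U t) x) +
      (pd l (D t) x * pd l (Hf U t) x + D t x * pd l (pd l (Hf U t)) x) := fun l => by
    rw [h2 l]
    have a1 := dd ((contDiff_pd hDs l).mul hHs) x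
    have a2 := dd (hDs.mul (contDiff_pd hHs l)) x
    have e1 : pd l (fun x => pd l (D t) x * Hf U t x + D t x * pd l (Hf U t) x) x =
        pd l (fun x => pd l (D t) x * Hf U t x) x + pd l (fun x => D t x * pd l (Hf U t) x) x := by
      unfold pd at a1 a2 ⊢
      rw [fderiv_fun_add a1 a2]
      rfl
    rw [e1, pd_mul l x (dd (contDiff_pd hDs l) x) (dd hHs x),
      pd_mul l x (dd hDs x) (dd (contDiff_pd hHs l) x)]
  have h4 : ∀ l, pd l (pd l (Hf U t)) x =
      Hf U t x * (pd l (uT U t) x ^ 2 - pd l (pd l (uT U t)) x) := fun l => by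
    rw [pd_Hf hU ht l]
    have a1 := dd (hHs.mul (contDiff_pd hus l)) x
    have e1 : pd l (fun x => -(Hf U t x * pd l (uT U t) x)) x =
        -pd l (fun x => Hf U t x * pd l (uT U t) x) x := by
      unfold pd
      rw [fderiv_fun_neg]
      rfl
    rw [e1, pd_mul l x (dd hHs x) (dd (contDiff_pd hus l) x), pd_Hf hU ht l]
    ring
  have h5 : ∀ l, pd l (Hf U t) x = -(Hf U t x * pd l (uT U t) x) := fun l => by
    rw [pd_Hf hU ht l]
  have h6 : dtf (uT U) t x = 2⁻¹ * ∑ l, pd l (pd l (uT U t)) x - 2⁻¹ * ∑ l, pd l (uT U t) x ^ 2 := by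
    rw [hj_uT hU t ht' x, HJr_zero' hus]
  rw [h1, dtf_Hf hU ht, h6]
  have h7 : ∑ l, pd l (pd l (fun x => D t x * Hf U t x)) x =
      Hf U t x * ∑ l, pd l (pd l (D t)) x - 2 * Hf U t x * ∑ l, pd l (uT U t) x * pd l (D t) x +
      D t x * Hf U t x * (∑ l, pd l (uT U t) x ^ 2 - ∑ l, pd l (pd l (uT U t)) x) := by
    rw [← Finset.sum_sub_distrib, Finset.mul_sum, Finset.mul_sum, Finset.mul_sum,
      ← Finset.sum_sub_distrib, ← Finset.sum_add_distrib]
    refine Finset.sum_congr rfl fun l _ => ?_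
    rw [h3, h4, h5]
    ring
  rw [h7]
  unfold src
  ring

/-- Duhamel's formula, the form used here. -/
theorem duh {r t : ℝ} (hr : 0 < r) (hrt : r < t) {Φ Ψ : ℝ → E d → ℝ}
    (hΦ : ContDiffOn ℝ ∞ (fun p : ℝ × E d => Φ p.1 p.2) (Ioi 0 ×ˢ univ))
    {M : ℝ} (hbΦ : ∀ s ∈ Icc r t, ∀ x, |Φ s x| ≤ M) (hbΨ : ∀ s ∈ Icc r t, ∀ x, |Ψ s x| ≤ M)
    (hpde : ∀ s, 0 < s → ∀ x, dtf Φ s x - 2⁻¹ * ∑ l, pd l (pd l (Φ s)) x = Ψ s x) (y : E d) :
    Φ t y = hS (t - r) (Φ r) y + ∫ s in r..t, hS (t - s) (Ψ s) y :=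
  AFD.duhamel isOpen_Ioi hΦ hrt.le (fun _ hs => hr.trans_le hs.1) hbΦ hbΨ
    (fun s hs x => hpde s (hr.trans_le hs.1) x) y

theorem joint_one : ContDiffOn ℝ ∞ (fun _ : ℝ × E d => (1 : ℝ)) (Ioi 0 ×ˢ univ) :=
  contDiffOn_const

theorem src_one (U : E d → ℝ) (t : ℝ) (x : E d) :
    src U (fun _ _ => 1) t x = 0 := by
  have e1 : ∀ l : Fin d, pd l (fun _ : E d => (1 : ℝ)) = fun _ => 0 := fun l => by
    funext x
    simp [pd]
  have e2 : ∀ l : Fin d, pd l (fun _ : E d => (0 : ℝ)) = fun _ => 0 := fun l => by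
    funext x
    simp [pd]
  simp [src, e1, e2, dtf]

/-- The semigroup property. -/
theorem hS_Hf (hU : PotP h U) {r t : ℝ} (hr : 0 < r) (hrt : r ≤ t) (y : E d) :
    hS (t - r) (Hf U r) y = Hf U t y := by
  rcases hrt.eq_or_lt with rfl | hrt
  · rw [sub_self]; unfold hS; simp
  have h1 := duh hr hrt (Φ := fun s x => 1 * Hf U s x) (Ψ := fun s x => -2⁻¹ * (src U (fun _ _ => 1) s x * Hf U s x))
    (joint_one.mul (joint_Hf hU)) (M := 1)
    (fun s _ x => by
      rw [one_mul, abs_of_pos (Hf_pos U s x)]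
      exact Hf_le_one hU s x)
    (fun s _ x => by
      rw [src_one]
      simp)
    (fun s hs x => pde_mul hU joint_one hs x) y
  have h2 : ∫ s in r..t, hS (t - s) (fun x => -2⁻¹ * (src U (fun _ _ => 1) s x * Hf U s x)) y = 0 := by
    refine (intervalIntegral.integral_congr (g := fun _ => (0 : ℝ)) fun s hs => ?_).trans (by simp)
    rw [uIcc_of_le hrt.le] at hs
    simp only [src_one, zero_mul, mul_zero]
    unfold hS
    simp
  rw [h2, add_zero] at h1
  simpa using h1.symm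

theorem conv_hS (hU : PotP h U) {r t : ℝ} (hr : 0 < r) (hrt : r ≤ t) :
    ConvexOn ℝ univ fun y => -Real.log (hS (t - r) (Hf U r) y) := by
  have : (fun y => -Real.log (hS (t - r) (Hf U r) y)) = uT U t := by
    funext y
    rw [hS_Hf hU hr hrt, Hf, Real.log_exp, neg_neg]
  rw [this]
  exact ub_convex hU _

/-- **Representation.** -/
theorem repr_EK (hU : PotP h U) {r t : ℝ} (hr : 0 < r) (hrt : r < t) {D : ℝ → E d → ℝ}
    (hD : ContDiffOn ℝ ∞ (fun p : ℝ × E d => D p.1 p.2) (Ioi 0 ×ˢ univ)) {M : ℝ}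
    (hb : ∀ s ∈ Icc r t, ∀ x, |D s x| ≤ M) (hb' : ∀ s ∈ Icc r t, ∀ x, |src U D s x| ≤ M)
    (y : E d) :
    D t y = EK (t - r) (Hf U r) (D r) y -
      2⁻¹ * ∫ s in r..t, EK (t - s) (Hf U s) (src U D s) y := by
  have hM0 : 0 ≤ M := (abs_nonneg _).trans (hb r ⟨le_rfl, hrt.le⟩ 0)
  have h1 := duh hr hrt (Φ := fun s x => D s x * Hf U s x)
    (Ψ := fun s x => -2⁻¹ * (src U D s x * Hf U s x))
    (hD.mul (joint_Hf hU)) (M := M)
    (fun s hs x => by
      rw [abs_mul, abs_of_pos (Hf_pos U s x)]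
      have := mul_le_mul (hb s hs x) (Hf_le_one hU s x) (Hf_pos U s x).le hM0
      linarith)
    (fun s hs x => by
      rw [abs_mul, abs_mul, abs_of_pos (Hf_pos U s x)]
      have := mul_le_mul (hb' s hs x) (Hf_le_one hU s x) (Hf_pos U s x).le hM0
      rw [abs_of_nonpos (by norm_num : (-2⁻¹ : ℝ) ≤ 0)]
      linarith)
    (fun s hs x => pde_mul hU hD hs x) y
  have hHt := Hf_pos U t y
  have e1 : EK (t - r) (Hf U r) (D r) y = hS (t - r) (fun x => D r x * Hf U r x) y / Hf U t y := by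
    rw [EK, hS_Hf hU hr hrt.le]
  have e2 : ∫ s in r..t, EK (t - s) (Hf U s) (src U D s) y =
      (∫ s in r..t, hS (t - s) (fun x => src U D s x * Hf U s x) y) / Hf U t y := by
    rw [← intervalIntegral.integral_div]
    refine intervalIntegral.integral_congr fun s hs => ?_
    rw [uIcc_of_le hrt.le] at hs
    have hs0 : 0 < s := hr.trans_le hs.1
    simp only [EK]
    rw [hS_Hf hU hs0 hs.2]
  have e3 : ∫ s in r..t, hS (t - s) (fun x => -2⁻¹ * (src U D s x * Hf U s x)) y =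
      -2⁻¹ * ∫ s in r..t, hS (t - s) (fun x => src U D s x * Hf U s x) y := by
    rw [← intervalIntegral.integral_const_mul]
    refine intervalIntegral.integral_congr fun s _ => ?_
    simp only [hS]
    rw [← integral_const_mul]
  rw [e3] at h1
  rw [e1, e2]
  field_simp
  linarith

end Crest.Agent.R285.AF
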