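import Mathlib

/-!
Row 285 (S0430): flattening norms of coordinate tensors, and the bound of the quadratic
nonlinearity `N` of the Hamilton-Jacobi hierarchy by two-letter compositions (helper635).
-/

set_option autoImplicit false

open Finset

noncomputable section

namespace Crest.Agent.R285.AF

section basic

variable {A B Z A' B' : Type} [Fintype A] [Fintype B] [Fintype Z] [Fintype A'] [Fintype B']

/-- Euclidean size of a finite family. -/
def nr (a : A → ℝ) : ℝ := √(∑ x, a x ^ 2)

theorem nr_nonneg (a : A → ℝ) : 0 ≤ nr a := Real.sqrt_nonneg _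

theorem nr_sq (a : A → ℝ) : nr a ^ 2 = ∑ x, a x ^ 2 :=
  Real.sq_sqrt (sum_nonneg fun _ _ => sq_nonneg _)

theorem nr_reindex (e : A ≃ A') (a : A' → ℝ) : nr (fun x => a (e x)) = nr a := by
  unfold nr
  rw [Equiv.sum_comp e (fun x => a x ^ 2)]

theorem sum_mul_le_nr (a b : A → ℝ) : |∑ x, a x * b x| ≤ nr a * nr b := by
  have h : (∑ x, a x * b x) ^ 2 ≤ (∑ x, a x ^ 2) * ∑ x, b x ^ 2 :=
    Finset.sum_mul_sq_le_sq_mul_sq _ _ _
  rw [← nr_sq, ← nr_sq, ← mul_pow] at h
  exact abs_le_of_sq_le_sq h (mul_nonneg (nr_nonneg _) (nr_nonneg _))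

/-- Bilinear form bound (flattening norm) of a matrix. -/
def FB (T : A → B → ℝ) (C : ℝ) : Prop :=
  ∀ (a : A → ℝ) (b : B → ℝ), |∑ x, ∑ y, T x y * (a x * b y)| ≤ C * (nr a * nr b)

theorem FB.mono {T : A → B → ℝ} {C C' : ℝ} (h : FB T C) (hC : C ≤ C') : FB T C' := fun a b =>
  (h a b).trans (mul_le_mul_of_nonneg_right hC (mul_nonneg (nr_nonneg _) (nr_nonneg _)))

theorem FB.symm {T : A → B → ℝ} {C : ℝ} (h : FB T C) : FB (fun y x => T x y) C := by
  intro b a
  have h1 := h a b
  rw [sum_comm] at h1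
  rw [mul_comm (nr b)]
  refine le_of_eq_of_le ?_ h1
  congr 1
  refine sum_congr rfl fun x _ => sum_congr rfl fun y _ => ?_
  ring

theorem FB.add {T T' : A → B → ℝ} {C C' : ℝ} (h : FB T C) (h' : FB T' C') :
    FB (fun x y => T x y + T' x y) (C + C') := by
  intro a b
  have : ∑ x, ∑ y, (T x y + T' x y) * (a x * b y) =
      ∑ x, ∑ y, T x y * (a x * b y) + ∑ x, ∑ y, T' x y * (a x * b y) := by
    simp only [add_mul, sum_add_distrib]
  rw [this, add_mul]
  exact (abs_add_le _ _).trans (add_le_add (h a b) (h' a b))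

theorem FB.smul {T : A → B → ℝ} {C : ℝ} (h : FB T C) (c : ℝ) :
    FB (fun x y => c * T x y) (|c| * C) := by
  intro a b
  have : ∑ x, ∑ y, (c * T x y) * (a x * b y) = c * ∑ x, ∑ y, T x y * (a x * b y) := by
    simp only [mul_sum, mul_assoc]
  rw [this, abs_mul, mul_assoc]
  exact mul_le_mul_of_nonneg_left (h a b) (abs_nonneg _)

theorem FB.sum {κ : Type} (s : Finset κ) {T : κ → A → B → ℝ} {C : κ → ℝ}
    (h : ∀ k ∈ s, FB (T k) (C k)) : FB (fun x y => ∑ k ∈ s, T k x y) (∑ k ∈ s, C k) := by
  classical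
  induction s using Finset.induction_on with
  | empty => intro a b; simp
  | insert k s hk ih =>
    have h1 := (h k (mem_insert_self _ _)).add (ih fun j hj => h j (mem_insert_of_mem hj))
    simp only [sum_insert hk]
    exact h1

theorem FB.reindex {T : A' → B' → ℝ} {C : ℝ} (h : FB T C) (e : A ≃ A') (f : B ≃ B') :
    FB (fun x y => T (e x) (f y)) C := by
  intro a b
  have := h (fun x => a (e.symm x)) (fun y => b (f.symm y))
  rw [nr_reindex e.symm, nr_reindex f.symm] at this
  refine le_of_eq_of_le ?_ this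
  congr 1
  rw [← Equiv.sum_comp e (fun x => ∑ y, T x y * (a (e.symm x) * b (f.symm y)))]
  refine sum_congr rfl fun x _ => ?_
  rw [← Equiv.sum_comp f (fun y => T (e x) y * (a (e.symm (e x)) * b (f.symm y)))]
  simp

/-- Spectator form of the bilinear bound. -/
theorem FB.spect {T : A → B → ℝ} {C : ℝ} (hC : 0 ≤ C) (h : FB T C) (a : Z → A → ℝ)
    (b : Z → B → ℝ) :
    |∑ z, ∑ x, ∑ y, T x y * (a z x * b z y)| ≤
      C * (nr (fun p : Z × A => a p.1 p.2) * nr (fun p : Z × B => b p.1 p.2)) := by
  calc |∑ z, ∑ x, ∑ y, T x y * (a z x * b z y)|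
      ≤ ∑ z, |∑ x, ∑ y, T x y * (a z x * b z y)| := abs_sum_le_sum_abs _ _
    _ ≤ ∑ z, C * (nr (a z) * nr (b z)) := sum_le_sum fun z _ => h (a z) (b z)
    _ = C * ∑ z, nr (a z) * nr (b z) := by rw [mul_sum]
    _ ≤ C * (nr (fun p : Z × A => a p.1 p.2) * nr (fun p : Z × B => b p.1 p.2)) := by
        refine mul_le_mul_of_nonneg_left ?_ hC
        refine (le_abs_self _).trans ((sum_mul_le_nr (fun z => nr (a z)) fun z => nr (b z)).trans
          (le_of_eq ?_))
        congr 1
        · unfold nr
          congr 1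
          rw [Fintype.sum_prod_type]
          exact sum_congr rfl fun z _ => Real.sq_sqrt (sum_nonneg fun _ _ => sq_nonneg _)
        · unfold nr
          congr 1
          rw [Fintype.sum_prod_type]
          exact sum_congr rfl fun z _ => Real.sq_sqrt (sum_nonneg fun _ _ => sq_nonneg _)

/-- Operator form with spectators. -/
theorem FB.op {T : A → B → ℝ} {C : ℝ} (hC : 0 ≤ C) (h : FB T C) (b : Z → B → ℝ) :
    nr (fun p : Z × A => ∑ y, T p.2 y * b p.1 y) ≤ C * nr (fun p : Z × B => b p.1 p.2) := by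
  set x : Z → A → ℝ := fun z i => ∑ y, T i y * b z y with hx
  have h1 := h.spect hC x b
  have h2 : ∑ z, ∑ i, ∑ y, T i y * (x z i * b z y) = nr (fun p : Z × A => x p.1 p.2) ^ 2 := by
    rw [nr_sq, Fintype.sum_prod_type]
    refine sum_congr rfl fun z _ => sum_congr rfl fun i _ => ?_
    have : ∑ y, T i y * (x z i * b z y) = x z i * ∑ y, T i y * b z y := by
      rw [mul_sum]; exact sum_congr rfl fun y _ => by ring
    rw [this, sq]
  rw [h2, abs_of_nonneg (sq_nonneg _)] at h1
  by_cases h0 : nr (fun p : Z × A => x p.1 p.2) = 0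
  · change nr (fun p : Z × A => x p.1 p.2) ≤ _
    rw [h0]
    exact mul_nonneg hC (nr_nonneg _)
  · have hpos : 0 < nr (fun p : Z × A => x p.1 p.2) := lt_of_le_of_ne (nr_nonneg _) (Ne.symm h0)
    change nr (fun p : Z × A => x p.1 p.2) ≤ _
    nlinarith [nr_nonneg (fun p : Z × B => b p.1 p.2)]

theorem FB.op' {T : A → B → ℝ} {C : ℝ} (hC : 0 ≤ C) (h : FB T C) (b : B → ℝ) :
    nr (fun x => ∑ y, T x y * b y) ≤ C * nr b := by
  have := h.op (Z := Unit) hC (fun _ => b)
  have e1 : nr (fun p : Unit × A => ∑ y, T p.2 y * b y) = nr (fun x => ∑ y, T x y * b y) := by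
    unfold nr; rw [Fintype.sum_prod_type]; simp
  have e2 : nr (fun p : Unit × B => b p.2) = nr b := by
    unfold nr; rw [Fintype.sum_prod_type]; simp
  rw [e1, e2] at this
  exact this

theorem FB.of_op {T : A → B → ℝ} {C : ℝ}
    (h : ∀ b : B → ℝ, nr (fun x => ∑ y, T x y * b y) ≤ C * nr b) : FB T C := by
  intro a b
  have e : ∑ x, ∑ y, T x y * (a x * b y) = ∑ x, a x * ∑ y, T x y * b y := by
    refine sum_congr rfl fun x _ => ?_
    rw [mul_sum]; exact sum_congr rfl fun y _ => by ring
  rw [e]
  refine (sum_mul_le_nr _ _).trans ?_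
  have := mul_le_mul_of_nonneg_left (h b) (nr_nonneg a)
  linarith

end basic

section split

variable {A₁ A₂ B₁ B₂ M : Type} [Fintype A₁] [Fintype A₂] [Fintype B₁] [Fintype B₂] [Fintype M]

/-- Composition of two letters, first order: `X : B₁ → A₁ × M`, `Y : B₂ × M → A₂`. -/
theorem FB.split {X : A₁ → B₁ → M → ℝ} {Y : A₂ → B₂ → M → ℝ} {C D : ℝ} (hC : 0 ≤ C) (hD : 0 ≤ D)
    (hX : FB (fun (p : A₁ × M) (q : B₁) => X p.1 q p.2) C)
    (hY : FB (fun (p : A₂) (q : B₂ × M) => Y p q.1 q.2) D) :
    FB (fun (p : A₁ × A₂) (q : B₁ × B₂) => ∑ m, X p.1 q.1 m * Y p.2 q.2 m) (C * D) := by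
  intro a b
  set x : B₂ → A₁ × M → ℝ := fun j₂ p => ∑ j₁, X p.1 j₁ p.2 * b (j₁, j₂) with hx
  have h1 := hX.op hC (fun (j₂ : B₂) (j₁ : B₁) => b (j₁, j₂))
  have e1 : nr (fun p : B₂ × B₁ => b (p.2, p.1)) = nr b :=
    nr_reindex (Equiv.prodComm B₂ B₁) b
  rw [e1] at h1
  have h2 := hY.spect (Z := A₁) hD (fun i₁ i₂ => a (i₁, i₂)) (fun i₁ q => x q.1 (i₁, q.2))
  have e2 : nr (fun p : A₁ × B₂ × M => x p.2.1 (p.1, p.2.2)) =
      nr (fun p : B₂ × A₁ × M => x p.1 p.2) := by
    have := nr_reindex (A := A₁ × B₂ × M) (A' := B₂ × A₁ × M)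
      { toFun := fun p => (p.2.1, p.1, p.2.2)
        invFun := fun p => (p.2.1, p.1, p.2.2)
        left_inv := fun p => rfl
        right_inv := fun p => rfl } (fun p => x p.1 p.2)
    exact this
  have e3 : nr (fun p : A₁ × A₂ => a (p.1, p.2)) = nr a := rfl
  rw [e2, e3] at h2
  have e4 : ∑ p : A₁ × A₂, ∑ q : B₁ × B₂, (∑ m, X p.1 q.1 m * Y p.2 q.2 m) * (a p * b q) =
      ∑ i₁, ∑ i₂, ∑ q : B₂ × M, Y i₂ q.1 q.2 * (a (i₁, i₂) * x q.1 (i₁, q.2)) := by
    rw [Fintype.sum_prod_type]
    refine sum_congr rfl fun i₁ _ => sum_congr rfl fun i₂ _ => ?_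
    rw [Fintype.sum_prod_type, Fintype.sum_prod_type, sum_comm]
    refine sum_congr rfl fun j₂ _ => ?_
    simp only [hx, sum_mul, mul_sum]
    rw [sum_comm]
    refine sum_congr rfl fun m _ => sum_congr rfl fun j₁ _ => ?_
    ring
  rw [e4]
  refine h2.trans ?_
  calc D * (nr a * nr (fun p : B₂ × A₁ × M => x p.1 p.2)) ≤ D * (nr a * (C * nr b)) :=
        mul_le_mul_of_nonneg_left (mul_le_mul_of_nonneg_left h1 (nr_nonneg _)) hD
    _ = C * D * (nr a * nr b) := by ring

/-- Composition of two letters, second order. -/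
theorem FB.split' {X : A₁ → B₁ → M → ℝ} {Y : A₂ → B₂ → M → ℝ} {C D : ℝ} (hC : 0 ≤ C) (hD : 0 ≤ D)
    (hX : FB (fun (p : A₁) (q : B₁ × M) => X p q.1 q.2) C)
    (hY : FB (fun (p : A₂ × M) (q : B₂) => Y p.1 q p.2) D) :
    FB (fun (p : A₁ × A₂) (q : B₁ × B₂) => ∑ m, X p.1 q.1 m * Y p.2 q.2 m) (C * D) := by
  have h := FB.split (X := Y) (Y := X) hD hC hY hX
  have h2 := h.reindex (Equiv.prodComm A₁ A₂) (Equiv.prodComm B₁ B₂)
  rw [mul_comm C D]
  refine fun a b => le_of_eq_of_le ?_ (h2 a b)
  congr 1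
  refine sum_congr rfl fun p _ => sum_congr rfl fun q _ => ?_
  congr 1
  refine sum_congr rfl fun m _ => ?_
  simp [mul_comm]

end split

section slots

variable {ι : Type} [Fintype ι]

/-- The multiset of values of a finite family of indices. -/
def ms {α : Type} [Fintype α] (I : α → ι) : Multiset ι := (univ : Finset α).val.map I

omit [Fintype ι] in
theorem ms_empty {α : Type} [Fintype α] [IsEmpty α] (I : α → ι) : ms I = 0 := by
  simp [ms, univ_eq_empty]

omit [Fintype ι] in
theorem ms_eq_zero {α : Type} [Fintype α] {I : α → ι} : ms I = 0 ↔ IsEmpty α := by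
  simp [ms, Multiset.map_eq_zero, ← Finset.univ_eq_empty_iff]

omit [Fintype ι] in
theorem card_ms {α : Type} [Fintype α] (I : α → ι) : Multiset.card (ms I) = Fintype.card α := by
  simp [ms]

omit [Fintype ι] in
theorem ms_option {α : Type} [Fintype α] (I : Option α → ι) :
    ms I = I none ::ₘ ms (fun i => I (some i)) := by
  have : (univ : Finset (Option α)).val = none ::ₘ (univ : Finset α).val.map some := rfl
  simp [ms, this, Multiset.map_map]

omit [Fintype ι] in
theorem ms_equiv {α β : Type} [Fintype α] [Fintype β] (e : α ≃ β) (I : β → ι) :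
    ms (fun i => I (e i)) = ms I := by
  have : (univ : Finset α).val.map e = (univ : Finset β).val := by
    have h : (univ : Finset α).map e.toEmbedding = univ := Finset.map_univ_equiv e
    rw [← h]; rfl
  rw [ms, ms, ← this, Multiset.map_map]
  rfl

omit [Fintype ι] in
theorem ms_subtype {α : Type} [Fintype α] (p : α → Prop) [DecidablePred p] [Fintype {i // p i}]
    (I : α → ι) :
    ms (fun i : {i // p i} => I i) = (univ.filter p).val.map I := by
  have : (univ : Finset {i // p i}).val.map Subtype.val = (univ.filter p).val := by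
    have h : (univ : Finset {i // p i}).map (Function.Embedding.subtype p) = univ.filter p := by
      ext; simp
    rw [← h]; rfl
  unfold ms
  rw [← this, Multiset.map_map]
  rfl

omit [Fintype ι] in
theorem antidiagonal_map {κ : Type} (f : κ → ι) (s : Multiset κ) :
    (s.map f).antidiagonal = s.antidiagonal.map (fun p => (p.1.map f, p.2.map f)) := by
  induction s using Multiset.induction_on with
  | empty => simp
  | cons a s ih =>
    simp only [Multiset.map_cons, Multiset.antidiagonal_cons, ih, Multiset.map_add,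
      Multiset.map_map]
    congr 1 <;> refine Multiset.map_congr rfl fun p _ => ?_ <;> simp

theorem antidiagonal_val {α : Type} [DecidableEq α] (s : Finset α) :
    s.val.antidiagonal = s.powerset.val.map (fun t => (t.val, (s \ t).val)) := by
  rw [← Multiset.map_swap_antidiagonal, Multiset.antidiagonal_eq_map_powerset, Multiset.map_map]
  have h : s.powerset.val.map Finset.val = s.val.powerset := by
    show (Multiset.pmap Finset.mk _ _).map Finset.val = _
    rw [Multiset.map_pmap]
    simp [Multiset.pmap_eq_map]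
  rw [← h, Multiset.map_map]
  refine Multiset.map_congr rfl fun t _ => ?_
  simp [Finset.sdiff_val]

/-- Sum over splittings of a multiset, of quadratic terms. -/
def qsum (φ : Multiset ι → Multiset ι → ℝ) (s : Multiset ι) : ℝ :=
  (s.antidiagonal.map fun p => φ p.1 p.2).sum

omit [Fintype ι] in
theorem qsum_zero (φ : Multiset ι → Multiset ι → ℝ) : qsum φ 0 = φ 0 0 := by simp [qsum]

omit [Fintype ι] in
theorem qsum_cons (φ : Multiset ι → Multiset ι → ℝ) (l : ι) (s : Multiset ι) :
    qsum φ (l ::ₘ s) = qsum (fun a b => φ a (l ::ₘ b)) s + qsum (fun a b => φ (l ::ₘ a) b) s := by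
  simp [qsum, Multiset.map_map]

omit [Fintype ι] in
theorem qsum_add (φ ψ : Multiset ι → Multiset ι → ℝ) (s : Multiset ι) :
    qsum (fun a b => φ a b + ψ a b) s = qsum φ s + qsum ψ s := by
  simp [qsum, Multiset.sum_map_add]

omit [Fintype ι] in
theorem qsum_ms {α β : Type} [Fintype α] [Fintype β] [DecidableEq α] [DecidableEq β]
    (φ : Multiset ι → Multiset ι → ℝ) (I : α → ι) (J : β → ι) :
    qsum φ (ms I + ms J) = ∑ S : Finset α, ∑ S' : Finset β,
      φ (ms (fun i : {i // i ∈ S} => I i) + ms (fun i : {i // i ∈ S'} => J i))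
        (ms (fun i : {i // i ∉ S} => I i) + ms (fun i : {i // i ∉ S'} => J i)) := by
  have key : ∀ {α : Type} [Fintype α] [DecidableEq α] (I : α → ι), (ms I).antidiagonal =
      (univ : Finset (Finset α)).val.map (fun S =>
        (ms (fun i : {i // i ∈ S} => I i), ms (fun i : {i // i ∉ S} => I i))) := by
    intro α _ _ I
    rw [ms, antidiagonal_map, antidiagonal_val, Multiset.map_map, Finset.powerset_univ]
    refine Multiset.map_congr rfl fun S _ => ?_
    have h1 : ms (fun i : {i // i ∈ S} => I i) = S.val.map I := by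
      rw [ms_subtype (fun i => i ∈ S)]; simp
    have h2 : ms (fun i : {i // i ∉ S} => I i) = (univ \ S).val.map I := by
      rw [ms_subtype (fun i => i ∉ S)]
      congr 2
      ext; simp
    simp only [Function.comp_apply, h1, h2]
  unfold qsum
  rw [Multiset.antidiagonal_add, key I, key J]
  simp only [Multiset.map_bind, Multiset.bind_map, Multiset.map_map, Function.comp_def]
  rw [Multiset.sum_bind]
  rfl

/-- The full quadratic term `∑ D(m::A) D(m::B)` over all splittings. -/
def Nfull (D : Multiset ι → ℝ) (s : Multiset ι) : ℝ :=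
  qsum (fun a b => ∑ m, D (m ::ₘ a) * D (m ::ₘ b)) s

/-- The part of the quadratic term with both parts nonempty. -/
def Nq (D : Multiset ι → ℝ) (s : Multiset ι) : ℝ := by
  classical
  exact qsum (fun a b => if a = 0 ∨ b = 0 then 0 else ∑ m, D (m ::ₘ a) * D (m ::ₘ b)) s

theorem Nfull_eq (D : Multiset ι → ℝ) {s : Multiset ι} (hs : s ≠ 0) :
    Nfull D s = 2 * ∑ m, D {m} * D (m ::ₘ s) + Nq D s := by
  classical
  have key : ∀ (φ : Multiset ι → Multiset ι → ℝ) (s : Multiset ι), 
      qsum (fun a b => if a = 0 then φ a b else 0) s = φ 0 s := by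
    intro φ s
    induction s using Multiset.induction_on generalizing φ with
    | empty => simp [qsum_zero]
    | cons l s ih =>
      rw [qsum_cons, ih]
      have : qsum (fun a b => if l ::ₘ a = 0 then φ (l ::ₘ a) b else 0) s = 0 := by
        simp [qsum]
      rw [this, add_zero]
  have key' : ∀ (φ : Multiset ι → Multiset ι → ℝ) (s : Multiset ι), 
      qsum (fun a b => if b = 0 then φ a b else 0) s = φ s 0 := by
    intro φ s
    induction s using Multiset.induction_on generalizing φ with
    | empty => simp [qsum_zero]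
    | cons l s ih =>
      rw [qsum_cons, ih]
      have : qsum (fun a b => if l ::ₘ b = 0 then φ a (l ::ₘ b) else 0) s = 0 := by
        simp [qsum]
      rw [this, zero_add]
  have key0 : ∀ (φ : Multiset ι → Multiset ι → ℝ) (s : Multiset ι), s ≠ 0 →
      qsum (fun a b => if a = 0 ∧ b = 0 then φ a b else 0) s = 0 := by
    intro φ s hs
    unfold qsum
    refine Multiset.sum_eq_zero fun x hx => ?_
    obtain ⟨p, hp, rfl⟩ := Multiset.mem_map.1 hx
    rw [Multiset.mem_antidiagonal] at hp
    beta_reduce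
    rw [if_neg]
    rintro ⟨h1, h2⟩
    exact hs (by rw [← hp, h1, h2, add_zero])
  set φ : Multiset ι → Multiset ι → ℝ := fun a b => ∑ m, D (m ::ₘ a) * D (m ::ₘ b) with hφ
  have e : ∀ a b, φ a b = ((if a = 0 then φ a b else 0) + (if b = 0 then φ a b else 0)) +
      ((-1) * (if a = 0 ∧ b = 0 then φ a b else 0) + (if a = 0 ∨ b = 0 then 0 else φ a b)) := by
    intro a b
    by_cases ha : a = 0 <;> by_cases hb : b = 0 <;> simp [ha, hb]
  have e2 : Nfull D s = qsum φ s := rfl
  rw [e2, show φ = fun a b => ((if a = 0 then φ a b else 0) + (if b = 0 then φ a b else 0)) +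
      ((-1) * (if a = 0 ∧ b = 0 then φ a b else 0) + (if a = 0 ∨ b = 0 then 0 else φ a b)) from
      funext fun a => funext fun b => e a b]
  rw [qsum_add, qsum_add, qsum_add, key, key']
  have e3 : qsum (fun a b => (-1) * (if a = 0 ∧ b = 0 then φ a b else 0)) s = 0 := by
    have := key0 (fun a b => (-1) * φ a b) s hs
    refine Eq.trans ?_ this
    congr 1
    funext a b
    split_ifs <;> simp
  rw [e3, zero_add]
  congr 1
  simp only [hφ, ← Finset.sum_add_distrib, Finset.mul_sum, Multiset.cons_zero]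
  refine Finset.sum_congr rfl fun m _ => ?_
  ring

/-- `FB` for one letter with an extra index on the left. -/
theorem FB_left {α β : Type} [Fintype α] [Fintype β] [DecidableEq α] [DecidableEq β]
    {D : Multiset ι → ℝ} {K : ℝ}
    (h : FB (fun (I : Option α → ι) (J : β → ι) => D (ms I + ms J)) K) :
    FB (fun (p : (α → ι) × ι) (J : β → ι) => D (p.2 ::ₘ (ms p.1 + ms J))) K := by
  let e : (α → ι) × ι ≃ (Option α → ι) :=
    (Equiv.prodComm _ _).trans (Equiv.piOptionEquivProd (β := fun _ => ι)).symm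
  have h2 := h.reindex e (Equiv.refl _)
  refine fun a b => le_of_eq_of_le ?_ (h2 a b)
  congr 1
  refine sum_congr rfl fun p _ => sum_congr rfl fun q _ => ?_
  congr 1
  show D (p.2 ::ₘ (ms p.1 + ms q)) = D (ms (e p) + ms q)
  rw [ms_option, Multiset.cons_add]
  rfl

/-- `FB` for one letter with an extra index on the right. -/
theorem FB_right {α β : Type} [Fintype α] [Fintype β] [DecidableEq α] [DecidableEq β]
    {D : Multiset ι → ℝ} {K : ℝ}
    (h : FB (fun (I : α → ι) (J : Option β → ι) => D (ms I + ms J)) K) :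
    FB (fun (I : α → ι) (p : (β → ι) × ι) => D (p.2 ::ₘ (ms I + ms p.1))) K := by
  let e : (β → ι) × ι ≃ (Option β → ι) :=
    (Equiv.prodComm _ _).trans (Equiv.piOptionEquivProd (β := fun _ => ι)).symm
  have h2 := h.reindex (Equiv.refl _) e
  refine fun a b => le_of_eq_of_le ?_ (h2 a b)
  congr 1
  refine sum_congr rfl fun p _ => sum_congr rfl fun q _ => ?_
  congr 1
  show D (q.2 ::ₘ (ms p + ms q.1)) = D (ms p + ms (e q))
  rw [ms_option, Multiset.add_cons]
  rfl

/-- Bound of the quadratic term by two-letter compositions. -/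
theorem FB_Nq {D : Multiset ι → ℝ} {k : ℕ} {K : ℕ → ℝ} (hK0 : ∀ j, 0 ≤ K j) {K' : ℝ}
    (hK' : ∀ i j, 2 ≤ i → 2 ≤ j → i + j = k + 2 → K i * K j ≤ K')
    (hD : ∀ (α β : Type) [Fintype α] [Fintype β] [DecidableEq α] [DecidableEq β] [Nonempty α]
      [Nonempty β], Fintype.card α + Fintype.card β ≤ k →
      FB (fun (I : α → ι) (J : β → ι) => D (ms I + ms J)) (K (Fintype.card α + Fintype.card β)))
    (α β : Type) [Fintype α] [Fintype β] [DecidableEq α] [DecidableEq β] [Nonempty α]
    [Nonempty β] (hk : Fintype.card α + Fintype.card β = k) (hK'0 : 0 ≤ K') :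
    FB (fun (I : α → ι) (J : β → ι) => Nq D (ms I + ms J)) (2 ^ k * K') := by
  classical
  have h1 : ∀ (S : Finset α) (S' : Finset β), FB (fun (I : α → ι) (J : β → ι) =>
      if (ms (fun i : {i // i ∈ S} => I i) + ms (fun i : {i // i ∈ S'} => J i)) = 0 ∨
        (ms (fun i : {i // i ∉ S} => I i) + ms (fun i : {i // i ∉ S'} => J i)) = 0 then 0 else
        ∑ m, D (m ::ₘ (ms (fun i : {i // i ∈ S} => I i) + ms (fun i : {i // i ∈ S'} => J i))) *
          D (m ::ₘ (ms (fun i : {i // i ∉ S} => I i) + ms (fun i : {i // i ∉ S'} => J i)))) K' := by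
    intro S S'
    by_cases hz : (IsEmpty {i // i ∈ S} ∧ IsEmpty {i // i ∈ S'}) ∨
        (IsEmpty {i // i ∉ S} ∧ IsEmpty {i // i ∉ S'})
    · have : (fun (I : α → ι) (J : β → ι) =>
          if (ms (fun i : {i // i ∈ S} => I i) + ms (fun i : {i // i ∈ S'} => J i)) = 0 ∨
            (ms (fun i : {i // i ∉ S} => I i) + ms (fun i : {i // i ∉ S'} => J i)) = 0 then 0 else
          ∑ m, D (m ::ₘ (ms (fun i : {i // i ∈ S} => I i) + ms (fun i : {i // i ∈ S'} => J i))) *
          D (m ::ₘ (ms (fun i : {i // i ∉ S} => I i) + ms (fun i : {i // i ∉ S'} => J i)))) =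
          fun _ _ => 0 := by
        funext I J
        rw [if_pos]
        rcases hz with ⟨h, h'⟩ | ⟨h, h'⟩
        · left; rw [ms_eq_zero.2 h, ms_eq_zero.2 h', add_zero]
        · right; rw [ms_eq_zero.2 h, ms_eq_zero.2 h', add_zero]
      rw [this]
      intro a b
      simp only [zero_mul, sum_const_zero, abs_zero]
      exact mul_nonneg hK'0 (mul_nonneg (nr_nonneg _) (nr_nonneg _))
    · have hne : (fun (I : α → ι) (J : β → ι) =>
          if (ms (fun i : {i // i ∈ S} => I i) + ms (fun i : {i // i ∈ S'} => J i)) = 0 ∨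
            (ms (fun i : {i // i ∉ S} => I i) + ms (fun i : {i // i ∉ S'} => J i)) = 0 then 0 else
          ∑ m, D (m ::ₘ (ms (fun i : {i // i ∈ S} => I i) + ms (fun i : {i // i ∈ S'} => J i))) *
          D (m ::ₘ (ms (fun i : {i // i ∉ S} => I i) + ms (fun i : {i // i ∉ S'} => J i)))) =
          fun (I : α → ι) (J : β → ι) =>
          ∑ m, D (m ::ₘ (ms (fun i : {i // i ∈ S} => I i) + ms (fun i : {i // i ∈ S'} => J i))) *
          D (m ::ₘ (ms (fun i : {i // i ∉ S} => I i) + ms (fun i : {i // i ∉ S'} => J i))) := by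
        funext I J
        rw [if_neg]
        simp only [add_eq_zero, ms_eq_zero]
        exact hz
      rw [hne]
      -- cards
      have c1 : Fintype.card {i // i ∈ S} + Fintype.card {i // i ∉ S} = Fintype.card α := by
        rw [← Fintype.card_sum]; exact Fintype.card_congr (Equiv.sumCompl fun i => i ∈ S)
      have c2 : Fintype.card {i // i ∈ S'} + Fintype.card {i // i ∉ S'} = Fintype.card β := by
        rw [← Fintype.card_sum]; exact Fintype.card_congr (Equiv.sumCompl fun i => i ∈ S')
      have p1 : 0 < Fintype.card α := Fintype.card_pos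
      have p2 : 0 < Fintype.card β := Fintype.card_pos
      have q1 : 0 < Fintype.card {i // i ∈ S} + Fintype.card {i // i ∈ S'} := by
        rcases Nat.eq_zero_or_pos (Fintype.card {i // i ∈ S} + Fintype.card {i // i ∈ S'}) with h | h
        · exfalso
          rw [Nat.add_eq_zero_iff, Fintype.card_eq_zero_iff, Fintype.card_eq_zero_iff] at h
          exact hz (Or.inl h)
        · exact h
      have q2 : 0 < Fintype.card {i // i ∉ S} + Fintype.card {i // i ∉ S'} := by
        rcases Nat.eq_zero_or_pos (Fintype.card {i // i ∉ S} + Fintype.card {i // i ∉ S'}) with h | h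
        · exfalso
          rw [Nat.add_eq_zero_iff, Fintype.card_eq_zero_iff, Fintype.card_eq_zero_iff] at h
          exact hz (Or.inr h)
        · exact h
      -- reindexing
      have reidx : ∀ {C : ℝ}, FB (fun (p : ({i // i ∈ S} → ι) × ({i // i ∉ S} → ι))
          (q : ({i // i ∈ S'} → ι) × ({i // i ∉ S'} → ι)) =>
          ∑ m, D (m ::ₘ (ms p.1 + ms q.1)) * D (m ::ₘ (ms p.2 + ms q.2))) C →
          FB (fun (I : α → ι) (J : β → ι) =>
          ∑ m, D (m ::ₘ (ms (fun i : {i // i ∈ S} => I i) + ms (fun i : {i // i ∈ S'} => J i))) *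
          D (m ::ₘ (ms (fun i : {i // i ∉ S} => I i) + ms (fun i : {i // i ∉ S'} => J i)))) C :=
        fun h => h.reindex (Equiv.piEquivPiSubtypeProd (fun i => i ∈ S) fun _ => ι)
          (Equiv.piEquivPiSubtypeProd (fun i => i ∈ S') fun _ => ι)
      refine reidx ?_
      by_cases hA : Nonempty {i // i ∈ S'} ∧ Nonempty {i // i ∉ S}
      · obtain ⟨n1, n2⟩ := hA
        have m1 : 0 < Fintype.card {i // i ∈ S'} := Fintype.card_pos
        have m2 : 0 < Fintype.card {i // i ∉ S} := Fintype.card_pos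
        have hX := FB_left (hD (Option {i // i ∈ S}) {i // i ∈ S'} (by
          rw [Fintype.card_option]; omega))
        have hY := FB_right (hD {i // i ∉ S} (Option {i // i ∉ S'}) (by
          rw [Fintype.card_option]; omega))
        have := FB.split (X := fun I J m => D (m ::ₘ (ms I + ms J)))
          (Y := fun I J m => D (m ::ₘ (ms I + ms J))) (hK0 _) (hK0 _) hX hY
        refine this.mono (hK' _ _ ?_ ?_ ?_)
        · rw [Fintype.card_option]; omega
        · rw [Fintype.card_option]; omega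
        · rw [Fintype.card_option, Fintype.card_option]; omega
      · have hB : Nonempty {i // i ∈ S} ∧ Nonempty {i // i ∉ S'} := by
          rw [not_and_or, not_nonempty_iff, not_nonempty_iff, ← Fintype.card_eq_zero_iff,
            ← Fintype.card_eq_zero_iff] at hA
          rw [← Fintype.card_pos_iff, ← Fintype.card_pos_iff]
          rcases hA with hA | hA
          · constructor <;> omega
          · constructor <;> omega
        obtain ⟨n1, n2⟩ := hB
        have m1 : 0 < Fintype.card {i // i ∈ S} := Fintype.card_pos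
        have m2 : 0 < Fintype.card {i // i ∉ S'} := Fintype.card_pos
        have hX := FB_right (hD {i // i ∈ S} (Option {i // i ∈ S'}) (by
          rw [Fintype.card_option]; omega))
        have hY := FB_left (hD (Option {i // i ∉ S}) {i // i ∉ S'} (by
          rw [Fintype.card_option]; omega))
        have := FB.split' (X := fun I J m => D (m ::ₘ (ms I + ms J)))
          (Y := fun I J m => D (m ::ₘ (ms I + ms J))) (hK0 _) (hK0 _) hX hY
        refine this.mono (hK' _ _ ?_ ?_ ?_)
        · rw [Fintype.card_option]; omega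
        · rw [Fintype.card_option]; omega
        · rw [Fintype.card_option, Fintype.card_option]; omega
  have h2 : (fun (I : α → ι) (J : β → ι) => Nq D (ms I + ms J)) = fun I J =>
      ∑ S : Finset α, ∑ S' : Finset β,
      (if (ms (fun i : {i // i ∈ S} => I i) + ms (fun i : {i // i ∈ S'} => J i)) = 0 ∨
        (ms (fun i : {i // i ∉ S} => I i) + ms (fun i : {i // i ∉ S'} => J i)) = 0 then 0 else
        ∑ m, D (m ::ₘ (ms (fun i : {i // i ∈ S} => I i) + ms (fun i : {i // i ∈ S'} => J i))) *
          D (m ::ₘ (ms (fun i : {i // i ∉ S} => I i) + ms (fun i : {i // i ∉ S'} => J i)))) := by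
    funext I J
    unfold Nq
    rw [qsum_ms]
  rw [h2]
  have h3 := FB.sum (univ : Finset (Finset α)) (fun S _ =>
    FB.sum (univ : Finset (Finset β)) (fun S' _ => h1 S S'))
  refine h3.mono (le_of_eq ?_)
  simp only [sum_const, card_univ, Fintype.card_finset, nsmul_eq_mul, ← hk, pow_add]
  push_cast
  ring

end slots

end Crest.Agent.R285.AF
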