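import Mathlib
import Crest.Agent.R285.Defs

/-!
Row 285 (S0430), module AF (all-flattenings bounds for the derivatives of `Ub f σ`): definitions.

`γ = stdGaussian (E d)`, `Lam f y = log ∫ exp (⟪z,y⟫ - f z) dγ`, `wt f y` = density of the posterior
(centre `y`, scale `1`) with respect to `γ`; `R f m I y z` = Appell polynomials, i.e.
`∂_y^I (wt f y z) = R f m I y z * wt f y z`; tensors with `m` slots are functions `Tp d m → ℝ`
(nested pairs, the last slot is the newest derivative).
-/

set_option autoImplicit false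
set_option linter.unusedSectionVars false

open MeasureTheory ProbabilityTheory
open Crest.OracleSampling (E)
open scoped RealInnerProductSpace

noncomputable section

namespace Crest.Agent.R285.AF

/-- Index type of tensors with `m` slots (nested pairs; the last slot is the newest one). -/
@[reducible] def Tp (d : ℕ) : ℕ → Type
  | 0 => Unit
  | m + 1 => Tp d m × Fin d

instance instFintypeTp (d : ℕ) : (m : ℕ) → Fintype (Tp d m)
  | 0 => inferInstanceAs (Fintype Unit)
  | m + 1 =>
    letI := instFintypeTp d m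
    inferInstanceAs (Fintype (Tp d m × Fin d))

/-- Sum of squares. -/
def nsq {ι : Type} [Fintype ι] (x : ι → ℝ) : ℝ := ∑ i, x i ^ 2

variable {d : ℕ}

/-- The standard basis. -/
def eb (j : Fin d) : E d := EuclideanSpace.single j 1

/-- Contraction (symmetrised over the slots) of a tensor with a basis vector:
`(Dl m l b) (I', j) = b ((I', j), l) + (Dl l (b (·, j))) I'`. -/
def Dl : (m : ℕ) → Fin d → (Tp d (m + 1) → ℝ) → (Tp d m → ℝ)
  | 0, l, b => fun _ => b ((), l)
  | m + 1, l, b => fun I => b (I, l) + Dl m l (fun K => b (K, I.2)) I.1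

/-- Log-Laplace transform of `exp (-f) dγ`. -/
def Lam (f : E d → ℝ) (y : E d) : ℝ :=
  Real.log (∫ z, Real.exp (⟪z, y⟫ - f z) ∂(stdGaussian (E d)))

/-- Density (w.r.t. `γ`) of the posterior with centre `y` and scale `1`. -/
def wt (f : E d → ℝ) (y z : E d) : ℝ := Real.exp (⟪z, y⟫ - f z - Lam f y)

/-- Appell polynomials. -/
def R (f : E d → ℝ) : (m : ℕ) → Tp d m → E d → E d → ℝ
  | 0, _, _, _ => 1
  | m + 1, I, y, z => fderiv ℝ (fun y => R f m I.1 y z) y (eb I.2) +
      (z I.2 - fderiv ℝ (Lam f) y (eb I.2)) * R f m I.1 y z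

/-- `W_b = ∑ b_I R_I`. -/
def W (f : E d → ℝ) (m : ℕ) (b : Tp d m → ℝ) (y z : E d) : ℝ := ∑ I, b I * R f m I y z

/-- Posterior expectation. -/
def EE (f : E d → ℝ) (y : E d) (F : E d → ℝ) : ℝ := ∫ z, F z * wt f y z ∂(stdGaussian (E d))

/-- `δ_j g = (z_j - y_j + ∂_j f) g - ∂_j g` (adjoint of `∂_j` in `L²` of the posterior). -/
def del (f : E d → ℝ) (y : E d) (j : Fin d) (g : E d → ℝ) (z : E d) : ℝ :=
  (z j - y j + fderiv ℝ f z (eb j)) * g z - fderiv ℝ g z (eb j)

/-- `Y_b = δ (w^b) - W_b`. -/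
def Y (f : E d → ℝ) (m : ℕ) (b : Tp d (m + 1) → ℝ) (y z : E d) : ℝ :=
  ∑ j, del f y j (W f m (fun I => b (I, j)) y) z - W f (m + 1) b y z

/-- Mixed Gram functions, functions of `p = (y', y)`; at `p = (y0, y0)` this is
`EE f y0 (R_I R_J)`. -/
def KK (f : E d → ℝ) (y0 : E d) (m k : ℕ) (p : E d × E d) (I : Tp d m) (J : Tp d k) : ℝ :=
  ∫ z, R f m I p.1 z * R f k J p.2 z *
    Real.exp (⟪z, p.1 + p.2 - y0⟫ - f z - Lam f p.1 - Lam f p.2 + Lam f y0) ∂(stdGaussian (E d))

end Crest.Agent.R285.AF
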