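import Mathlib
import Crest.Agent.R285.PoinBase

/-!
# Row 285: the Poincare inequality for strongly convex Gibbs measures (via Prekopa–Leindler)
-/

set_option autoImplicit false

open MeasureTheory Set Filter Topology
open scoped ENNReal

namespace Crest.Agent.R285.Poin

open Crest.Agent.Lib.PrekopaLeindler

variable {E : Type*} [NormedAddCommGroup E] [InnerProductSpace ℝ E] [FiniteDimensional ℝ E]
  [MeasurableSpace E] [BorelSpace E]

theorem PL_inner : PL E (volume : Measure E) :=
  PL.of_measurePreserving (stdOrthonormalBasis ℝ E).repr.symm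
    (stdOrthonormalBasis ℝ E).measurePreserving_repr_symm (fun a b x y => by simp)
    (PL_euclidean _)

/-- Maurey's property in test-function form. -/
lemma tau_lintegral {H : E → ℝ} {κ : ℝ} (hκ : 0 < κ)
    (hH : StrongConvexOn univ κ H) (hc : Continuous H) {q g : E → ℝ}
    (hq : Measurable q) (hg : Measurable g)
    (hqg : ∀ x y, q x ≤ g y + κ / 4 * ‖x - y‖ ^ 2) :
    (∫⁻ x, ENNReal.ofReal (Real.exp (q x)) ∂(gibbs H)) *
      (∫⁻ x, ENNReal.ofReal (Real.exp (-g x)) ∂(gibbs H)) ≤ 1 := by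
  have hi := StrongConvexOn.integrable_exp hκ hH hc
  rw [lintegral_gibbs hc hi, lintegral_gibbs hc hi]
  have hPL := PL_inner (E := E) (1 / 2) (by norm_num) (by norm_num)
    (fun x => ENNReal.ofReal (Real.exp (-H x)) * ENNReal.ofReal (Real.exp (q x)))
    (fun x => ENNReal.ofReal (Real.exp (-H x)) * ENNReal.ofReal (Real.exp (-g x)))
    (fun x => ENNReal.ofReal (Real.exp (-H x)))
    (by fun_prop) (by fun_prop) (by fun_prop) ?_
  · have hZ : ∫⁻ x, ENNReal.ofReal (Real.exp (-H x)) = ENNReal.ofReal (gZ H) := by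
      rw [gZ, ofReal_integral_eq_lintegral_ofReal hi
        (Eventually.of_forall fun x => (Real.exp_pos _).le)]
    rw [hZ] at hPL
    set A := ∫⁻ x, ENNReal.ofReal (Real.exp (-H x)) * ENNReal.ofReal (Real.exp (q x))
    set B := ∫⁻ x, ENNReal.ofReal (Real.exp (-H x)) * ENNReal.ofReal (Real.exp (-g x))
    set Z := ENNReal.ofReal (gZ H) with hZdef
    have hZ0 : Z ≠ 0 := by simpa [hZdef] using gZ_pos hi
    have hZt : Z ≠ ⊤ := ENNReal.ofReal_ne_top
    have h1 : A * B ≤ Z * Z := by
      have h2 := ENNReal.rpow_le_rpow hPL (show (0 : ℝ) ≤ 2 by norm_num)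
      rw [ENNReal.mul_rpow_of_nonneg _ _ (by norm_num : (0 : ℝ) ≤ 2), ← ENNReal.rpow_mul,
        ← ENNReal.rpow_mul] at h2
      norm_num at h2
      rw [sq] at h2
      exact h2
    calc Z⁻¹ * A * (Z⁻¹ * B) = (Z⁻¹ * Z⁻¹) * (A * B) := by ring
      _ ≤ (Z⁻¹ * Z⁻¹) * (Z * Z) := by gcongr
      _ = (Z⁻¹ * Z) * (Z⁻¹ * Z) := by ring
      _ = 1 := by rw [ENNReal.inv_mul_cancel hZ0 hZt, one_mul]
  · intro x y
    rw [← ENNReal.ofReal_mul (Real.exp_pos _).le, ← ENNReal.ofReal_mul (Real.exp_pos _).le,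
      ← Real.exp_add, ← Real.exp_add, ENNReal.ofReal_rpow_of_pos (Real.exp_pos _),
      ENNReal.ofReal_rpow_of_pos (Real.exp_pos _), ← Real.exp_mul, ← Real.exp_mul,
      ← ENNReal.ofReal_mul (Real.exp_pos _).le, ← Real.exp_add]
    apply ENNReal.ofReal_le_ofReal
    rw [Real.exp_le_exp]
    have h1 := hH.2 (mem_univ x) (mem_univ y) (show (0 : ℝ) ≤ 1 - 1 / 2 by norm_num)
      (show (0 : ℝ) ≤ 1 / 2 by norm_num) (by norm_num)
    simp only [smul_eq_mul] at h1
    have h2 := hqg x y
    nlinarith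

/-- Maurey's property in test-function form, with integrals of bounded functions. -/
lemma tau_integral {H : E → ℝ} {κ : ℝ} (hκ : 0 < κ)
    (hH : StrongConvexOn univ κ H) (hc : Continuous H) {q g : E → ℝ}
    (hq : Measurable q) (hg : Measurable g)
    (hqi : Integrable (fun x => Real.exp (q x)) (gibbs H))
    (hgi : Integrable (fun x => Real.exp (-g x)) (gibbs H))
    (hqg : ∀ x y, q x ≤ g y + κ / 4 * ‖x - y‖ ^ 2) :
    (∫ x, Real.exp (q x) ∂(gibbs H)) * (∫ x, Real.exp (-g x) ∂(gibbs H)) ≤ 1 := by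
  have h := tau_lintegral hκ hH hc hq hg hqg
  rw [← ofReal_integral_eq_lintegral_ofReal hqi (Eventually.of_forall fun x => (Real.exp_pos _).le),
    ← ofReal_integral_eq_lintegral_ofReal hgi (Eventually.of_forall fun x => (Real.exp_pos _).le),
    ← ENNReal.ofReal_mul (integral_nonneg fun x => (Real.exp_pos _).le)] at h
  rwa [ENNReal.ofReal_le_one] at h

lemma exp_lower3 {x : ℝ} (hx : |x| ≤ 1) : 1 + x + x ^ 2 / 2 - |x| ^ 3 ≤ Real.exp x := by
  have h := Real.exp_bound hx (n := 3) (by norm_num)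
  rw [Finset.sum_range_succ, Finset.sum_range_succ, Finset.sum_range_one] at h
  simp only [Nat.factorial, Nat.succ_eq_add_one] at h
  norm_num at h
  have h2 := (abs_le.1 h).1
  have h3 : 0 ≤ |x| ^ 3 := by positivity
  linarith

lemma exp_upper2 {x : ℝ} (hx : |x| ≤ 1) : Real.exp x ≤ 1 + x + x ^ 2 := by
  have h := Real.abs_exp_sub_one_sub_id_le hx
  have := (abs_le.1 h).2
  linarith

/-- Linearised property tau: one step at scale `ε`. -/
lemma tau_lin {H : E → ℝ} {κ : ℝ} (hκ : 0 < κ)
    (hH : StrongConvexOn univ κ H) (hc : Continuous H) {f w : E → ℝ} {B W ε : ℝ}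
    (hf : Measurable f) (hw : Measurable w) (hB : ∀ x, |f x| ≤ B) (hw0 : ∀ x, 0 ≤ w x)
    (hW : ∀ x, w x ≤ W) (hmean : ∫ x, f x ∂(gibbs H) = 0)
    (hε0 : 0 < ε) (hε1 : ε ≤ 1) (hεB : ε * (B + W) ≤ 1)
    (hfw : ∀ x y, ε * f x - ε ^ 2 * w x ≤ ε * f y + κ / 4 * ‖x - y‖ ^ 2) :
    ∫ x, f x ^ 2 ∂(gibbs H) ≤ ∫ x, w x ∂(gibbs H) + ε * (B ^ 4 + B * W + (B + W) ^ 3 + B ^ 3) := by
  have hi := StrongConvexOn.integrable_exp hκ hH hc
  have := isProbabilityMeasure_gibbs hi
  have hB0 : 0 ≤ B := (abs_nonneg _).trans (hB 0)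
  have hW0 : 0 ≤ W := (hw0 0).trans (hW 0)
  set μ := gibbs H with hμ
  have hbdd : ∀ (g : E → ℝ) (K : ℝ), Measurable g → (∀ x, |g x| ≤ K) → Integrable g μ := by
    intro g K hg hK
    exact Integrable.of_bound hg.aestronglyMeasurable K
      (Eventually.of_forall fun x => by simpa using hK x)
  have hqabs : ∀ x, |ε * f x - ε ^ 2 * w x| ≤ ε * (B + W) := by
    intro x
    have h1 := abs_le.1 (hB x)
    have h2 := hw0 x
    have h3 := hW x
    rw [abs_le]
    constructor
    · nlinarith [mul_nonneg hε0.le h2, mul_nonneg hε0.le (sub_nonneg.2 hε1)]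
    · nlinarith [mul_nonneg hε0.le h2, mul_nonneg hε0.le (sub_nonneg.2 hε1)]
  have hfabs : ∀ x, |-(ε * f x)| ≤ ε * B := by
    intro x
    rw [abs_neg, abs_mul, abs_of_pos hε0]
    gcongr
    exact hB x
  have hεB1 : ε * B ≤ 1 := by nlinarith
  have hfi : Integrable f μ := hbdd f B hf hB
  have hwi : Integrable w μ := hbdd w W hw (fun x => by rw [abs_of_nonneg (hw0 x)]; exact hW x)
  have hf2i : Integrable (fun x => f x ^ 2) μ := by
    refine hbdd _ (B ^ 2) (by fun_prop) (fun x => ?_)
    rw [abs_pow]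
    gcongr
    exact hB x
  have hexpq : Integrable (fun x => Real.exp (ε * f x - ε ^ 2 * w x)) μ := by
    refine hbdd _ (Real.exp 1) (by fun_prop) (fun x => ?_)
    rw [abs_of_pos (Real.exp_pos _), Real.exp_le_exp]
    exact (le_abs_self _).trans ((hqabs x).trans hεB)
  have hexpf : Integrable (fun x => Real.exp (-(ε * f x))) μ := by
    refine hbdd _ (Real.exp 1) (by fun_prop) (fun x => ?_)
    rw [abs_of_pos (Real.exp_pos _), Real.exp_le_exp]
    exact (le_abs_self _).trans ((hfabs x).trans hεB1)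
  have hmain := tau_integral hκ hH hc (q := fun x => ε * f x - ε ^ 2 * w x)
    (g := fun x => ε * f x) (by fun_prop) (by fun_prop) hexpq hexpf hfw
  rw [← hμ] at hmain
  set P := ∫ x, Real.exp (ε * f x - ε ^ 2 * w x) ∂μ with hP
  set R := ∫ x, Real.exp (-(ε * f x)) ∂μ with hR
  set v := ∫ x, f x ^ 2 ∂μ with hv
  set wb := ∫ x, w x ∂μ with hwb
  -- lower bound for P
  have hP1 : 1 - ε ^ 2 * wb + ε ^ 2 / 2 * v - ε ^ 3 * (B * W + (B + W) ^ 3) ≤ P := by
    have h1 : ∀ x, 1 + ε * f x - ε ^ 2 * w x + ε ^ 2 / 2 * f x ^ 2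
        - ε ^ 3 * (B * W + (B + W) ^ 3) ≤ Real.exp (ε * f x - ε ^ 2 * w x) := by
      intro x
      have h2 := exp_lower3 ((hqabs x).trans hεB)
      have h3 : |ε * f x - ε ^ 2 * w x| ^ 3 ≤ (ε * (B + W)) ^ 3 := by
        gcongr; exact hqabs x
      have h4 : f x * w x ≤ B * W := by
        calc f x * w x ≤ |f x| * w x := by gcongr; exacts [hw0 x, le_abs_self _]
          _ ≤ B * W := by gcongr; exacts [hw0 x, hB x, hW x]
      have h5 : (0 : ℝ) ≤ ε ^ 4 * w x ^ 2 := by positivity
      have h6 : ε ^ 3 * (f x * w x) ≤ ε ^ 3 * (B * W) := by gcongr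
      nlinarith
    calc 1 - ε ^ 2 * wb + ε ^ 2 / 2 * v - ε ^ 3 * (B * W + (B + W) ^ 3)
        = ∫ x, (1 + ε * f x - ε ^ 2 * w x + ε ^ 2 / 2 * f x ^ 2
          - ε ^ 3 * (B * W + (B + W) ^ 3)) ∂μ := by
          rw [integral_sub, integral_add, integral_sub, integral_add, integral_const_mul,
            integral_const_mul, integral_const_mul, hmean]
          · simp [hwb, hv]
          · exact integrable_const _
          · exact hfi.const_mul _
          · exact (integrable_const _).add (hfi.const_mul _)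
          · exact hwi.const_mul _
          · exact ((integrable_const _).add (hfi.const_mul _)).sub (hwi.const_mul _)
          · exact hf2i.const_mul _
          · exact (((integrable_const _).add (hfi.const_mul _)).sub (hwi.const_mul _)).add
              (hf2i.const_mul _)
          · exact integrable_const _
      _ ≤ P := by
          refine integral_mono ?_ hexpq h1
          exact ((((integrable_const _).add (hfi.const_mul _)).sub (hwi.const_mul _)).add
              (hf2i.const_mul _)).sub (integrable_const _)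
  have hR1 : 1 + ε ^ 2 / 2 * v - ε ^ 3 * B ^ 3 ≤ R := by
    have h1 : ∀ x, 1 - ε * f x + ε ^ 2 / 2 * f x ^ 2 - ε ^ 3 * B ^ 3
        ≤ Real.exp (-(ε * f x)) := by
      intro x
      have h2 := exp_lower3 ((hfabs x).trans hεB1)
      have h3 : |-(ε * f x)| ^ 3 ≤ (ε * B) ^ 3 := by
        gcongr; exact hfabs x
      nlinarith
    calc 1 + ε ^ 2 / 2 * v - ε ^ 3 * B ^ 3
        = ∫ x, (1 - ε * f x + ε ^ 2 / 2 * f x ^ 2 - ε ^ 3 * B ^ 3) ∂μ := by
          rw [integral_sub, integral_add, integral_sub, integral_const_mul,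
            integral_const_mul, hmean]
          · simp [hv]
          · exact integrable_const _
          · exact hfi.const_mul _
          · exact (integrable_const _).sub (hfi.const_mul _)
          · exact hf2i.const_mul _
          · exact ((integrable_const _).sub (hfi.const_mul _)).add (hf2i.const_mul _)
          · exact integrable_const _
      _ ≤ R := by
          refine integral_mono ?_ hexpf h1
          exact (((integrable_const _).sub (hfi.const_mul _)).add
              (hf2i.const_mul _)).sub (integrable_const _)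
  have hR2 : 1 ≤ R := by
    calc (1 : ℝ) = ∫ x, (1 - ε * f x) ∂μ := by
          rw [integral_sub (integrable_const _) (hfi.const_mul _), integral_const_mul, hmean]
          simp
      _ ≤ R := by
          refine integral_mono ((integrable_const _).sub (hfi.const_mul _)) hexpf (fun x => ?_)
          have := Real.add_one_le_exp (-(ε * f x))
          simp only
          linarith
  have hR3 : R ≤ 1 + ε ^ 2 * B ^ 2 := by
    calc R ≤ ∫ x, (1 - ε * f x + ε ^ 2 * B ^ 2) ∂μ := by
          refine integral_mono hexpf (((integrable_const _).sub (hfi.const_mul _)).add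
            (integrable_const _)) (fun x => ?_)
          have h2 := exp_upper2 ((hfabs x).trans hεB1)
          have h3 : (-(ε * f x)) ^ 2 ≤ ε ^ 2 * B ^ 2 := by
            rw [← sq_abs, ← mul_pow]
            gcongr
            exact hfabs x
          simp only
          linarith
      _ = 1 + ε ^ 2 * B ^ 2 := by
          rw [integral_add, integral_sub (integrable_const _) (hfi.const_mul _),
            integral_const_mul, hmean]
          · simp
          · exact (integrable_const _).sub (hfi.const_mul _)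
          · exact integrable_const _
  have hPR : P + R ≤ 2 + (R - 1) ^ 2 := by
    have h1 : P ≤ 1 / R := by
      rw [le_div_iff₀ (by linarith)]
      exact hmain
    have h2 : 1 / R ≤ 1 - (R - 1) + (R - 1) ^ 2 := by
      rw [div_le_iff₀ (by linarith)]
      nlinarith [mul_nonneg (sub_nonneg.2 hR2) (sq_nonneg (R - 1))]
    linarith
  have hR4 : (R - 1) ^ 2 ≤ (ε ^ 2 * B ^ 2) ^ 2 := by
    have : 0 ≤ R - 1 := by linarith
    gcongr
    linarith
  have h7 : ε ^ 2 * (v - wb) ≤ ε ^ 2 * (ε * (B ^ 4 + B * W + (B + W) ^ 3 + B ^ 3)) := by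
    have h8 : (ε ^ 2 * B ^ 2) ^ 2 ≤ ε ^ 3 * B ^ 4 := by
      have : ε ^ 4 ≤ ε ^ 3 := pow_le_pow_of_le_one hε0.le hε1 (by norm_num)
      calc (ε ^ 2 * B ^ 2) ^ 2 = ε ^ 4 * B ^ 4 := by ring
        _ ≤ ε ^ 3 * B ^ 4 := by gcongr
    nlinarith
  have h9 := le_of_mul_le_mul_left h7 (by positivity)
  linarith

end Crest.Agent.R285.Poin
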