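import Mathlib
import Crest.Agent.R285.PoinCore

/-!
# Row 285: the Poincare inequality for strongly convex Gibbs measures
-/

set_option autoImplicit false

open MeasureTheory Set Filter Topology
open scoped ENNReal

namespace Crest.Agent.R285.Poin

variable {E : Type*} [NormedAddCommGroup E] [InnerProductSpace ℝ E] [FiniteDimensional ℝ E]
  [MeasurableSpace E] [BorelSpace E]

lemma tau_limit {H : E → ℝ} {κ : ℝ} (hκ : 0 < κ)
    (hH : StrongConvexOn univ κ H) (hc : Continuous H) {f w : E → ℝ} {B W : ℝ}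
    (hf : Measurable f) (hw : Measurable w) (hB : ∀ x, |f x| ≤ B) (hw0 : ∀ x, 0 ≤ w x)
    (hW : ∀ x, w x ≤ W) (hmean : ∫ x, f x ∂(gibbs H) = 0) {ε₀ : ℝ} (hε₀ : 0 < ε₀)
    (hfw : ∀ ε, 0 < ε → ε ≤ ε₀ →
      ∀ x y, ε * f x - ε ^ 2 * w x ≤ ε * f y + κ / 4 * ‖x - y‖ ^ 2) :
    ∫ x, f x ^ 2 ∂(gibbs H) ≤ ∫ x, w x ∂(gibbs H) := by
  have hB0 : 0 ≤ B := (abs_nonneg _).trans (hB 0)
  have hW0 : 0 ≤ W := (hw0 0).trans (hW 0)
  set K := B ^ 4 + B * W + (B + W) ^ 3 + B ^ 3 with hK
  have hK0 : 0 ≤ K := by positivity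
  refine le_of_forall_pos_le_add fun δ hδ => ?_
  set ε := min (min ε₀ 1) (min (1 / (B + W + 1)) (δ / (K + 1))) with hε
  have hεpos : 0 < ε := by
    simp only [hε, lt_min_iff]
    refine ⟨⟨hε₀, one_pos⟩, by positivity, by positivity⟩
  have h1 : ε ≤ ε₀ := (min_le_left _ _).trans (min_le_left _ _)
  have h2 : ε ≤ 1 := (min_le_left _ _).trans (min_le_right _ _)
  have h3 : ε ≤ 1 / (B + W + 1) := (min_le_right _ _).trans (min_le_left _ _)
  have h4 : ε ≤ δ / (K + 1) := (min_le_right _ _).trans (min_le_right _ _)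
  have h5 := tau_lin hκ hH hc hf hw hB hw0 hW hmean hεpos h2 ?_ (hfw ε hεpos h1)
  · refine h5.trans ?_
    rw [le_div_iff₀ (by positivity)] at h4
    have : ε * K ≤ δ := by nlinarith
    linarith
  · rw [le_div_iff₀ (by positivity)] at h3
    nlinarith

/-- bounded, mean zero, Lipschitz -/
lemma var_lip_aux {H : E → ℝ} {κ : ℝ} (hκ : 0 < κ)
    (hH : StrongConvexOn univ κ H) (hc : Continuous H) {f : E → ℝ} {B L : ℝ} (hL : 0 ≤ L)
    (hf : Measurable f) (hB : ∀ x, |f x| ≤ B) (hLip : ∀ x y, |f x - f y| ≤ L * ‖x - y‖)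
    (hmean : ∫ x, f x ∂(gibbs H) = 0) :
    ∫ x, f x ^ 2 ∂(gibbs H) ≤ L ^ 2 / κ := by
  have := isProbabilityMeasure_gibbs (StrongConvexOn.integrable_exp hκ hH hc)
  have h := tau_limit hκ hH hc (w := fun _ => L ^ 2 / κ) (W := L ^ 2 / κ) hf
    measurable_const hB (fun _ => by positivity) (fun _ => le_rfl) hmean one_pos ?_
  · simpa using h
  · intro ε hε _ x y
    have h1 := (abs_le.1 (hLip x y)).2
    have h2 : ε * L * ‖x - y‖ ≤ ε ^ 2 * (L ^ 2 / κ) + κ / 4 * ‖x - y‖ ^ 2 := by
      have h3 : 0 ≤ (ε * L - κ / 2 * ‖x - y‖) ^ 2 / κ := by positivity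
      have e : (ε * L - κ / 2 * ‖x - y‖) ^ 2 / κ
          = ε ^ 2 * (L ^ 2 / κ) - ε * L * ‖x - y‖ + κ / 4 * ‖x - y‖ ^ 2 := by
        field_simp; ring
      linarith
    nlinarith

lemma norm_growth_of_lip {f : E → ℝ} {L : ℝ} (hL : 0 ≤ L)
    (hLip : ∀ x y, |f x - f y| ≤ L * ‖x - y‖) (x : E) :
    |f x| ≤ (|f 0| + L) * (1 + ‖x‖) := by
  have h1 := hLip x 0
  rw [sub_zero] at h1
  have h2 : |f x| ≤ |f x - f 0| + |f 0| := by
    have := abs_add_le (f x - f 0) (f 0)
    simpa using this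
  nlinarith [norm_nonneg x, abs_nonneg (f 0), mul_nonneg (abs_nonneg (f 0)) (norm_nonneg x)]

/-- **Variance bound** for Lipschitz functions (sharp constant). -/
theorem var_lip {H : E → ℝ} {κ : ℝ} (hκ : 0 < κ)
    (hH : StrongConvexOn univ κ H) (hc : Continuous H) {f : E → ℝ} {L : ℝ} (hL : 0 ≤ L)
    (hLip : ∀ x y, |f x - f y| ≤ L * ‖x - y‖) :
    ∫ x, (f x - ∫ y, f y ∂(gibbs H)) ^ 2 ∂(gibbs H) ≤ L ^ 2 / κ := by
  have hprob := isProbabilityMeasure_gibbs (StrongConvexOn.integrable_exp hκ hH hc)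
  set μ := gibbs H with hμ
  have hfc : Continuous f := by
    have : LipschitzWith ⟨L, hL⟩ f := LipschitzWith.of_dist_le_mul fun x y => by
      rw [Real.dist_eq, dist_eq_norm]
      exact hLip x y
    exact this.continuous
  set D : ℝ := |f 0| + L with hD
  have hD0 : 0 ≤ D := by positivity
  have hgrow := norm_growth_of_lip hL hLip
  -- truncations
  set T : ℕ → ℝ → ℝ := fun n t => max (-(n : ℝ)) (min (n : ℝ) t) with hT
  have hTabs : ∀ n t, |T n t| ≤ n := by
    intro n t
    rw [abs_le]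
    exact ⟨le_max_left _ _, max_le (by simp) (min_le_left _ _)⟩
  have hTabs2 : ∀ n t, |T n t| ≤ |t| := by
    intro n t
    simp only [hT]
    rcases le_total 0 t with ht | ht
    · rw [max_eq_right, abs_of_nonneg (le_min (by positivity) ht), abs_of_nonneg ht]
      · exact min_le_right _ _
      · have : 0 ≤ min (n : ℝ) t := le_min (by positivity) ht
        have : (0 : ℝ) ≤ n := by positivity
        linarith
    · rw [min_eq_right (ht.trans (by positivity)), abs_of_nonpos ht,
        abs_of_nonpos (max_le (by simp) ht)]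
      have := le_max_right (-(n : ℝ)) t
      linarith
  have hTlip : ∀ n s t, |T n s - T n t| ≤ |s - t| := by
    intro n s t
    simp only [hT]
    calc |max (-(n : ℝ)) (min (n : ℝ) s) - max (-(n : ℝ)) (min (n : ℝ) t)|
        ≤ |min (n : ℝ) s - min (n : ℝ) t| := by
          have := abs_max_sub_max_le_max (-(n : ℝ)) (min (n : ℝ) s) (-(n : ℝ)) (min (n : ℝ) t)
          simpa using this
      _ ≤ |s - t| := by
          have := abs_min_sub_min_le_max (n : ℝ) s (n : ℝ) t
          simpa using this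
  have hTc : ∀ n, Continuous (T n) := fun n => by simp only [hT]; fun_prop
  have hTlim : ∀ t, Tendsto (fun n => T n t) atTop (𝓝 t) := by
    intro t
    obtain ⟨N, hN⟩ := exists_nat_ge |t|
    refine tendsto_const_nhds.congr' ?_
    filter_upwards [eventually_ge_atTop N] with n hn
    have h1 : |t| ≤ n := hN.trans (by exact_mod_cast hn)
    have h2 := abs_le.1 h1
    simp only [hT]
    rw [min_eq_right h2.2, max_eq_right h2.1]
  have hintf : Integrable f μ := by
    refine StrongConvexOn.integrable_gibbs hκ hH hc hfc.aestronglyMeasurable (C := D) (n := 1)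
      (a := 0) (fun x => ?_)
    simpa using hgrow x
  have hintD : ∀ n : ℕ, Integrable (fun x : E => (D * (1 + ‖x‖)) ^ n) μ := by
    intro n
    refine StrongConvexOn.integrable_gibbs hκ hH hc (by fun_prop) (C := D ^ n) (n := n)
      (a := 0) (fun x => ?_)
    rw [Real.norm_of_nonneg (by positivity)]
    simp [mul_pow]
  set m : ℕ → ℝ := fun n => ∫ y, T n (f y) ∂μ with hm
  have hmlim : Tendsto m atTop (𝓝 (∫ y, f y ∂μ)) := by
    refine tendsto_integral_of_dominated_convergence (fun x => D * (1 + ‖x‖))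
      (fun n => ((hTc n).comp hfc).aestronglyMeasurable) ?_ (fun n => Eventually.of_forall
      fun x => ?_) (Eventually.of_forall fun x => hTlim (f x))
    · simpa using hintD 1
    · exact (hTabs2 n (f x)).trans (hgrow x)
  have hmb : ∀ n, |m n| ≤ ∫ x, D * (1 + ‖x‖) ∂μ := by
    intro n
    rw [← Real.norm_eq_abs]
    refine (norm_integral_le_integral_norm (fun y => T n (f y))).trans ?_
    refine integral_mono_of_nonneg (Eventually.of_forall fun x => norm_nonneg _)
      (by simpa using hintD 1) (Eventually.of_forall fun x => ?_)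
    exact (hTabs2 n (f x)).trans (hgrow x)
  have hvar : ∀ n, ∫ x, (T n (f x) - m n) ^ 2 ∂μ ≤ L ^ 2 / κ := by
    intro n
    refine var_lip_aux hκ hH hc (B := 2 * n) hL (by have := (hTc n).comp hfc; fun_prop) ?_ ?_ ?_
    · intro x
      have h1 := hTabs n (f x)
      have h2 : |m n| ≤ n := by
        rw [← Real.norm_eq_abs]
        refine (norm_integral_le_integral_norm (fun y => T n (f y))).trans ?_
        calc ∫ y, ‖T n (f y)‖ ∂μ ≤ ∫ y, (n : ℝ) ∂μ := by
              refine integral_mono_of_nonneg (Eventually.of_forall fun x => norm_nonneg _)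
                (integrable_const _) (Eventually.of_forall fun x => hTabs n (f x))
          _ = n := by simp
      calc |T n (f x) - m n| ≤ |T n (f x)| + |m n| := abs_sub _ _
        _ ≤ 2 * n := by linarith
    · intro x y
      have : T n (f x) - m n - (T n (f y) - m n) = T n (f x) - T n (f y) := by ring
      rw [this]
      exact (hTlip n _ _).trans (hLip x y)
    · rw [integral_sub]
      · simp [hm, ← hμ]
      · exact Integrable.of_bound ((hTc n).comp hfc).aestronglyMeasurable n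
          (Eventually.of_forall fun x => hTabs n (f x))
      · exact integrable_const _
  have hlim : Tendsto (fun n => ∫ x, (T n (f x) - m n) ^ 2 ∂μ) atTop
      (𝓝 (∫ x, (f x - ∫ y, f y ∂μ) ^ 2 ∂μ)) := by
    set M := ∫ x, D * (1 + ‖x‖) ∂μ with hM
    refine tendsto_integral_of_dominated_convergence
      (fun x => 2 * (D * (1 + ‖x‖)) ^ 2 + 2 * M ^ 2)
      (fun n => by
        have := (hTc n).comp hfc
        exact (by fun_prop : Continuous fun x => (T n (f x) - m n) ^ 2).aestronglyMeasurable)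
      ?_ (fun n => Eventually.of_forall fun x => ?_)
      (Eventually.of_forall fun x => ((hTlim (f x)).sub hmlim).pow 2)
    · exact ((hintD 2).const_mul 2).add (integrable_const _)
    · rw [Real.norm_of_nonneg (by positivity)]
      have h1 : |T n (f x)| ≤ D * (1 + ‖x‖) := (hTabs2 n (f x)).trans (hgrow x)
      have h2 := hmb n
      have h3 : T n (f x) ^ 2 ≤ (D * (1 + ‖x‖)) ^ 2 := by
        rw [← sq_abs]; gcongr
      have h4 : m n ^ 2 ≤ M ^ 2 := by
        rw [← sq_abs]; gcongr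
      nlinarith [sq_nonneg (T n (f x) + m n)]
  exact le_of_tendsto' hlim hvar

/-- bounded `C¹`, mean zero, uniformly continuous bounded derivative -/
lemma poinc_aux {H : E → ℝ} {κ : ℝ} (hκ : 0 < κ)
    (hH : StrongConvexOn univ κ H) (hc : Continuous H) {f : E → ℝ} {B L : ℝ}
    (hf : ContDiff ℝ 1 f) (hB : ∀ x, |f x| ≤ B) (hL : ∀ x, ‖fderiv ℝ f x‖ ≤ L)
    (hu : UniformContinuous (fderiv ℝ f))
    (hmean : ∫ x, f x ∂(gibbs H) = 0) :
    ∫ x, f x ^ 2 ∂(gibbs H) ≤ (∫ x, ‖fderiv ℝ f x‖ ^ 2 ∂(gibbs H)) / κ := by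
  have hprob := isProbabilityMeasure_gibbs (StrongConvexOn.integrable_exp hκ hH hc)
  set μ := gibbs H with hμ
  have hL0 : 0 ≤ L := (norm_nonneg _).trans (hL 0)
  have hdc : Continuous (fderiv ℝ f) := hf.continuous_fderiv one_ne_zero
  have hdiff : Differentiable ℝ f := hf.differentiable (by norm_num)
  have hbdd : ∀ (g : E → ℝ) (K : ℝ), Continuous g → (∀ x, |g x| ≤ K) → Integrable g μ := by
    intro g K hg hK
    exact Integrable.of_bound hg.aestronglyMeasurable K
      (Eventually.of_forall fun x => by simpa using hK x)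
  have hd1 : Integrable (fun x => ‖fderiv ℝ f x‖) μ :=
    hbdd _ L hdc.norm (fun x => by rw [abs_of_nonneg (norm_nonneg _)]; exact hL x)
  have hd2 : Integrable (fun x => ‖fderiv ℝ f x‖ ^ 2) μ :=
    hbdd _ (L ^ 2) (hdc.norm.pow 2) (fun x => by
      rw [abs_of_nonneg (by positivity)]
      have := hL x
      gcongr)
  have key : ∀ δ : ℝ, 0 < δ → δ ≤ 1 →
      ∫ x, f x ^ 2 ∂μ ≤ (∫ x, ‖fderiv ℝ f x‖ ^ 2 ∂μ) / κ + δ * ((2 * L + 1) / κ) := by
    intro δ hδ hδ1
    obtain ⟨ρ, hρ, hρ2⟩ := Metric.uniformContinuous_iff.1 hu δ hδ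
    have h1 := tau_limit hκ hH hc (f := f) (w := fun x => (‖fderiv ℝ f x‖ + δ) ^ 2 / κ)
      (W := (L + δ) ^ 2 / κ) (B := B) (ε₀ := κ * ρ / (4 * (L + 1))) hdiff.continuous.measurable
      (by have := hdc.norm; exact (by fun_prop : Continuous _).measurable) hB
      (fun x => by positivity) (fun x => by have := hL x; gcongr) hmean (by positivity) ?_
    · refine h1.trans ?_
      have h2 : ∫ x, (‖fderiv ℝ f x‖ + δ) ^ 2 / κ ∂μ
          ≤ ∫ x, (‖fderiv ℝ f x‖ ^ 2 / κ + δ * ((2 * L + 1) / κ)) ∂μ := by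
        refine integral_mono ?_ ((hd2.div_const κ).add (integrable_const _)) (fun x => ?_)
        · refine hbdd _ ((L + δ) ^ 2 / κ) (by have := hdc.norm; fun_prop) (fun x => ?_)
          rw [abs_of_nonneg (by positivity)]
          have := hL x
          gcongr
        · simp only
          have h3 : (‖fderiv ℝ f x‖ + δ) ^ 2 ≤ ‖fderiv ℝ f x‖ ^ 2 + δ * (2 * L + 1) := by
            have := hL x
            nlinarith [mul_nonneg hδ.le (sub_nonneg.2 this), mul_nonneg hδ.le (sub_nonneg.2 hδ1)]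
          calc (‖fderiv ℝ f x‖ + δ) ^ 2 / κ ≤ (‖fderiv ℝ f x‖ ^ 2 + δ * (2 * L + 1)) / κ := by
                gcongr
            _ = _ := by ring
      refine h2.trans (le_of_eq ?_)
      rw [integral_add (hd2.div_const κ) (integrable_const _), integral_div]
      simp
    · intro ε hε hεle x y
      set r := ‖x - y‖ with hr
      have hr0 : 0 ≤ r := norm_nonneg _
      rcases lt_or_ge r ρ with hlt | hge
      · -- close
        have hmv : |f x - f y| ≤ (‖fderiv ℝ f x‖ + δ) * r := by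
          have hconv : Convex ℝ (Metric.ball x ρ) := convex_ball x ρ
          have h3 := hconv.norm_image_sub_le_of_norm_fderiv_le (𝕜 := ℝ) (f := f)
            (C := ‖fderiv ℝ f x‖ + δ) (fun z _ => hdiff z) (fun z hz => ?_)
            (x := y) (y := x) ?_ (Metric.mem_ball_self hρ)
          · simpa [Real.norm_eq_abs] using h3
          · have h4 := hρ2 (show dist z x < ρ from hz)
            rw [dist_eq_norm] at h4
            have h5 := norm_sub_norm_le (fderiv ℝ f z) (fderiv ℝ f x)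
            linarith
          · rw [Metric.mem_ball, dist_comm, dist_eq_norm]
            exact hlt
        have h4 := (abs_le.1 hmv).2
        set a := ‖fderiv ℝ f x‖ + δ with ha
        have h5 : 0 ≤ (ε * a - κ / 2 * r) ^ 2 / κ := by positivity
        have e : (ε * a - κ / 2 * r) ^ 2 / κ
            = ε ^ 2 * (a ^ 2 / κ) - ε * a * r + κ / 4 * r ^ 2 := by
          field_simp; ring
        have h6 : ε * (f x - f y) ≤ ε * (a * r) := by gcongr
        nlinarith
      · have hmv : |f x - f y| ≤ L * r := by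
          have h3 := (convex_univ (𝕜 := ℝ) (E := E)).norm_image_sub_le_of_norm_fderiv_le (𝕜 := ℝ)
            (f := f) (C := L) (fun z _ => hdiff z) (fun z _ => hL z)
            (x := y) (y := x) (mem_univ _) (mem_univ _)
          simpa [Real.norm_eq_abs] using h3
        have h4 := (abs_le.1 hmv).2
        have h5 : ε * (4 * (L + 1)) ≤ κ * ρ := by
          rwa [le_div_iff₀ (by positivity)] at hεle
        have h6 : ε * (f x - f y) ≤ ε * (L * r) := by gcongr
        have h7 : 4 * ε * L ≤ κ * r := by nlinarith [mul_nonneg hκ.le (sub_nonneg.2 hge)]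
        have h8 : 0 ≤ r * (κ * r - 4 * ε * L) := mul_nonneg hr0 (by linarith)
        have h9 : 0 ≤ ε ^ 2 * ((‖fderiv ℝ f x‖ + δ) ^ 2 / κ) := by positivity
        nlinarith
  refine le_of_forall_pos_le_add fun η hη => ?_
  have hK : 0 < (2 * L + 1) / κ := by positivity
  have h1 := key (min 1 (η / ((2 * L + 1) / κ))) (by positivity) (min_le_left _ _)
  refine h1.trans ?_
  have h2 : min 1 (η / ((2 * L + 1) / κ)) * ((2 * L + 1) / κ) ≤ η := by
    have h3 : min 1 (η / ((2 * L + 1) / κ)) ≤ η / ((2 * L + 1) / κ) := min_le_right _ _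
    rwa [le_div_iff₀ hK] at h3
  linarith

/-- compactly supported `C¹` -/
lemma poinc_cs {H : E → ℝ} {κ : ℝ} (hκ : 0 < κ)
    (hH : StrongConvexOn univ κ H) (hc : Continuous H) {f : E → ℝ}
    (hf : ContDiff ℝ 1 f) (hs : HasCompactSupport f) :
    ∫ x, (f x - ∫ y, f y ∂(gibbs H)) ^ 2 ∂(gibbs H)
      ≤ (∫ x, ‖fderiv ℝ f x‖ ^ 2 ∂(gibbs H)) / κ := by
  have hprob := isProbabilityMeasure_gibbs (StrongConvexOn.integrable_exp hκ hH hc)
  set μ := gibbs H with hμ
  set m := ∫ y, f y ∂μ with hm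
  have hdc : Continuous (fderiv ℝ f) := hf.continuous_fderiv one_ne_zero
  obtain ⟨B, hB⟩ := hs.exists_bound_of_continuous hf.continuous
  obtain ⟨L, hL⟩ := (hs.fderiv (𝕜 := ℝ)).exists_bound_of_continuous hdc
  have hfd : ∀ x, fderiv ℝ (fun x => f x - m) x = fderiv ℝ f x := fun x => fderiv_sub_const _
  have h := poinc_aux hκ hH hc (f := fun x => f x - m) (B := B + |m|) (L := L)
    (hf.sub contDiff_const) (fun x => ?_) (fun x => ?_) ?_ ?_
  · simpa only [hfd] using h
  · have := hB x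
    rw [Real.norm_eq_abs] at this
    exact (abs_sub _ _).trans (by gcongr)
  · rw [hfd]; exact hL x
  · have : fderiv ℝ (fun x => f x - m) = fderiv ℝ f := funext hfd
    rw [this]
    exact hdc.uniformContinuous_of_tendsto_cocompact (hs.fderiv (𝕜 := ℝ)).is_zero_at_infty
  · rw [integral_sub _ (integrable_const _)]
    · simp [hm, ← hμ]
    · exact Integrable.of_bound hf.continuous.aestronglyMeasurable B (Eventually.of_forall hB)

/-- **Poincare inequality**, `C¹` functions of polynomial growth. -/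
theorem poincare {H : E → ℝ} {κ : ℝ} (hκ : 0 < κ)
    (hH : StrongConvexOn univ κ H) (hc : Continuous H) {f : E → ℝ}
    (hf : ContDiff ℝ 1 f) {C : ℝ} {N : ℕ} (hfC : ∀ x, |f x| ≤ C * (1 + ‖x‖) ^ N)
    (hdC : ∀ x, ‖fderiv ℝ f x‖ ≤ C * (1 + ‖x‖) ^ N) :
    ∫ x, (f x - ∫ y, f y ∂(gibbs H)) ^ 2 ∂(gibbs H)
      ≤ (∫ x, ‖fderiv ℝ f x‖ ^ 2 ∂(gibbs H)) / κ := by
  have hprob := isProbabilityMeasure_gibbs (StrongConvexOn.integrable_exp hκ hH hc)
  set μ := gibbs H with hμ
  have hC0 : 0 ≤ C := by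
    have := (abs_nonneg _).trans (hfC 0)
    simpa using this
  have hdc : Continuous (fderiv ℝ f) := hf.continuous_fderiv one_ne_zero
  have hint : ∀ (n : ℕ) (D : ℝ), Integrable (fun x : E => D * (1 + ‖x‖) ^ n) μ := by
    intro n D
    refine StrongConvexOn.integrable_gibbs hκ hH hc (by fun_prop) (C := |D|) (n := n)
      (a := 0) (fun x => ?_)
    rw [norm_mul, Real.norm_of_nonneg (by positivity : (0:ℝ) ≤ (1 + ‖x‖) ^ n)]
    simp
  let χ : ContDiffBump (0 : E) := ⟨1, 2, one_pos, one_lt_two⟩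
  have hχ1 : ContDiff ℝ 1 (χ : E → ℝ) := χ.contDiff
  have hχs : HasCompactSupport (χ : E → ℝ) := χ.hasCompactSupport
  obtain ⟨M, hM⟩ := (hχs.fderiv (𝕜 := ℝ)).exists_bound_of_continuous
    (hχ1.continuous_fderiv one_ne_zero)
  have hM0 : 0 ≤ M := (norm_nonneg _).trans (hM 0)
  set c : ℕ → ℝ := fun n => ((n : ℝ) + 1)⁻¹ with hcdef
  have hc0 : ∀ n, 0 < c n := fun n => by simp only [hcdef]; positivity
  have hc1 : ∀ n, c n ≤ 1 := fun n => by
    simp only [hcdef]
    exact inv_le_one_of_one_le₀ (by linarith [(Nat.cast_nonneg n : (0:ℝ) ≤ n)])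
  set X : ℕ → E → ℝ := fun n x => χ (c n • x) with hX
  have hXc : ∀ n, ContDiff ℝ 1 (X n) := fun n => hχ1.comp (contDiff_const_smul (c n))
  have hX01 : ∀ n x, 0 ≤ X n x ∧ X n x ≤ 1 := fun n x => ⟨χ.nonneg, χ.le_one⟩
  have hXd : ∀ n x, ‖fderiv ℝ (X n) x‖ ≤ M := by
    intro n x
    have h1 : fderiv ℝ (X n) x = c n • fderiv ℝ (χ : E → ℝ) (c n • x) := by
      simp only [hX]
      exact fderiv_comp_smul (f := (χ : E → ℝ)) (x := x) (c n)
    rw [h1, norm_smul, Real.norm_of_nonneg (hc0 n).le]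
    calc c n * ‖fderiv ℝ (χ : E → ℝ) (c n • x)‖ ≤ 1 * M := by
          gcongr
          · exact hc1 n
          · exact hM _
      _ = M := one_mul M
  have hXs : ∀ n, HasCompactSupport (X n) := fun n => hχs.comp_smul (hc0 n).ne'
  have hX1 : ∀ (x : E) (n : ℕ), ‖x‖ < n + 1 → X n x = 1 := by
    intro x n hx
    apply χ.one_of_mem_closedBall
    rw [mem_closedBall_zero_iff, norm_smul, Real.norm_of_nonneg (hc0 n).le]
    show c n * ‖x‖ ≤ 1
    simp only [hcdef]
    rw [inv_mul_le_iff₀ (by positivity)]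
    linarith
  have hX1e : ∀ (x : E) (n : ℕ), ‖x‖ < n + 1 → X n =ᶠ[𝓝 x] fun _ => 1 := by
    intro x n hx
    have : {y : E | ‖y‖ < n + 1} ∈ 𝓝 x := (isOpen_lt continuous_norm continuous_const).mem_nhds hx
    filter_upwards [this] with y hy
    exact hX1 y n hy
  set F : ℕ → E → ℝ := fun n x => X n x * f x with hF
  have hFc : ∀ n, ContDiff ℝ 1 (F n) := fun n => (hXc n).mul hf
  have hFs : ∀ n, HasCompactSupport (F n) := fun n => (hXs n).mul_right
  have hFb : ∀ n x, |F n x| ≤ C * (1 + ‖x‖) ^ N := by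
    intro n x
    simp only [hF]
    rw [abs_mul, abs_of_nonneg (hX01 n x).1]
    calc X n x * |f x| ≤ 1 * |f x| := by gcongr; exact (hX01 n x).2
      _ ≤ _ := by rw [one_mul]; exact hfC x
  have hFd : ∀ n x, ‖fderiv ℝ (F n) x‖ ≤ (1 + M) * (C * (1 + ‖x‖) ^ N) := by
    intro n x
    have h1 : fderiv ℝ (F n) x = X n x • fderiv ℝ f x + f x • fderiv ℝ (X n) x := by
      simp only [hF]
      exact fderiv_fun_mul ((hXc n).differentiable (by norm_num) x)
        (hf.differentiable (by norm_num) x)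
    rw [h1]
    calc ‖X n x • fderiv ℝ f x + f x • fderiv ℝ (X n) x‖
        ≤ ‖X n x • fderiv ℝ f x‖ + ‖f x • fderiv ℝ (X n) x‖ := norm_add_le _ _
      _ ≤ 1 * (C * (1 + ‖x‖) ^ N) + (C * (1 + ‖x‖) ^ N) * M := by
          rw [norm_smul, norm_smul, Real.norm_of_nonneg (hX01 n x).1, Real.norm_eq_abs]
          gcongr
          · exact (hX01 n x).2
          · exact hdC x
          · exact hfC x
          · exact hXd n x
      _ = _ := by ring
  have hFlim : ∀ x, ∀ᶠ n in atTop, F n x = f x := by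
    intro x
    obtain ⟨n0, hn0⟩ := exists_nat_ge ‖x‖
    filter_upwards [eventually_ge_atTop n0] with n hn
    have : ‖x‖ < n + 1 := by
      have : (n0 : ℝ) ≤ n := by exact_mod_cast hn
      linarith
    simp only [hF]
    rw [hX1 x n this, one_mul]
  have hFdlim : ∀ x, ∀ᶠ n in atTop, fderiv ℝ (F n) x = fderiv ℝ f x := by
    intro x
    obtain ⟨n0, hn0⟩ := exists_nat_ge ‖x‖
    filter_upwards [eventually_ge_atTop n0] with n hn
    have : ‖x‖ < n + 1 := by
      have : (n0 : ℝ) ≤ n := by exact_mod_cast hn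
      linarith
    apply Filter.EventuallyEq.fderiv_eq
    filter_upwards [hX1e x n this] with y hy
    simp only [hF]
    rw [hy, one_mul]
  set m : ℕ → ℝ := fun n => ∫ y, F n y ∂μ with hm
  have hmlim : Tendsto m atTop (𝓝 (∫ y, f y ∂μ)) := by
    refine tendsto_integral_of_dominated_convergence (fun x => C * (1 + ‖x‖) ^ N)
      (fun n => (hFc n).continuous.aestronglyMeasurable) (hint N C)
      (fun n => Eventually.of_forall fun x => hFb n x) (Eventually.of_forall fun x => ?_)
    exact tendsto_const_nhds.congr' ((hFlim x).mono fun n hn => hn.symm)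
  have hmb : ∀ n, |m n| ≤ ∫ x, C * (1 + ‖x‖) ^ N ∂μ := by
    intro n
    rw [← Real.norm_eq_abs]
    refine (norm_integral_le_integral_norm (fun y => F n y)).trans ?_
    exact integral_mono_of_nonneg (Eventually.of_forall fun x => norm_nonneg _) (hint N C)
      (Eventually.of_forall fun x => hFb n x)
  have hineq : ∀ n, ∫ x, (F n x - m n) ^ 2 ∂μ ≤ (∫ x, ‖fderiv ℝ (F n) x‖ ^ 2 ∂μ) / κ :=
    fun n => poinc_cs hκ hH hc (hFc n) (hFs n)
  have hlim1 : Tendsto (fun n => ∫ x, (F n x - m n) ^ 2 ∂μ) atTop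
      (𝓝 (∫ x, (f x - ∫ y, f y ∂μ) ^ 2 ∂μ)) := by
    set K := ∫ x, C * (1 + ‖x‖) ^ N ∂μ with hK
    refine tendsto_integral_of_dominated_convergence
      (fun x => 2 * (C * (1 + ‖x‖) ^ N) ^ 2 + 2 * K ^ 2)
      (fun n => by
        have := (hFc n).continuous
        exact (by fun_prop : Continuous fun x => (F n x - m n) ^ 2).aestronglyMeasurable)
      ?_ (fun n => Eventually.of_forall fun x => ?_)
      (Eventually.of_forall fun x => ?_)
    · refine Integrable.add ?_ (integrable_const _)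
      have := hint (N * 2) (2 * C ^ 2)
      refine this.congr (Eventually.of_forall fun x => ?_)
      simp only
      ring
    · rw [Real.norm_of_nonneg (by positivity)]
      have h1 := hFb n x
      have h2 := hmb n
      have h3 : F n x ^ 2 ≤ (C * (1 + ‖x‖) ^ N) ^ 2 := by
        rw [← sq_abs]; gcongr
      have h4 : m n ^ 2 ≤ K ^ 2 := by
        rw [← sq_abs]; gcongr
      nlinarith [sq_nonneg (F n x + m n)]
    · have : Tendsto (fun n => F n x) atTop (𝓝 (f x)) :=
        tendsto_const_nhds.congr' ((hFlim x).mono fun n hn => hn.symm)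
      exact (this.sub hmlim).pow 2
  have hlim2 : Tendsto (fun n => (∫ x, ‖fderiv ℝ (F n) x‖ ^ 2 ∂μ) / κ) atTop
      (𝓝 ((∫ x, ‖fderiv ℝ f x‖ ^ 2 ∂μ) / κ)) := by
    refine Tendsto.div_const ?_ κ
    refine tendsto_integral_of_dominated_convergence
      (fun x => ((1 + M) * (C * (1 + ‖x‖) ^ N)) ^ 2)
      (fun n => (((hFc n).continuous_fderiv one_ne_zero).norm.pow 2).aestronglyMeasurable)
      ?_ (fun n => Eventually.of_forall fun x => ?_)
      (Eventually.of_forall fun x => ?_)
    · have := hint (N * 2) ((1 + M) ^ 2 * C ^ 2)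
      refine this.congr (Eventually.of_forall fun x => ?_)
      simp only
      ring
    · rw [Real.norm_of_nonneg (by positivity)]
      have := hFd n x
      gcongr
    · exact tendsto_const_nhds.congr' ((hFdlim x).mono fun n hn => by simp only [hn])
  exact le_of_tendsto_of_tendsto' hlim1 hlim2 hineq

end Crest.Agent.R285.Poin
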