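import Mathlib
import Crest.Agent.R285.Poin
import Crest.Agent.R285.Defs

/-!
# Row 285: Poincare inequality, vector valued; the posterior laws
-/

set_option autoImplicit false

open MeasureTheory Set Filter Topology
open scoped ENNReal InnerProductSpace

namespace Crest.Agent.R285.Poin

section general

variable {E : Type*} [NormedAddCommGroup E] [InnerProductSpace ℝ E] [FiniteDimensional ℝ E]
  [MeasurableSpace E] [BorelSpace E]
variable {F : Type*} [NormedAddCommGroup F] [InnerProductSpace ℝ F] [FiniteDimensional ℝ F]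

omit [MeasurableSpace E] [BorelSpace E] in
lemma norm_sq_functional {ι : Type*} [Fintype ι] (b : OrthonormalBasis ι ℝ E) (φ : E →L[ℝ] ℝ) :
    ‖φ‖ ^ 2 = ∑ i, φ (b i) ^ 2 := by
  set v : E := (InnerProductSpace.toDual ℝ E).symm φ with hv
  have h1 : ‖φ‖ = ‖v‖ := by simp [hv]
  have h2 : ∀ x, φ x = ⟪v, x⟫_ℝ := by
    intro x
    rw [hv, InnerProductSpace.toDual_symm_apply]
  rw [h1, ← b.sum_sq_norm_inner_left v]
  refine Finset.sum_congr rfl fun i _ => ?_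
  rw [h2, Real.norm_eq_abs, sq_abs]

omit [FiniteDimensional ℝ F] in
lemma norm_sq_basis {ι : Type*} [Fintype ι] (u : OrthonormalBasis ι ℝ F) (v : F) :
    ‖v‖ ^ 2 = ∑ j, ⟪u j, v⟫_ℝ ^ 2 := by
  rw [← u.sum_sq_norm_inner_right v]
  refine Finset.sum_congr rfl fun i _ => ?_
  rw [Real.norm_eq_abs, sq_abs]

/-- **Poincare inequality**, vector valued, Hilbert–Schmidt norm of the derivative. -/
theorem poincare_vec {H : E → ℝ} {κ : ℝ} (hκ : 0 < κ)
    (hH : StrongConvexOn univ κ H) (hc : Continuous H) {f : E → F}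
    (hf : ContDiff ℝ 1 f) {C : ℝ} {N : ℕ} (hfC : ∀ x, ‖f x‖ ≤ C * (1 + ‖x‖) ^ N)
    (hdC : ∀ x, ‖fderiv ℝ f x‖ ≤ C * (1 + ‖x‖) ^ N)
    {ι : Type*} [Fintype ι] (b : OrthonormalBasis ι ℝ E) :
    ∫ x, ‖f x - ∫ y, f y ∂(gibbs H)‖ ^ 2 ∂(gibbs H)
      ≤ (∫ x, ∑ i, ‖fderiv ℝ f x (b i)‖ ^ 2 ∂(gibbs H)) / κ := by
  have hprob := isProbabilityMeasure_gibbs (StrongConvexOn.integrable_exp hκ hH hc)
  set μ := gibbs H with hμ
  set u := stdOrthonormalBasis ℝ F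
  have hC0 : 0 ≤ C := by
    have := (norm_nonneg _).trans (hfC 0)
    simpa using this
  have hint : ∀ (g : E → ℝ) (D : ℝ) (n : ℕ),
      Continuous g → (∀ x, ‖g x‖ ≤ D * (1 + ‖x‖) ^ n) → Integrable g μ := by
    intro g D n hg hgD
    refine StrongConvexOn.integrable_gibbs hκ hH hc hg.aestronglyMeasurable (C := D) (n := n)
      (a := 0) (fun x => ?_)
    simpa using hgD x
  have hfi : Integrable f μ := by
    refine StrongConvexOn.integrable_gibbs hκ hH hc hf.continuous.aestronglyMeasurable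
      (C := C) (n := N) (a := 0) (fun x => ?_)
    simpa using hfC x
  have hdc : Continuous (fderiv ℝ f) := hf.continuous_fderiv one_ne_zero
  have hfd : ∀ j x, fderiv ℝ (fun y => ⟪u j, f y⟫_ℝ) x
      = (innerSL ℝ (u j)).comp (fderiv ℝ f x) := by
    intro j x
    have h := ((innerSL ℝ (u j)).hasFDerivAt (x := f x)).comp x
      (hf.differentiable (by norm_num) x).hasFDerivAt
    exact h.fderiv
  have hunorm : ∀ j, ‖(innerSL ℝ (u j) : F →L[ℝ] ℝ)‖ = 1 := fun j => by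
    rw [innerSL_apply_norm, u.norm_eq_one]
  have hcomp : ∀ j, ∫ x, (⟪u j, f x⟫_ℝ - ∫ y, ⟪u j, f y⟫_ℝ ∂μ) ^ 2 ∂μ
      ≤ (∫ x, ‖fderiv ℝ (fun y => ⟪u j, f y⟫_ℝ) x‖ ^ 2 ∂μ) / κ := by
    intro j
    refine poincare hκ hH hc (C := C) (N := N) ?_ (fun x => ?_) (fun x => ?_)
    · exact contDiff_const.inner ℝ hf
    · refine (abs_real_inner_le_norm _ _).trans ?_
      rw [u.norm_eq_one, one_mul]
      exact hfC x
    · rw [hfd]
      refine (ContinuousLinearMap.opNorm_comp_le _ _).trans ?_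
      rw [hunorm, one_mul]
      exact hdC x
  have hsum1 : ∀ x, ‖f x - ∫ y, f y ∂μ‖ ^ 2
      = ∑ j, (⟪u j, f x⟫_ℝ - ∫ y, ⟪u j, f y⟫_ℝ ∂μ) ^ 2 := by
    intro x
    rw [norm_sq_basis u]
    refine Finset.sum_congr rfl fun j _ => ?_
    rw [inner_sub_right, integral_inner hfi (u j)]
  have hsum2 : ∀ x, ∑ i, ‖fderiv ℝ f x (b i)‖ ^ 2
      = ∑ j, ‖fderiv ℝ (fun y => ⟪u j, f y⟫_ℝ) x‖ ^ 2 := by
    intro x
    simp_rw [hfd, norm_sq_functional b, norm_sq_basis u]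
    rw [Finset.sum_comm]
    rfl
  simp_rw [hsum1, hsum2]
  rw [integral_finsetSum, integral_finsetSum, Finset.sum_div]
  · exact Finset.sum_le_sum fun j _ => hcomp j
  · intro j _
    refine hint (fun x => ‖fderiv ℝ (fun y => ⟪u j, f y⟫_ℝ) x‖ ^ 2) (C ^ 2) (N * 2) ?_
      (fun x => ?_)
    · have : ∀ x, fderiv ℝ (fun y => ⟪u j, f y⟫_ℝ) x
        = (innerSL ℝ (u j)).comp (fderiv ℝ f x) := hfd j
      simp_rw [this]
      fun_prop
    · rw [Real.norm_of_nonneg (by positivity), hfd]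
      have h1 : ‖(innerSL ℝ (u j)).comp (fderiv ℝ f x)‖ ≤ C * (1 + ‖x‖) ^ N := by
        refine (ContinuousLinearMap.opNorm_comp_le _ _).trans ?_
        rw [hunorm, one_mul]
        exact hdC x
      calc ‖(innerSL ℝ (u j)).comp (fderiv ℝ f x)‖ ^ 2 ≤ (C * (1 + ‖x‖) ^ N) ^ 2 := by gcongr
        _ = C ^ 2 * (1 + ‖x‖) ^ (N * 2) := by ring
  · intro j _
    set m := ∫ y, ⟪u j, f y⟫_ℝ ∂μ with hm
    have hfj : Continuous fun x => ⟪u j, f x⟫_ℝ := continuous_const.inner hf.continuous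
    refine hint (fun x => (⟪u j, f x⟫_ℝ - m) ^ 2) ((C + |m|) ^ 2) (N * 2) (by fun_prop)
      (fun x => ?_)
    rw [Real.norm_of_nonneg (by positivity)]
    have h1 : |⟪u j, f x⟫_ℝ - m| ≤ (C + |m|) * (1 + ‖x‖) ^ N := by
      have h2 : |⟪u j, f x⟫_ℝ| ≤ C * (1 + ‖x‖) ^ N := by
        refine (abs_real_inner_le_norm _ _).trans ?_
        rw [u.norm_eq_one, one_mul]
        exact hfC x
      have h3 : (1 : ℝ) ≤ (1 + ‖x‖) ^ N := one_le_pow₀ (by linarith [norm_nonneg x])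
      calc |⟪u j, f x⟫_ℝ - m| ≤ |⟪u j, f x⟫_ℝ| + |m| := abs_sub _ _
        _ ≤ C * (1 + ‖x‖) ^ N + |m| * (1 + ‖x‖) ^ N := by
            gcongr
            nlinarith [abs_nonneg m]
        _ = _ := by ring
    calc (⟪u j, f x⟫_ℝ - m) ^ 2 = |⟪u j, f x⟫_ℝ - m| ^ 2 := (sq_abs _).symm
      _ ≤ ((C + |m|) * (1 + ‖x‖) ^ N) ^ 2 := by gcongr
      _ = _ := by ring

/-- Covariance form. -/
theorem poincare_cov {H : E → ℝ} {κ : ℝ} (hκ : 0 < κ)
    (hH : StrongConvexOn univ κ H) (hc : Continuous H) {f g : E → ℝ}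
    (hf : ContDiff ℝ 1 f) (hg : ContDiff ℝ 1 g) {C : ℝ} {N : ℕ}
    (hfC : ∀ x, |f x| ≤ C * (1 + ‖x‖) ^ N) (hdfC : ∀ x, ‖fderiv ℝ f x‖ ≤ C * (1 + ‖x‖) ^ N)
    (hgC : ∀ x, |g x| ≤ C * (1 + ‖x‖) ^ N) (hdgC : ∀ x, ‖fderiv ℝ g x‖ ≤ C * (1 + ‖x‖) ^ N) :
    |∫ x, (f x - ∫ y, f y ∂(gibbs H)) * (g x - ∫ y, g y ∂(gibbs H)) ∂(gibbs H)|
      ≤ √(∫ x, ‖fderiv ℝ f x‖ ^ 2 ∂(gibbs H)) * √(∫ x, ‖fderiv ℝ g x‖ ^ 2 ∂(gibbs H)) / κ := by
  have hprob := isProbabilityMeasure_gibbs (StrongConvexOn.integrable_exp hκ hH hc)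
  set μ := gibbs H with hμ
  have hC0 : 0 ≤ C := by
    have := (abs_nonneg _).trans (hfC 0)
    simpa using this
  have hf1 := poincare hκ hH hc hf hfC hdfC
  have hg1 := poincare hκ hH hc hg hgC hdgC
  rw [← hμ] at hf1 hg1
  set mf := ∫ y, f y ∂μ
  set mg := ∫ y, g y ∂μ
  have hint2 : ∀ (k : E → ℝ) (m : ℝ), Continuous k → (∀ x, |k x| ≤ C * (1 + ‖x‖) ^ N) →
      MemLp (fun x => k x - m) 2 μ := by
    intro k m hk hkC
    rw [memLp_two_iff_integrable_sq (by fun_prop)]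
    refine StrongConvexOn.integrable_gibbs hκ hH hc (by fun_prop) (C := (C + |m|) ^ 2)
      (n := N * 2) (a := 0) (fun x => ?_)
    rw [Real.norm_of_nonneg (by positivity)]
    have h1 : |k x - m| ≤ (C + |m|) * (1 + ‖x‖) ^ N := by
      have h3 : (1 : ℝ) ≤ (1 + ‖x‖) ^ N := one_le_pow₀ (by linarith [norm_nonneg x])
      calc |k x - m| ≤ |k x| + |m| := abs_sub _ _
        _ ≤ C * (1 + ‖x‖) ^ N + |m| * (1 + ‖x‖) ^ N := by
            gcongr
            · exact hkC x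
            · nlinarith [abs_nonneg m]
        _ = _ := by ring
    calc (k x - m) ^ 2 = |k x - m| ^ 2 := (sq_abs _).symm
      _ ≤ ((C + |m|) * (1 + ‖x‖) ^ N) ^ 2 := by gcongr
      _ = (C + |m|) ^ 2 * ((1 + ‖x‖) ^ (N * 2) * Real.exp (0 * ‖x‖)) := by
          rw [zero_mul, Real.exp_zero]; ring
  have hcs := integral_mul_le_Lp_mul_Lq_of_nonneg (μ := μ) Real.HolderConjugate.two_two
    (f := fun x => |f x - mf|) (g := fun x => |g x - mg|)
    (Eventually.of_forall fun x => abs_nonneg _) (Eventually.of_forall fun x => abs_nonneg _)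
    (by
      have := (hint2 f mf hf.continuous hfC).abs
      rw [show ENNReal.ofReal 2 = 2 by norm_num]
      exact this)
    (by
      have := (hint2 g mg hg.continuous hgC).abs
      rw [show ENNReal.ofReal 2 = 2 by norm_num]
      exact this)
  have e1 : ∀ k : E → ℝ, ∀ m : ℝ,
      (∫ x, |k x - m| ^ (2 : ℝ) ∂μ) ^ (1 / (2 : ℝ)) = √(∫ x, (k x - m) ^ 2 ∂μ) := by
    intro k m
    rw [Real.sqrt_eq_rpow]
    congr 1
    refine integral_congr_ae (Eventually.of_forall fun x => ?_)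
    simp only
    rw [show (2 : ℝ) = ((2 : ℕ) : ℝ) by norm_num, Real.rpow_natCast, sq_abs]
  rw [e1, e1] at hcs
  calc |∫ x, (f x - mf) * (g x - mg) ∂μ| ≤ ∫ x, |f x - mf| * |g x - mg| ∂μ := by
        refine (abs_integral_le_integral_abs).trans (le_of_eq ?_)
        simp_rw [abs_mul]
    _ ≤ √(∫ x, (f x - mf) ^ 2 ∂μ) * √(∫ x, (g x - mg) ^ 2 ∂μ) := hcs
    _ ≤ √((∫ x, ‖fderiv ℝ f x‖ ^ 2 ∂μ) / κ) * √((∫ x, ‖fderiv ℝ g x‖ ^ 2 ∂μ) / κ) := by
        gcongr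
    _ = _ := by
        rw [Real.sqrt_div' _ hκ.le, Real.sqrt_div' _ hκ.le, div_mul_div_comm,
          Real.mul_self_sqrt hκ.le]

end general

section post

variable {V : Type} [NormedAddCommGroup V] [InnerProductSpace ℝ V] [FiniteDimensional ℝ V]
  [MeasurableSpace V] [BorelSpace V]

theorem post_eq_gibbs (U : V → ℝ) (c : V) (s : ℝ) :
    post U c s = gibbs (fun z => U z + ‖z - c‖ ^ 2 / (2 * s ^ 2)) := rfl

omit [FiniteDimensional ℝ V] [MeasurableSpace V] [BorelSpace V] in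
/-- `U + |z-c|²/(2 s²)` is `(κ + s⁻²)`-strongly convex if `U` is `κ`-strongly convex. -/
theorem strongConvexOn_post {U : V → ℝ} {κ : ℝ} (hU : StrongConvexOn univ κ U) (c : V) (s : ℝ) :
    StrongConvexOn univ (κ + (s ^ 2)⁻¹) (fun z => U z + ‖z - c‖ ^ 2 / (2 * s ^ 2)) := by
  rw [strongConvexOn_iff_convex] at hU ⊢
  have h1 : (fun z : V => U z + ‖z - c‖ ^ 2 / (2 * s ^ 2) - (κ + (s ^ 2)⁻¹) / 2 * ‖z‖ ^ 2)
      = fun z => (U z - κ / 2 * ‖z‖ ^ 2)
        + ((s ^ 2)⁻¹ / 2 * ‖c‖ ^ 2 - (s ^ 2)⁻¹ * ⟪z, c⟫_ℝ) := by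
    funext z
    rw [norm_sub_sq_real]
    ring_nf
  rw [h1]
  refine hU.add ⟨convex_univ, fun x _ y _ a b ha hb hab => le_of_eq ?_⟩
  simp only [smul_eq_mul, inner_add_left, real_inner_smul_left]
  have hb' : b = 1 - a := by linarith
  subst hb'
  ring

end post

end Crest.Agent.R285.Poin
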