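import Crest.Agent.R285.Channel
import Crest.Agent.R285.HJ
import Crest.Agent.R285.PoinVec

/-!
Row 285, module CHANNEL, part 2 (helper582): means and moments of the posterior laws.

For `hU : PotP h U`, `0 < s`, `n = finrank ℝ V`:
* `G_eq_integral`      : `G U s c = ∫ ∇U d(post U c s)`;
* `integral_sub_post`  : `∫ (z - c) d(post U c s) = - s² G U s c`;
* `integral_norm_sub_sq_post` : `∫ |z - m|² ≤ s² n`, `m` the mean;
* for `h s² ≤ 1/2`: `norm_G_le`, `integral_norm_sub_post_le`, `norm_G_sub_gradient_le`.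
-/

set_option autoImplicit false
set_option linter.unusedSectionVars false

open MeasureTheory ProbabilityTheory Real Set
open scoped RealInnerProductSpace ENNReal

noncomputable section

namespace Crest.Agent.R285

variable {V : Type} [NormedAddCommGroup V] [InnerProductSpace ℝ V] [FiniteDimensional ℝ V]
  [MeasurableSpace V] [BorelSpace V] {h : ℝ} {U : V → ℝ}

open Chan

theorem nice_of_pot (hU : PotP h U) : Nice U :=
  ⟨hU.cd.continuous.measurable, pot_nonneg hU⟩

theorem continuous_gradient (hU : PotP h U) : Continuous (gradient U) := by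
  have : gradient U = fun x => rz V (fderiv ℝ U x) := funext fun x => gradient_eq_rz U x
  rw [this]
  exact (rz V).continuous.comp (pot_cd1 hU).continuous

theorem norm_gradient_sub_le (hU : PotP h U) (x y : V) :
    ‖gradient U x - gradient U y‖ ≤ h * ‖x - y‖ := by
  rw [gradient_eq_rz, gradient_eq_rz, ← map_sub, norm_rz]
  exact pot_lip hU x y

theorem norm_gradient_le (hU : PotP h U) (x : V) : ‖gradient U x‖ ≤ h * ‖x‖ := by
  rw [gradient_eq_rz, norm_rz]
  exact pot_fderiv_le hU x

theorem integrable_gradient_post (hU : PotP h U) (c : V) {s : ℝ} (hs : 0 < s) :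
    Integrable (fun z => gradient U z) (post U c s) := by
  refine ((integrable_norm_post (nice_of_pot hU) c hs).const_mul h).mono'
    (continuous_gradient hU).aestronglyMeasurable (ae_of_all _ fun z => norm_gradient_le hU z)

theorem integrable_id_post (hU : Nice U) (c : V) {s : ℝ} (hs : 0 < s) :
    Integrable (fun z => z) (post U c s) := by
  refine (integrable_norm_post hU c hs).mono' (by fun_prop) (ae_of_all _ fun z => le_rfl)

theorem G_eq_integral (hU : PotP h U) (c : V) {s : ℝ} (hs : 0 < s) :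
    G U s c = ∫ z, gradient U z ∂(post U c s) := by
  have hN := nice_of_pot hU
  have e1 : ∫ z, rexp (-U z) • gradient U z ∂(gN c s) =
      ∫ g, rexp (-U (c + s • g)) • gradient U (c + s • g) ∂(stdGaussian V) := by
    rw [integral_gN]
    refine Continuous.aestronglyMeasurable ?_
    exact (Real.continuous_exp.comp hU.cd.continuous.neg).smul (continuous_gradient hU)
  have e2 : ∀ g : V, rexp (-U (c + s • g)) • gradient U (c + s • g) =
      rz V (-(fderiv ℝ (Ph U) (c + s • g))) := by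
    intro g
    rw [fderiv_ph hU, neg_neg, map_smul, ← gradient_eq_rz]
    rfl
  have e3 : ∫ g, rz V (-(fderiv ℝ (Ph U) (c + s • g))) ∂(stdGaussian V) =
      rz V (-(Zp1 U (s, c))) := by
    have h1 : Integrable (fun g : V => -(fderiv ℝ (Ph U) (c + s • g))) (stdGaussian V) :=
      (integrable_ph1 hU (s, c)).neg
    rw [ContinuousLinearMap.integral_comp_comm _ h1, integral_neg]
    rfl
  rw [integral_post hN c hs, e1]
  simp_rw [e2]
  rw [e3, gr_eq hU, Ub1, ← map_smul, smul_neg]
  rfl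

theorem integral_inner_sub_post (hU : PotP h U) (c : V) {s : ℝ} (hs : 0 < s) (v : V) :
    ∫ z, ⟪z - c, v⟫ ∂(post U c s) = -(s ^ 2) * ⟪G U s c, v⟫ := by
  have hN := nice_of_pot hU
  have hcont : Continuous fun z => rexp (-U z) :=
    Real.continuous_exp.comp hU.cd.continuous.neg
  have e1 : ∫ z, rexp (-U z) • ⟪z - c, v⟫ ∂(gN c s) =
      ∫ g, s * ⟪g, rexp (-U (c + s • g)) • v⟫ ∂(stdGaussian V) := by
    rw [integral_gN]
    · refine integral_congr_ae (ae_of_all _ fun g => ?_)
      simp only [add_sub_cancel_left, inner_smul_left, inner_smul_right, smul_eq_mul,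
        conj_trivial]
      ring
    · refine Continuous.aestronglyMeasurable ?_
      exact hcont.smul (by fun_prop)
  set F : V → V := fun g => rexp (-U (c + s • g)) • v with hF
  have hFd : ∀ g, HasFDerivAt F
      ((s • fderiv ℝ (Ph U) (c + s • g)).smulRight v) g := by
    intro g
    have h1 : HasFDerivAt (fun g : V => c + s • g) (s • ContinuousLinearMap.id ℝ V) g :=
      ((hasFDerivAt_id g).const_smul s).const_add c
    have h2 := (((ph_cd hU).differentiable two_ne_zero) (c + s • g)).hasFDerivAt.comp g h1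
    have h3 := h2.smul_const v
    refine HasFDerivAt.congr_fderiv h3 ?_
    ext w
    simp
  have hFc : ContDiff ℝ 1 F := by
    have : ContDiff ℝ 1 fun g => Ph U (c + s • g) :=
      ((ph_cd hU).of_le (by norm_num)).comp (by fun_prop)
    exact this.smul contDiff_const
  have hFb : ∀ g, ‖F g‖ ≤ ‖v‖ := by
    intro g
    rw [hF]
    simp only [norm_smul, Real.norm_eq_abs, abs_of_pos (Real.exp_pos _)]
    have := ph_le_one hU (c + s • g)
    calc rexp (-U (c + s • g)) * ‖v‖ ≤ 1 * ‖v‖ := by gcongr; exact this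
      _ = ‖v‖ := one_mul _
  have i0 : Integrable (fun g => F g) (stdGaussian V) :=
    Integrable.mono' (integrable_const ‖v‖) hFc.continuous.aestronglyMeasurable
      (ae_of_all _ hFb)
  have hn : Integrable (fun g : V => ‖g‖) (stdGaussian V) := by
    have := integrable_norm_pow_gN (0 : V) 1 1
    simpa [gN_one] using this
  have i1 : Integrable (fun g => ‖g‖ * ‖F g‖) (stdGaussian V) := by
    refine (hn.mul_const ‖v‖).mono' ?_ (ae_of_all _ fun g => ?_)
    · exact (continuous_norm.mul hFc.continuous.norm).aestronglyMeasurable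
    · rw [norm_mul, norm_norm, norm_norm]
      exact mul_le_mul_of_nonneg_left (hFb g) (norm_nonneg _)
  have i2 : Integrable (fun g => fderiv ℝ F g) (stdGaussian V) := by
    have h1 : (fun g => fderiv ℝ F g) =
        fun g => ((ContinuousLinearMap.smulRightL ℝ V V).flip v) (s • fderiv ℝ (Ph U) (c + s • g)) := by
      funext g
      rw [(hFd g).fderiv]
      rfl
    rw [h1]
    exact ContinuousLinearMap.integrable_comp _ ((integrable_ph1 hU (s, c)).smul s)
  have hst := stein hFc i0 i1 i2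
  have e2 : ∀ g, dvg F g = s * fderiv ℝ (Ph U) (c + s • g) v := by
    intro g
    rw [dvg, (hFd g).fderiv, trace_smulRight]
    rfl
  rw [integral_post hN c hs, e1, integral_const_mul, hst]
  simp_rw [e2]
  have h1 : Integrable (fun g : V => fderiv ℝ (Ph U) (c + s • g)) (stdGaussian V) :=
    integrable_ph1 hU (s, c)
  have e4 : ∫ g, fderiv ℝ (Ph U) (c + s • g) v ∂(stdGaussian V) = Zp1 U (s, c) v := by
    exact (ContinuousLinearMap.integral_apply h1 v).symm
  rw [integral_const_mul, e4, inner_gr hU, Ub1]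
  have e5 : wt U s c = Zp U (s, c) := rfl
  rw [e5, smul_eq_mul, _root_.neg_apply, _root_.smul_apply, smul_eq_mul]
  ring

/-- The mean of the posterior. -/
theorem integral_sub_post (hU : PotP h U) (c : V) {s : ℝ} (hs : 0 < s) :
    ∫ z, (z - c) ∂(post U c s) = -(s ^ 2) • G U s c := by
  have hP := isProbabilityMeasure_post (nice_of_pot hU) c hs
  have hi : Integrable (fun z => z - c) (post U c s) :=
    (integrable_id_post (nice_of_pot hU) c hs).sub (integrable_const c)
  refine ext_inner_left ℝ fun v => ?_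
  rw [← integral_inner hi v, inner_smul_right, real_inner_comm, ← integral_inner_sub_post hU c hs v]
  exact integral_congr_ae (ae_of_all _ fun z => real_inner_comm _ _)

theorem integral_id_post_eq (hU : PotP h U) (c : V) {s : ℝ} (hs : 0 < s) :
    ∫ z, z ∂(post U c s) = c - (s ^ 2) • G U s c := by
  have hP := isProbabilityMeasure_post (nice_of_pot hU) c hs
  have h1 := integral_sub_post hU c hs
  rw [integral_sub (integrable_id_post (nice_of_pot hU) c hs) (integrable_const c),
    integral_const, probReal_univ, one_smul, sub_eq_iff_eq_add] at h1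
  rw [h1, neg_smul]
  abel

/-- The variance of the posterior. -/
theorem integral_norm_sub_mean_sq_post (hU : PotP h U) (c : V) {s : ℝ} (hs : 0 < s) :
    ∫ z, ‖z - ∫ y, y ∂(post U c s)‖ ^ 2 ∂(post U c s) ≤ s ^ 2 * Module.finrank ℝ V := by
  have hP := isProbabilityMeasure_post (nice_of_pot hU) c hs
  have hc0 : StrongConvexOn univ (0 : ℝ) U := by
    rw [strongConvexOn_iff_convex]
    simpa using pot_convex hU
  have hH := Poin.strongConvexOn_post hc0 c s
  rw [zero_add] at hH
  have hHc : Continuous fun z : V => U z + ‖z - c‖ ^ 2 / (2 * s ^ 2) := by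
    have := hU.cd.continuous
    fun_prop
  have h1 := Poin.poincare_vec (inv_pos.2 (pow_pos hs 2)) hH hHc (f := fun z : V => z)
    contDiff_id (C := 1) (N := 1) (fun x => by simp) (fun x => by
      have : ‖fderiv ℝ (fun z : V => z) x‖ ≤ 1 := by
        rw [fderiv_fun_id]
        exact ContinuousLinearMap.norm_id_le
      have h2 := norm_nonneg x
      linarith) (stdOrthonormalBasis ℝ V)
  rw [← Poin.post_eq_gibbs] at h1
  refine h1.trans ?_
  have h2 : ∀ x : V, ∑ i, ‖fderiv ℝ (fun z : V => z) x (stdOrthonormalBasis ℝ V i)‖ ^ 2 =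
      (Module.finrank ℝ V : ℝ) := by
    intro x
    simp
  simp_rw [h2]
  rw [integral_const, probReal_univ, one_smul, div_inv_eq_mul, mul_comm]

theorem integral_norm_sub_post_le' (hU : PotP h U) (c : V) {s : ℝ} (hs : 0 < s) :
    ∫ z, ‖z - c‖ ∂(post U c s) ≤ s * √(Module.finrank ℝ V) + s ^ 2 * ‖G U s c‖ := by
  have hP := isProbabilityMeasure_post (nice_of_pot hU) c hs
  have hN := nice_of_pot hU
  set m := ∫ y, y ∂(post U c s) with hm
  have hi := integrable_id_post hN c hs
  have i1 : Integrable (fun z => ‖z - m‖) (post U c s) := (hi.sub (integrable_const m)).norm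
  have hmc : ‖m - c‖ = s ^ 2 * ‖G U s c‖ := by
    rw [hm, integral_id_post_eq hU c hs, sub_sub_cancel_left, norm_neg, norm_smul,
      Real.norm_eq_abs, abs_of_pos (pow_pos hs 2)]
  have i2 : Integrable (fun z => ‖z - m‖ ^ 2) (post U c s) := by
    have h2 := (integrable_norm_pow_post hN c hs 2).const_mul 2
    refine (h2.add (integrable_const (2 * ‖m‖ ^ 2))).mono' (by fun_prop) (ae_of_all _ fun z => ?_)
    rw [Real.norm_eq_abs, abs_of_nonneg (sq_nonneg _)]
    have h3 := norm_sub_le z m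
    have h4 := norm_nonneg (z - m)
    simp only [Pi.add_apply]
    nlinarith [sq_nonneg (‖z‖ - ‖m‖), norm_nonneg z, norm_nonneg m]
  have h5 : ∫ z, ‖z - m‖ ∂(post U c s) ≤ s * √(Module.finrank ℝ V) := by
    have hv := integral_norm_sub_mean_sq_post hU c hs
    rw [← hm] at hv
    have hJ : (∫ z, ‖z - m‖ ∂(post U c s)) ^ 2 ≤ ∫ z, ‖z - m‖ ^ 2 ∂(post U c s) := by
      have h6 : 0 ≤ ∫ z, (‖z - m‖ - ∫ w, ‖w - m‖ ∂(post U c s)) ^ 2 ∂(post U c s) :=
        integral_nonneg fun z => sq_nonneg _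
      set a := ∫ w, ‖w - m‖ ∂(post U c s) with ha
      have h7 : ∫ z, (‖z - m‖ - a) ^ 2 ∂(post U c s) = ∫ z, ‖z - m‖ ^ 2 ∂(post U c s) - a ^ 2 := by
        have h8 : ∀ z : V, (‖z - m‖ - a) ^ 2 = ‖z - m‖ ^ 2 - 2 * a * ‖z - m‖ + a ^ 2 := fun z => by
          ring
        simp_rw [h8]
        have i3 : Integrable (fun z => ‖z - m‖ ^ 2 - 2 * a * ‖z - m‖) (post U c s) :=
          i2.sub (i1.const_mul _)
        rw [integral_add i3 (integrable_const _),
          integral_sub i2 (i1.const_mul _), integral_const_mul, ← ha, integral_const,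
          probReal_univ, one_smul]
        ring
      rw [h7] at h6
      linarith
    have h9 : 0 ≤ ∫ z, ‖z - m‖ ∂(post U c s) := integral_nonneg fun z => norm_nonneg _
    have h10 : s * √(Module.finrank ℝ V) = √(s ^ 2 * Module.finrank ℝ V) := by
      rw [Real.sqrt_mul (sq_nonneg s), Real.sqrt_sq hs.le]
    rw [h10]
    exact Real.le_sqrt_of_sq_le (hJ.trans hv)
  calc ∫ z, ‖z - c‖ ∂(post U c s) ≤ ∫ z, (‖z - m‖ + ‖m - c‖) ∂(post U c s) := by
        refine integral_mono_of_nonneg (ae_of_all _ fun z => norm_nonneg _)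
          (i1.add (integrable_const _)) (ae_of_all _ fun z => ?_)
        calc ‖z - c‖ = ‖(z - m) + (m - c)‖ := by congr 1; abel
          _ ≤ _ := norm_add_le _ _
    _ = ∫ z, ‖z - m‖ ∂(post U c s) + ‖m - c‖ := by
        rw [integral_add i1 (integrable_const _), integral_const, probReal_univ, one_smul]
    _ ≤ _ := by rw [hmc]; linarith

theorem norm_G_sub_gradient_le' (hU : PotP h U) (c : V) {s : ℝ} (hs : 0 < s) :
    ‖G U s c - gradient U c‖ ≤ h * (s * √(Module.finrank ℝ V) + s ^ 2 * ‖G U s c‖) := by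
  have hP := isProbabilityMeasure_post (nice_of_pot hU) c hs
  have hN := nice_of_pot hU
  have hh := hU.hh
  have hi := integrable_id_post hN c hs
  have i1 : Integrable (fun z => ‖z - c‖) (post U c s) := (hi.sub (integrable_const c)).norm
  have e1 : G U s c - gradient U c = ∫ z, (gradient U z - gradient U c) ∂(post U c s) := by
    rw [integral_sub (integrable_gradient_post hU c hs) (integrable_const _), integral_const,
      probReal_univ, one_smul, G_eq_integral hU c hs]
  rw [e1]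
  calc ‖∫ z, (gradient U z - gradient U c) ∂(post U c s)‖
      ≤ ∫ z, h * ‖z - c‖ ∂(post U c s) :=
        norm_integral_le_of_norm_le (i1.const_mul h)
          (ae_of_all _ fun z => norm_gradient_sub_le hU z c)
    _ = h * ∫ z, ‖z - c‖ ∂(post U c s) := integral_const_mul _ _
    _ ≤ _ := mul_le_mul_of_nonneg_left (integral_norm_sub_post_le' hU c hs) hh

theorem norm_G_le (hU : PotP h U) (c : V) {s : ℝ} (hs : 0 < s) (hhs : h * s ^ 2 ≤ 1 / 2) :
    ‖G U s c‖ ≤ 2 * h * (‖c‖ + s * √(Module.finrank ℝ V)) := by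
  have h1 := norm_G_sub_gradient_le' hU c hs
  have h2 := norm_gradient_le hU c
  have h3 : ‖G U s c‖ ≤ ‖G U s c - gradient U c‖ + ‖gradient U c‖ := by
    calc ‖G U s c‖ = ‖(G U s c - gradient U c) + gradient U c‖ := by congr 1; abel
      _ ≤ _ := norm_add_le _ _
  have h4 := mul_le_mul_of_nonneg_right hhs (norm_nonneg (G U s c))
  nlinarith

/-- Displacement of the posterior. -/
theorem integral_norm_sub_post_le (hU : PotP h U) (c : V) {s : ℝ} (hs : 0 < s)
    (hhs : h * s ^ 2 ≤ 1 / 2) :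
    ∫ z, ‖z - c‖ ∂(post U c s) ≤ 2 * s * √(Module.finrank ℝ V) + 2 * h * s ^ 2 * ‖c‖ := by
  have h1 := integral_norm_sub_post_le' hU c hs
  have h2 := norm_G_le hU c hs hhs
  have h3 := mul_le_mul_of_nonneg_left h2 (sq_nonneg s)
  have h4 := mul_le_mul_of_nonneg_right hhs
    (mul_nonneg hs.le (Real.sqrt_nonneg (Module.finrank ℝ V)))
  nlinarith

theorem norm_G_sub_gradient_le (hU : PotP h U) (c : V) {s : ℝ} (hs : 0 < s)
    (hhs : h * s ^ 2 ≤ 1 / 2) :
    ‖G U s c - gradient U c‖ ≤ h * (2 * s * √(Module.finrank ℝ V) + 2 * h * s ^ 2 * ‖c‖) := by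
  have h1 := norm_G_sub_gradient_le' hU c hs
  have h2 := norm_G_le hU c hs hhs
  have h3 := mul_le_mul_of_nonneg_left h2 (sq_nonneg s)
  have h4 := mul_le_mul_of_nonneg_right hhs
    (mul_nonneg hs.le (Real.sqrt_nonneg (Module.finrank ℝ V)))
  refine h1.trans (mul_le_mul_of_nonneg_left ?_ hU.hh)
  nlinarith

/-! ### The visible point `y = κ² c + (1-κ²) z + s κ √(1-κ²) g` -/

/-- The law of the visible point is the law at level `√(1-κ²)` of the posterior flow. -/
theorem post_channel (hU : Nice U) (c : V) {s κ : ℝ} (hs : 0 < s) (hκ : 0 < κ) (hκ1 : κ < 1) :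
    ((post U c s).prod (stdGaussian V)).map
      (fun p => κ ^ 2 • c + (1 - κ ^ 2) • p.1 + (s * κ * √(1 - κ ^ 2)) • p.2) =
        post (Ub U (s * κ)) c (s * √(1 - κ ^ 2)) := by
  have h1 : 0 < 1 - κ ^ 2 := by nlinarith
  have h2 : 0 < √(1 - κ ^ 2) := Real.sqrt_pos.2 h1
  have h3 : √(1 - κ ^ 2) ^ 2 = 1 - κ ^ 2 := Real.sq_sqrt h1.le
  rw [← channel hU (mul_pos hs h2) (mul_pos hs hκ) hs (by rw [mul_pow, mul_pow, h3]; ring) c]
  congr 1
  funext p
  have e1 : (s * √(1 - κ ^ 2)) ^ 2 / s ^ 2 = 1 - κ ^ 2 := by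
    rw [mul_pow, h3]; field_simp
  have e2 : s * √(1 - κ ^ 2) * (s * κ) / s = s * κ * √(1 - κ ^ 2) := by
    field_simp
  rw [e1, e2, smul_sub, sub_smul, sub_smul, one_smul, one_smul]
  abel

/-- Disintegration over the visible point, `bind` form. -/
theorem post_channel_bind (hU : Nice U) (c : V) {s κ : ℝ} (hs : 0 < s) (hκ : 0 < κ)
    (hκ1 : κ < 1) :
    (((post U c s).prod (stdGaussian V)).map
      (fun p => κ ^ 2 • c + (1 - κ ^ 2) • p.1 + (s * κ * √(1 - κ ^ 2)) • p.2)).bind
        (fun y => post U y (s * κ)) = post U c s := by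
  have h1 : 0 < 1 - κ ^ 2 := by nlinarith
  have h2 : 0 < √(1 - κ ^ 2) := Real.sqrt_pos.2 h1
  have h3 : √(1 - κ ^ 2) ^ 2 = 1 - κ ^ 2 := Real.sq_sqrt h1.le
  rw [post_channel hU c hs hκ hκ1]
  exact post_bind hU (mul_pos hs h2) (mul_pos hs hκ) hs (by rw [mul_pow, mul_pow, h3]; ring) c

/-- Disintegration over the visible point, integral form. -/
theorem post_channel_integral (hU : Nice U) (c : V) {s κ : ℝ} (hs : 0 < s) (hκ : 0 < κ)
    (hκ1 : κ < 1) {F : Type*} [NormedAddCommGroup F] [NormedSpace ℝ F] {f : V → F}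
    (hf : Integrable f (post U c s)) :
    ∫ y, ∫ z, f z ∂(post U y (s * κ)) ∂(((post U c s).prod (stdGaussian V)).map
      (fun p => κ ^ 2 • c + (1 - κ ^ 2) • p.1 + (s * κ * √(1 - κ ^ 2)) • p.2)) =
        ∫ z, f z ∂(post U c s) := by
  have h1 : 0 < 1 - κ ^ 2 := by nlinarith
  have h2 : 0 < √(1 - κ ^ 2) := Real.sqrt_pos.2 h1
  have h3 : √(1 - κ ^ 2) ^ 2 = 1 - κ ^ 2 := Real.sq_sqrt h1.le
  rw [post_channel hU c hs hκ hκ1]
  exact integral_post_post hU (mul_pos hs h2) (mul_pos hs hκ) hs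
    (by rw [mul_pow, mul_pow, h3]; ring) c hf

theorem integral_norm_stdGaussian_le :
    Integrable (fun g : V => ‖g‖) (stdGaussian V) ∧
      ∫ g : V, ‖g‖ ∂(stdGaussian V) ≤ √(Module.finrank ℝ V) := by
  have i1 : Integrable (fun g : V => ‖g‖) (stdGaussian V) := by
    have := integrable_norm_pow_gN (0 : V) 1 1
    simpa [gN_one] using this
  have i2 : Integrable (fun g : V => ‖g‖ ^ 2) (stdGaussian V) := by
    have := integrable_norm_pow_gN (0 : V) 1 2
    simpa [gN_one] using this
  refine ⟨i1, ?_⟩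
  have hst := stein (V := V) (F := fun g => g) contDiff_id
    (i1.mono' (by fun_prop) (ae_of_all _ fun g => le_rfl))
    (by simpa [sq] using i2) (by
      have : (fun g : V => fderiv ℝ (fun g : V => g) g) = fun _ => ContinuousLinearMap.id ℝ V := by
        funext g
        rw [fderiv_fun_id]
      rw [this]
      exact integrable_const _)
  have e1 : ∀ g : V, dvg (fun g : V => g) g = Module.finrank ℝ V := by
    intro g
    rw [dvg, fderiv_fun_id]
    exact LinearMap.trace_id ℝ V
  simp_rw [e1, real_inner_self_eq_norm_sq] at hst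
  rw [integral_const, probReal_univ, one_smul] at hst
  refine Real.le_sqrt_of_sq_le ?_
  rw [← hst]
  have h6 : 0 ≤ ∫ z : V, (‖z‖ - ∫ w : V, ‖w‖ ∂(stdGaussian V)) ^ 2 ∂(stdGaussian V) :=
    integral_nonneg fun z => sq_nonneg _
  set a := ∫ w : V, ‖w‖ ∂(stdGaussian V) with ha
  have h7 : ∫ z : V, (‖z‖ - a) ^ 2 ∂(stdGaussian V) =
      ∫ z : V, ‖z‖ ^ 2 ∂(stdGaussian V) - a ^ 2 := by
    have h8 : ∀ z : V, (‖z‖ - a) ^ 2 = ‖z‖ ^ 2 - 2 * a * ‖z‖ + a ^ 2 := fun z => by ring
    simp_rw [h8]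
    have i3 : Integrable (fun z : V => ‖z‖ ^ 2 - 2 * a * ‖z‖) (stdGaussian V) :=
      i2.sub (i1.const_mul _)
    rw [integral_add i3 (integrable_const _), integral_sub i2 (i1.const_mul _),
      integral_const_mul, ← ha, integral_const, probReal_univ, one_smul]
    ring
  rw [h7] at h6
  linarith

/-- First moment of the visible point. -/
theorem integral_norm_channel_le (hU : PotP h U) (c : V) {s κ : ℝ} (hs : 0 < s) (hκ : 0 ≤ κ)
    (hκ1 : κ ≤ 1) :
    Integrable (fun y => ‖y‖) (((post U c s).prod (stdGaussian V)).map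
      (fun p => κ ^ 2 • c + (1 - κ ^ 2) • p.1 + (s * κ * √(1 - κ ^ 2)) • p.2)) ∧
    ∫ y, ‖y‖ ∂(((post U c s).prod (stdGaussian V)).map
      (fun p => κ ^ 2 • c + (1 - κ ^ 2) • p.1 + (s * κ * √(1 - κ ^ 2)) • p.2)) ≤
      ‖c‖ + ∫ z, ‖z - c‖ ∂(post U c s) + s * √(Module.finrank ℝ V) := by
  have hP := isProbabilityMeasure_post (nice_of_pot hU) c hs
  obtain ⟨ig, hg⟩ := integral_norm_stdGaussian_le (V := V)
  have i1 : Integrable (fun z => ‖z - c‖) (post U c s) :=
    ((integrable_id_post (nice_of_pot hU) c hs).sub (integrable_const c)).norm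
  have hb : ∀ p : V × V, ‖κ ^ 2 • c + (1 - κ ^ 2) • p.1 + (s * κ * √(1 - κ ^ 2)) • p.2‖ ≤
      ‖c‖ + ‖p.1 - c‖ + s * ‖p.2‖ := by
    intro p
    have h1 : κ ^ 2 ≤ 1 := pow_le_one₀ hκ hκ1
    have e1 : κ ^ 2 • c + (1 - κ ^ 2) • p.1 = c + (1 - κ ^ 2) • (p.1 - c) := by
      rw [smul_sub, sub_smul, sub_smul, one_smul, one_smul]
      abel
    have h2 : √(1 - κ ^ 2) ≤ 1 := Real.sqrt_le_one.2 (by nlinarith [sq_nonneg κ])
    have h3 : s * κ * √(1 - κ ^ 2) ≤ s := by
      calc s * κ * √(1 - κ ^ 2) ≤ s * 1 * 1 := by gcongr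
        _ = s := by ring
    rw [e1]
    refine (norm_add_le _ _).trans (add_le_add ((norm_add_le _ _).trans (add_le_add le_rfl ?_)) ?_)
    · rw [norm_smul, Real.norm_eq_abs, abs_of_nonneg (by linarith)]
      exact mul_le_of_le_one_left (norm_nonneg _) (by nlinarith [sq_nonneg κ])
    · rw [norm_smul, Real.norm_eq_abs, abs_of_nonneg (by positivity)]
      exact mul_le_mul_of_nonneg_right h3 (norm_nonneg _)
  have j1 : Integrable (fun p : V × V => ‖p.1 - c‖) ((post U c s).prod (stdGaussian V)) :=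
    i1.comp_fst _
  have j2 : Integrable (fun p : V × V => ‖p.2‖) ((post U c s).prod (stdGaussian V)) :=
    ig.comp_snd _
  have j3 : Integrable (fun p : V × V => ‖c‖ + ‖p.1 - c‖ + s * ‖p.2‖)
      ((post U c s).prod (stdGaussian V)) :=
    ((integrable_const _).add j1).add (j2.const_mul s)
  have j4 : Integrable (fun p : V × V =>
      ‖κ ^ 2 • c + (1 - κ ^ 2) • p.1 + (s * κ * √(1 - κ ^ 2)) • p.2‖)
      ((post U c s).prod (stdGaussian V)) := by
    refine j3.mono' (by fun_prop) (ae_of_all _ fun p => ?_)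
    rw [norm_norm]
    exact hb p
  have hT : Measurable fun p : V × V =>
      κ ^ 2 • c + (1 - κ ^ 2) • p.1 + (s * κ * √(1 - κ ^ 2)) • p.2 := by fun_prop
  refine ⟨?_, ?_⟩
  · rw [integrable_map_measure (by fun_prop) hT.aemeasurable]
    exact j4
  · rw [integral_map hT.aemeasurable (by fun_prop)]
    have k1 : ∫ p : V × V, ‖p.1 - c‖ ∂((post U c s).prod (stdGaussian V)) =
        ∫ z, ‖z - c‖ ∂(post U c s) := by
      rw [integral_prod _ j1]
      simp
    have k2 : ∫ p : V × V, ‖p.2‖ ∂((post U c s).prod (stdGaussian V)) =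
        ∫ z : V, ‖z‖ ∂(stdGaussian V) := by
      rw [integral_prod _ j2]
      simp
    calc _ ≤ ∫ p : V × V, (‖c‖ + ‖p.1 - c‖ + s * ‖p.2‖) ∂((post U c s).prod (stdGaussian V)) :=
          integral_mono j4 j3 hb
      _ = ‖c‖ + ∫ z, ‖z - c‖ ∂(post U c s) + s * ∫ z : V, ‖z‖ ∂(stdGaussian V) := by
          have i5 : Integrable (fun p : V × V => ‖c‖ + ‖p.1 - c‖)
            ((post U c s).prod (stdGaussian V)) := (integrable_const _).add j1
          rw [integral_add i5 (j2.const_mul s), integral_add (integrable_const _) j1,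
            integral_const_mul, integral_const, probReal_univ, one_smul, k1, k2]
      _ ≤ _ := by gcongr

section admissible

open Crest.OracleSampling (E Admissible)

variable {d : ℕ} {W : E d → ℝ}

theorem PotP.of_admissible (hW : Admissible d W) : PotP 2 W :=
  { Pot.of_admissible hW with hh := by norm_num }

theorem adm_nice (hW : Admissible d W) : Nice W := nice_of_pot (PotP.of_admissible hW)

theorem adm_isProb_post (hW : Admissible d W) (c : E d) {s : ℝ} (hs : 0 < s) :
    IsProbabilityMeasure (post W c s) := isProbabilityMeasure_post (adm_nice hW) c hs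

theorem adm_integrable_norm_sub (hW : Admissible d W) (c : E d) {s : ℝ} (hs : 0 < s) :
    Integrable (fun z => ‖z - c‖) (post W c s) := by
  have := adm_isProb_post hW c hs
  exact ((integrable_id_post (adm_nice hW) c hs).sub (integrable_const c)).norm

/-- (a) -/
theorem adm_post_disp (hW : Admissible d W) (c : E d) {s : ℝ} (hs : 0 < s) (hs2 : s ≤ 1 / 2) :
    ∫ z, ‖z - c‖ ∂(post W c s) ≤ 2 * s * (√(d : ℝ) + ‖c‖) := by
  have h1 := integral_norm_sub_post_le (PotP.of_admissible hW) c hs (by nlinarith)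
  rw [finrank_euclideanSpace_fin] at h1
  have h2 : s * (s * ‖c‖) ≤ 1 / 2 * (s * ‖c‖) := by gcongr
  nlinarith

/-- (b) -/
theorem adm_G_sub (hW : Admissible d W) (c : E d) {s : ℝ} (hs : 0 < s) (hs2 : s ≤ 1 / 2) :
    ‖G W s c - gradient W c‖ ≤ 4 * s * (√(d : ℝ) + ‖c‖) := by
  have h1 := norm_G_sub_gradient_le (PotP.of_admissible hW) c hs (by nlinarith)
  rw [finrank_euclideanSpace_fin] at h1
  have h2 : s * (s * ‖c‖) ≤ 1 / 2 * (s * ‖c‖) := by gcongr
  nlinarith

theorem adm_norm_G (hW : Admissible d W) (c : E d) {s : ℝ} (hs : 0 < s) (hs2 : s ≤ 1 / 2) :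
    ‖G W s c‖ ≤ 4 * (√(d : ℝ) + ‖c‖) := by
  have h1 := norm_G_le (PotP.of_admissible hW) c hs (by nlinarith)
  rw [finrank_euclideanSpace_fin] at h1
  have h2 : s * √(d : ℝ) ≤ 1 * √(d : ℝ) := by gcongr; linarith
  nlinarith

/-- (d) -/
theorem adm_channel_moment (hW : Admissible d W) (c : E d) {s κ : ℝ} (hs : 0 < s)
    (hs2 : s ≤ 1 / 2) (hκ : 0 ≤ κ) (hκ1 : κ ≤ 1) :
    Integrable (fun y => ‖y‖) (((post W c s).prod (stdGaussian (E d))).map
      (fun p => κ ^ 2 • c + (1 - κ ^ 2) • p.1 + (s * κ * √(1 - κ ^ 2)) • p.2)) ∧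
    ∫ y, ‖y‖ ∂(((post W c s).prod (stdGaussian (E d))).map
      (fun p => κ ^ 2 • c + (1 - κ ^ 2) • p.1 + (s * κ * √(1 - κ ^ 2)) • p.2)) ≤
      3 * (√(d : ℝ) + ‖c‖) := by
  obtain ⟨h1, h2⟩ := integral_norm_channel_le (PotP.of_admissible hW) c (κ := κ) hs hκ hκ1
  refine ⟨h1, h2.trans ?_⟩
  have h3 := adm_post_disp hW c hs hs2
  rw [finrank_euclideanSpace_fin]
  have h4 : s * √(d : ℝ) ≤ 1 / 2 * √(d : ℝ) := by gcongr
  have h5 : s * ‖c‖ ≤ 1 / 2 * ‖c‖ := by gcongr
  nlinarith [norm_nonneg c, Real.sqrt_nonneg (d : ℝ)]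

end admissible

end Crest.Agent.R285
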