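import Crest.Agent.R285.Defs

/-!
Row 285: Gaussian toolbox.  `gN c σ` is the law of `c + σ g`, `g` standard Gaussian.
-/

set_option autoImplicit false

open MeasureTheory ProbabilityTheory Complex
open scoped RealInnerProductSpace

namespace Crest.Agent.R285

variable {V : Type} [NormedAddCommGroup V] [InnerProductSpace ℝ V] [FiniteDimensional ℝ V]
  [MeasurableSpace V] [BorelSpace V]

theorem measurable_aff (c : V) (σ : ℝ) : Measurable (fun g : V => c + σ • g) := by fun_prop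

instance instProbGN (c : V) (σ : ℝ) : IsProbabilityMeasure (gN c σ) :=
  Measure.isProbabilityMeasure_map (measurable_aff c σ).aemeasurable

theorem charFun_gN (c : V) (σ : ℝ) (t : V) :
    charFun (gN c σ) t = cexp (⟪c, t⟫ * I - σ ^ 2 * ‖t‖ ^ 2 / 2) := by
  have h1 : gN c σ = ((stdGaussian V).map (fun g => σ • g)).map (fun x => c + x) := by
    rw [Measure.map_map (by fun_prop) (by fun_prop)]; rfl
  rw [h1, charFun_map_const_add, charFun_map_smul, charFun_stdGaussian, ← Complex.exp_add]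
  congr 1
  rw [norm_smul]
  push_cast
  rw [mul_pow]
  simp only [Real.norm_eq_abs, ← Complex.ofReal_pow, sq_abs]
  push_cast
  ring

theorem gN_ext {μ : Measure V} [IsFiniteMeasure μ] {c : V} {σ : ℝ}
    (h : ∀ t : V, charFun μ t = cexp (⟪c, t⟫ * I - σ ^ 2 * ‖t‖ ^ 2 / 2)) : μ = gN c σ := by
  apply Measure.ext_of_charFun
  ext t
  rw [h, charFun_gN]

theorem gN_one : gN (0 : V) 1 = stdGaussian V := by
  simp [gN]

theorem gN_zero (c : V) : gN c 0 = Measure.dirac c := by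
  simp [gN]

theorem gN_neg (c : V) (σ : ℝ) : gN c (-σ) = gN c σ := by
  apply gN_ext
  intro t
  rw [charFun_gN]
  push_cast
  ring_nf

theorem gN_abs (c : V) (σ : ℝ) : gN c |σ| = gN c σ := by
  rcases abs_choice σ with h | h <;> rw [h]
  exact gN_neg c σ

theorem gN_map_aff (c : V) (σ a : ℝ) (b : V) :
    (gN c σ).map (fun x => b + a • x) = gN (b + a • c) (a * σ) := by
  rw [gN, gN, Measure.map_map (by fun_prop) (by fun_prop)]
  congr 1
  funext g
  simp only [Function.comp_apply, smul_add, smul_smul, add_assoc]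

theorem gN_map_add_left (c : V) (σ : ℝ) (b : V) :
    (gN c σ).map (fun x => b + x) = gN (b + c) σ := by
  simpa using gN_map_aff c σ 1 b

theorem gN_map_smul (c : V) (σ a : ℝ) :
    (gN c σ).map (fun x => a • x) = gN (a • c) (a * σ) := by
  simpa using gN_map_aff c σ a 0

/-- Weighted sums of independent Gaussian draws. -/
theorem gN_sum {ι : Type} [Fintype ι] (a : ι → ℝ) (c : ι → V) (σ : ι → ℝ) :
    (Measure.pi (fun i => gN (c i) (σ i))).map (fun x => ∑ i, a i • x i)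
      = gN (∑ i, a i • c i) (Real.sqrt (∑ i, (a i * σ i) ^ 2)) := by
  have h1 : (Measure.pi (fun i => gN (c i) (σ i))).map (fun x => ∑ i, a i • x i)
      = (Measure.pi (fun i => (gN (c i) (σ i)).map (fun x => a i • x))).map
          (fun x => ∑ i, x i) := by
    rw [← Measure.pi_map_pi (f := fun i (x : V) => a i • x)
      (fun i => (measurable_const_smul (a i)).aemeasurable),
      Measure.map_map (by fun_prop) (measurable_pi_lambda _ fun i => by fun_prop)]
    rfl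
  rw [h1]
  simp only [gN_map_smul]
  have : IsProbabilityMeasure ((Measure.pi (fun i => gN (a i • c i) (a i * σ i))).map
      (fun x => ∑ i, x i)) :=
    Measure.isProbabilityMeasure_map (by fun_prop)
  apply gN_ext
  intro t
  rw [charFun_map_sum_pi_eq_prod (μ := fun i => gN (a i • c i) (a i * σ i))]
  simp only [Finset.prod_apply, charFun_gN]
  rw [← Complex.exp_sum]
  congr 1
  have h4 : ((Real.sqrt (∑ i, (a i * σ i) ^ 2) : ℝ) : ℂ) ^ 2 = ((∑ i, (a i * σ i) ^ 2 : ℝ) : ℂ) := by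
    rw [← Complex.ofReal_pow, Real.sq_sqrt (Finset.sum_nonneg fun i _ => sq_nonneg _)]
  rw [h4, Finset.sum_sub_distrib, sum_inner]
  push_cast
  rw [Finset.sum_mul]
  congr 1
  rw [Finset.sum_mul, Finset.sum_div]

/-- Weighted sum of two independent Gaussian draws. -/
theorem gN_lin2 (c₁ c₂ : V) (σ₁ σ₂ a b : ℝ) :
    ((gN c₁ σ₁).prod (gN c₂ σ₂)).map (fun p => a • p.1 + b • p.2)
      = gN (a • c₁ + b • c₂) (Real.sqrt ((a * σ₁) ^ 2 + (b * σ₂) ^ 2)) := by
  have h1 : ((gN c₁ σ₁).prod (gN c₂ σ₂)).map (fun p => a • p.1 + b • p.2)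
      = (((gN c₁ σ₁).map (fun x => a • x)).prod ((gN c₂ σ₂).map (fun x => b • x))).map
          (fun p => p.1 + p.2) := by
    rw [Measure.map_prod_map _ _ (by fun_prop) (by fun_prop),
      Measure.map_map (by fun_prop) (by fun_prop)]
    rfl
  rw [h1, gN_map_smul, gN_map_smul]
  have : IsProbabilityMeasure (((gN (a • c₁) (a * σ₁)).prod (gN (b • c₂) (b * σ₂))).map
      (fun p => p.1 + p.2)) := Measure.isProbabilityMeasure_map (by fun_prop)
  apply gN_ext
  intro t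
  rw [charFun_map_add_prod_eq_mul]
  simp only [Pi.mul_apply, charFun_gN]
  rw [← Complex.exp_add]
  congr 1
  have h4 : ((Real.sqrt ((a * σ₁) ^ 2 + (b * σ₂) ^ 2) : ℝ) : ℂ) ^ 2
      = (((a * σ₁) ^ 2 + (b * σ₂) ^ 2 : ℝ) : ℂ) := by
    rw [← Complex.ofReal_pow, Real.sq_sqrt (by positivity)]
  rw [h4, inner_add_left]
  push_cast
  ring

theorem gN_add (c₁ c₂ : V) (σ₁ σ₂ : ℝ) :
    ((gN c₁ σ₁).prod (gN c₂ σ₂)).map (fun p => p.1 + p.2)
      = gN (c₁ + c₂) (Real.sqrt (σ₁ ^ 2 + σ₂ ^ 2)) := by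
  simpa using gN_lin2 c₁ c₂ σ₁ σ₂ 1 1

/-- Completing the noise of a draw. -/
theorem gN_complete (c : V) {ρ σ : ℝ} (h0 : 0 ≤ ρ) (h : ρ ≤ σ) :
    ((gN c ρ).prod (stdGaussian V)).map (fun p => p.1 + Real.sqrt (σ ^ 2 - ρ ^ 2) • p.2)
      = gN c σ := by
  rw [← gN_one]
  have h2 : ρ ^ 2 ≤ σ ^ 2 := pow_le_pow_left₀ h0 h 2
  have := gN_lin2 c (0 : V) ρ 1 1 (Real.sqrt (σ ^ 2 - ρ ^ 2))
  simp only [one_smul, smul_zero, add_zero, one_mul, mul_one] at this
  rw [this, Real.sq_sqrt (by linarith), add_sub_cancel, Real.sqrt_sq (h0.trans h)]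

/-- Averaging `m` independent draws. -/
theorem gN_avg (c : V) (ρ : ℝ) (h0 : 0 ≤ ρ) (m : ℕ) (hm : 0 < m) :
    (Measure.pi (fun _ : Fin m => gN c ρ)).map (fun x => ∑ i, ((m : ℝ)⁻¹) • x i)
      = gN c (ρ / Real.sqrt m) := by
  have hm' : (0 : ℝ) < m := by exact_mod_cast hm
  rw [gN_sum (fun _ : Fin m => (m : ℝ)⁻¹) (fun _ => c) (fun _ => ρ)]
  simp only [Finset.sum_const, Finset.card_univ, Fintype.card_fin, nsmul_eq_mul]
  congr 1
  · rw [← Nat.cast_smul_eq_nsmul ℝ, smul_smul, mul_inv_cancel₀ hm'.ne', one_smul]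
  · rw [show (m : ℝ) * ((m : ℝ)⁻¹ * ρ) ^ 2 = ρ ^ 2 / m by field_simp,
      Real.sqrt_div (sq_nonneg ρ), Real.sqrt_sq h0]

end Crest.Agent.R285
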