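import Mathlib

/-!
# R285.NumL2 : from pathwise `L¹`-in-time bounds to `L²(P)` bounds; Picard iteration with defect
-/

set_option autoImplicit false

open Set MeasureTheory
open scoped ENNReal

namespace Crest.Agent.R285.Num

section time

variable {Ω : Type*} [MeasurableSpace Ω] (P : Measure Ω)

/-- Cauchy–Schwarz on a finite measure space. -/
lemma sq_lintegral_le {α : Type*} [MeasurableSpace α] (μ : Measure α) {g : α → ℝ≥0∞}
    (hg : AEMeasurable g μ) : (∫⁻ t, g t ∂μ) ^ 2 ≤ μ univ * ∫⁻ t, g t ^ 2 ∂μ := by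
  have h := ENNReal.lintegral_mul_le_Lp_mul_Lq μ Real.HolderConjugate.two_two
    (f := fun _ => 1) (g := g) aemeasurable_const hg
  simp only [Pi.mul_apply, one_mul, ENNReal.one_rpow, lintegral_one] at h
  have h2 : (∫⁻ t, g t ∂μ) ^ 2 ≤ (μ univ ^ (1 / (2 : ℝ)) * (∫⁻ t, g t ^ (2 : ℝ) ∂μ) ^ (1 / (2 : ℝ))) ^ 2 :=
    pow_le_pow_left' h 2
  refine h2.trans (le_of_eq ?_)
  rw [mul_pow]
  have e : ∀ x : ℝ≥0∞, (x ^ (1 / (2 : ℝ))) ^ 2 = x := by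
    intro x
    rw [← ENNReal.rpow_natCast, ← ENNReal.rpow_mul]
    norm_num
  rw [e, e]
  congr 2
  ext t
  rw [← ENNReal.rpow_natCast]
  norm_num

variable {P}

theorem lintegral_sq_time [SFinite P] {a b : ℝ} {g : ℝ → Ω → ℝ≥0∞}
    (hg : Measurable (fun p : ℝ × Ω => g p.1 p.2)) :
    ∫⁻ ω, (∫⁻ t in Ioc a b, g t ω) ^ 2 ∂P ≤
      ENNReal.ofReal (b - a) * ∫⁻ t in Ioc a b, ∫⁻ ω, g t ω ^ 2 ∂P := by
  have h1 : ∀ ω, (∫⁻ t in Ioc a b, g t ω) ^ 2 ≤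
      ENNReal.ofReal (b - a) * ∫⁻ t in Ioc a b, g t ω ^ 2 := by
    intro ω
    have hm : Measurable (fun t => g t ω) := hg.comp (by fun_prop : Measurable fun t : ℝ => (t, ω))
    have := sq_lintegral_le (volume.restrict (Ioc a b)) hm.aemeasurable
    rwa [Measure.restrict_apply_univ, Real.volume_Ioc] at this
  refine (lintegral_mono h1).trans ?_
  have hm2 : Measurable (fun p : Ω × ℝ => g p.2 p.1 ^ 2) :=
    (hg.comp measurable_swap).pow_const 2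
  rw [lintegral_const_mul]
  · rw [lintegral_lintegral_swap hm2.aemeasurable]
  · exact hm2.lintegral_prod_right'

variable {H : Type*} [NormedAddCommGroup H]

/-- If `‖err‖ ≤ K ∫_a^b ‖F t‖ dt` pathwise then `E‖err‖² ≤ K² (b-a) ∫_a^b E‖F t‖² dt`. -/
theorem lintegral_err_sq_le [NormedSpace ℝ H] [SFinite P] {a b : ℝ} (hab : a ≤ b)
    {F : ℝ → Ω → H} {err : Ω → H} {K : ℝ} (hK : 0 ≤ K)
    (hc : ∀ ω, IntervalIntegrable (fun t => F t ω) volume a b)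
    (hm : Measurable (fun p : ℝ × Ω => ‖F p.1 p.2‖ₑ))
    (herr : ∀ᵐ ω ∂P, ‖err ω‖ ≤ K * ∫ t in a..b, ‖F t ω‖) :
    ∫⁻ ω, ‖err ω‖ₑ ^ 2 ∂P ≤
      ENNReal.ofReal K ^ 2 * (ENNReal.ofReal (b - a) * ∫⁻ t in Ioc a b, ∫⁻ ω, ‖F t ω‖ₑ ^ 2 ∂P) := by
  have h1 : ∀ᵐ ω ∂P, ‖err ω‖ₑ ^ 2 ≤ ENNReal.ofReal K ^ 2 * (∫⁻ t in Ioc a b, ‖F t ω‖ₑ) ^ 2 := by
    filter_upwards [herr] with ω hω
    rw [← mul_pow]
    refine pow_le_pow_left' ?_ 2
    rw [← ofReal_norm]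
    refine (ENNReal.ofReal_le_ofReal hω).trans ?_
    rw [ENNReal.ofReal_mul hK, intervalIntegral.integral_of_le hab,
      ofReal_integral_norm_eq_lintegral_enorm]
    exact (intervalIntegrable_iff_integrableOn_Ioc_of_le hab).mp (hc ω)
  refine (lintegral_mono_ae h1).trans ?_
  rw [lintegral_const_mul]
  · exact mul_le_mul_right (lintegral_sq_time hm) _
  · have hm2 : Measurable (fun p : Ω × ℝ => ‖F p.2 p.1‖ₑ) := hm.comp measurable_swap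
    exact (hm2.lintegral_prod_right' (ν := volume.restrict (Ioc a b))).pow_const 2

/-- uniform version. -/
theorem lintegral_err_sq_le_of_bound [NormedSpace ℝ H] [SFinite P] {a b : ℝ} (hab : a ≤ b)
    {F : ℝ → Ω → H} {err : Ω → H} {K : ℝ} (hK : 0 ≤ K)
    (hc : ∀ ω, IntervalIntegrable (fun t => F t ω) volume a b)
    (hm : Measurable (fun p : ℝ × Ω => ‖F p.1 p.2‖ₑ))
    (herr : ∀ᵐ ω ∂P, ‖err ω‖ ≤ K * ∫ t in a..b, ‖F t ω‖) {B : ℝ≥0∞}
    (hB : ∀ t ∈ Ioc a b, ∫⁻ ω, ‖F t ω‖ₑ ^ 2 ∂P ≤ B) :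
    ∫⁻ ω, ‖err ω‖ₑ ^ 2 ∂P ≤ ENNReal.ofReal (K * (b - a)) ^ 2 * B := by
  refine (lintegral_err_sq_le hab hK hc hm herr).trans ?_
  have h1 : ∫⁻ t in Ioc a b, ∫⁻ ω, ‖F t ω‖ₑ ^ 2 ∂P ≤ B * ENNReal.ofReal (b - a) := by
    calc ∫⁻ t in Ioc a b, ∫⁻ ω, ‖F t ω‖ₑ ^ 2 ∂P ≤ ∫⁻ _ in Ioc a b, B :=
          setLIntegral_mono' measurableSet_Ioc hB
      _ = B * ENNReal.ofReal (b - a) := by
          rw [setLIntegral_const, Real.volume_Ioc]
  calc _ ≤ ENNReal.ofReal K ^ 2 * (ENNReal.ofReal (b - a) * (B * ENNReal.ofReal (b - a))) := by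
        gcongr
    _ = ENNReal.ofReal (K * (b - a)) ^ 2 * B := by
        rw [ENNReal.ofReal_mul hK]; ring

/-- `L²` norm version. -/
theorem eLpNorm_err_le_of_bound [NormedSpace ℝ H] [SFinite P] {a b : ℝ} (hab : a ≤ b)
    {F : ℝ → Ω → H} {err : Ω → H} {K : ℝ} (hK : 0 ≤ K)
    (hc : ∀ ω, IntervalIntegrable (fun t => F t ω) volume a b)
    (hm : Measurable (fun p : ℝ × Ω => ‖F p.1 p.2‖ₑ))
    (herr : ∀ᵐ ω ∂P, ‖err ω‖ ≤ K * ∫ t in a..b, ‖F t ω‖) {B : ℝ≥0∞}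
    (hB : ∀ t ∈ Ioc a b, eLpNorm (F t) 2 P ≤ B) :
    eLpNorm err 2 P ≤ ENNReal.ofReal (K * (b - a)) * B := by
  have hsq : ∀ f : Ω → H, eLpNorm f 2 P ^ 2 = ∫⁻ ω, ‖f ω‖ₑ ^ 2 ∂P := by
    intro f
    rw [eLpNorm_eq_lintegral_rpow_enorm_toReal (by norm_num) (by norm_num), ← ENNReal.rpow_natCast,
      ← ENNReal.rpow_mul]
    norm_num
  have h1 := lintegral_err_sq_le_of_bound hab hK hc hm herr (B := B ^ 2)
    (fun t ht => by rw [← hsq]; exact pow_le_pow_left' (hB t ht) 2)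
  rw [← hsq, ← mul_pow] at h1
  exact (ENNReal.pow_le_pow_left_iff two_ne_zero).mp h1

end time

section picard

/-- Picard iteration against a point with small defect. -/
theorem picard_defect {X : Type*} [PseudoMetricSpace X] {Φ : X → X} {L r : ℝ} (hL0 : 0 ≤ L)
    (hL : L < 1) (hΦ : ∀ x y, dist (Φ x) (Φ y) ≤ L * dist x y) {xs : X}
    (hr : dist (Φ xs) xs ≤ r) (x0 : X) (K : ℕ) :
    dist (Φ^[K] x0) xs ≤ L ^ K * dist x0 xs + r / (1 - L) := by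
  have h1 : 0 < 1 - L := by linarith
  have hr0 : 0 ≤ r := dist_nonneg.trans hr
  induction K with
  | zero =>
    simp only [Function.iterate_zero, id_eq, pow_zero, one_mul]
    have : 0 ≤ r / (1 - L) := div_nonneg hr0 h1.le
    linarith
  | succ K ih =>
    rw [Function.iterate_succ_apply']
    calc dist (Φ (Φ^[K] x0)) xs ≤ dist (Φ (Φ^[K] x0)) (Φ xs) + dist (Φ xs) xs :=
          dist_triangle _ _ _
      _ ≤ L * dist (Φ^[K] x0) xs + r := add_le_add (hΦ _ _) hr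
      _ ≤ L * (L ^ K * dist x0 xs + r / (1 - L)) + r := by gcongr
      _ = L ^ (K + 1) * dist x0 xs + r / (1 - L) := by
          field_simp; ring

end picard

end Crest.Agent.R285.Num
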