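import Crest.Agent.R285.NumRule
import Crest.Agent.R285.NumL2
import Crest.Agent.R285.GaussLaws

/-!
Row 285: the rotation `(u, q)' = (-B q, B u)` of two independent standard Gaussians by a self-adjoint
operator `B` (part (5) of 6536, SM3 of 7008).
-/

set_option autoImplicit false
set_option linter.unusedSectionVars false

open MeasureTheory ProbabilityTheory Set
open scoped ENNReal RealInnerProductSpace

noncomputable section

namespace Crest.Agent.R285

variable {V : Type} [NormedAddCommGroup V] [InnerProductSpace ℝ V] [FiniteDimensional ℝ V]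

section gen

variable {W : Type} [NormedAddCommGroup W] [InnerProductSpace ℝ W] [CompleteSpace W]

/-- One-parameter group of a bounded operator. -/
def expK (K : W →L[ℝ] W) (a : ℝ) : W →L[ℝ] W := NormedSpace.exp (a • K)

omit [CompleteSpace W] in
theorem expK_zero (K : W →L[ℝ] W) : expK K 0 = ContinuousLinearMap.id ℝ W := by
  simp only [expK, zero_smul, NormedSpace.exp_zero]
  rfl

theorem hasDerivAt_expK (K : W →L[ℝ] W) (a : ℝ) (z : W) :
    HasDerivAt (fun a => expK K a z) (K (expK K a z)) a := by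
  have h := hasDerivAt_exp_smul_const' (𝕂 := ℝ) K a
  have h2 := h.clm_apply (hasDerivAt_const a z)
  simpa [expK] using h2

theorem continuous_expK (K : W →L[ℝ] W) : Continuous (expK K) :=
  continuous_iff_continuousAt.mpr fun a =>
    (hasDerivAt_exp_smul_const' (𝕂 := ℝ) K a).continuousAt

theorem norm_expK (K : W →L[ℝ] W) (hK : ∀ z, ⟪K z, z⟫ = 0) (a : ℝ) (z : W) :
    ‖expK K a z‖ = ‖z‖ := by
  have hd : ∀ a, HasDerivAt (fun a => ‖expK K a z‖ ^ 2) 0 a := by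
    intro a
    have h1 := (hasDerivAt_expK K a z).norm_sq
    rw [real_inner_comm, hK, mul_zero] at h1
    exact h1
  have hc := is_const_of_deriv_eq_zero (fun a => (hd a).differentiableAt)
    (fun a => (hd a).deriv) a 0
  simp only [expK_zero, ContinuousLinearMap.id_apply] at hc
  exact (pow_left_inj₀ (norm_nonneg _) (norm_nonneg _) two_ne_zero).mp hc

end gen

/-- The generator of the rotation. -/
def rotK (B : V →L[ℝ] V) : WithLp 2 (V × V) →L[ℝ] WithLp 2 (V × V) :=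
  LinearMap.toContinuousLinearMap
    { toFun := fun z => WithLp.toLp 2 (-(B z.snd), B z.fst)
      map_add' := fun x y => by
        simp only [WithLp.add_snd, map_add, WithLp.add_fst, ← WithLp.toLp_add, Prod.mk_add_mk,
          neg_add]
      map_smul' := fun c x => by
        simp only [WithLp.smul_snd, map_smul, WithLp.smul_fst, ← WithLp.toLp_smul, Prod.smul_mk,
          smul_neg, RingHom.id_apply] }

theorem rotK_apply (B : V →L[ℝ] V) (z : WithLp 2 (V × V)) :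
    rotK B z = WithLp.toLp 2 (-(B z.snd), B z.fst) := rfl

theorem rotK_fst (B : V →L[ℝ] V) (z : WithLp 2 (V × V)) : (rotK B z).fst = -(B z.snd) := rfl

theorem rotK_snd (B : V →L[ℝ] V) (z : WithLp 2 (V × V)) : (rotK B z).snd = B z.fst := rfl

theorem norm_rotK_le (B : V →L[ℝ] V) : ‖rotK B‖ ≤ ‖B‖ := by
  refine ContinuousLinearMap.opNorm_le_bound _ (norm_nonneg _) fun z => ?_
  have h1 : ‖rotK B z‖ ^ 2 ≤ (‖B‖ * ‖z‖) ^ 2 := by
    rw [WithLp.prod_norm_sq_eq_of_L2, rotK_fst, rotK_snd, norm_neg, mul_pow,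
      WithLp.prod_norm_sq_eq_of_L2]
    have h2 := B.le_opNorm z.snd
    have h3 := B.le_opNorm z.fst
    have h4 := pow_le_pow_left₀ (norm_nonneg _) h2 2
    have h5 := pow_le_pow_left₀ (norm_nonneg _) h3 2
    rw [mul_pow] at h4 h5
    nlinarith
  exact (pow_le_pow_iff_left₀ (norm_nonneg _) (by positivity) two_ne_zero).mp h1

/-- The rotation. -/
def rotE (B : V →L[ℝ] V) (a : ℝ) : WithLp 2 (V × V) →L[ℝ] WithLp 2 (V × V) := expK (rotK B) a

theorem rotE_zero (B : V →L[ℝ] V) (z : WithLp 2 (V × V)) : rotE B 0 z = z := by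
  rw [rotE, expK_zero]; rfl

theorem hasDerivAt_rotE (B : V →L[ℝ] V) (a : ℝ) (z : WithLp 2 (V × V)) :
    HasDerivAt (fun a => rotE B a z) (rotK B (rotE B a z)) a := hasDerivAt_expK _ _ _

theorem inner_rotK_self (B : V →L[ℝ] V) (hB : ∀ x y, ⟪B x, y⟫ = ⟪x, B y⟫)
    (z : WithLp 2 (V × V)) : ⟪rotK B z, z⟫ = 0 := by
  rw [WithLp.prod_inner_apply]
  show ⟪(rotK B z).fst, z.fst⟫ + ⟪(rotK B z).snd, z.snd⟫ = 0
  rw [rotK_fst, rotK_snd, inner_neg_left, hB z.snd, real_inner_comm]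
  ring

theorem norm_rotE (B : V →L[ℝ] V) (hB : ∀ x y, ⟪B x, y⟫ = ⟪x, B y⟫) (a : ℝ)
    (z : WithLp 2 (V × V)) : ‖rotE B a z‖ = ‖z‖ := norm_expK _ (inner_rotK_self B hB) a z

/-- the first component of the rotation -/
def rotU (B : V →L[ℝ] V) (a : ℝ) (p : V × V) : V := (rotE B a (WithLp.toLp 2 p)).fst

/-- the second component of the rotation -/
def rotQ (B : V →L[ℝ] V) (a : ℝ) (p : V × V) : V := (rotE B a (WithLp.toLp 2 p)).snd

theorem rotU_zero (B : V →L[ℝ] V) (p : V × V) : rotU B 0 p = p.1 := by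
  rw [rotU, rotE_zero]; rfl

theorem rotQ_zero (B : V →L[ℝ] V) (p : V × V) : rotQ B 0 p = p.2 := by
  rw [rotQ, rotE_zero]; rfl

theorem hasDerivAt_rotU (B : V →L[ℝ] V) (a : ℝ) (p : V × V) :
    HasDerivAt (fun a => rotU B a p) (-(B (rotQ B a p))) a := by
  have h := (WithLp.fstL 2 ℝ V V).hasFDerivAt.comp_hasDerivAt a
    (hasDerivAt_rotE B a (WithLp.toLp 2 p))
  exact h

theorem hasDerivAt_rotQ (B : V →L[ℝ] V) (a : ℝ) (p : V × V) :
    HasDerivAt (fun a => rotQ B a p) (B (rotU B a p)) a := by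
  have h := (WithLp.sndL 2 ℝ V V).hasFDerivAt.comp_hasDerivAt a
    (hasDerivAt_rotE B a (WithLp.toLp 2 p))
  exact h

theorem measurable_rotU [MeasurableSpace V] [BorelSpace V] (B : V →L[ℝ] V) (a : ℝ) :
    Measurable (rotU B a) := by
  have : Continuous (rotU B a) := by unfold rotU; fun_prop
  exact this.measurable

theorem measurable_rotQ [MeasurableSpace V] [BorelSpace V] (B : V →L[ℝ] V) (a : ℝ) :
    Measurable (rotQ B a) := by
  have : Continuous (rotQ B a) := by unfold rotQ; fun_prop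
  exact this.measurable

/-! ### the law -/

section law

variable [MeasurableSpace V] [BorelSpace V]

theorem map_toLp_stdGaussian :
    ((stdGaussian V).prod (stdGaussian V)).map (WithLp.toLp 2) = stdGaussian (WithLp 2 (V × V)) := by
  apply Measure.ext_of_charFun
  ext t
  rw [charFun_prod, charFun_stdGaussian, charFun_stdGaussian, charFun_stdGaussian,
    ← Complex.exp_add]
  congr 1
  rw [← Complex.ofReal_pow ‖t‖, WithLp.prod_norm_sq_eq_of_L2]
  show _ = -((‖t.ofLp.1‖ ^ 2 + ‖t.ofLp.2‖ ^ 2 : ℝ) : ℂ) / 2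
  push_cast
  ring

theorem map_fst_stdGaussian :
    (stdGaussian (WithLp 2 (V × V))).map (fun z => z.fst) = stdGaussian V := by
  rw [← map_toLp_stdGaussian, Measure.map_map (by fun_prop) (by fun_prop)]
  show ((stdGaussian V).prod (stdGaussian V)).map Prod.fst = _
  simp

theorem map_snd_stdGaussian :
    (stdGaussian (WithLp 2 (V × V))).map (fun z => z.snd) = stdGaussian V := by
  rw [← map_toLp_stdGaussian, Measure.map_map (by fun_prop) (by fun_prop)]
  show ((stdGaussian V).prod (stdGaussian V)).map Prod.snd = _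
  simp

theorem map_rotE_stdGaussian (B : V →L[ℝ] V) (hB : ∀ x y, ⟪B x, y⟫ = ⟪x, B y⟫) (a : ℝ) :
    (stdGaussian (WithLp 2 (V × V))).map (rotE B a) = stdGaussian (WithLp 2 (V × V)) := by
  let li : WithLp 2 (V × V) →ₗᵢ[ℝ] WithLp 2 (V × V) :=
    { toLinearMap := (rotE B a).toLinearMap
      norm_map' := fun z => norm_rotE B hB a z }
  have h := stdGaussian_map (li.toLinearIsometryEquiv rfl)
  exact h

theorem map_rotU (B : V →L[ℝ] V) (hB : ∀ x y, ⟪B x, y⟫ = ⟪x, B y⟫) (a : ℝ) :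
    ((stdGaussian V).prod (stdGaussian V)).map (rotU B a) = stdGaussian V := by
  have e : rotU B a = (fun z : WithLp 2 (V × V) => z.fst) ∘ (rotE B a) ∘ (WithLp.toLp 2) := rfl
  rw [e, ← Measure.map_map (by fun_prop) (by fun_prop), ← Measure.map_map (by fun_prop)
    (by fun_prop), map_toLp_stdGaussian, map_rotE_stdGaussian B hB, map_fst_stdGaussian]

theorem map_rotQ (B : V →L[ℝ] V) (hB : ∀ x y, ⟪B x, y⟫ = ⟪x, B y⟫) (a : ℝ) :
    ((stdGaussian V).prod (stdGaussian V)).map (rotQ B a) = stdGaussian V := by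
  have e : rotQ B a = (fun z : WithLp 2 (V × V) => z.snd) ∘ (rotE B a) ∘ (WithLp.toLp 2) := rfl
  rw [e, ← Measure.map_map (by fun_prop) (by fun_prop), ← Measure.map_map (by fun_prop)
    (by fun_prop), map_toLp_stdGaussian, map_rotE_stdGaussian B hB, map_snd_stdGaussian]

end law

/-! ### towers -/

/-- derivative tower of `a ↦ L (rotE B a z)` -/
def rotF (B : V →L[ℝ] V) (L : WithLp 2 (V × V) →L[ℝ] V) (k : ℕ) (a : ℝ) (p : V × V) : V :=
  L (((rotK B) ^[k]) (rotE B a (WithLp.toLp 2 p)))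

theorem hasDerivAt_iter_rotE (B : V →L[ℝ] V) (k : ℕ) (a : ℝ) (z : WithLp 2 (V × V)) :
    HasDerivAt (fun a => ((rotK B) ^[k]) (rotE B a z)) (((rotK B) ^[k + 1]) (rotE B a z)) a := by
  induction k with
  | zero => simpa using hasDerivAt_rotE B a z
  | succ k ih =>
    have h := (rotK B).hasFDerivAt.comp_hasDerivAt a ih
    simpa only [Function.comp_def, Function.iterate_succ_apply', ← Function.iterate_succ_apply']
      using h

theorem tower_rotF (B : V →L[ℝ] V) (L : WithLp 2 (V × V) →L[ℝ] V) (n : ℕ) (p : V × V)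
    (a b : ℝ) : Num.Tower n (fun k t => rotF B L k t p) a b := by
  have hd : ∀ k t, HasDerivAt (fun t => rotF B L k t p) (rotF B L (k + 1) t p) t := fun k t =>
    L.hasFDerivAt.comp_hasDerivAt t (hasDerivAt_iter_rotE B k t _)
  exact ⟨fun k _ t _ => (hd k t).hasDerivWithinAt,
    fun t _ => (hd n t).continuousAt.continuousWithinAt⟩

theorem norm_iter_rotK_le (B : V →L[ℝ] V) (k : ℕ) (z : WithLp 2 (V × V)) :
    ‖((rotK B) ^[k]) z‖ ≤ ‖B‖ ^ k * ‖z‖ := by
  induction k generalizing z with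
  | zero => simp
  | succ k ih =>
    rw [Function.iterate_succ_apply]
    refine (ih _).trans ?_
    calc ‖B‖ ^ k * ‖rotK B z‖ ≤ ‖B‖ ^ k * (‖B‖ * ‖z‖) := by
          refine mul_le_mul_of_nonneg_left ?_ (by positivity)
          exact ((rotK B).le_opNorm z).trans
            (mul_le_mul_of_nonneg_right (norm_rotK_le B) (norm_nonneg _))
      _ = ‖B‖ ^ (k + 1) * ‖z‖ := by ring

theorem norm_rotF_le (B : V →L[ℝ] V) (hB : ∀ x y, ⟪B x, y⟫ = ⟪x, B y⟫)
    (L : WithLp 2 (V × V) →L[ℝ] V) (k : ℕ) (a : ℝ) (p : V × V) :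
    ‖rotF B L k a p‖ ≤ ‖L‖ * ‖B‖ ^ k * ‖WithLp.toLp 2 p‖ := by
  refine (L.le_opNorm _).trans ?_
  rw [mul_assoc]
  refine mul_le_mul_of_nonneg_left ?_ (norm_nonneg _)
  refine (norm_iter_rotK_le B k _).trans (le_of_eq ?_)
  rw [norm_rotE B hB]


theorem integral_norm_rotF_le (B : V →L[ℝ] V) (hB : ∀ x y, ⟪B x, y⟫ = ⟪x, B y⟫)
    (L : WithLp 2 (V × V) →L[ℝ] V) (k : ℕ) {a0 : ℝ} (ha : 0 ≤ a0) (p : V × V) :
    ∫ t in (0 : ℝ)..a0, ‖rotF B L k t p‖ ≤ a0 * (‖L‖ * ‖B‖ ^ k * ‖WithLp.toLp 2 p‖) := by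
  have h := intervalIntegral.norm_integral_le_of_norm_le_const (a := 0) (b := a0)
    (f := fun t => ‖rotF B L k t p‖) (C := ‖L‖ * ‖B‖ ^ k * ‖WithLp.toLp 2 p‖) (fun t _ => by
      rw [norm_norm]; exact norm_rotF_le B hB L k t p)
  rw [sub_zero, abs_of_nonneg ha, mul_comm] at h
  exact (le_abs_self _).trans h

/-- quadrature along the rotation, pathwise -/
theorem rot_quad (B : V →L[ℝ] V) (hB : ∀ x y, ⟪B x, y⟫ = ⟪x, B y⟫)
    (L : WithLp 2 (V × V) →L[ℝ] V) (n : ℕ) {a0 : ℝ} (ha : 0 ≤ a0) {θ : ℝ} (h0 : 0 ≤ θ)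
    (h1 : θ ≤ 1) (p : V × V) :
    ‖(∫ t in (0 : ℝ)..(a0 * θ), rotF B L 0 t p) -
        ∑ l, (a0 * Num.wt (n + 1) (Num.intFun θ) l) • rotF B L 0 (a0 * Num.node (n + 1) l) p‖ ≤
      (1 + Num.intC (n + 1)) * (a0 ^ (n + 1) *
        (a0 * (‖L‖ * ‖B‖ ^ (n + 1) * ‖WithLp.toLp 2 p‖))) := by
  have h := Num.quad_block n (fun k t => rotF B L k t p) 0 a0 ha
    (tower_rotF B L (n + 1) p 0 (0 + a0)) h0 h1
  simp only [zero_add] at h
  refine h.trans ?_
  have := Num.intC_nonneg (n + 1)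
  have h2 := integral_norm_rotF_le B hB L (n + 1) ha p
  gcongr

/-- stencil along the rotation, pathwise -/
theorem rot_stencil (B : V →L[ℝ] V) (hB : ∀ x y, ⟪B x, y⟫ = ⟪x, B y⟫)
    (L : WithLp 2 (V × V) →L[ℝ] V) (n : ℕ) {a0 : ℝ} (ha : 0 < a0) (p : V × V) :
    ‖rotF B L 1 0 p - ∑ l, (Num.dwt n l / a0) • rotF B L 0 (a0 * Num.node (n + 2) l) p‖ ≤
      Num.derC n * (a0 ^ n * (a0 * (‖L‖ * ‖B‖ ^ (n + 2) * ‖WithLp.toLp 2 p‖))) := by
  have h := Num.deriv_block n (fun k t => rotF B L k t p) 0 a0 ha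
    (tower_rotF B L (n + 2) p 0 (0 + a0))
  simp only [zero_add] at h
  refine h.trans ?_
  have := Num.derC_nonneg n
  have h2 := integral_norm_rotF_le B hB L (n + 2) ha.le p
  gcongr

section l2

variable [MeasurableSpace V] [BorelSpace V]

theorem integral_inner_sq_stdGaussian (v : V) :
    ∫ x, ⟪v, x⟫ ^ 2 ∂(stdGaussian V) = ‖v‖ ^ 2 := by
  have h := variance_dual_stdGaussian (innerSL ℝ v)
  rw [innerSL_apply_norm, variance_eq_integral (by fun_prop)] at h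
  rw [← h]
  simp only [innerSL_apply_apply]
  have : ∫ x, ⟪v, x⟫ ∂(stdGaussian V) = 0 := by
    have := integral_strongDual_stdGaussian (E := V) (innerSL ℝ v)
    simpa using this
  simp [this]

theorem integral_norm_sq_stdGaussian :
    ∫ x, ‖x‖ ^ 2 ∂(stdGaussian V) = Module.finrank ℝ V := by
  have h1 : ∀ x : V, ‖x‖ ^ 2 = ∑ i, ⟪stdOrthonormalBasis ℝ V i, x⟫ ^ 2 := fun x =>
    ((stdOrthonormalBasis ℝ V).sum_sq_inner_right x).symm
  simp_rw [h1]
  rw [integral_finsetSum]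
  · simp [integral_inner_sq_stdGaussian]
  · intro i _
    have h2 : MemLp (fun x : V => ⟪stdOrthonormalBasis ℝ V i, x⟫) 2 (stdGaussian V) := by
      have := IsGaussian.memLp_dual (stdGaussian V) (innerSL ℝ (stdOrthonormalBasis ℝ V i)) 2
        (by simp)
      exact this
    exact h2.integrable_sq

theorem eLpNorm_id_stdGaussian :
    eLpNorm (fun x : V => x) 2 (stdGaussian V) = ENNReal.ofReal (√(Module.finrank ℝ V)) := by
  have h1 : MemLp (fun x : V => x) 2 (stdGaussian V) := IsGaussian.memLp_two_id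
  rw [h1.eLpNorm_eq_integral_rpow_norm (by norm_num) (by norm_num)]
  congr 1
  have h2 : ∫ x, ‖x‖ ^ (ENNReal.toReal 2) ∂(stdGaussian V) = Module.finrank ℝ V := by
    rw [← integral_norm_sq_stdGaussian (V := V)]
    congr 1
    funext x
    norm_num
  rw [h2, Real.sqrt_eq_rpow]
  norm_num

theorem eLpNorm_toLp :
    eLpNorm (fun p : V × V => WithLp.toLp 2 p) 2 ((stdGaussian V).prod (stdGaussian V)) =
      ENNReal.ofReal (√(2 * Module.finrank ℝ V)) := by
  have h1 := eLpNorm_id_stdGaussian (V := WithLp 2 (V × V))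
  have h2 : Module.finrank ℝ (WithLp 2 (V × V)) = 2 * Module.finrank ℝ V := by
    rw [(WithLp.linearEquiv 2 ℝ (V × V)).finrank_eq, Module.finrank_prod]; ring
  rw [h2, ← map_toLp_stdGaussian, eLpNorm_map_measure (by fun_prop) (by fun_prop)] at h1
  rw [show (fun p : V × V => WithLp.toLp 2 p) =
    (fun x : WithLp 2 (V × V) => x) ∘ (WithLp.toLp 2) from rfl, h1]
  push_cast
  rfl

/-- the law of `(u, q)` at each time of the rotation is that of `(b, q)`, in `L²` form -/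
theorem eLpNorm_comp_rotQ {H : Type*} [NormedAddCommGroup H] (B : V →L[ℝ] V)
    (hB : ∀ x y, ⟪B x, y⟫ = ⟪x, B y⟫) (a : ℝ) {f : V → H}
    (hf : AEStronglyMeasurable f (stdGaussian V)) :
    eLpNorm (fun p => f (rotQ B a p)) 2 ((stdGaussian V).prod (stdGaussian V)) =
      eLpNorm f 2 (stdGaussian V) := by
  rw [← map_rotQ B hB a] at hf
  conv_rhs => rw [← map_rotQ B hB a]
  rw [eLpNorm_map_measure hf (measurable_rotQ B a).aemeasurable]
  rfl

theorem eLpNorm_comp_rotU {H : Type*} [NormedAddCommGroup H] (B : V →L[ℝ] V)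
    (hB : ∀ x y, ⟪B x, y⟫ = ⟪x, B y⟫) (a : ℝ) {f : V → H}
    (hf : AEStronglyMeasurable f (stdGaussian V)) :
    eLpNorm (fun p => f (rotU B a p)) 2 ((stdGaussian V).prod (stdGaussian V)) =
      eLpNorm f 2 (stdGaussian V) := by
  rw [← map_rotU B hB a] at hf
  conv_rhs => rw [← map_rotU B hB a]
  rw [eLpNorm_map_measure hf (measurable_rotU B a).aemeasurable]
  rfl

/-- `∫₀^{a} B q = b - u_a`. -/
theorem rotU_eq_integral (B : V →L[ℝ] V) (a : ℝ) (p : V × V) :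
    rotU B a p = p.1 - ∫ t in (0 : ℝ)..a, B (rotQ B t p) := by
  have hc : Continuous fun t => B (rotQ B t p) :=
    B.continuous.comp (continuous_iff_continuousAt.mpr fun t =>
      (hasDerivAt_rotQ B t p).continuousAt)
  have h := intervalIntegral.integral_eq_sub_of_hasDerivAt
    (fun t _ => (hasDerivAt_rotU B t p)) (hc.neg.intervalIntegrable 0 a)
  rw [intervalIntegral.integral_neg, rotU_zero] at h
  rw [sub_eq_add_neg, h]
  abel

theorem rotQ_eq_integral (B : V →L[ℝ] V) (a : ℝ) (p : V × V) :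
    rotQ B a p = p.2 + ∫ t in (0 : ℝ)..a, B (rotU B t p) := by
  have hc : Continuous fun t => B (rotU B t p) :=
    B.continuous.comp (continuous_iff_continuousAt.mpr fun t =>
      (hasDerivAt_rotU B t p).continuousAt)
  have h := intervalIntegral.integral_eq_sub_of_hasDerivAt
    (fun t _ => (hasDerivAt_rotQ B t p)) (hc.intervalIntegrable 0 a)
  rw [rotQ_zero] at h
  rw [h]; abel

/-- weights on the single block `[0, a0]` with nodes `a0 * node (n+2) l`: `∫_0^{a0 θ}` -/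
def wb (n : ℕ) (a0 θ : ℝ) (l : Fin (n + 2)) : ℝ := a0 * Num.wt (n + 2) (Num.intFun θ) l

/-- stencil weights on the single block `[0, a0]`: derivative at `0` -/
def db (n : ℕ) (a0 : ℝ) (l : Fin (n + 2)) : ℝ := Num.dwt n l / a0

theorem sum_abs_wb_le (n : ℕ) {a0 θ : ℝ} (ha : 0 ≤ a0) (h0 : 0 ≤ θ) (h1 : θ ≤ 1) :
    ∑ l, |wb n a0 θ l| ≤ a0 * Num.intC (n + 2) := by
  simp only [wb, abs_mul, abs_of_nonneg ha, ← Finset.mul_sum]
  exact mul_le_mul_of_nonneg_left (Num.sum_abs_wt_intFun_le _ h0 h1) ha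

theorem sum_abs_db (n : ℕ) {a0 : ℝ} (ha : 0 < a0) :
    ∑ l, |db n a0 l| = Num.derC n / a0 := by
  simp only [db, abs_div, abs_of_pos ha, ← Finset.sum_div]
  rfl

/-- abbreviation for the joint law of `(b, q)` -/
abbrev gam2 (V : Type) [NormedAddCommGroup V] [InnerProductSpace ℝ V] [FiniteDimensional ℝ V]
    [MeasurableSpace V] [BorelSpace V] : Measure (V × V) :=
  (stdGaussian V).prod (stdGaussian V)

/-- `L²`-bound of `∑ w_l • e (Z_l)` where all `Z_l` have law `γ` -/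
theorem eLpNorm_sum_smul_le {Ω : Type*} [MeasurableSpace Ω] {P : Measure Ω} {ι : Type*}
    (s : Finset ι) (w : ι → ℝ) (f : ι → Ω → V) (hf : ∀ l ∈ s, AEStronglyMeasurable (f l) P)
    {δ : ℝ≥0∞} (h : ∀ l ∈ s, eLpNorm (f l) 2 P ≤ δ) :
    eLpNorm (fun ω => ∑ l ∈ s, w l • f l ω) 2 P ≤ ENNReal.ofReal (∑ l ∈ s, |w l|) * δ := by
  have e : (fun ω => ∑ l ∈ s, w l • f l ω) = ∑ l ∈ s, (fun ω => w l • f l ω) := by
    funext ω; simp
  rw [e, ENNReal.ofReal_sum_of_nonneg (fun _ _ => abs_nonneg _), Finset.sum_mul]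
  refine (eLpNorm_sum_le (fun l hl => (hf l hl).const_smul _) (by norm_num)).trans ?_
  refine Finset.sum_le_sum fun l hl => ?_
  rw [eLpNorm_const_smul]
  refine mul_le_mul' (le_of_eq ?_) (h l hl)
  rw [← ofReal_norm, Real.norm_eq_abs]

theorem eLpNorm_le_of_path {Ω : Type*} [MeasurableSpace Ω] {P : Measure Ω} {H : Type*}
    [NormedAddCommGroup H] {f : Ω → V} {g : Ω → H} {C : ℝ} (hC : 0 ≤ C)
    (h : ∀ ω, ‖f ω‖ ≤ C * ‖g ω‖) : eLpNorm f 2 P ≤ ENNReal.ofReal C * eLpNorm g 2 P := by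
  lift C to NNReal using hC
  have := eLpNorm_le_nnreal_smul_eLpNorm_of_ae_le_mul (p := 2) (μ := P) (f := f) (g := g) (c := C)
    (Filter.Eventually.of_forall fun ω => h ω)
  simpa [ENNReal.smul_def] using this

/-- The operator `z ↦ A z.snd`. -/
def opQ (A : V →L[ℝ] V) : WithLp 2 (V × V) →L[ℝ] V := A.comp (WithLp.sndL 2 ℝ V V)

/-- The operator `z ↦ A z.fst`. -/
def opU (A : V →L[ℝ] V) : WithLp 2 (V × V) →L[ℝ] V := A.comp (WithLp.fstL 2 ℝ V V)

theorem norm_opQ_le (A : V →L[ℝ] V) : ‖opQ A‖ ≤ ‖A‖ := by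
  refine ContinuousLinearMap.opNorm_le_bound _ (norm_nonneg _) fun z => ?_
  refine (A.le_opNorm _).trans (mul_le_mul_of_nonneg_left ?_ (norm_nonneg _))
  show ‖z.snd‖ ≤ ‖z‖
  have := WithLp.prod_norm_sq_eq_of_L2 z
  have h2 : ‖z.snd‖ ^ 2 ≤ ‖z‖ ^ 2 := by rw [this]; nlinarith [sq_nonneg ‖z.fst‖]
  exact (pow_le_pow_iff_left₀ (norm_nonneg _) (norm_nonneg _) two_ne_zero).mp h2

theorem norm_opU_le (A : V →L[ℝ] V) : ‖opU A‖ ≤ ‖A‖ := by
  refine ContinuousLinearMap.opNorm_le_bound _ (norm_nonneg _) fun z => ?_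
  refine (A.le_opNorm _).trans (mul_le_mul_of_nonneg_left ?_ (norm_nonneg _))
  show ‖z.fst‖ ≤ ‖z‖
  have := WithLp.prod_norm_sq_eq_of_L2 z
  have h2 : ‖z.fst‖ ^ 2 ≤ ‖z‖ ^ 2 := by rw [this]; nlinarith [sq_nonneg ‖z.snd‖]
  exact (pow_le_pow_iff_left₀ (norm_nonneg _) (norm_nonneg _) two_ne_zero).mp h2

/-- The components of the rotation: `rotC B true = rotU B`, `rotC B false = rotQ B`. -/
def rotC (B : V →L[ℝ] V) (c : Bool) (a : ℝ) (p : V × V) : V :=
  if c then rotU B a p else rotQ B a p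

/-- The operator `z ↦ A (component of z)`. -/
def opC (A : V →L[ℝ] V) (c : Bool) : WithLp 2 (V × V) →L[ℝ] V := if c then opU A else opQ A

theorem norm_opC_le (A : V →L[ℝ] V) (c : Bool) : ‖opC A c‖ ≤ ‖A‖ := by
  cases c
  · exact norm_opQ_le A
  · exact norm_opU_le A

theorem rotF_opC_zero (A B : V →L[ℝ] V) (c : Bool) (a : ℝ) (p : V × V) :
    rotF B (opC A c) 0 a p = A (rotC B c a p) := by
  cases c <;> rfl

theorem measurable_rotC (B : V →L[ℝ] V) (c : Bool) (a : ℝ) : Measurable (rotC B c a) := by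
  cases c
  · exact measurable_rotQ B a
  · exact measurable_rotU B a

theorem map_rotC (B : V →L[ℝ] V) (hB : ∀ x y, ⟪B x, y⟫ = ⟪x, B y⟫) (c : Bool) (a : ℝ) :
    (gam2 V).map (rotC B c a) = stdGaussian V := by
  cases c
  · exact map_rotQ B hB a
  · exact map_rotU B hB a

theorem eLpNorm_comp_rotC {H : Type*} [NormedAddCommGroup H] (B : V →L[ℝ] V)
    (hB : ∀ x y, ⟪B x, y⟫ = ⟪x, B y⟫) (c : Bool) (a : ℝ) {f : V → H}
    (hf : AEStronglyMeasurable f (stdGaussian V)) :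
    eLpNorm (fun p => f (rotC B c a p)) 2 (gam2 V) = eLpNorm f 2 (stdGaussian V) := by
  cases c
  · exact eLpNorm_comp_rotQ B hB a hf
  · exact eLpNorm_comp_rotU B hB a hf

theorem continuous_rotF_uncurry (B : V →L[ℝ] V) (L : WithLp 2 (V × V) →L[ℝ] V) (k : ℕ) :
    Continuous (fun z : (V × V) × ℝ => rotF B L k z.2 z.1) := by
  have h0 : Continuous fun a : ℝ => expK (rotK B) a := continuous_expK (rotK B)
  have h1 : Continuous fun z : (V × V) × ℝ => expK (rotK B) z.2 := h0.comp continuous_snd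
  have h2 : Continuous fun z : (V × V) × ℝ => rotE B z.2 (WithLp.toLp 2 z.1) :=
    h1.clm_apply (by fun_prop)
  exact L.continuous.comp (((rotK B).continuous.iterate k).comp h2)

theorem continuous_rotF (B : V →L[ℝ] V) (L : WithLp 2 (V × V) →L[ℝ] V) (k : ℕ) (a : ℝ) :
    Continuous (rotF B L k a) :=
  (continuous_rotF_uncurry B L k).comp (f := fun p : V × V => (p, a)) (by fun_prop)

theorem continuous_integral_rotF (B : V →L[ℝ] V) (L : WithLp 2 (V × V) →L[ℝ] V) (k : ℕ)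
    (a : ℝ) : Continuous (fun p => ∫ t in (0 : ℝ)..a, rotF B L k t p) :=
  intervalIntegral.continuous_parametric_intervalIntegral_of_continuous'
    (f := fun p t => rotF B L k t p) (continuous_rotF_uncurry B L k) 0 a

/-! ### defects of the rotation block (frozen centre) -/

variable {A B : V →L[ℝ] V} {S : V → V} {n : ℕ} {a0 : ℝ} {δ : ℝ≥0∞}

/-- A weighted sum of exact values `A (Z_l)` replaced by numerical values `S (Z_l)`. -/
theorem rot_replace (hB : ∀ x y, ⟪B x, y⟫ = ⟪x, B y⟫) (hS : Measurable S)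
    (hδ : eLpNorm (fun v => A v - S v) 2 (stdGaussian V) ≤ δ) (c : Bool) {ι : Type*}
    (s : Finset ι) (w : ι → ℝ) (t : ι → ℝ) :
    eLpNorm (fun p => ∑ l ∈ s, w l • (A (rotC B c (t l) p) - S (rotC B c (t l) p))) 2 (gam2 V) ≤
      ENNReal.ofReal (∑ l ∈ s, |w l|) * δ := by
  have hm : Measurable fun v => A v - S v := A.continuous.measurable.sub hS
  refine eLpNorm_sum_smul_le s w (fun l p => A (rotC B c (t l) p) - S (rotC B c (t l) p))
    (fun l _ => (hm.comp (measurable_rotC B c (t l))).aestronglyMeasurable) (fun l _ => ?_)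
  rw [eLpNorm_comp_rotC B hB c (t l) (f := fun v => A v - S v) hm.aestronglyMeasurable]
  exact hδ

/-- Quadrature along the rotation with numerical values. -/
theorem rot_quad_l2 (hB : ∀ x y, ⟪B x, y⟫ = ⟪x, B y⟫) (hS : Measurable S)
    (hδ : eLpNorm (fun v => A v - S v) 2 (stdGaussian V) ≤ δ) (ha : 0 ≤ a0) {θ : ℝ}
    (h0 : 0 ≤ θ) (h1 : θ ≤ 1) (c : Bool) :
    eLpNorm (fun p => (∫ t in (0 : ℝ)..(a0 * θ), A (rotC B c t p)) -
        ∑ l, wb n a0 θ l • S (rotC B c (a0 * Num.node (n + 2) l) p)) 2 (gam2 V) ≤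
      ENNReal.ofReal ((1 + Num.intC (n + 2)) * (a0 ^ (n + 3) * (‖A‖ * ‖B‖ ^ (n + 2))) *
        √(2 * Module.finrank ℝ V)) +
      ENNReal.ofReal (a0 * Num.intC (n + 2)) * δ := by
  have hI := Num.intC_nonneg (n + 2)
  have e : (fun p => (∫ t in (0 : ℝ)..(a0 * θ), A (rotC B c t p)) -
        ∑ l, wb n a0 θ l • S (rotC B c (a0 * Num.node (n + 2) l) p)) =
      (fun p => (∫ t in (0 : ℝ)..(a0 * θ), rotF B (opC A c) 0 t p) -
        ∑ l, wb n a0 θ l • rotF B (opC A c) 0 (a0 * Num.node (n + 2) l) p) +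
      (fun p => ∑ l, wb n a0 θ l • (A (rotC B c (a0 * Num.node (n + 2) l) p) -
        S (rotC B c (a0 * Num.node (n + 2) l) p))) := by
    funext p
    simp only [Pi.add_apply, rotF_opC_zero, smul_sub, Finset.sum_sub_distrib]
    abel
  have hmS : Measurable fun v => A v - S v := A.continuous.measurable.sub hS
  have hm2 : AEStronglyMeasurable (fun p => ∑ l, wb n a0 θ l •
      (A (rotC B c (a0 * Num.node (n + 2) l) p) - S (rotC B c (a0 * Num.node (n + 2) l) p)))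
      (gam2 V) :=
    (Finset.measurable_sum _ fun l _ => ((hmS.comp (measurable_rotC B c _)).const_smul
      (wb n a0 θ l))).aestronglyMeasurable
  have hm1 : AEStronglyMeasurable (fun p => (∫ t in (0 : ℝ)..(a0 * θ), rotF B (opC A c) 0 t p) -
        ∑ l, wb n a0 θ l • rotF B (opC A c) 0 (a0 * Num.node (n + 2) l) p) (gam2 V) :=
    ((continuous_integral_rotF B (opC A c) 0 (a0 * θ)).sub
      (continuous_finsetSum _ fun l _ => (continuous_rotF B (opC A c) 0 _).const_smul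
        (wb n a0 θ l))).aestronglyMeasurable
  rw [e]
  refine (eLpNorm_add_le hm1 hm2 (by norm_num)).trans (add_le_add ?_ ?_)
  · have h2 := eLpNorm_le_of_path (P := gam2 V) (V := V) (f := fun p : V × V =>
      (∫ t in (0 : ℝ)..(a0 * θ), rotF B (opC A c) 0 t p) -
        ∑ l, wb n a0 θ l • rotF B (opC A c) 0 (a0 * Num.node (n + 2) l) p)
      (g := fun p : V × V => WithLp.toLp 2 p)
      (C := (1 + Num.intC (n + 2)) * (a0 ^ (n + 3) * (‖A‖ * ‖B‖ ^ (n + 2)))) (by positivity)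
      (fun p => by
        refine (rot_quad B hB (opC A c) (n + 1) ha h0 h1 p).trans ?_
        have := norm_opC_le A c
        calc _ ≤ (1 + Num.intC (n + 2)) * (a0 ^ (n + 1 + 1) *
              (a0 * (‖A‖ * ‖B‖ ^ (n + 1 + 1) * ‖WithLp.toLp 2 p‖))) := by gcongr
          _ = _ := by ring)
    refine h2.trans ?_
    rw [eLpNorm_toLp, ← ENNReal.ofReal_mul (by positivity)]
  · refine (rot_replace hB hS hδ c Finset.univ (wb n a0 θ)
      (fun l => a0 * Num.node (n + 2) l)).trans ?_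
    gcongr
    exact sum_abs_wb_le n ha h0 h1

theorem rotF_opQ_one (A B : V →L[ℝ] V) (p : V × V) : rotF B (opC A false) 1 0 p = A (B p.1) := by
  show (opQ A) ((rotK B) (rotE B 0 (WithLp.toLp 2 p))) = _
  rw [rotE_zero]
  rfl

/-- The stencil for `A B b` along the rotation with numerical values. -/
theorem rot_stencil_l2 (hB : ∀ x y, ⟪B x, y⟫ = ⟪x, B y⟫) (hS : Measurable S)
    (hδ : eLpNorm (fun v => A v - S v) 2 (stdGaussian V) ≤ δ) (ha : 0 < a0) :
    eLpNorm (fun p => A (B p.1) -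
        ∑ l, db n a0 l • S (rotQ B (a0 * Num.node (n + 2) l) p)) 2 (gam2 V) ≤
      ENNReal.ofReal ((Num.derC n * (a0 ^ (n + 1) * (‖A‖ * ‖B‖ ^ (n + 2)))) *
        √(2 * Module.finrank ℝ V)) +
      ENNReal.ofReal (Num.derC n / a0) * δ := by
  have hI := Num.derC_nonneg n
  have e : (fun p => A (B p.1) - ∑ l, db n a0 l • S (rotQ B (a0 * Num.node (n + 2) l) p)) =
      (fun p => rotF B (opC A false) 1 0 p -
        ∑ l, (Num.dwt n l / a0) • rotF B (opC A false) 0 (a0 * Num.node (n + 2) l) p) +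
      (fun p => ∑ l, db n a0 l • (A (rotC B false (a0 * Num.node (n + 2) l) p) -
        S (rotC B false (a0 * Num.node (n + 2) l) p))) := by
    funext p
    simp only [Pi.add_apply, rotF_opQ_one, rotF_opC_zero, smul_sub, Finset.sum_sub_distrib, db,
      rotC, Bool.false_eq_true, if_false]
    abel
  have hmS : Measurable fun v => A v - S v := A.continuous.measurable.sub hS
  have hm2 : AEStronglyMeasurable (fun p => ∑ l, db n a0 l •
      (A (rotC B false (a0 * Num.node (n + 2) l) p) -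
        S (rotC B false (a0 * Num.node (n + 2) l) p))) (gam2 V) :=
    (Finset.measurable_sum _ fun l _ => ((hmS.comp (measurable_rotC B false _)).const_smul
      (db n a0 l))).aestronglyMeasurable
  have hm1 : AEStronglyMeasurable (fun p => rotF B (opC A false) 1 0 p -
        ∑ l, (Num.dwt n l / a0) • rotF B (opC A false) 0 (a0 * Num.node (n + 2) l) p) (gam2 V) :=
    ((continuous_rotF B (opC A false) 1 0).sub
      (continuous_finsetSum _ fun l _ => (continuous_rotF B (opC A false) 0 _).const_smul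
        (Num.dwt n l / a0))).aestronglyMeasurable
  rw [e]
  refine (eLpNorm_add_le hm1 hm2 (by norm_num)).trans (add_le_add ?_ ?_)
  · have h2 := eLpNorm_le_of_path (P := gam2 V) (V := V) (f := fun p : V × V =>
      rotF B (opC A false) 1 0 p -
        ∑ l, (Num.dwt n l / a0) • rotF B (opC A false) 0 (a0 * Num.node (n + 2) l) p)
      (g := fun p : V × V => WithLp.toLp 2 p)
      (C := Num.derC n * (a0 ^ (n + 1) * (‖A‖ * ‖B‖ ^ (n + 2)))) (by positivity)
      (fun p => by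
        refine (rot_stencil B hB (opC A false) n ha p).trans ?_
        have := norm_opC_le A false
        calc _ ≤ Num.derC n * (a0 ^ n *
              (a0 * (‖A‖ * ‖B‖ ^ (n + 2) * ‖WithLp.toLp 2 p‖))) := by gcongr
          _ = _ := by ring)
    refine h2.trans ?_
    rw [eLpNorm_toLp, ← ENNReal.ofReal_mul (by positivity)]
  · refine (rot_replace hB hS hδ false Finset.univ (db n a0)
      (fun l => a0 * Num.node (n + 2) l)).trans ?_
    rw [sum_abs_db n ha]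

/-! ### `B = A / ρ` -/

variable {ρ τ : ℝ}

theorem smul_symm (hA : ∀ x y, ⟪A x, y⟫ = ⟪x, A y⟫) (r : ℝ) (x y : V) :
    ⟪(r • A) x, y⟫ = ⟪x, (r • A) y⟫ := by
  simp only [_root_.smul_apply, real_inner_smul_left, real_inner_smul_right, hA]

theorem norm_smul_inv_le (hρ : 0 < ρ) (hA : ‖A‖ ≤ τ) : ‖ρ⁻¹ • A‖ ≤ τ / ρ := by
  rw [norm_smul, Real.norm_eq_abs, abs_of_pos (inv_pos.mpr hρ), div_eq_inv_mul]
  gcongr

/-- constant of the quadrature defect -/
def rcQ (n : ℕ) : ℝ := 1 + Num.intC (n + 2)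

theorem rcQ_nonneg (n : ℕ) : 0 ≤ rcQ n := by
  have := Num.intC_nonneg (n + 2)
  unfold rcQ; linarith

/-- **Defect of `u_m`**: `u_{aθ} = b - (1/ρ) ∑ w_l S(q_l) + error`. -/
theorem rot_defect_u (hA : ∀ x y, ⟪A x, y⟫ = ⟪x, A y⟫) (hτ : ‖A‖ ≤ τ) (hρ : 0 < ρ)
    (hS : Measurable S) (hδ : eLpNorm (fun v => A v - S v) 2 (stdGaussian V) ≤ δ)
    (ha : 0 ≤ a0) {θ : ℝ} (h0 : 0 ≤ θ) (h1 : θ ≤ 1) :
    eLpNorm (fun p => rotU (ρ⁻¹ • A) (a0 * θ) p - (p.1 - ρ⁻¹ • ∑ l, wb n a0 θ l •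
        S (rotQ (ρ⁻¹ • A) (a0 * Num.node (n + 2) l) p))) 2 (gam2 V) ≤
      ENNReal.ofReal (rcQ n * (a0 * (τ / ρ)) ^ (n + 3) * √(2 * Module.finrank ℝ V)) +
      ENNReal.ofReal (rcQ n * a0 / ρ) * δ := by
  have hτ0 : 0 ≤ τ := (norm_nonneg A).trans hτ
  have hq := rot_quad_l2 (n := n) (smul_symm hA ρ⁻¹) hS hδ ha h0 h1 false
  have e : (fun p => rotU (ρ⁻¹ • A) (a0 * θ) p - (p.1 - ρ⁻¹ • ∑ l, wb n a0 θ l •
        S (rotQ (ρ⁻¹ • A) (a0 * Num.node (n + 2) l) p))) = (-ρ⁻¹) • (fun p =>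
      (∫ t in (0 : ℝ)..(a0 * θ), A (rotC (ρ⁻¹ • A) false t p)) -
        ∑ l, wb n a0 θ l • S (rotC (ρ⁻¹ • A) false (a0 * Num.node (n + 2) l) p)) := by
    funext p
    rw [rotU_eq_integral]
    simp only [Pi.smul_apply, rotC, Bool.false_eq_true, if_false, _root_.smul_apply]
    rw [intervalIntegral.integral_smul]
    module
  rw [e, eLpNorm_const_smul]
  have hc : ‖(-ρ⁻¹ : ℝ)‖ₑ = ENNReal.ofReal ρ⁻¹ := by
    rw [← ofReal_norm, norm_neg, Real.norm_eq_abs, abs_of_pos (inv_pos.mpr hρ)]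
  rw [hc]
  have hn := norm_smul_inv_le hρ hτ
  have hI := Num.intC_nonneg (n + 2)
  refine (mul_le_mul' le_rfl hq).trans ?_
  rw [mul_add, ← mul_assoc (ENNReal.ofReal ρ⁻¹) _ δ, ← ENNReal.ofReal_mul (inv_nonneg.mpr hρ.le),
    ← ENNReal.ofReal_mul (inv_nonneg.mpr hρ.le)]
  refine add_le_add (ENNReal.ofReal_le_ofReal ?_) (mul_le_mul' (ENNReal.ofReal_le_ofReal ?_) le_rfl)
  · have hr := rcQ_nonneg n
    calc ρ⁻¹ * ((1 + Num.intC (n + 2)) * (a0 ^ (n + 3) * (‖A‖ * ‖ρ⁻¹ • A‖ ^ (n + 2))) *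
          √(2 * Module.finrank ℝ V)) ≤ ρ⁻¹ * ((1 + Num.intC (n + 2)) *
          (a0 ^ (n + 3) * (τ * (τ / ρ) ^ (n + 2))) * √(2 * Module.finrank ℝ V)) := by gcongr
      _ = _ := by unfold rcQ; rw [div_eq_inv_mul]; ring
  · rw [rcQ, ← mul_assoc, div_eq_inv_mul, mul_assoc]
    refine mul_le_mul_of_nonneg_left ?_ (inv_nonneg.mpr hρ.le)
    nlinarith

/-- **Defect of `q_m`**: `q_{aθ} = q + (1/ρ) ∑ w_l S(u_l) + error`. -/
theorem rot_defect_q (hA : ∀ x y, ⟪A x, y⟫ = ⟪x, A y⟫) (hτ : ‖A‖ ≤ τ) (hρ : 0 < ρ)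
    (hS : Measurable S) (hδ : eLpNorm (fun v => A v - S v) 2 (stdGaussian V) ≤ δ)
    (ha : 0 ≤ a0) {θ : ℝ} (h0 : 0 ≤ θ) (h1 : θ ≤ 1) :
    eLpNorm (fun p => rotQ (ρ⁻¹ • A) (a0 * θ) p - (p.2 + ρ⁻¹ • ∑ l, wb n a0 θ l •
        S (rotU (ρ⁻¹ • A) (a0 * Num.node (n + 2) l) p))) 2 (gam2 V) ≤
      ENNReal.ofReal (rcQ n * (a0 * (τ / ρ)) ^ (n + 3) * √(2 * Module.finrank ℝ V)) +
      ENNReal.ofReal (rcQ n * a0 / ρ) * δ := by
  have hτ0 : 0 ≤ τ := (norm_nonneg A).trans hτ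
  have hq := rot_quad_l2 (n := n) (smul_symm hA ρ⁻¹) hS hδ ha h0 h1 true
  have e : (fun p => rotQ (ρ⁻¹ • A) (a0 * θ) p - (p.2 + ρ⁻¹ • ∑ l, wb n a0 θ l •
        S (rotU (ρ⁻¹ • A) (a0 * Num.node (n + 2) l) p))) = (ρ⁻¹) • (fun p =>
      (∫ t in (0 : ℝ)..(a0 * θ), A (rotC (ρ⁻¹ • A) true t p)) -
        ∑ l, wb n a0 θ l • S (rotC (ρ⁻¹ • A) true (a0 * Num.node (n + 2) l) p)) := by
    funext p
    rw [rotQ_eq_integral]
    simp only [Pi.smul_apply, rotC, if_true, _root_.smul_apply]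
    rw [intervalIntegral.integral_smul]
    module
  rw [e, eLpNorm_const_smul]
  have hc : ‖(ρ⁻¹ : ℝ)‖ₑ = ENNReal.ofReal ρ⁻¹ := by
    rw [← ofReal_norm, Real.norm_eq_abs, abs_of_pos (inv_pos.mpr hρ)]
  rw [hc]
  have hn := norm_smul_inv_le hρ hτ
  have hI := Num.intC_nonneg (n + 2)
  refine (mul_le_mul' le_rfl hq).trans ?_
  rw [mul_add, ← mul_assoc (ENNReal.ofReal ρ⁻¹) _ δ, ← ENNReal.ofReal_mul (inv_nonneg.mpr hρ.le),
    ← ENNReal.ofReal_mul (inv_nonneg.mpr hρ.le)]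
  refine add_le_add (ENNReal.ofReal_le_ofReal ?_) (mul_le_mul' (ENNReal.ofReal_le_ofReal ?_) le_rfl)
  · have hr := rcQ_nonneg n
    calc ρ⁻¹ * ((1 + Num.intC (n + 2)) * (a0 ^ (n + 3) * (‖A‖ * ‖ρ⁻¹ • A‖ ^ (n + 2))) *
          √(2 * Module.finrank ℝ V)) ≤ ρ⁻¹ * ((1 + Num.intC (n + 2)) *
          (a0 ^ (n + 3) * (τ * (τ / ρ) ^ (n + 2))) * √(2 * Module.finrank ℝ V)) := by gcongr
      _ = _ := by unfold rcQ; rw [div_eq_inv_mul]; ring
  · rw [rcQ, ← mul_assoc, div_eq_inv_mul, mul_assoc]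
    refine mul_le_mul_of_nonneg_left ?_ (inv_nonneg.mpr hρ.le)
    nlinarith

/-- **Defect of `R`**: `A B b = ∑ d_l S(q_l) + error`, `B = A/ρ`. -/
theorem rot_defect_R (hA : ∀ x y, ⟪A x, y⟫ = ⟪x, A y⟫) (hτ : ‖A‖ ≤ τ) (hρ : 0 < ρ)
    (hS : Measurable S) (hδ : eLpNorm (fun v => A v - S v) 2 (stdGaussian V) ≤ δ)
    (ha : 0 < a0) :
    eLpNorm (fun p => ρ⁻¹ • A (A p.1) - ∑ l, db n a0 l •
        S (rotQ (ρ⁻¹ • A) (a0 * Num.node (n + 2) l) p)) 2 (gam2 V) ≤
      ENNReal.ofReal (Num.derC n * (τ * (τ / ρ)) * (a0 * (τ / ρ)) ^ (n + 1) *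
        √(2 * Module.finrank ℝ V)) +
      ENNReal.ofReal (Num.derC n / a0) * δ := by
  have hτ0 : 0 ≤ τ := (norm_nonneg A).trans hτ
  have hn := norm_smul_inv_le hρ hτ
  have hI := Num.derC_nonneg n
  have hq := rot_stencil_l2 (n := n) (smul_symm hA ρ⁻¹) hS hδ ha
  have e : (fun p : V × V => ρ⁻¹ • A (A p.1) - ∑ l, db n a0 l •
        S (rotQ (ρ⁻¹ • A) (a0 * Num.node (n + 2) l) p)) = (fun p => A ((ρ⁻¹ • A) p.1) -
        ∑ l, db n a0 l • S (rotQ (ρ⁻¹ • A) (a0 * Num.node (n + 2) l) p)) := by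
    funext p
    simp only [_root_.smul_apply, map_smul]
  rw [e]
  refine hq.trans (add_le_add (ENNReal.ofReal_le_ofReal ?_) le_rfl)
  calc Num.derC n * (a0 ^ (n + 1) * (‖A‖ * ‖ρ⁻¹ • A‖ ^ (n + 2))) * √(2 * Module.finrank ℝ V) ≤
      Num.derC n * (a0 ^ (n + 1) * (τ * (τ / ρ) ^ (n + 2))) * √(2 * Module.finrank ℝ V) := by
        gcongr
    _ = _ := by ring

end l2

end Crest.Agent.R285
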