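import Crest.Agent.R285.Glue2
import Crest.Agent.R285.Rot
import Crest.Agent.R285.PostMean

/-!
Row 285 (S0430): the base cases of the recursion.
-/

set_option autoImplicit false
set_option linter.unusedSectionVars false

open MeasureTheory ProbabilityTheory Filter Topology
open Crest.OracleSampling (E Admissible oracle)
open scoped NNReal
open Crest.Agent.R285.Comp (measurable_oracle)

noncomputable section

namespace Crest.Agent.R285.Rec

open Crest.Agent.R285

variable {d : ℕ}

theorem bt_pos {x : ℝ} {d : ℕ} (hd : 1 ≤ d) : 0 < bt x d :=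
  Real.rpow_pos_of_pos (by exact_mod_cast hd) _

theorem bt_le_one {x : ℝ} (hx : 0 ≤ x) {d : ℕ} (hd : 1 ≤ d) : bt x d ≤ 1 :=
  Real.rpow_le_one_of_one_le_of_nonpos (by exact_mod_cast hd) (by linarith)

theorem tendsto_bt {x : ℝ} (hx : 0 < x) : Tendsto (bt x) atTop (𝓝 0) :=
  (tendsto_rpow_neg_atTop hx).comp tendsto_natCast_atTop_atTop

/-- `β ^ γ` is eventually small. -/
theorem eventually_bt_rpow_le {x γ ε : ℝ} (hx : 0 < x) (hγ : 0 < γ) (hε : 0 < ε) :
    ∀ᶠ d : ℕ in atTop, bt x d ^ γ ≤ ε := by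
  have h1 : Tendsto (fun d : ℕ => bt x d ^ γ) atTop (𝓝 (0 ^ γ)) :=
    (tendsto_bt hx).rpow_const (Or.inr hγ.le)
  rw [Real.zero_rpow hγ.ne'] at h1
  exact (h1.eventually (gt_mem_nhds hε)).mono fun d hd => hd.le

theorem bt_rpow_pos {x : ℝ} {d : ℕ} (hd : 1 ≤ d) (γ : ℝ) : 0 < bt x d ^ γ :=
  Real.rpow_pos_of_pos (bt_pos hd) _

theorem bt_rpow_anti {x : ℝ} (hx : 0 ≤ x) {d : ℕ} (hd : 1 ≤ d) {a b : ℝ} (h : a ≤ b) :
    bt x d ^ b ≤ bt x d ^ a :=
  Real.rpow_le_rpow_of_exponent_ge (bt_pos hd) (bt_le_one hx hd) h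

theorem one_le_bt_rpow_neg {x : ℝ} (hx : 0 ≤ x) {d : ℕ} (hd : 1 ≤ d) {g : ℝ} (hg : 0 ≤ g) :
    1 ≤ bt x d ^ (-g) :=
  Real.one_le_rpow_of_pos_of_le_one_of_nonpos (bt_pos hd) (bt_le_one hx hd) (by linarith)

theorem one_le_floor {x : ℝ} (hx : 0 ≤ x) {d : ℕ} (hd : 1 ≤ d) {g C : ℝ} (hg : 0 ≤ g)
    (hC : 1 ≤ C) : 1 ≤ ⌊C * bt x d ^ (-g)⌋₊ := by
  rw [Nat.one_le_floor_iff]
  nlinarith [one_le_bt_rpow_neg hx hd hg]

theorem integral_norm_gN_sub (c : E d) {s : ℝ} (hs : 0 ≤ s) :
    Integrable (fun z => ‖z - c‖) (gN c s) ∧ ∫ z, ‖z - c‖ ∂(gN c s) ≤ s * √(d : ℝ) := by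
  obtain ⟨h1, h2⟩ := integral_norm_stdGaussian_le (V := E d)
  rw [finrank_euclideanSpace_fin] at h2
  have e1 : ∀ g : E d, ‖c + s • g - c‖ = s * ‖g‖ := by
    intro g
    rw [add_sub_cancel_left, norm_smul, Real.norm_of_nonneg hs]
  constructor
  · rw [gN, integrable_map_measure (by fun_prop) (by fun_prop)]
    simpa only [Function.comp_def, e1] using h1.const_mul s
  · rw [gN, integral_map (by fun_prop) (by fun_prop)]
    simp only [e1]
    rw [integral_const_mul]
    exact mul_le_mul_of_nonneg_left h2 hs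

/-- Closeness of a law with a first moment to a point mass. -/
theorem dLb_dirac {P : Measure (E d)} [IsProbabilityMeasure P] {c : E d} {e : ℝ}
    (hi : Integrable (fun z => ‖z - c‖) P) (he : ∫ z, ‖z - c‖ ∂P ≤ e) :
    DLb P (Measure.dirac c) e := by
  have h1 := DLb.of_coupling (μ := P) (F := fun z => z) (G := fun _ => c)
    measurable_id.aemeasurable measurable_const.aemeasurable
    (by simpa only [dist_eq_norm] using hi) (e := e) (by simpa only [dist_eq_norm] using he)
  rwa [Measure.map_id', Measure.map_const, measure_univ, one_smul] at h1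

/-- Scales are at most one half, for large `d`. -/
theorem le_half_of_sq_le {x a s : ℝ} (hx : 0 ≤ x) (ha : 1 ≤ a) (hs : 0 ≤ s) {d : ℕ} (hd : 1 ≤ d)
    (hb : bt x d ≤ 1 / 4) (h : s ^ 2 ≤ bt x d ^ a) : s ≤ 1 / 2 := by
  have h1 : bt x d ^ a ≤ bt x d := by
    simpa using bt_rpow_anti hx hd ha
  nlinarith

theorem eventually_bt_le {x ε : ℝ} (hx : 0 < x) (hε : 0 < ε) : ∀ᶠ d : ℕ in atTop, bt x d ≤ ε := by
  simpa using eventually_bt_rpow_le (γ := 1) hx one_pos hε

theorem le_bt_of_sq_le {x a A s : ℝ} (hx : 0 ≤ x) (hs : 0 ≤ s) {d : ℕ} (hd : 1 ≤ d)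
    (h : s ^ 2 ≤ bt x d ^ a) (hA : 2 * A ≤ a) : s ≤ bt x d ^ A := by
  refine le_of_sq_le_sq ?_ (bt_rpow_pos hd A).le
  rw [← Real.rpow_natCast (bt x d ^ A), ← Real.rpow_mul (bt_pos hd).le]
  refine h.trans (bt_rpow_anti hx hd ?_)
  push_cast
  linarith

theorem map_fst_eval (N : ℕ) (i : Fin N) (c : E d) (r : ℝ) {Ω : Type} [MeasurableSpace Ω]
    (μ : Measure Ω) [IsProbabilityMeasure μ] :
    ((Measure.pi fun _ : Fin N => gN c r).prod μ).map
      (fun z : (Fin N → E d) × Ω => z.1 i) = gN c r := by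
  have e2 : (fun z : (Fin N → E d) × Ω => z.1 i) = (fun y => y i) ∘ Prod.fst := rfl
  rw [e2, ← Measure.map_map (by fun_prop) (by fun_prop), Measure.map_fst_prod]
  simp only [measure_univ, one_smul]
  exact (measurePreserving_eval (fun _ : Fin N => gN c r) i).map_eq

/-- **Base case for the samplers**: output the draw. -/
theorem baseS {x : ℝ} (hx : 0 < x) : ∀ g a A : ℝ, 0 < g → 1 ≤ a → 2 * A ≤ a → SP x g a A := by
  intro g a A hg ha hA
  refine ⟨3, by norm_num, ?_⟩
  filter_upwards [eventually_ge_atTop 1, eventually_bt_le hx (show (0:ℝ) < 1 / 4 by norm_num)]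
    with d hd hb s hs hsa
  have hs2 := le_half_of_sq_le hx.le ha hs.le hd hb hsa
  have hsA := le_bt_of_sq_le hx.le hs.le hd hsa hA
  have base : Con (d := d) (s / 4) 1 0 1 (fun V c => post V c s) (3 * bt x d ^ A) := by
    refine ⟨Unit, inferInstance, Measure.dirac (), inferInstance, fun _ z => z.1 0,
      IsQ.const ((measurable_pi_apply 0).comp measurable_fst), fun V hV => ⟨fun ω => ?_, fun c => ?_⟩⟩
    · exact LipschitzWith.eval 0
    · have e1 := map_fst_eval 1 0 c (s / 4) (Measure.dirac ())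
      rw [e1]
      obtain ⟨i1, j1⟩ := integral_norm_gN_sub c (s := s / 4) (by positivity)
      have i2 := adm_integrable_norm_sub hV c hs
      have j2 := adm_post_disp hV c hs hs2
      have hP := adm_isProb_post hV c hs
      refine ((dLb_dirac i1 j1).trans (dLb_dirac i2 j2).symm).mono ?_
      have h0 : 0 ≤ √(d : ℝ) := Real.sqrt_nonneg _
      have h1 : 0 ≤ ‖c‖ := norm_nonneg c
      have h3 : s / 4 * √(d : ℝ) ≤ 1 * (s * (√(d : ℝ) + ‖c‖)) := by nlinarith
      have h4 : 3 * (s * (√(d : ℝ) + ‖c‖)) ≤ 3 * (bt x d ^ A * (√(d : ℝ) + ‖c‖)) := by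
        gcongr
      linarith
  refine Con.weaken base ?_ (Nat.zero_le _) ?_ le_rfl
  · exact one_le_floor hx.le hd hg.le (by norm_num)
  · rw [← Real.toNNReal_one]
    exact Real.toNNReal_le_toNNReal (by norm_num)

/-- **Base case for the noisy gradients**: one query at the draw. -/
theorem baseQ {x : ℝ} (hx : 0 < x) : ∀ g e A : ℝ, 0 < g → 0 < e → A ≤ e → QP x g e A := by
  intro g e A hg he hA
  refine ⟨5, by norm_num, ?_⟩
  filter_upwards [eventually_ge_atTop 1, eventually_bt_le hx (show (0:ℝ) < 1 / 4 by norm_num)]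
    with d hd hb s σ hs hσ hsa hsσ
  have hs2 := le_half_of_sq_le hx.le (le_refl 1) hs.le hd hb (by simpa using hsa)
  have hAe : bt x d ^ e ≤ bt x d ^ A := bt_rpow_anti hx.le hd hA
  have hsA : 2 * s ≤ bt x d ^ A * σ := by nlinarith
  have base : Con (d := d) (s / 4) 1 1 2 (fun V c => gN (G V s c) σ) (5 * bt x d ^ A * σ) := by
    refine ⟨E d, inferInstance, stdGaussian (E d), inferInstance,
      fun V z => gradient V (z.1 0) + σ • z.2, ?_, fun V hV => ⟨fun ω => ?_, fun c => ?_⟩⟩
    · exact (IsQ.grad (IsQ.const (g := fun z : (Fin 1 → E d) × E d => z.1 0)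
        (by fun_prop))).map (g := fun p : ((Fin 1 → E d) × E d) × E d => p.2 + σ • p.1.2)
        (by fun_prop)
    · refine LipschitzWith.of_dist_le_mul fun y y' => ?_
      rw [dist_add_right, dist_eq_norm]
      refine (norm_gradient_sub_le (PotP.of_admissible hV) _ _).trans ?_
      have := dist_le_pi_dist y y' 0
      rw [dist_eq_norm] at this
      push_cast
      linarith
    · have hgm : Measurable (gradient V) := (continuous_gradient (PotP.of_admissible hV)).measurable
      obtain ⟨i1, j1⟩ := integral_norm_gN_sub c (s := s / 4) (by positivity)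
      have j2 := adm_G_sub hV c hs hs2
      -- coupling
      have hF : Measurable fun z : (Fin 1 → E d) × E d => gradient V (z.1 0) + σ • z.2 := by
        fun_prop
      have hG : Measurable fun z : (Fin 1 → E d) × E d => G V s c + σ • z.2 := by fun_prop
      have e2 : gN (G V s c) σ = (((Measure.pi fun _ : Fin 1 => gN c (s / 4)).prod
          (stdGaussian (E d))).map fun z => G V s c + σ • z.2) := by
        have : (fun z : (Fin 1 → E d) × E d => G V s c + σ • z.2)
          = (fun g => G V s c + σ • g) ∘ Prod.snd := rfl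
        rw [this, ← Measure.map_map (by fun_prop) (by fun_prop), Measure.map_snd_prod]
        simp only [measure_univ, one_smul]
        rfl
      beta_reduce
      rw [e2]
      have hm0 := map_fst_eval 1 0 c (s / 4) (stdGaussian (E d))
      have hev : Measurable fun z : (Fin 1 → E d) × E d => z.1 0 := by fun_prop
      have i3 : Integrable (fun z : (Fin 1 → E d) × E d => ‖z.1 0 - c‖)
          ((Measure.pi fun _ : Fin 1 => gN c (s / 4)).prod (stdGaussian (E d))) := by
        rw [← hm0, integrable_map_measure (by fun_prop) hev.aemeasurable] at i1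
        exact i1
      have j3 : ∫ z : (Fin 1 → E d) × E d, ‖z.1 0 - c‖
          ∂((Measure.pi fun _ : Fin 1 => gN c (s / 4)).prod (stdGaussian (E d)))
          ≤ s / 4 * √(d : ℝ) := by
        rw [← hm0, integral_map hev.aemeasurable (by fun_prop)] at j1
        exact j1
      have bound : ∀ z : (Fin 1 → E d) × E d, dist (gradient V (z.1 0) + σ • z.2)
          (G V s c + σ • z.2) ≤ 2 * ‖z.1 0 - c‖ + 4 * s * (√(d : ℝ) + ‖c‖) := by
        intro z
        rw [dist_add_right, dist_eq_norm]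
        have h1 := norm_gradient_sub_le (PotP.of_admissible hV) (z.1 0) c
        have h2 : gradient V (z.1 0) - G V s c
            = (gradient V (z.1 0) - gradient V c) - (G V s c - gradient V c) := by abel
        rw [h2]
        refine (norm_sub_le _ _).trans ?_
        linarith
      have i4 : Integrable (fun z : (Fin 1 → E d) × E d => 2 * ‖z.1 0 - c‖
          + 4 * s * (√(d : ℝ) + ‖c‖))
          ((Measure.pi fun _ : Fin 1 => gN c (s / 4)).prod (stdGaussian (E d))) :=
        (i3.const_mul _).add (integrable_const _)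
      have i5 : Integrable (fun z : (Fin 1 → E d) × E d => dist (gradient V (z.1 0) + σ • z.2)
          (G V s c + σ • z.2))
          ((Measure.pi fun _ : Fin 1 => gN c (s / 4)).prod (stdGaussian (E d))) :=
        i4.mono' (hF.dist hG).aestronglyMeasurable
          (Eventually.of_forall fun z => by
            rw [Real.norm_of_nonneg dist_nonneg]; exact bound z)
      refine DLb.of_coupling hF.aemeasurable hG.aemeasurable i5 ?_
      refine (integral_mono i5 i4 bound).trans ?_
      rw [integral_add (i3.const_mul _) (integrable_const _), integral_const_mul]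
      simp only [integral_const, probReal_univ, smul_eq_mul, one_mul]
      have h0 : 0 ≤ √(d : ℝ) := Real.sqrt_nonneg _
      have h1 : 0 ≤ ‖c‖ := norm_nonneg c
      have h5 : 2 * (s / 4 * √(d : ℝ)) ≤ s * (√(d : ℝ) + ‖c‖) := by nlinarith
      have h6 : 5 * (s * (√(d : ℝ) + ‖c‖)) ≤ 5 * (bt x d ^ A * σ * (√(d : ℝ) + ‖c‖)) := by
        have : s ≤ bt x d ^ A * σ := by linarith
        gcongr
      linarith
  refine Con.weaken base ?_ ?_ ?_ le_rfl
  · exact one_le_floor hx.le hd hg.le (by norm_num)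
  · exact one_le_floor hx.le hd hg.le (by norm_num)
  · rw [show (2 : ℝ≥0) = (2 : ℝ).toNNReal by simp]
    exact Real.toNNReal_le_toNNReal (by norm_num)

end Crest.Agent.R285.Rec
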