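import Crest.Agent.R285.Rec

/-!
Row 285 (S0430): eventual inequalities between powers of the small parameter `β = bt x d`.
-/

set_option autoImplicit false

open Filter Topology

namespace Crest.Agent.R285.BtNum

theorem bt_pos (x : ℝ) {d : ℕ} (hd : 0 < d) : 0 < bt x d :=
  Real.rpow_pos_of_pos (by exact_mod_cast hd) _

theorem bt_le_one {x : ℝ} (hx : 0 ≤ x) {d : ℕ} (hd : 0 < d) : bt x d ≤ 1 := by
  have h1 : (1 : ℝ) ≤ d := by exact_mod_cast hd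
  exact Real.rpow_le_one_of_one_le_of_nonpos h1 (by linarith)

theorem tendsto_bt {x : ℝ} (hx : 0 < x) : Tendsto (bt x) atTop (𝓝 0) :=
  (tendsto_rpow_neg_atTop hx).comp tendsto_natCast_atTop_atTop

theorem ev_pos (x : ℝ) : ∀ᶠ d : ℕ in atTop, 0 < bt x d := by
  filter_upwards [eventually_gt_atTop 0] with d hd
  exact bt_pos x hd

theorem ev_le_one {x : ℝ} (hx : 0 ≤ x) : ∀ᶠ d : ℕ in atTop, bt x d ≤ 1 := by
  filter_upwards [eventually_gt_atTop 0] with d hd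
  exact bt_le_one hx hd

/-- `C β^a ≤ ε` eventually, for `a > 0`. -/
theorem ev_small {x : ℝ} (hx : 0 < x) {a : ℝ} (ha : 0 < a) (C : ℝ) {ε : ℝ} (hε : 0 < ε) :
    ∀ᶠ d : ℕ in atTop, C * bt x d ^ a ≤ ε := by
  have h1 : Tendsto (fun d => C * bt x d ^ a) atTop (𝓝 (C * 0 ^ a)) :=
    ((tendsto_bt hx).rpow_const (Or.inr ha.le)).const_mul C
  rw [Real.zero_rpow ha.ne', mul_zero] at h1
  filter_upwards [h1.eventually (gt_mem_nhds hε)] with d hd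
  exact le_of_lt hd

/-- `C₁ β^a ≤ C₂ β^b` eventually, for `a > b`, `C₂ > 0`. -/
theorem ev_le {x : ℝ} (hx : 0 < x) {a b : ℝ} (hab : b < a) (C₁ : ℝ) {C₂ : ℝ} (hC₂ : 0 < C₂) :
    ∀ᶠ d : ℕ in atTop, C₁ * bt x d ^ a ≤ C₂ * bt x d ^ b := by
  filter_upwards [ev_small hx (sub_pos.2 hab) C₁ hC₂, ev_pos x] with d hd hp
  have h2 : bt x d ^ a = bt x d ^ (a - b) * bt x d ^ b := by
    rw [← Real.rpow_add hp]; congr 1; ring
  rw [h2, ← mul_assoc]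
  exact mul_le_mul_of_nonneg_right hd (Real.rpow_nonneg hp.le _)

/-- Monotonicity in the exponent (β ≤ 1). -/
theorem rpow_anti {x : ℝ} {d : ℕ} (h0 : 0 < bt x d) (h1 : bt x d ≤ 1) {a b : ℝ} (h : b ≤ a) :
    bt x d ^ a ≤ bt x d ^ b :=
  Real.rpow_le_rpow_of_exponent_ge h0 h1 h

/-- Natural number approximations from above: `⌈C β^{-g}⌉ ≤ (C + 1) β^{-g}`. -/
theorem ceil_le {x : ℝ} {d : ℕ} (h0 : 0 < bt x d) (h1 : bt x d ≤ 1) {C g : ℝ} (hC : 0 ≤ C)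
    (hg : 0 ≤ g) : (⌈C * bt x d ^ (-g)⌉₊ : ℝ) ≤ (C + 1) * bt x d ^ (-g) := by
  have h2 : 1 ≤ bt x d ^ (-g) := Real.one_le_rpow_of_pos_of_le_one_of_nonpos h0 h1 (by linarith)
  have h3 := (Nat.ceil_lt_add_one (a := C * bt x d ^ (-g)) (by positivity)).le
  nlinarith

end Crest.Agent.R285.BtNum
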