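import Mathlib
import Crest.Agent.R285.Flow1

/-!
Row 285: third derivatives of `Ub` and the Burgers equation for `G = ∇ Ub` (`σ > 0`).
-/

set_option autoImplicit false
set_option maxSynthPendingDepth 3
set_option linter.unusedSectionVars false

open MeasureTheory ProbabilityTheory Real Filter Topology Set
open scoped RealInnerProductSpace

noncomputable section

namespace Crest.Agent.R285

variable {V : Type} [NormedAddCommGroup V] [InnerProductSpace ℝ V] [FiniteDimensional ℝ V]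
  [MeasurableSpace V] [BorelSpace V]

variable {h : ℝ} {U : V → ℝ}

theorem isOpen_pos : IsOpen {p : ℝ × V | 0 < p.1} :=
  isOpen_lt (f := fun _ : ℝ × V => (0 : ℝ)) (g := fun p : ℝ × V => p.1) continuous_const
    continuous_fst

theorem contDiffOn_zp2_top (hU : PotP h U) :
    ContDiffOn ℝ (⊤ : ℕ∞) (Zp2 U) {p : ℝ × V | 0 < p.1} :=
  contDiffOn_avg_top ((ph_cd1 hU).continuous_fderiv one_ne_zero) (C := gC h) fun y => by
    simpa using (gg_ph' hU).b1 y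

theorem contDiffOn_ub2_top (hU : PotP h U) :
    ContDiffOn ℝ (⊤ : ℕ∞) (Ub2 U) {p : ℝ × V | 0 < p.1} := by
  have hz := contDiffOn_zp_top hU
  have hz1 := contDiffOn_zp1_top hU
  have hz2 := contDiffOn_zp2_top hU
  have hi : ContDiffOn ℝ (⊤ : ℕ∞) (fun p => (Zp U p)⁻¹) {p : ℝ × V | 0 < p.1} :=
    hz.inv fun p _ => (zp_pos hU p).ne'
  have hi2 : ContDiffOn ℝ (⊤ : ℕ∞) (fun p => ((Zp U p) ^ 2)⁻¹) {p : ℝ × V | 0 < p.1} :=
    (hz.pow 2).inv fun p _ => (pow_pos (zp_pos hU p) 2).ne'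
  refine ContDiffOn.sub ?_ (hi.smul hz2)
  exact ContDiffOn.clm_apply (f := fun p => ContinuousLinearMap.smulRightL ℝ V (V →L[ℝ] ℝ) (Zp1 U p))
    ((ContinuousLinearMap.smulRightL ℝ V (V →L[ℝ] ℝ)).contDiff.comp_contDiffOn hz1) (hi2.smul hz1)

/-- The third derivative. -/
def Ub3 (U : V → ℝ) (p : ℝ × V) : V →L[ℝ] V →L[ℝ] V →L[ℝ] ℝ :=
  fderiv ℝ (fun x => Ub2 U (p.1, x)) p.2

theorem ub2_slice (hU : PotP h U) {σ : ℝ} (hσ : 0 < σ) :
    ContDiff ℝ (⊤ : ℕ∞) (fun x : V => Ub2 U (σ, x)) := by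
  rw [← contDiffOn_univ]
  exact (contDiffOn_ub2_top hU).comp (f := fun x : V => (σ, x)) (by fun_prop) fun _ _ => hσ

theorem hasFDerivAt_ub2_x (hU : PotP h U) {σ : ℝ} (hσ : 0 < σ) (x : V) :
    HasFDerivAt (fun x => Ub2 U (σ, x)) (Ub3 U (σ, x)) x :=
  ((ub2_slice hU hσ).differentiable (by simp) x).hasFDerivAt

theorem ub3_symm23 (hU : PotP h U) {σ : ℝ} (hσ : 0 < σ) (x a b c : V) :
    Ub3 U (σ, x) a b c = Ub3 U (σ, x) a c b := by
  have h1 := hasFDerivAt_ub2_x hU hσ x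
  have h2 : ∀ b c : V, HasFDerivAt (fun x => Ub2 U (σ, x) b c)
      ((ContinuousLinearMap.apply ℝ ℝ c).comp ((ContinuousLinearMap.apply ℝ (V →L[ℝ] ℝ) b).comp
        (Ub3 U (σ, x)))) x := fun b c =>
    (ContinuousLinearMap.apply ℝ ℝ c).hasFDerivAt.comp x
      ((ContinuousLinearMap.apply ℝ (V →L[ℝ] ℝ) b).hasFDerivAt.comp x h1)
  have h3 : (fun x => Ub2 U (σ, x) b c) = fun x => Ub2 U (σ, x) c b :=
    funext fun x => ub2_symm hU (σ, x) b c
  have h4 := h2 b c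
  rw [h3] at h4
  have h5 := congrArg (fun L : V →L[ℝ] ℝ => L a) (h4.unique (h2 c b))
  simpa using h5

theorem ub3_symm12 (hU : PotP h U) {σ : ℝ} (hσ : 0 < σ) (x a b c : V) :
    Ub3 U (σ, x) a b c = Ub3 U (σ, x) b a c := by
  have hf : ∀ x, HasFDerivAt (fun x => Ub1 U (σ, x)) (Ub2 U (σ, x)) x :=
    fun x => hasFDerivAt_ub1_x hU σ x
  have h1 := second_derivative_symmetric (𝕜 := ℝ) hf (hasFDerivAt_ub2_x hU hσ x) a b
  rw [h1]

theorem lap_ub3 (hU : PotP h U) {σ : ℝ} (hσ : 0 < σ) (x : V) :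
    HasFDerivAt (fun x => dvg (G U σ) x) ((lap V).comp (Ub3 U (σ, x))) x := by
  have h1 : (fun x => dvg (G U σ) x) = fun x => lap V (Ub2 U (σ, x)) :=
    funext fun x => dvg_gr hU σ x
  rw [h1]
  exact (lap V).hasFDerivAt.comp x (hasFDerivAt_ub2_x hU hσ x)

theorem ub1_fderiv_x (hU : PotP h U) (σ : ℝ) (x w : V) :
    fderiv ℝ (Ub1 U) (σ, x) (0, w) = Ub2 U (σ, x) w := by
  have hd : HasFDerivAt (Ub1 U) _ (σ, x) :=
    ((contDiff_ub1 hU).differentiable one_ne_zero (σ, x)).hasFDerivAt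
  have h2 : HasFDerivAt (fun x' : V => ((σ, x') : ℝ × V)) (ContinuousLinearMap.inr ℝ ℝ V) x := by
    have h0 := (hasFDerivAt_const (𝕜 := ℝ) σ x).prodMk (hasFDerivAt_id (𝕜 := ℝ) x)
    exact h0
  have h3 := HasFDerivAt.unique (f := fun x => Ub1 U (σ, x)) (hd.comp x h2)
    (hasFDerivAt_ub1_x hU σ x)
  have h4 := congrArg (fun L : V →L[ℝ] V →L[ℝ] ℝ => L w) h3
  simpa using h4

/-- **Burgers equation.** -/
theorem burgers (hU : PotP h U) {σ : ℝ} (hσ : 0 < σ) (x v : V) :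
    fderiv ℝ (Ub1 U) (σ, x) (1, 0) v =
      σ * (lap V (Ub3 U (σ, x) v) - 2 * Ub2 U (σ, x) v (G U σ x)) := by
  set F : ℝ × V → ℝ := fun p => Ub U p.1 p.2 with hF
  have hFc : ContDiffOn ℝ 2 F {p : ℝ × V | 0 < p.1} :=
    contDiffOn_infty.1 (contDiffOn_ub_top hU) 2
  have hmem : (σ, x) ∈ {p : ℝ × V | 0 < p.1} := hσ
  have hFa : ContDiffAt ℝ 2 F (σ, x) := hFc.contDiffAt (isOpen_pos.mem_nhds hmem)
  have hsym := (hFa.isSymmSndFDerivAt (by simp)) (1, 0) (0, v)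
  have hF1 : HasFDerivAt (fderiv ℝ F) (fderiv ℝ (fderiv ℝ F) (σ, x)) (σ, x) :=
    ((hFa.fderiv_right (m := 1) (by norm_num)).differentiableAt one_ne_zero).hasFDerivAt
  -- first side
  have e1 : fderiv ℝ (fderiv ℝ F) (σ, x) (1, 0) (0, v) = fderiv ℝ (Ub1 U) (σ, x) (1, 0) v := by
    have h1 : HasFDerivAt (fun p => fderiv ℝ F p (0, v))
        ((ContinuousLinearMap.apply ℝ ℝ ((0 : ℝ), v)).comp (fderiv ℝ (fderiv ℝ F) (σ, x))) (σ, x) :=
      (ContinuousLinearMap.apply ℝ ℝ ((0 : ℝ), v)).hasFDerivAt.comp (σ, x) hF1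
    have h2 : (fun p => fderiv ℝ F p (0, v)) = fun p => Ub1 U p v := by
      funext p
      rw [hF, show p = (p.1, p.2) from rfl, ub_fderiv hU, zero_mul, zero_add, inner_gr hU]
    have hd : HasFDerivAt (Ub1 U) _ (σ, x) :=
      ((contDiff_ub1 hU).differentiable one_ne_zero (σ, x)).hasFDerivAt
    have h3 : HasFDerivAt (fun p => Ub1 U p v)
        ((ContinuousLinearMap.apply ℝ ℝ v).comp (fderiv ℝ (Ub1 U) (σ, x))) (σ, x) :=
      (ContinuousLinearMap.apply ℝ ℝ v).hasFDerivAt.comp (σ, x) hd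
    rw [h2] at h1
    have h4 := congrArg (fun L : ℝ × V →L[ℝ] ℝ => L (1, 0)) (h1.unique h3)
    simpa using h4
  -- second side
  have e2 : fderiv ℝ (fderiv ℝ F) (σ, x) (0, v) (1, 0) =
      σ * (lap V (Ub3 U (σ, x) v) - 2 * Ub2 U (σ, x) v (G U σ x)) := by
    have h1 : HasFDerivAt (fun p => fderiv ℝ F p (1, 0))
        ((ContinuousLinearMap.apply ℝ ℝ ((1 : ℝ), (0 : V))).comp (fderiv ℝ (fderiv ℝ F) (σ, x)))
        (σ, x) :=
      (ContinuousLinearMap.apply ℝ ℝ ((1 : ℝ), (0 : V))).hasFDerivAt.comp (σ, x) hF1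
    have h2 : HasFDerivAt (fun x' : V => ((σ, x') : ℝ × V)) (ContinuousLinearMap.inr ℝ ℝ V) x := by
      have h0 := (hasFDerivAt_const (𝕜 := ℝ) σ x).prodMk (hasFDerivAt_id (𝕜 := ℝ) x)
      exact h0
    have h3 := h1.comp x h2
    have h4 : ((fun p => fderiv ℝ F p (1, 0)) ∘ fun x' : V => ((σ, x') : ℝ × V)) =
        fun x' => σ * (dvg (G U σ) x' - ‖G U σ x'‖ ^ 2) := by
      funext x'
      simp only [Function.comp_apply, hF]
      rw [ub_fderiv hU, one_mul, inner_zero_right, add_zero]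
    rw [h4] at h3
    have h5 : HasFDerivAt (fun x' => σ * (dvg (G U σ) x' - ‖G U σ x'‖ ^ 2)) _ x :=
      ((lap_ub3 hU hσ x).sub (hasFDerivAt_gr_x hU σ x).norm_sq).const_mul σ
    have h6 := congrArg (fun L : V →L[ℝ] ℝ => L v) (h3.unique h5)
    simp only [ContinuousLinearMap.comp_apply, ContinuousLinearMap.inr_apply,
      ContinuousLinearMap.apply_apply, _root_.smul_apply, _root_.sub_apply, smul_eq_mul,
      innerSL_apply_apply, nsmul_eq_mul, Nat.cast_ofNat] at h6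
    rw [h6, DGr, ContinuousLinearMap.comp_apply, inner_rz']
  rw [← e1, hsym, e2]

end Crest.Agent.R285
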