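import Mathlib

/-!
Row 285, module SMOOTHNESS, part (A): the abstract word calculus.

`Calc C n F` packages a commutative `ℝ`-algebra `F` (tame functions of `(time, η, b)`), the commuting
derivations `d i = κ ∂/∂η_i`, `e i = ∂/∂b_i`, the time derivation `D = κ² D_ε`, the normalised derivative
arrays `T K = κ^(|K|-2) ∂^K u / τ`, the scores `X i = κ (η_i + ε ∂_i u)`, `Y i = b_i`, and the functional
`I f = ∫ f(at the evaluation time) d(μ_ε × γ)`.
-/

set_option autoImplicit false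

open Finset

namespace Crest.Agent.R285

/-- `k` slots with values in `Fin n`. -/
def Ix (n : ℕ) : ℕ → Type
  | 0 => PUnit
  | k + 1 => Fin n × Ix n k

instance instFintypeIx (n : ℕ) : ∀ k, Fintype (Ix n k)
  | 0 => inferInstanceAs (Fintype PUnit)
  | k + 1 =>
    haveI := instFintypeIx n k
    inferInstanceAs (Fintype (Fin n × Ix n k))

/-- the list of the slots -/
def Ix.toList {n : ℕ} : ∀ {k : ℕ}, Ix n k → List (Fin n)
  | 0, _ => []
  | _ + 1, I => I.1 :: I.2.toList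

/-- the quadratic kernel `φ K1 K2 = Σ_l T(l K1) T(l K2)` (zero if one of the lists is empty) -/
def quadφ {n : ℕ} {F : Type} [CommRing F] (T : List (Fin n) → F) (K1 K2 : List (Fin n)) : F :=
  if K1 = [] ∨ K2 = [] then 0 else ∑ l, T (l :: K1) * T (l :: K2)

/-- sum of `φ` over all ways of distributing the entries of the third list over the first two -/
def quadΦ {n : ℕ} {F : Type} [CommRing F] (T : List (Fin n) → F) :
    List (Fin n) → List (Fin n) → List (Fin n) → F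
  | K1, K2, [] => quadφ T K1 K2
  | K1, K2, k :: K => quadΦ T (k :: K1) K2 K + quadΦ T K1 (k :: K2) K

/-- The abstract data. `C q p` are the (universal) flattening constants. -/
structure Calc (C : ℕ → ℕ → ℝ) (n : ℕ) (F : Type) [CommRing F] [Algebra ℝ F] where
  /-- `κ ∂/∂η_i` -/
  d : Fin n → Derivation ℝ F F
  /-- `∂/∂b_i` -/
  e : Fin n → Derivation ℝ F F
  /-- `κ² D_ε`, `D_ε = ∂_ε - ∇u(ε,εη)·∇_η` -/
  D : Derivation ℝ F F
  /-- `κ^(|K|-2) (∂^K u)(ε, εη)/τ` -/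
  T : List (Fin n) → F
  /-- `κ (η_i + ε ∂_i u(ε,εη))` -/
  X : Fin n → F
  /-- `b_i` -/
  Y : Fin n → F
  ep : F
  ka : F
  τ : ℝ
  b : ℝ
  ep₀ : ℝ
  ka₀ : ℝ
  I : F →ₗ[ℝ] ℝ
  τ_nonneg : 0 ≤ τ
  τ_le : τ ≤ 1
  b_le : |b| ≤ 1
  ep₀_le : |ep₀| ≤ 1
  ka₀_le : |ka₀| ≤ 1
  I_nonneg : ∀ f : F, 0 ≤ I (f * f)
  I_one : I 1 = 1
  I_ep : ∀ f, I (ep * f) = ep₀ * I f
  I_ka : ∀ f, I (ka * f) = ka₀ * I f
  I_d : ∀ i f, I (d i f) = I (X i * f)
  I_e : ∀ i f, I (e i f) = I (Y i * f)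
  dd_comm : ∀ i j f, d i (d j f) = d j (d i f)
  de_comm : ∀ i j f, d i (e j f) = e j (d i f)
  ee_comm : ∀ i j f, e i (e j f) = e j (e i f)
  T_perm : ∀ K K' : List (Fin n), K.Perm K' → T K = T K'
  d_T : ∀ i K, d i (T K) = ep * T (i :: K)
  e_T : ∀ i K, e i (T K) = 0
  d_X : ∀ i j, d i (X j) = (if i = j then ka * ka else 0) + τ • (ep * ep * (ka * ka) * T [i, j])
  e_X : ∀ i j, e i (X j) = 0
  d_Y : ∀ i j, d i (Y j) = 0
  e_Y : ∀ i j, e i (Y j) = if i = j then 1 else 0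
  d_ep : ∀ i, d i ep = 0
  e_ep : ∀ i, e i ep = 0
  d_ka : ∀ i, d i ka = 0
  e_ka : ∀ i, e i ka = 0
  D_ep : D ep = ka * ka
  D_ka : D ka = -(ep * ka)
  D_d : ∀ i f, D (d i f) = d i (D f) - ep * d i f + τ • (ep * (ka * ka) * ∑ j, T [i, j] * d j f)
  D_e : ∀ i f, D (e i f) = e i (D f)
  D_X : ∀ j, D (X j) = -(ep * X j) +
    τ • (ep * (ka * ka) * ∑ l, (X l * T [l, j] - d l (T [l, j])))
  D_Y : ∀ j, D (Y j) = 0
  D_T : ∀ K : List (Fin n), K ≠ [] → D (T K) = -(((K.length : ℝ) - 2) • (ep * T K)) +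
    ∑ l, (X l * T (l :: K) - d l (T (l :: K))) + τ • (ep * (ka * ka) * quadΦ T [] [] K)
  /-- all flattenings are bounded -/
  AF : ∀ q p : ℕ, 1 ≤ q → 1 ≤ p → ∀ f : Ix n p → F,
    ∑ J : Ix n q, I ((∑ K : Ix n p, T (J.toList ++ K.toList) * f K) *
      (∑ K : Ix n p, T (J.toList ++ K.toList) * f K)) ≤ C q p * ∑ K, I (f K * f K)

end Crest.Agent.R285
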