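import Crest.Agent.R285.PostMean
import Crest.Agent.R285.Flow1

/-!
Row 285, module CHANNEL, part 3 (helper582): laws in the variable `η = (y - c)/(s t)`, link with the
exact flow of `Flow1.lean`.

* `post_eq_map`  : `post W c r` is the image under `η ↦ c + r η` of the tilted standard Gaussian;
* `eta_law`      : law of `(t/s)(z - c) + √(1-t²) g`, `z ∼ post U c s`;
* `evol_eta_law`, `evol_law`, `evol_TY` : laws of the exact flow `evol (vY U c s) (Ioo (-1) 1) 0 t`.
-/

set_option autoImplicit false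
set_option linter.unusedSectionVars false

open MeasureTheory ProbabilityTheory Real Set
open scoped RealInnerProductSpace ENNReal

noncomputable section

namespace Crest.Agent.R285

variable {V : Type} [NormedAddCommGroup V] [InnerProductSpace ℝ V] [FiniteDimensional ℝ V]
  [MeasurableSpace V] [BorelSpace V] {h : ℝ} {U W : V → ℝ}

open Chan

/-- The tilted Gaussian in the `η` variable. -/
theorem post_eq_map (hW : Nice W) (c : V) {r : ℝ} (hr : 0 < r) :
    post W c r = ((stdGaussian V).withDensity fun η => ENNReal.ofReal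
      (rexp (Ub W r c - W (c + r • η)))).map (fun η => c + r • η) := by
  have hm : Measurable fun η : V => ENNReal.ofReal (rexp (Ub W r c - W (c + r • η))) :=
    ENNReal.measurable_ofReal.comp (Real.measurable_exp.comp
      (measurable_const.sub (hW.meas.comp (measurable_aff c r))))
  refine Measure.ext_of_lintegral _ fun F hF => ?_
  have hF' : Measurable fun η : V => F (c + r • η) := hF.comp (measurable_aff c r)
  have hD : Measurable fun z => ENNReal.ofReal (rexp (-W z)) * F z := hW.measurable_dens.mul hF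
  rw [lintegral_map hF (measurable_aff c r), lintegral_post hW c hr hF,
    lintegral_withDensity_eq_lintegral_mul _ hm hF', Chan.lintegral_gN c r hD,
    ← lintegral_const_mul _ (by exact hD.comp (measurable_aff c r))]
  refine lintegral_congr fun η => ?_
  simp only [Pi.mul_apply]
  rw [← mul_assoc, sub_eq_add_neg, Real.exp_add, ENNReal.ofReal_mul (Real.exp_pos _).le]
  congr 2
  rw [← ENNReal.ofReal_inv_of_pos (hW.wt_pos r c)]
  congr 1
  rw [← hW.exp_neg_Ub r c, ← Real.exp_neg, neg_neg]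

/-- The tilted Gaussian in the `η` variable, inverse form. -/
theorem post_map_eta (hW : Nice W) (c : V) {r : ℝ} (hr : 0 < r) :
    (post W c r).map (fun y => r⁻¹ • (y - c)) = (stdGaussian V).withDensity fun η =>
      ENNReal.ofReal (rexp (Ub W r c - W (c + r • η))) := by
  rw [post_eq_map hW c hr, Measure.map_map (by fun_prop) (measurable_aff c r)]
  have : (fun y => r⁻¹ • (y - c)) ∘ (fun η : V => c + r • η) = id := by
    funext η
    simp only [Function.comp_apply, add_sub_cancel_left, smul_smul, id]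
    rw [inv_mul_cancel₀ hr.ne', one_smul]
  rw [this, Measure.map_id]

/-- Law of the `η` variable at level `t`. -/
theorem eta_law (hU : Nice U) (c : V) {s t : ℝ} (hs : 0 < s) (ht : 0 ≤ t) (ht1 : t < 1) :
    ((post U c s).prod (stdGaussian V)).map (fun p => (t / s) • (p.1 - c) + √(1 - t ^ 2) • p.2) =
      (stdGaussian V).withDensity fun η => ENNReal.ofReal
        (rexp (Ub U s c - Ub U (s * √(1 - t ^ 2)) (c + (s * t) • η))) := by
  have hP := isProbabilityMeasure_post hU c hs
  rcases ht.eq_or_lt with h0 | h0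
  · subst h0
    have e1 : (fun p : V × V => ((0 : ℝ) / s) • (p.1 - c) + √(1 - (0 : ℝ) ^ 2) • p.2) =
        Prod.snd := by
      funext p
      simp
    rw [e1, Measure.map_snd_prod]
    simp
  · have h1 : 0 < 1 - t ^ 2 := by nlinarith
    have h2 : 0 < √(1 - t ^ 2) := Real.sqrt_pos.2 h1
    have h3 : √(1 - t ^ 2) ^ 2 = 1 - t ^ 2 := Real.sq_sqrt h1.le
    have hst : 0 < s * t := mul_pos hs h0
    have hh : (s * t) ^ 2 + (s * √(1 - t ^ 2)) ^ 2 = s ^ 2 := by
      rw [mul_pow, mul_pow, h3]; ring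
    have hch := channel hU hst (mul_pos hs h2) hs hh c
    have hpm := post_map_eta (hU.Ub (s * √(1 - t ^ 2))) c hst
    rw [← hch, Measure.map_map (by fun_prop) (by fun_prop), Ub_semigroup hU hs.le hh] at hpm
    rw [← hpm]
    congr 1
    funext p
    simp only [Function.comp_apply]
    have e1 : c + ((s * t) ^ 2 / s ^ 2) • (p.1 - c) + (s * t * (s * √(1 - t ^ 2)) / s) • p.2 - c =
        ((s * t) ^ 2 / s ^ 2) • (p.1 - c) + (s * t * (s * √(1 - t ^ 2)) / s) • p.2 := by abel
    rw [e1, smul_add, smul_smul, smul_smul]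
    congr 2 <;> field_simp

/-- Law of the exact flow in the `η` variable. -/
theorem evol_eta_law (hU : PotP h U) (c : V) {s t : ℝ} (hs : 0 < s) (ht : 0 ≤ t) (ht1 : t < 1) :
    (stdGaussian V).map (evol (vY U c s) (Ioo (-1 : ℝ) 1) 0 t) =
      ((post U c s).prod (stdGaussian V)).map
        (fun p => (t / s) • (p.1 - c) + √(1 - t ^ 2) • p.2) := by
  rw [eta_law (nice_of_pot hU) c hs ht ht1, map_evol_vY hU c hs ⟨by linarith, ht1⟩]

theorem measurable_evol_vY (hU : PotP h U) (c : V) {s t : ℝ} (hs : 0 < s)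
    (ht : t ∈ Ioo (-1 : ℝ) 1) : Measurable (evol (vY U c s) (Ioo (-1 : ℝ) 1) 0 t) :=
  ((goodOn_vY hU c hs).continuous_evol ⟨by norm_num, by norm_num⟩ ht).measurable

/-- Law of the exact flow in the `y` variable. -/
theorem evol_law (hU : PotP h U) (c : V) {s t : ℝ} (hs : 0 < s) (ht : 0 < t) (ht1 : t < 1) :
    (stdGaussian V).map (fun ξ => c + (s * t) • evol (vY U c s) (Ioo (-1 : ℝ) 1) 0 t ξ) =
      post (Ub U (s * √(1 - t ^ 2))) c (s * t) := by
  have hN := nice_of_pot hU
  have hm := measurable_evol_vY hU c hs (t := t) ⟨by linarith, ht1⟩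
  have h1 : 0 < 1 - t ^ 2 := by nlinarith
  have h3 : √(1 - t ^ 2) ^ 2 = 1 - t ^ 2 := Real.sq_sqrt h1.le
  have hh : (s * t) ^ 2 + (s * √(1 - t ^ 2)) ^ 2 = s ^ 2 := by
    rw [mul_pow, mul_pow, h3]; ring
  rw [post_eq_map (hN.Ub _) c (mul_pos hs ht), Ub_semigroup hN hs.le hh,
    ← map_evol_vY hU c hs ⟨by linarith, ht1⟩, Measure.map_map (measurable_aff c (s * t)) hm]
  rfl

/-- The visible point is the exact flow at time `√(1-κ²)`. -/
theorem evol_TY (hU : PotP h U) (c : V) {s κ : ℝ} (hs : 0 < s) (hκ : 0 < κ) (hκ1 : κ < 1) :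
    (stdGaussian V).map (fun ξ => c + (s * √(1 - κ ^ 2)) •
        evol (vY U c s) (Ioo (-1 : ℝ) 1) 0 √(1 - κ ^ 2) ξ) =
      ((post U c s).prod (stdGaussian V)).map
        (fun p => κ ^ 2 • c + (1 - κ ^ 2) • p.1 + (s * κ * √(1 - κ ^ 2)) • p.2) := by
  have h1 : 0 < 1 - κ ^ 2 := by nlinarith
  have h2 : 0 < √(1 - κ ^ 2) := Real.sqrt_pos.2 h1
  have h3 : √(1 - κ ^ 2) ^ 2 = 1 - κ ^ 2 := Real.sq_sqrt h1.le
  have h4 : √(1 - κ ^ 2) < 1 := by
    rw [Real.sqrt_lt' one_pos]; nlinarith
  have h5 : √(1 - √(1 - κ ^ 2) ^ 2) = κ := by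
    rw [h3, sub_sub_cancel, Real.sqrt_sq hκ.le]
  rw [post_channel (nice_of_pot hU) c hs hκ hκ1, evol_law hU c hs h2 h4, h5]

end Crest.Agent.R285
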