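import Crest.Agent.R285.Draw

/-!
Row 285 (S0430): averaging the outputs of `m` independent runs of a contract with Gaussian target
reduces the output noise `σ` to `σ / √m` (Lipschitz constant and error unchanged).
-/

set_option autoImplicit false
set_option linter.unusedSectionVars false

open MeasureTheory ProbabilityTheory
open Crest.OracleSampling (E Admissible)
open scoped NNReal

noncomputable section

namespace Crest.Agent.R285

variable {d : ℕ}

/-- Averaging the outputs of `m` independent runs. -/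
theorem Con.avgOut {m : ℕ} (hm : 0 < m) {rin σ D : ℝ} (hσ : 0 ≤ σ) {N q : ℕ} {L : ℝ≥0}
    {F : (E d → ℝ) → E d → E d} (h : Con rin N q L (fun V c => gN (F V c) σ) D) :
    Con rin (m * N) (m * q) L (fun V c => gN (F V c) (σ / √(m : ℝ))) D := by
  have hm' : (0 : ℝ) < m := by exact_mod_cast hm
  have h0 : GD (P := Unit) (Fin N) rin q L (fun V c (_ : Unit) => gN (F V c) σ)
      (fun _ c _ => D * (√(d : ℝ) + ‖c‖)) := h.toGD
  have h1 := GD.lin (J := Fin m) (K := fun _ => Fin N) (qq := fun _ => q) (LL := fun _ => L)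
    (σ := fun _ => σ) (v := fun _ V c (_ : Unit) => F V c) (fun _ => h0) (fun _ => (m : ℝ)⁻¹)
    (w := fun _ (_ : Unit) => (0 : E d)) (q' := 0)
    (IsQ.const measurable_const) (b := 0) (fun _ _ => LipschitzWith.const 0)
    (R := σ / √(m : ℝ)) (by
      rw [Finset.sum_const, Finset.card_univ, Fintype.card_fin, nsmul_eq_mul]
      rw [show (m : ℝ) * ((m : ℝ)⁻¹ * σ) ^ 2 = σ ^ 2 / m by field_simp,
        Real.sqrt_div (sq_nonneg σ), Real.sqrt_sq hσ])
  have h2 := h1.congr (T' := fun V c (_ : Unit) => gN (F V c) (σ / √(m : ℝ)))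
    (fun V hV c p => by
      have e1 : (0 : E d) + ∑ _j : Fin m, (m : ℝ)⁻¹ • F V c = F V c := by
        rw [Finset.sum_const, Finset.card_univ, Fintype.card_fin, zero_add,
          ← Nat.cast_smul_eq_nsmul ℝ, smul_smul, mul_inv_cancel₀ hm'.ne', one_smul]
      change gN ((0 : E d) + ∑ _j : Fin m, (m : ℝ)⁻¹ • F V c) _ = _
      rw [e1])
  have h3 := GD.toCon h2 (N := m * N) (by simp) () (D := D) (fun V hV c => by
    change ∑ _j : Fin m, |(m : ℝ)⁻¹| * (D * (√(d : ℝ) + ‖c‖)) ≤ _
    rw [Finset.sum_const, Finset.card_univ, Fintype.card_fin, nsmul_eq_mul, ← mul_assoc,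
      abs_of_pos (inv_pos.2 hm'), mul_inv_cancel₀ hm'.ne', one_mul])
  have e3 : (0 : ℝ≥0) + ∑ _j : Fin m, ‖(m : ℝ)⁻¹‖₊ * L = L := by
    rw [Finset.sum_const, Finset.card_univ, Fintype.card_fin, zero_add, nsmul_eq_mul, ← mul_assoc]
    have : (m : ℝ≥0) * ‖(m : ℝ)⁻¹‖₊ = 1 := by
      rw [nnnorm_inv]
      have e4 : ‖(m : ℝ)‖₊ = m := by
        ext; simp
      rw [e4]
      exact mul_inv_cancel₀ (by exact_mod_cast hm.ne')
    rw [this, one_mul]
  have e4 : ∑ _j : Fin m, q + 0 = m * q := by simp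
  rw [e3, e4] at h3
  exact h3

end Crest.Agent.R285
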