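import Crest.Agent.R285.Defs
import Crest.Agent.R285.Flat

/-!
Row 285 (S0430): rescaled units and original units.

In rescaled units (`s = 1`, `c = 0`) the potential is `f w = V (c + s w)`; `Ub`, `G` of `f`:
`Ub f σ y = Ub V (s σ) (c + s y)`, `G f σ y = s • G V (s σ) (c + s y)`.
A flat system in rescaled units, whose visible vectors are `p~ k = a k • (p k - e k • c)`
(position: `a = s⁻¹, e = 1`; gradient-like: `a = s, e = 0`; unit Gaussian: `a = 1, e = 0`),
becomes a flat system `FlatSys.orig` in original units: `point_orig = c + s • point_rescaled`.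
-/

set_option autoImplicit false
set_option linter.unusedSectionVars false

open MeasureTheory ProbabilityTheory
open scoped NNReal

noncomputable section

namespace Crest.Agent.R285

section pot

variable {V : Type} [NormedAddCommGroup V] [InnerProductSpace ℝ V] [FiniteDimensional ℝ V]
  [MeasurableSpace V] [BorelSpace V]

/-- The rescaled potential. -/
def resc (U : V → ℝ) (c : V) (s : ℝ) : V → ℝ := fun w => U (c + s • w)

theorem Ub_resc (U : V → ℝ) (c : V) (s σ : ℝ) (y : V) :
    Ub (resc U c s) σ y = Ub U (s * σ) (c + s • y) := by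
  unfold Ub resc
  congr 2
  refine integral_congr_ae (Filter.Eventually.of_forall fun g => ?_)
  simp only [smul_add, smul_smul, ← add_assoc]

theorem G_resc (U : V → ℝ) (c : V) (s : ℝ) (σ : ℝ) (y : V) :
    G (resc U c s) σ y = s • G U (s * σ) (c + s • y) := by
  unfold G
  have h1 : Ub (resc U c s) σ = fun y => Ub U (s * σ) (c + s • y) := funext fun y => Ub_resc U c s σ y
  rw [h1]
  -- derivative of a composition with an affine bijection
  have h2 : (fun y => Ub U (s * σ) (c + s • y)) = (fun y => Ub U (s * σ) (c + y)) ∘ (s • ·) := rfl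
  have h3 : fderiv ℝ (fun y => Ub U (s * σ) (c + s • y)) y
      = s • fderiv ℝ (Ub U (s * σ)) (c + s • y) := by
    rw [h2]
    have h4 : fderiv ℝ ((fun y => Ub U (s * σ) (c + y)) ∘ (s • ·)) y
        = s • fderiv ℝ (fun y => Ub U (s * σ) (c + y)) (s • y) := by
      have := fderiv_comp_smul (f := fun y => Ub U (s * σ) (c + y)) (c := s) (x := y)
      simpa [Function.comp_def] using this
    rw [h4, fderiv_comp_add_left]
  rw [gradient, gradient, h3, map_smul]

end pot

namespace LF

variable {P ι : Type} [Fintype P] [Fintype ι] {X : Type} [NormedAddCommGroup X] [NormedSpace ℝ X]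

/-- Substitution: centre `0`, visible atoms `a k • (p k - e k • c)`, calls `s • g i`. -/
def conv (s : ℝ) (a e : P → ℝ) (f : LF P ι) : LF P ι :=
  (-(∑ k, f.2.1 k * a k * e k), fun k => f.2.1 k * a k, fun i => f.2.2 i * s)

theorem eval_conv (s : ℝ) (a e : P → ℝ) (f : LF P ι) (c : X) (p : P → X) (g : ι → X) :
    eval c p g (conv s a e f)
      = eval 0 (fun k => a k • (p k - e k • c)) (fun i => s • g i) f := by
  simp only [eval_apply, conv, smul_zero, zero_add, smul_sub, smul_smul, neg_smul,
    Finset.sum_sub_distrib, ← Finset.sum_smul, mul_assoc]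
  abel

/-- Position-like quantities: `c + s • x`. -/
def pos (s : ℝ) (a e : P → ℝ) (f : LF P ι) : LF P ι := hid + s • conv s a e f

theorem eval_pos (s : ℝ) (a e : P → ℝ) (f : LF P ι) (c : X) (p : P → X) (g : ι → X) :
    eval c p g (pos s a e f)
      = c + s • eval 0 (fun k => a k • (p k - e k • c)) (fun i => s • g i) f := by
  rw [pos, map_add, map_smul, eval_hid, eval_conv]

/-- Gradient-like quantities: `s⁻¹ • x`. -/
def grd (s : ℝ) (a e : P → ℝ) (f : LF P ι) : LF P ι := s⁻¹ • conv s a e f

theorem eval_grd (s : ℝ) (a e : P → ℝ) (f : LF P ι) (c : X) (p : P → X) (g : ι → X) :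
    eval c p g (grd s a e f)
      = s⁻¹ • eval 0 (fun k => a k • (p k - e k • c)) (fun i => s • g i) f := by
  rw [grd, map_smul, eval_conv]

theorem pos_fst (s : ℝ) (a e : P → ℝ) (f : LF P ι) :
    (pos s a e f).1 = 1 - s * ∑ k, f.2.1 k * a k * e k := by
  simp [pos, conv, hid, sub_eq_add_neg]

theorem pos_vis (s : ℝ) (a e : P → ℝ) (f : LF P ι) (k : P) :
    (pos s a e f).2.1 k = s * (f.2.1 k * a k) := by
  simp [pos, conv, hid]

theorem pos_call (s : ℝ) (a e : P → ℝ) (f : LF P ι) (i : ι) :
    (pos s a e f).2.2 i = s ^ 2 * f.2.2 i := by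
  simp [pos, conv, hid]; ring

theorem grd_fst (s : ℝ) (a e : P → ℝ) (f : LF P ι) :
    (grd s a e f).1 = -(s⁻¹ * ∑ k, f.2.1 k * a k * e k) := by
  simp [grd, conv]

theorem grd_vis (s : ℝ) (a e : P → ℝ) (f : LF P ι) (k : P) :
    (grd s a e f).2.1 k = s⁻¹ * (f.2.1 k * a k) := by
  simp [grd, conv]

theorem grd_call {s : ℝ} (hs : s ≠ 0) (a e : P → ℝ) (f : LF P ι) (i : ι) :
    (grd s a e f).2.2 i = f.2.2 i := by
  simp only [grd, conv, Prod.smul_mk, Pi.smul_apply, smul_eq_mul]
  field_simp

end LF

namespace FlatSys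

variable {P ι : Type} [Fintype P] [Fintype ι] {X : Type} [NormedAddCommGroup X] [NormedSpace ℝ X]

/-- The flat system in original units (with a given output form). -/
def orig (S : FlatSys P ι) (s : ℝ) (a e : P → ℝ) (o : LF P ι) : FlatSys P ι where
  r i := s * S.r i
  pt i := LF.pos s a e (S.pt i)
  out := o

variable (S : FlatSys P ι) (s : ℝ) (a e : P → ℝ) (o : LF P ι) (Gf : ℝ → X → X) (c : X) (p : P → X)

theorem gval_orig (k : ℕ) (i : ι) :
    s • (S.orig s a e o).gval Gf c p k i
      = S.gval (fun r y => s • Gf (s * r) (c + s • y)) 0 (fun k => a k • (p k - e k • c)) k i := by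
  induction k generalizing i with
  | zero => simp [gval_zero]
  | succ k ih =>
    have hg : (fun i => s • (S.orig s a e o).gval Gf c p k i)
        = S.gval (fun r y => s • Gf (s * r) (c + s • y)) 0 (fun k => a k • (p k - e k • c)) k :=
      funext ih
    rw [gval_succ, gval_succ]
    change s • Gf (s * S.r i) (LF.eval c p _ (LF.pos s a e (S.pt i))) = _
    rw [LF.eval_pos, hg]
    rfl

theorem point_orig (k : ℕ) (i : ι) :
    (S.orig s a e o).point Gf c p k i
      = c + s • S.point (fun r y => s • Gf (s * r) (c + s • y)) 0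
          (fun k => a k • (p k - e k • c)) k i := by
  simp only [point]
  have hg : (fun i => s • (S.orig s a e o).gval Gf c p k i)
      = S.gval (fun r y => s • Gf (s * r) (c + s • y)) 0 (fun k => a k • (p k - e k • c)) k :=
    funext fun i => S.gval_orig s a e o Gf c p k i
  change LF.eval c p _ (LF.pos s a e (S.pt i)) = _
  rw [LF.eval_pos, hg]

/-- Position-like outputs. -/
theorem outv_orig_pos (k : ℕ) :
    (S.orig s a e (LF.pos s a e S.out)).outv Gf c p k
      = c + s • S.outv (fun r y => s • Gf (s * r) (c + s • y)) 0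
          (fun k => a k • (p k - e k • c)) k := by
  simp only [outv]
  have hg : (fun i => s • (S.orig s a e (LF.pos s a e S.out)).gval Gf c p k i)
      = S.gval (fun r y => s • Gf (s * r) (c + s • y)) 0 (fun k => a k • (p k - e k • c)) k :=
    funext fun i => S.gval_orig s a e _ Gf c p k i
  change LF.eval c p _ (LF.pos s a e S.out) = _
  rw [LF.eval_pos, hg]

/-- Gradient-like outputs. -/
theorem outv_orig_grd (k : ℕ) :
    (S.orig s a e (LF.grd s a e S.out)).outv Gf c p k
      = s⁻¹ • S.outv (fun r y => s • Gf (s * r) (c + s • y)) 0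
          (fun k => a k • (p k - e k • c)) k := by
  simp only [outv]
  have hg : (fun i => s • (S.orig s a e (LF.grd s a e S.out)).gval Gf c p k i)
      = S.gval (fun r y => s • Gf (s * r) (c + s • y)) 0 (fun k => a k • (p k - e k • c)) k :=
    funext fun i => S.gval_orig s a e _ Gf c p k i
  change LF.eval c p _ (LF.grd s a e S.out) = _
  rw [LF.eval_grd, hg]

end FlatSys

end Crest.Agent.R285
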