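import Crest.Agent.R285.Conv

/-!
Row 285 (S0430): the three visible vectors of the Q-system, `p = ![y₁, x₁, q]` in original units:
`y₁` a point, `x₁` a gradient value, `q` a unit Gaussian vector.  In rescaled units
`p~ = ![s⁻¹ (y₁ - c), s x₁, q]`.  Bounds of the noise, of the call coefficients and of the total
coefficients of `LF.pos s a3 e3 f` and `LF.grd s a3 e3 f` in terms of the rescaled form `f`.
-/

set_option autoImplicit false
set_option linter.unusedSectionVars false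

open MeasureTheory ProbabilityTheory
open scoped NNReal

noncomputable section

namespace Crest.Agent.R285

namespace LF

variable {ι : Type} [Fintype ι] {X : Type} [NormedAddCommGroup X] [NormedSpace ℝ X]

/-- scale factors of the visible vectors `![y₁, x₁, q]` -/
def a3 (s : ℝ) : Fin 3 → ℝ := ![s⁻¹, s, 1]
/-- centring of the visible vectors `![y₁, x₁, q]` -/
def e3 : Fin 3 → ℝ := ![1, 0, 0]

/-- the rescaled visible vectors -/
theorem resc3 (s : ℝ) (c : X) (p : Fin 3 → X) :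
    (fun k => a3 s k • (p k - e3 k • c)) = ![s⁻¹ • (p 0 - c), s • p 1, p 2] := by
  funext k
  fin_cases k <;> simp [a3, e3]

theorem pos3_fst {s : ℝ} (hs : s ≠ 0) (f : LF (Fin 3) ι) :
    (pos s (a3 s) e3 f).1 = 1 - f.2.1 0 := by
  rw [pos_fst, Fin.sum_univ_three]
  simp only [a3, e3, Matrix.cons_val_zero, Matrix.cons_val_one, Matrix.cons_val_two,
    Matrix.tail_cons, Matrix.head_cons, mul_one, mul_zero, add_zero]
  field_simp

theorem sum_call_pos (s : ℝ) (a e : Fin 3 → ℝ) (f : LF (Fin 3) ι) :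
    ∑ i, |(pos s a e f).2.2 i| = s ^ 2 * ∑ i, |f.2.2 i| := by
  rw [Finset.mul_sum]
  refine Finset.sum_congr rfl fun i _ => ?_
  rw [pos_call, abs_mul, abs_of_nonneg (sq_nonneg s)]

/-- Noise of a position. -/
theorem nz_pos3_le {s rc : ℝ} (hs : 0 < s) (hrc : 0 ≤ rc) {σ : ι → ℝ} (hσ : ∀ i, 0 ≤ σ i)
    (f : LF (Fin 3) ι) :
    nz rc σ (pos s (a3 s) e3 f) ≤ s * (|1 - f.2.1 0| * (rc / s) + l1 (fun i => s * σ i) f) := by
  refine (nz_le_l1 rc hσ _).trans (le_of_eq ?_)
  rw [pos3_fst hs.ne', abs_mul, abs_of_nonneg hrc]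
  simp only [l1, pos_call, abs_mul, abs_of_nonneg (sq_nonneg s)]
  rw [mul_add, Finset.mul_sum]
  congr 1
  · field_simp
  · exact Finset.sum_congr rfl fun i _ => by ring

/-- Total coefficients of a position. -/
theorem tot_pos3 {s : ℝ} (hs : 0 < s) (f : LF (Fin 3) ι) :
    tot (pos s (a3 s) e3 f)
      = |1 - f.2.1 0| + (|f.2.1 0| + s ^ 2 * |f.2.1 1| + s * |f.2.1 2|)
        + s ^ 2 * ∑ i, |f.2.2 i| := by
  rw [tot, pos3_fst hs.ne', sum_call_pos, Fin.sum_univ_three]
  simp only [pos_vis, a3, Matrix.cons_val_zero, Matrix.cons_val_one, Matrix.cons_val_two,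
    Matrix.tail_cons, Matrix.head_cons, mul_one, abs_mul, abs_of_pos hs, abs_inv]
  congr 2
  field_simp

/-- Total coefficients of a gradient-like quantity that does not use `y₁` and `q`. -/
theorem grd3_out {s : ℝ} (hs : 0 < s) (f : LF (Fin 3) ι) (h0 : f.2.1 0 = 0) (h1 : f.2.1 1 = 1)
    (h2 : f.2.1 2 = 0) :
    (grd s (a3 s) e3 f) = (0, ![0, 1, 0], f.2.2) := by
  refine Prod.ext ?_ (Prod.ext ?_ ?_)
  · rw [grd_fst, Fin.sum_univ_three]
    simp [a3, e3, h0]
  · funext k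
    rw [grd_vis]
    fin_cases k
    · simp [h0]
    · simp [h1, a3, hs.ne']
    · simp [h2]
  · funext i
    exact grd_call hs.ne' _ _ _ _

theorem tot_out3 (β : ι → ℝ) : tot ((0, ![0, 1, 0], β) : LF (Fin 3) ι) = 1 + ∑ i, |β i| := by
  simp [tot, Fin.sum_univ_three]

theorem nz_out3_le (rc : ℝ) {σ : ι → ℝ} (hσ : ∀ i, 0 ≤ σ i) (β : ι → ℝ) :
    nz rc σ ((0, ![0, 1, 0], β) : LF (Fin 3) ι) ≤ ∑ i, |β i| * σ i := by
  refine (nz_le_l1 rc hσ _).trans (le_of_eq ?_)
  simp [l1]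

end LF

end Crest.Agent.R285
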