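import Mathlib
import Crest.Agent.R285.Burgers
import Crest.Agent.R285.Channel

/-!
Row 285: the coupled flow in the coordinates `(η, X)`, `X = s G(y) + ρ b`, `y = c + s t η`:

  `η' = -s G + ρ⁻² 𝔸 (X - s G)`,  `X' = t ρ⁻² 𝔸 𝔸 (X - s G)`,  `𝔸 = s² DG`.

It transports the law of `(η, s G(y) + ρ b)`, `η ∼ μ_t`, `b ∼ γ` independent.
-/

set_option autoImplicit false
set_option maxSynthPendingDepth 3
set_option linter.unusedSectionVars false

open MeasureTheory ProbabilityTheory Real Filter Topology Set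
open scoped RealInnerProductSpace ENNReal

noncomputable section

namespace Crest.Agent.R285

/-! ### Divergence on products -/

theorem trace_prod {V W : Type} [NormedAddCommGroup V] [NormedSpace ℝ V] [FiniteDimensional ℝ V]
    [NormedAddCommGroup W] [NormedSpace ℝ W] [FiniteDimensional ℝ W]
    (L : V × W →L[ℝ] V × W) :
    LinearMap.trace ℝ (V × W) (L : V × W →ₗ[ℝ] V × W) =
      LinearMap.trace ℝ V (((ContinuousLinearMap.fst ℝ V W).comp
        (L.comp (ContinuousLinearMap.inl ℝ V W)) : V →L[ℝ] V) : V →ₗ[ℝ] V) +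
      LinearMap.trace ℝ W (((ContinuousLinearMap.snd ℝ V W).comp
        (L.comp (ContinuousLinearMap.inr ℝ V W)) : W →L[ℝ] W) : W →ₗ[ℝ] W) := by
  have h1 : (L : V × W →ₗ[ℝ] V × W) =
      ((L : V × W →ₗ[ℝ] V × W) ∘ₗ LinearMap.inl ℝ V W) ∘ₗ LinearMap.fst ℝ V W +
      ((L : V × W →ₗ[ℝ] V × W) ∘ₗ LinearMap.inr ℝ V W) ∘ₗ LinearMap.snd ℝ V W := by
    refine LinearMap.ext fun x => ?_
    simp only [LinearMap.add_apply, LinearMap.comp_apply, LinearMap.fst_apply, LinearMap.snd_apply,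
      LinearMap.inl_apply, LinearMap.inr_apply]
    rw [← map_add]
    simp
  have h2 := LinearMap.trace_comp_comm' (LinearMap.fst ℝ V W)
    ((L : V × W →ₗ[ℝ] V × W) ∘ₗ LinearMap.inl ℝ V W)
  have h3 := LinearMap.trace_comp_comm' (LinearMap.snd ℝ V W)
    ((L : V × W →ₗ[ℝ] V × W) ∘ₗ LinearMap.inr ℝ V W)
  rw [h1, map_add, h2, h3]
  rfl

theorem dvg_prod {V W : Type} [NormedAddCommGroup V] [NormedSpace ℝ V] [FiniteDimensional ℝ V]
    [NormedAddCommGroup W] [NormedSpace ℝ W] [FiniteDimensional ℝ W]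
    {F : V × W → V × W} {x : V} {y : W} (hF : DifferentiableAt ℝ F (x, y)) :
    dvg F (x, y) = dvg (fun x' => (F (x', y)).1) x + dvg (fun y' => (F (x, y')).2) y := by
  unfold dvg
  rw [trace_prod]
  have hi : HasFDerivAt (fun x' : V => ((x', y) : V × W)) (ContinuousLinearMap.inl ℝ V W) x := by
    have h0 := (hasFDerivAt_id (𝕜 := ℝ) x).prodMk (hasFDerivAt_const (𝕜 := ℝ) y x)
    exact h0
  have hj : HasFDerivAt (fun y' : W => ((x, y') : V × W)) (ContinuousLinearMap.inr ℝ V W) y := by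
    have h0 := (hasFDerivAt_const (𝕜 := ℝ) x y).prodMk (hasFDerivAt_id (𝕜 := ℝ) y)
    exact h0
  have h1 := (ContinuousLinearMap.fst ℝ V W).hasFDerivAt.comp x (hF.hasFDerivAt.comp x hi)
  have h2 := (ContinuousLinearMap.snd ℝ V W).hasFDerivAt.comp y (hF.hasFDerivAt.comp y hj)
  have e1 : fderiv ℝ (fun x' => (F (x', y)).1) x = _ := h1.fderiv
  have e2 : fderiv ℝ (fun y' => (F (x, y')).2) y = _ := h2.fderiv
  rw [e1, e2]

variable {V : Type} [NormedAddCommGroup V] [InnerProductSpace ℝ V] [FiniteDimensional ℝ V]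
  [MeasurableSpace V] [BorelSpace V]

variable {h : ℝ} {U : V → ℝ}

/-- `s G` at time `t`. -/
def gS (U : V → ℝ) (c : V) (s t : ℝ) (η : V) : V := s • G U (s * √(1 - t ^ 2)) (c + (s * t) • η)

/-- `𝔸 = s² DG` at time `t`. -/
def opA (U : V → ℝ) (c : V) (s t : ℝ) (η : V) : V →L[ℝ] V :=
  s ^ 2 • DGr U (s * √(1 - t ^ 2), c + (s * t) • η)

/-- The coupled field. -/
def vQ (U : V → ℝ) (c : V) (s ρ t : ℝ) (p : V × V) : V × V :=
  (-(gS U c s t p.1) + (ρ ^ 2)⁻¹ • opA U c s t p.1 (p.2 - gS U c s t p.1),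
    (t * (ρ ^ 2)⁻¹) • opA U c s t p.1 (opA U c s t p.1 (p.2 - gS U c s t p.1)))

theorem inner_opA (U : V → ℝ) (c : V) (s t : ℝ) (η u z : V) :
    ⟪opA U c s t η u, z⟫ = s ^ 2 * Ub2 U (s * √(1 - t ^ 2), c + (s * t) • η) u z := by
  rw [opA, _root_.smul_apply, inner_smul_left, DGr, ContinuousLinearMap.comp_apply, inner_rz]
  simp

theorem opA_symm (hU : PotP h U) (c : V) (s t : ℝ) (η u z : V) :
    ⟪opA U c s t η u, z⟫ = ⟪u, opA U c s t η z⟫ := by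
  rw [inner_opA, real_inner_comm, inner_opA, ub2_symm hU]

theorem norm_opA_le (hU : PotP h U) (c : V) (s t : ℝ) (η : V) : ‖opA U c s t η‖ ≤ h * s ^ 2 := by
  rw [opA, norm_smul, Real.norm_of_nonneg (sq_nonneg s), mul_comm]
  exact mul_le_mul_of_nonneg_right (dgr_norm hU _) (sq_nonneg s)

/-! ### Regularity -/

theorem smOn_gS (hU : PotP h U) (c : V) {s : ℝ} (hs : 0 < s) :
    SmOn (gS U c s) (Ioo (-1 : ℝ) 1) :=
  contDiffOn_const.smul (smOn_G hU c hs)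

theorem smOn_Ub2 (hU : PotP h U) (c : V) {s : ℝ} (hs : 0 < s) :
    SmOn (fun t η => Ub2 U (s * √(1 - t ^ 2), c + (s * t) • η)) (Ioo (-1 : ℝ) 1) :=
  ContDiffOn.comp (g := fun q : ℝ × V => Ub2 U q) (f := thY c s) (contDiffOn_ub2_top hU)
    (contDiffOn_thY c s) fun _ hp => thY_mem c hs hp

theorem smOn_opA (hU : PotP h U) (c : V) {s : ℝ} (hs : 0 < s) :
    SmOn (opA U c s) (Ioo (-1 : ℝ) 1) := by
  have h1 : ContDiffOn ℝ (⊤ : ℕ∞) (fun p : ℝ × V => ContinuousLinearMap.compL ℝ V (V →L[ℝ] ℝ) V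
      (rz V) (Ub2 U (s * √(1 - p.1 ^ 2), c + (s * p.1) • p.2))) (Ioo (-1 : ℝ) 1 ×ˢ univ) :=
    (ContinuousLinearMap.compL ℝ V (V →L[ℝ] ℝ) V (rz V)).contDiff.comp_contDiffOn
      (smOn_Ub2 hU c hs)
  exact ContDiffOn.const_smul (s ^ 2) h1

theorem smOn_vQ (hU : PotP h U) (c : V) {s : ℝ} (hs : 0 < s) (ρ : ℝ) :
    SmOn (vQ U c s ρ) (Ioo (-1 : ℝ) 1) := by
  have hproj : ContDiffOn ℝ (⊤ : ℕ∞) (fun q : ℝ × (V × V) => ((q.1, q.2.1) : ℝ × V))
      (Ioo (-1 : ℝ) 1 ×ˢ univ) := by fun_prop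
  have hmaps : MapsTo (fun q : ℝ × (V × V) => ((q.1, q.2.1) : ℝ × V))
      (Ioo (-1 : ℝ) 1 ×ˢ univ) (Ioo (-1 : ℝ) 1 ×ˢ univ) := fun q hq => ⟨hq.1, mem_univ _⟩
  have hg : ContDiffOn ℝ (⊤ : ℕ∞) (fun q : ℝ × (V × V) => gS U c s q.1 q.2.1)
      (Ioo (-1 : ℝ) 1 ×ˢ univ) :=
    ContDiffOn.comp (g := fun p : ℝ × V => gS U c s p.1 p.2)
      (f := fun q : ℝ × (V × V) => ((q.1, q.2.1) : ℝ × V)) (smOn_gS hU c hs) hproj hmaps
  have hA : ContDiffOn ℝ (⊤ : ℕ∞) (fun q : ℝ × (V × V) => opA U c s q.1 q.2.1)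
      (Ioo (-1 : ℝ) 1 ×ˢ univ) :=
    ContDiffOn.comp (g := fun p : ℝ × V => opA U c s p.1 p.2)
      (f := fun q : ℝ × (V × V) => ((q.1, q.2.1) : ℝ × V)) (smOn_opA hU c hs) hproj hmaps
  have hX : ContDiffOn ℝ (⊤ : ℕ∞) (fun q : ℝ × (V × V) => q.2.2) (Ioo (-1 : ℝ) 1 ×ˢ univ) := by
    fun_prop
  have ht : ContDiffOn ℝ (⊤ : ℕ∞) (fun q : ℝ × (V × V) => q.1 * (ρ ^ 2)⁻¹)
      (Ioo (-1 : ℝ) 1 ×ˢ univ) := by
    fun_prop
  have h1 : ContDiffOn ℝ (⊤ : ℕ∞) (fun q : ℝ × (V × V) => opA U c s q.1 q.2.1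
      (q.2.2 - gS U c s q.1 q.2.1)) (Ioo (-1 : ℝ) 1 ×ˢ univ) := hA.clm_apply (hX.sub hg)
  have h2 : ContDiffOn ℝ (⊤ : ℕ∞) (fun q : ℝ × (V × V) => opA U c s q.1 q.2.1
      (opA U c s q.1 q.2.1 (q.2.2 - gS U c s q.1 q.2.1))) (Ioo (-1 : ℝ) 1 ×ˢ univ) :=
    hA.clm_apply h1
  have h3 : ContDiffOn ℝ (⊤ : ℕ∞) (fun q : ℝ × (V × V) => -(gS U c s q.1 q.2.1) +
      (ρ ^ 2)⁻¹ • opA U c s q.1 q.2.1 (q.2.2 - gS U c s q.1 q.2.1)) (Ioo (-1 : ℝ) 1 ×ˢ univ) :=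
    hg.neg.add (ContDiffOn.const_smul _ h1)
  exact h3.prodMk (ht.smul h2)

theorem norm_gS_le (hU : PotP h U) (c : V) {s : ℝ} (hs : 0 < s) : ∃ g₀, 0 ≤ g₀ ∧
    ∀ t ∈ Ioo (-1 : ℝ) 1, ∀ η : V, ‖gS U c s t η‖ ≤ g₀ + h * s ^ 2 * ‖η‖ := by
  obtain ⟨C, hC, hb⟩ := gr_growth hU s
  refine ⟨s * (C + h * ‖c‖), mul_nonneg hs.le (add_nonneg hC (mul_nonneg hU.hh (norm_nonneg _))),
    fun t ht η => ?_⟩
  have ht' : |t| ≤ 1 := abs_le.2 ⟨ht.1.le, ht.2.le⟩
  have h1 : |s * √(1 - t ^ 2)| ≤ s := by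
    rw [abs_mul, abs_of_pos hs, abs_of_nonneg (Real.sqrt_nonneg _)]
    have : √(1 - t ^ 2) ≤ 1 := Real.sqrt_le_one.2 (by nlinarith [sq_nonneg t])
    nlinarith
  have h2 := hb _ h1 (c + (s * t) • η)
  have h3 : ‖c + (s * t) • η‖ ≤ ‖c‖ + s * ‖η‖ := by
    refine (norm_add_le _ _).trans ?_
    rw [norm_smul, norm_mul, Real.norm_of_nonneg hs.le, Real.norm_eq_abs]
    have h4 : s * |t| * ‖η‖ ≤ s * 1 * ‖η‖ := by gcongr
    linarith
  rw [gS, norm_smul, Real.norm_of_nonneg hs.le]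
  have h4 := mul_le_mul_of_nonneg_left h3 hU.hh
  calc s * ‖G U (s * √(1 - t ^ 2)) (c + (s * t) • η)‖ ≤ s * (C + h * (‖c‖ + s * ‖η‖)) :=
        mul_le_mul_of_nonneg_left (by linarith) hs.le
    _ = _ := by ring

theorem goodOn_vQ (hU : PotP h U) (c : V) {s : ℝ} (hs : 0 < s) (ρ : ℝ) :
    GoodOn (vQ U c s ρ) (Ioo (-1 : ℝ) 1) := by
  refine ⟨isOpen_Ioo, ordConnected_Ioo, (smOn_vQ hU c hs ρ).of_le (by exact_mod_cast le_top),
    fun a ha b hb => ?_⟩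
  obtain ⟨g₀, hg0, hg⟩ := norm_gS_le hU c hs
  set A := h * s ^ 2 with hA
  have hA0 : 0 ≤ A := mul_nonneg hU.hh (sq_nonneg _)
  set B := (ρ ^ 2)⁻¹ with hB
  have hB0 : 0 ≤ B := by positivity
  refine ⟨(g₀ + A) + (B * A + B * A ^ 2) * (1 + g₀ + A), fun t ht p => ?_⟩
  have htJ : t ∈ Ioo (-1 : ℝ) 1 := ordConnected_Ioo.out ha hb ht
  have ht' : |t| ≤ 1 := abs_le.2 ⟨htJ.1.le, htJ.2.le⟩
  have hp1 : ‖p.1‖ ≤ ‖p‖ := norm_fst_le p
  have hp2 : ‖p.2‖ ≤ ‖p‖ := norm_snd_le p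
  have hn := norm_nonneg p
  have e1 : ‖gS U c s t p.1‖ ≤ g₀ + A * ‖p‖ :=
    (hg t htJ p.1).trans (by nlinarith [mul_le_mul_of_nonneg_left hp1 hA0])
  have e2 : ‖p.2 - gS U c s t p.1‖ ≤ ‖p‖ + (g₀ + A * ‖p‖) :=
    (norm_sub_le _ _).trans (add_le_add hp2 e1)
  have e3 : ‖opA U c s t p.1 (p.2 - gS U c s t p.1)‖ ≤ A * (‖p‖ + (g₀ + A * ‖p‖)) :=
    ((opA U c s t p.1).le_of_opNorm_le (norm_opA_le hU c s t _) _).trans
      (mul_le_mul_of_nonneg_left e2 hA0)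
  have e4 : ‖opA U c s t p.1 (opA U c s t p.1 (p.2 - gS U c s t p.1))‖ ≤
      A * (A * (‖p‖ + (g₀ + A * ‖p‖))) :=
    ((opA U c s t p.1).le_of_opNorm_le (norm_opA_le hU c s t _) _).trans
      (mul_le_mul_of_nonneg_left e3 hA0)
  have hq : 0 ≤ ‖p‖ + (g₀ + A * ‖p‖) := by positivity
  have f1 : ‖(vQ U c s ρ t p).1‖ ≤ (g₀ + A * ‖p‖) + B * (A * (‖p‖ + (g₀ + A * ‖p‖))) := by
    unfold vQ
    refine (norm_add_le _ _).trans ?_
    rw [norm_neg, norm_smul, Real.norm_of_nonneg hB0]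
    exact add_le_add e1 (mul_le_mul_of_nonneg_left e3 hB0)
  have f2 : ‖(vQ U c s ρ t p).2‖ ≤ B * (A * (A * (‖p‖ + (g₀ + A * ‖p‖)))) := by
    unfold vQ
    simp only
    rw [norm_smul, norm_mul, Real.norm_of_nonneg hB0, Real.norm_eq_abs]
    calc |t| * B * _ ≤ 1 * B * (A * (A * (‖p‖ + (g₀ + A * ‖p‖)))) := by gcongr
      _ = _ := by ring
  rw [Prod.norm_def]
  refine max_le (f1.trans ?_) (f2.trans ?_)
  · have : 0 ≤ B * A ^ 2 * (1 + g₀ + A) * (‖p‖ + 1) := by positivity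
    have h5 : 0 ≤ B * A * (1 + g₀ * ‖p‖ + A) := by positivity
    have h6 : 0 ≤ g₀ * ‖p‖ + A := by positivity
    nlinarith
  · have h5 : 0 ≤ B * A ^ 2 * (1 + g₀ * ‖p‖ + A) := by positivity
    have h6 : 0 ≤ B * A * (1 + g₀ + A) * (‖p‖ + 1) := by positivity
    have h7 : 0 ≤ (g₀ + A) * (‖p‖ + 1) := by positivity
    nlinarith

/-! ### Derivatives at fixed time -/

theorem hasFDerivAt_gS (hU : PotP h U) (c : V) (s t : ℝ) (η : V) :
    HasFDerivAt (gS U c s t) (t • opA U c s t η) η := by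
  have h1 : HasFDerivAt (fun η : V => c + (s * t) • η) ((s * t) • ContinuousLinearMap.id ℝ V) η :=
    ((hasFDerivAt_id η).const_smul (s * t)).const_add c
  have h2 := ((hasFDerivAt_gr_x hU (s * √(1 - t ^ 2)) (c + (s * t) • η)).comp η h1).const_smul s
  refine HasFDerivAt.congr_fderiv (f := gS U c s t) h2 ?_
  ext v
  simp [opA, smul_smul]
  congr 1
  ring

theorem trace_opA (U : V → ℝ) (hU : PotP h U) (c : V) (s t : ℝ) (η : V) :
    LinearMap.trace ℝ V (opA U c s t η : V →ₗ[ℝ] V) =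
      s ^ 2 * dvg (G U (s * √(1 - t ^ 2))) (c + (s * t) • η) := by
  unfold dvg
  rw [(hasFDerivAt_gr_x hU (s * √(1 - t ^ 2)) (c + (s * t) • η)).fderiv]
  rw [show (opA U c s t η : V →ₗ[ℝ] V) =
    (s ^ 2) • ((DGr U (s * √(1 - t ^ 2), c + (s * t) • η) : V →L[ℝ] V) : V →ₗ[ℝ] V) from rfl,
    map_smul, smul_eq_mul]

/-- Derivative of `𝔸` in `η`. -/
def opA' (U : V → ℝ) (c : V) (s t : ℝ) (η : V) : V →L[ℝ] V →L[ℝ] V :=
  s ^ 2 • (ContinuousLinearMap.compL ℝ V (V →L[ℝ] ℝ) V (rz V)).comp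
    ((s * t) • Ub3 U (s * √(1 - t ^ 2), c + (s * t) • η))

theorem hasFDerivAt_opA (hU : PotP h U) (c : V) {s t : ℝ} (hs : 0 < s)
    (ht : t ∈ Ioo (-1 : ℝ) 1) (η : V) :
    HasFDerivAt (opA U c s t) (opA' U c s t η) η := by
  have hσ : 0 < s * √(1 - t ^ 2) := mul_pos hs (Real.sqrt_pos.2 (one_sub_sq_pos ht))
  have h1 : HasFDerivAt (fun η : V => c + (s * t) • η) ((s * t) • ContinuousLinearMap.id ℝ V) η :=
    ((hasFDerivAt_id η).const_smul (s * t)).const_add c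
  have h2 := (hasFDerivAt_ub2_x hU hσ (c + (s * t) • η)).comp η h1
  have h3 := ((ContinuousLinearMap.compL ℝ V (V →L[ℝ] ℝ) V (rz V)).hasFDerivAt.comp η h2).const_smul
    (s ^ 2)
  refine HasFDerivAt.congr_fderiv (f := opA U c s t) h3 ?_
  ext u v
  simp [opA']

theorem trace_opA'_flip (hU : PotP h U) (c : V) {s t : ℝ} (hs : 0 < s)
    (ht : t ∈ Ioo (-1 : ℝ) 1) (η w : V) :
    LinearMap.trace ℝ V (((opA' U c s t η).flip w : V →L[ℝ] V) : V →ₗ[ℝ] V) =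
      s ^ 3 * t * lap V (Ub3 U (s * √(1 - t ^ 2), c + (s * t) • η) w) := by
  have hσ : 0 < s * √(1 - t ^ 2) := mul_pos hs (Real.sqrt_pos.2 (one_sub_sq_pos ht))
  rw [trace_eq_sum_inner', lap_apply, Finset.mul_sum]
  refine Finset.sum_congr rfl fun i _ => ?_
  rw [ub3_symm12 hU hσ, ub3_symm23 hU hσ]
  simp only [opA', ContinuousLinearMap.flip_apply, _root_.smul_apply,
    ContinuousLinearMap.comp_apply, ContinuousLinearMap.compL_apply, map_smul, inner_smul_right,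
    inner_rz']
  rw [ub3_symm23 hU hσ]
  ring

theorem dvg_vQ (hU : PotP h U) (c : V) {s t : ℝ} (hs : 0 < s) (ht : t ∈ Ioo (-1 : ℝ) 1) (ρ : ℝ)
    (η X : V) :
    dvg (vQ U c s ρ t) (η, X) =
      -(s ^ 2 * t * dvg (G U (s * √(1 - t ^ 2))) (c + (s * t) • η)) +
      (ρ ^ 2)⁻¹ * (s ^ 3 * t * lap V (Ub3 U (s * √(1 - t ^ 2), c + (s * t) • η)
        (X - gS U c s t η))) := by
  have hd : DifferentiableAt ℝ (vQ U c s ρ t) (η, X) := by
    have h1 : ContDiff ℝ (⊤ : ℕ∞) (vQ U c s ρ t) := by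
      rw [← contDiffOn_univ]
      exact (smOn_vQ hU c hs ρ).comp (f := fun p : V × V => (t, p)) (by fun_prop)
        (fun p _ => ⟨ht, mem_univ _⟩)
    exact h1.differentiable (by simp) _
  rw [dvg_prod hd]
  have hg := hasFDerivAt_gS hU c s t η
  have hA := hasFDerivAt_opA hU c hs ht η
  have h1 : HasFDerivAt (fun x' => (vQ U c s ρ t (x', X)).1) _ η :=
    hg.neg.add ((hA.clm_apply (hg.const_sub X)).const_smul ((ρ ^ 2)⁻¹))
  have h2 : HasFDerivAt (fun y' => (vQ U c s ρ t (η, y')).2) _ X :=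
    (((opA U c s t η).hasFDerivAt.comp X ((opA U c s t η).hasFDerivAt.comp X
      ((hasFDerivAt_id (𝕜 := ℝ) X).sub_const (gS U c s t η))))).const_smul (t * (ρ ^ 2)⁻¹)
  unfold dvg
  rw [h1.fderiv, h2.fderiv]
  have t1 := trace_opA U hU c s t η
  have t2 := trace_opA'_flip hU c hs ht η (X - gS U c s t η)
  unfold dvg at t1
  set T := LinearMap.trace ℝ V (((opA U c s t η).comp (opA U c s t η) : V →L[ℝ] V) : V →ₗ[ℝ] V)
    with hT
  have e1 : LinearMap.trace ℝ V ((-(t • opA U c s t η) + (ρ ^ 2)⁻¹ • ((opA U c s t η).comp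
      (-(t • opA U c s t η)) + (opA' U c s t η).flip (X - gS U c s t η)) : V →L[ℝ] V) : V →ₗ[ℝ] V) =
      -(t * LinearMap.trace ℝ V (opA U c s t η : V →ₗ[ℝ] V)) + (ρ ^ 2)⁻¹ * (-(t * T) +
        LinearMap.trace ℝ V (((opA' U c s t η).flip (X - gS U c s t η) : V →L[ℝ] V) : V →ₗ[ℝ] V)) := by
    rw [hT, ← smul_eq_mul t, ← smul_eq_mul t, ← map_smul, ← map_smul, ← map_neg, ← map_neg,
      ← map_add, ← smul_eq_mul, ← map_smul, ← map_add]
    congr 1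
    ext v
    simp
  have e2 : LinearMap.trace ℝ V (((t * (ρ ^ 2)⁻¹) • ((opA U c s t η).comp ((opA U c s t η).comp
      (ContinuousLinearMap.id ℝ V))) : V →L[ℝ] V) : V →ₗ[ℝ] V) = t * (ρ ^ 2)⁻¹ * T := by
    have h3 : (((t * (ρ ^ 2)⁻¹) • ((opA U c s t η).comp ((opA U c s t η).comp
      (ContinuousLinearMap.id ℝ V))) : V →L[ℝ] V) : V →ₗ[ℝ] V) = (t * (ρ ^ 2)⁻¹) •
        (((opA U c s t η).comp (opA U c s t η) : V →L[ℝ] V) : V →ₗ[ℝ] V) := rfl
    rw [h3, map_smul, smul_eq_mul]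
  rw [e1, e2, t1, t2]
  ring

/-! ### The continuity equation -/

theorem fderiv_lY (hU : PotP h U) (c : V) {s t : ℝ} (ht : t ∈ Ioo (-1 : ℝ) 1) (η : V) :
    ∃ L : ℝ × V →L[ℝ] ℝ, HasFDerivAt (fun p : ℝ × V => lY U c s p.1 p.2) L (t, η) ∧ ∀ w : V,
      L (1, w) = -⟪η, w⟫ + s ^ 2 * t * (dvg (G U (s * √(1 - t ^ 2))) (c + (s * t) • η) -
        ‖G U (s * √(1 - t ^ 2)) (c + (s * t) • η)‖ ^ 2) - ⟪gS U c s t η, η⟫ -
        t * ⟪gS U c s t η, w⟫ := by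
  have hd : HasFDerivAt (fun p : ℝ × V => Ub U p.1 p.2) _ (thY c s (t, η)) :=
    ((contDiff_ub hU).differentiable one_ne_zero _).hasFDerivAt
  have h1 := hd.comp (t, η) (hasFDerivAt_thY c s ht η)
  have h2 : HasFDerivAt (fun p : ℝ × V => ‖p.2‖ ^ 2 / 2)
      ((innerSL ℝ η).comp (ContinuousLinearMap.snd ℝ ℝ V)) (t, η) := by
    have h3 : HasFDerivAt (fun η : V => ‖η‖ ^ 2 / 2) (innerSL ℝ η) η := by
      have h2 := ((hasStrictFDerivAt_norm_sq η).hasFDerivAt).mul_const (2 : ℝ)⁻¹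
      refine (h2.congr_fderiv ?_).congr_of_eventuallyEq (Eventually.of_forall fun x => ?_)
      · ext v
        simp
      · simp only
        ring
    exact h3.comp (t, η) (hasFDerivAt_snd (𝕜 := ℝ) (p := (t, η)))
  have h4 : HasFDerivAt (fun p : ℝ × V => lY U c s p.1 p.2) _ (t, η) := (h2.neg).sub h1
  refine ⟨_, h4, fun w => ?_⟩
  simp only [_root_.sub_apply, _root_.neg_apply, ContinuousLinearMap.comp_apply, thY'_apply]
  rw [show thY c s (t, η) = (s * √(1 - t ^ 2), c + (s * t) • η) from rfl, ub_fderiv hU, gS]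
  set g := G U (s * √(1 - t ^ 2)) (c + (s * t) • η) with hg
  set D := dvg (G U (s * √(1 - t ^ 2))) (c + (s * t) • η)
  have hκ : √(1 - t ^ 2) ≠ 0 := (Real.sqrt_pos.2 (one_sub_sq_pos ht)).ne'
  simp only [ContinuousLinearMap.coe_snd', innerSL_apply_apply, inner_smul_right, inner_smul_left,
    inner_add_right, one_smul, mul_one]
  simp only [conj_trivial]
  field_simp
  ring

theorem fderiv_gS (hU : PotP h U) (c : V) {s t : ℝ} (hs : 0 < s) (ht : t ∈ Ioo (-1 : ℝ) 1)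
    (η : V) :
    ∃ L : ℝ × V →L[ℝ] V, HasFDerivAt (fun p : ℝ × V => gS U c s p.1 p.2) L (t, η) ∧ ∀ w z : V,
      ⟪L (1, w), z⟫ = -(s ^ 3 * t * lap V (Ub3 U (s * √(1 - t ^ 2), c + (s * t) • η) z)) +
        2 * t * ⟪opA U c s t η (gS U c s t η), z⟫ + ⟪opA U c s t η η, z⟫ +
        t * ⟪opA U c s t η w, z⟫ := by
  have hσ : 0 < s * √(1 - t ^ 2) := mul_pos hs (Real.sqrt_pos.2 (one_sub_sq_pos ht))
  have hd : HasFDerivAt (Ub1 U) _ (thY c s (t, η)) :=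
    ((contDiff_ub1 hU).differentiable one_ne_zero _).hasFDerivAt
  have h1 := ((rz V).hasFDerivAt.comp (t, η) (hd.comp (t, η) (hasFDerivAt_thY c s ht η))).const_smul s
  have h2 : (s • (⇑(rz V) ∘ (Ub1 U ∘ thY c s))) = fun p : ℝ × V => gS U c s p.1 p.2 := by
    funext p
    simp only [Pi.smul_apply, Function.comp_apply, gS]
    rw [gr_eq hU]
    rfl
  have h3 : HasFDerivAt (fun p : ℝ × V => gS U c s p.1 p.2) _ (t, η) := h2 ▸ h1
  refine ⟨_, h3, fun w z => ?_⟩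
  simp only [_root_.smul_apply, ContinuousLinearMap.comp_apply, thY'_apply, inner_smul_left,
    inner_rz]
  rw [show thY c s (t, η) = (s * √(1 - t ^ 2), c + (s * t) • η) from rfl]
  set σ := s * √(1 - t ^ 2) with hσd
  set y := c + (s * t) • η with hy
  have e1 : ((s * (-t / √(1 - t ^ 2)) * 1, (1 : ℝ) • s • η + (s * t) • w) : ℝ × V) =
      (s * (-t / √(1 - t ^ 2))) • ((1 : ℝ), (0 : V)) + ((0 : ℝ), s • η + (s * t) • w) := by
    simp
  rw [e1, map_add, map_smul, ub1_fderiv_x hU]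
  simp only [_root_.add_apply, _root_.smul_apply, smul_eq_mul, map_add, map_smul, inner_opA,
    ← hσd, ← hy]
  rw [burgers hU hσ]
  have e2 : Ub2 U (σ, y) z (G U σ y) = Ub2 U (σ, y) (G U σ y) z := ub2_symm hU _ _ _
  have e3 : gS U c s t η = s • G U σ y := rfl
  rw [e2, e3]
  simp only [map_smul, _root_.smul_apply, smul_eq_mul, conj_trivial]
  have hκ : √(1 - t ^ 2) ≠ 0 := (Real.sqrt_pos.2 (one_sub_sq_pos ht)).ne'
  have e4 : s * (-t / √(1 - t ^ 2)) * (σ * (lap V (Ub3 U (σ, y) z) -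
      2 * Ub2 U (σ, y) (G U σ y) z)) = -(s ^ 2 * t) * (lap V (Ub3 U (σ, y) z) -
      2 * Ub2 U (σ, y) (G U σ y) z) := by
    rw [hσd]
    field_simp
  rw [e4]
  ring

/-- The log-density of the coupled flow in the coordinates `(η, X)`. -/
def lQ (U : V → ℝ) (c : V) (s ρ t : ℝ) (p : V × V) : ℝ :=
  lY U c s t p.1 - (2 * ρ ^ 2)⁻¹ * ‖p.2 - gS U c s t p.1‖ ^ 2

theorem lQ_continuity (hU : PotP h U) (c : V) {s t : ℝ} (hs : 0 < s) (ht : t ∈ Ioo (-1 : ℝ) 1)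
    (ρ : ℝ) (p : V × V) :
    fderiv ℝ (fun q : ℝ × (V × V) => lQ U c s ρ q.1 q.2) (t, p) (1, vQ U c s ρ t p) +
      dvg (vQ U c s ρ t) p = 0 := by
  obtain ⟨η, X⟩ := p
  obtain ⟨L, hL, hLw⟩ := fderiv_lY hU c (s := s) ht η
  obtain ⟨M, hM, hMw⟩ := fderiv_gS hU c hs ht η
  set pr0 : ℝ × (V × V) →L[ℝ] ℝ × V := (ContinuousLinearMap.fst ℝ ℝ (V × V)).prod
    ((ContinuousLinearMap.fst ℝ V V).comp (ContinuousLinearMap.snd ℝ ℝ (V × V))) with hpr0
  have hpr0d : HasFDerivAt (fun q : ℝ × (V × V) => ((q.1, q.2.1) : ℝ × V)) pr0 (t, (η, X)) :=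
    pr0.hasFDerivAt
  have h1 : HasFDerivAt (fun q : ℝ × (V × V) => lY U c s q.1 q.2.1) (L.comp pr0) (t, (η, X)) :=
    HasFDerivAt.comp (g := fun p : ℝ × V => lY U c s p.1 p.2)
      (f := fun q : ℝ × (V × V) => ((q.1, q.2.1) : ℝ × V)) (t, (η, X)) hL hpr0d
  have h2 : HasFDerivAt (fun q : ℝ × (V × V) => gS U c s q.1 q.2.1) (M.comp pr0) (t, (η, X)) :=
    HasFDerivAt.comp (g := fun p : ℝ × V => gS U c s p.1 p.2)
      (f := fun q : ℝ × (V × V) => ((q.1, q.2.1) : ℝ × V)) (t, (η, X)) hM hpr0d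
  have h3 : HasFDerivAt (fun q : ℝ × (V × V) => q.2.2)
      ((ContinuousLinearMap.snd ℝ V V).comp (ContinuousLinearMap.snd ℝ ℝ (V × V))) (t, (η, X)) :=
    ((ContinuousLinearMap.snd ℝ V V).comp (ContinuousLinearMap.snd ℝ ℝ (V × V))).hasFDerivAt
  have h4 := ((h3.fun_sub h2).norm_sq).const_mul ((2 * ρ ^ 2)⁻¹)
  have h5 : HasFDerivAt (fun q : ℝ × (V × V) => lQ U c s ρ q.1 q.2) _ (t, (η, X)) := h1.sub h4
  rw [h5.fderiv, dvg_vQ hU c hs ht]
  simp only [_root_.sub_apply, _root_.smul_apply, ContinuousLinearMap.comp_apply,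
    innerSL_apply_apply, smul_eq_mul, nsmul_eq_mul, Nat.cast_ofNat]
  have e1 : pr0 (1, vQ U c s ρ t (η, X)) = (1, (vQ U c s ρ t (η, X)).1) := rfl
  rw [e1, hLw, inner_sub_right]
  have e2 : (ContinuousLinearMap.snd ℝ V V) ((ContinuousLinearMap.snd ℝ ℝ (V × V))
      (1, vQ U c s ρ t (η, X))) = (vQ U c s ρ t (η, X)).2 := rfl
  rw [e2]
  set w := X - gS U c s t η with hw
  have e3 := hMw (vQ U c s ρ t (η, X)).1 w
  rw [real_inner_comm] at e3
  rw [e3]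
  set g := gS U c s t η with hg
  set A := opA U c s t η with hA
  have e4 : (vQ U c s ρ t (η, X)).1 = -g + (ρ ^ 2)⁻¹ • A w := rfl
  have e5 : (vQ U c s ρ t (η, X)).2 = (t * (ρ ^ 2)⁻¹) • A (A w) := rfl
  have e6 : ‖G U (s * √(1 - t ^ 2)) (c + (s * t) • η)‖ ^ 2 * s ^ 2 = ⟪g, g⟫ := by
    rw [real_inner_self_eq_norm_sq, hg, gS, norm_smul, mul_pow, Real.norm_of_nonneg hs.le]
    ring
  have s1 : ⟪A w, η⟫ = ⟪A η, w⟫ := by rw [opA_symm hU, real_inner_comm]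
  have s2 : ⟪A w, g⟫ = ⟪A g, w⟫ := by rw [opA_symm hU, real_inner_comm]
  have s3 : ⟪w, A (A w)⟫ = ⟪A w, A w⟫ := by rw [← opA_symm hU]
  have s4 : ⟪A (A w), w⟫ = ⟪A w, A w⟫ := by rw [opA_symm hU]
  rw [e4, e5]
  simp only [map_add, map_neg, map_smul, inner_add_left, inner_add_right, inner_neg_left,
    inner_neg_right, inner_smul_left, inner_smul_right, conj_trivial]
  rw [real_inner_comm (A w) η, real_inner_comm (A w) g, s1, s2, s3, s4, real_inner_comm η g]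
  have hinv : (2 * ρ ^ 2)⁻¹ = (ρ ^ 2)⁻¹ / 2 := by rw [mul_inv]; ring
  rw [hinv]
  linear_combination (-t) * e6

/-! ### The law -/

/-- The law `μ_t` of the uncoupled flow. -/
def muY (U : V → ℝ) (c : V) (s t : ℝ) : Measure V :=
  (stdGaussian V).withDensity fun η => ENNReal.ofReal
    (rexp (Ub U s c - Ub U (s * √(1 - t ^ 2)) (c + (s * t) • η)))

/-- The law of `(η, X)`. -/
def lawQ (U : V → ℝ) (c : V) (s ρ t : ℝ) : Measure (V × V) :=
  ((muY U c s t).prod (stdGaussian V)).map fun q => (q.1, gS U c s t q.1 + ρ • q.2)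

/-- The Gaussian constant. -/
def cGau (V : Type) [NormedAddCommGroup V] [InnerProductSpace ℝ V] : ℝ :=
  (2 * π) ^ (-(Module.finrank ℝ V : ℝ) / 2)

theorem cGau_pos : 0 < cGau V := by unfold cGau; positivity

theorem continuous_Ub_slice (hU : PotP h U) (c : V) (s t : ℝ) :
    Continuous fun η : V => Ub U (s * √(1 - t ^ 2)) (c + (s * t) • η) :=
  (contDiff_ub hU).continuous.comp
    (f := fun η : V => (s * √(1 - t ^ 2), c + (s * t) • η)) (by fun_prop)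

theorem muY_eq_volume (hU : PotP h U) (c : V) (s t : ℝ) :
    muY U c s t = (volume : Measure V).withDensity fun η => ENNReal.ofReal
      (rexp (lY U c s t η + (Real.log (cGau V) + Ub U s c))) := by
  unfold muY
  rw [stdGaussian_eq_withDensity, ← withDensity_mul]
  · congr 1
    ext x
    rw [Pi.mul_apply, ← ENNReal.ofReal_mul (gdens_pos x).le]
    congr 1
    rw [gdens, ← cGau, exp_add, exp_add, Real.exp_log cGau_pos, lY, exp_sub, exp_sub]
    rw [show -(‖x‖ ^ 2 / 2) = -‖x‖ ^ 2 / 2 by ring]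
    ring
  · exact continuous_gdens.measurable.ennreal_ofReal
  · refine Measurable.ennreal_ofReal (Continuous.measurable ?_)
    exact Real.continuous_exp.comp (continuous_const.sub (continuous_Ub_slice hU c s t))

theorem continuous_gS (hU : PotP h U) (c : V) (s t : ℝ) : Continuous (gS U c s t) :=
  continuous_iff_continuousAt.2 fun η => (hasFDerivAt_gS hU c s t η).continuousAt

theorem continuous_lY (hU : PotP h U) (c : V) (s t : ℝ) : Continuous (lY U c s t) := by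
  unfold lY
  exact Continuous.sub (by fun_prop) (continuous_Ub_slice hU c s t)

theorem continuous_lQ (hU : PotP h U) (c : V) (s ρ t : ℝ) : Continuous (lQ U c s ρ t) := by
  unfold lQ
  exact ((continuous_lY hU c s t).comp continuous_fst).sub (continuous_const.mul
    ((continuous_snd.sub ((continuous_gS hU c s t).comp continuous_fst)).norm.pow 2))

theorem lawQ_eq_volume (hU : PotP h U) (c : V) (s : ℝ) {ρ : ℝ} (hρ : 0 < ρ) (t : ℝ) :
    lawQ U c s ρ t = ((volume : Measure V).prod (volume : Measure V)).withDensity fun p =>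
      ENNReal.ofReal
      (rexp (lQ U c s ρ t p + (Real.log (cGau V) + Ub U s c + Real.log (Chan.gK V ρ)))) := by
  have hgc := continuous_gS hU c s t
  have hmap : Measurable fun q : V × V => (q.1, gS U c s t q.1 + ρ • q.2) :=
    (continuous_fst.prodMk ((hgc.comp continuous_fst).add (continuous_const.smul
      continuous_snd))).measurable
  have hK := Chan.gK_pos (V := V) hρ
  refine Measure.ext_of_lintegral _ fun f hf => ?_
  unfold lawQ
  have hSF : SFinite (muY U c s t) := by unfold muY; infer_instance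
  have hcomp : Measurable fun a : V × V => f (a.1, gS U c s t a.1 + ρ • a.2) := hf.comp hmap
  rw [lintegral_map hf hmap, lintegral_prod _ hcomp.aemeasurable]
  have hd1 : Measurable fun η => ENNReal.ofReal
      (rexp (lY U c s t η + (Real.log (cGau V) + Ub U s c))) :=
    (Real.continuous_exp.comp ((continuous_lY hU c s t).add
      continuous_const)).measurable.ennreal_ofReal
  have hd2 : Measurable fun p => ENNReal.ofReal
      (rexp (lQ U c s ρ t p + (Real.log (cGau V) + Ub U s c + Real.log (Chan.gK V ρ)))) :=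
    (Real.continuous_exp.comp ((continuous_lQ hU c s ρ t).add
      continuous_const)).measurable.ennreal_ofReal
  rw [muY_eq_volume hU, lintegral_withDensity_eq_lintegral_mul _ hd1
      hcomp.lintegral_prod_right', lintegral_withDensity_eq_lintegral_mul _ hd2 hf,
    lintegral_prod _ ((hd2.mul hf).aemeasurable)]
  refine lintegral_congr fun η => ?_
  have h1 : ∫⁻ b, f (η, gS U c s t η + ρ • b) ∂(stdGaussian V) =
      ∫⁻ X, f (η, X) ∂(gN (gS U c s t η) ρ) := by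
    rw [Chan.lintegral_gN _ _ (f := fun X => f (η, X)) (hf.comp measurable_prodMk_left)]
  have hm : Measurable fun z : V => ENNReal.ofReal (Chan.gK V ρ *
      rexp (-(‖z - gS U c s t η‖ ^ 2 / (2 * ρ ^ 2)))) := by
    fun_prop
  have hfη : Measurable fun X : V => f (η, X) := hf.comp measurable_prodMk_left
  simp only [Pi.mul_apply]
  rw [h1, Chan.gN_eq_withDensity _ hρ, lintegral_withDensity_eq_lintegral_mul _ hm hfη,
    ← lintegral_const_mul _ (hm.mul hfη)]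
  refine lintegral_congr fun X => ?_
  simp only [Pi.mul_apply]
  rw [← mul_assoc, ← ENNReal.ofReal_mul (exp_pos _).le]
  congr 2
  rw [lQ, ← Real.exp_log hK, ← exp_add, ← exp_add, Real.exp_log hK]
  congr 1
  rw [div_eq_inv_mul]
  ring

/-- **Law of the coupled flow.** -/
theorem map_evol_vQ (hU : PotP h U) (c : V) {s : ℝ} (hs : 0 < s) {ρ : ℝ} (hρ : 0 < ρ)
    {t₁ t₂ : ℝ} (ht₁ : t₁ ∈ Ioo (-1 : ℝ) 1) (ht₂ : t₂ ∈ Ioo (-1 : ℝ) 1) :
    (lawQ U c s ρ t₁).map (evol (vQ U c s ρ) (Ioo (-1 : ℝ) 1) t₁ t₂) = lawQ U c s ρ t₂ := by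
  rw [lawQ_eq_volume hU c s hρ, lawQ_eq_volume hU c s hρ]
  have hl : ContDiffOn ℝ 1 (fun q : ℝ × (V × V) => lQ U c s ρ q.1 q.2)
      (Ioo (-1 : ℝ) 1 ×ˢ univ) := by
    have hproj : ContDiffOn ℝ 1 (fun q : ℝ × (V × V) => ((q.1, q.2.1) : ℝ × V))
        (Ioo (-1 : ℝ) 1 ×ˢ univ) := by fun_prop
    have hmaps : MapsTo (fun q : ℝ × (V × V) => ((q.1, q.2.1) : ℝ × V))
        (Ioo (-1 : ℝ) 1 ×ˢ univ) (Ioo (-1 : ℝ) 1 ×ˢ univ) := fun q hq => ⟨hq.1, mem_univ _⟩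
    have hg : ContDiffOn ℝ 1 (fun q : ℝ × (V × V) => gS U c s q.1 q.2.1)
        (Ioo (-1 : ℝ) 1 ×ˢ univ) :=
      ContDiffOn.comp (g := fun p : ℝ × V => gS U c s p.1 p.2)
        (f := fun q : ℝ × (V × V) => ((q.1, q.2.1) : ℝ × V))
        ((smOn_gS hU c hs).of_le (by exact_mod_cast le_top)) hproj hmaps
    have hUb : ContDiffOn ℝ 1 (fun q : ℝ × (V × V) => Ub U (s * √(1 - q.1 ^ 2))
        (c + (s * q.1) • q.2.1)) (Ioo (-1 : ℝ) 1 ×ˢ univ) :=
      ContDiffOn.comp (g := fun p : ℝ × V => Ub U (s * √(1 - p.1 ^ 2)) (c + (s * p.1) • p.2))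
        (f := fun q : ℝ × (V × V) => ((q.1, q.2.1) : ℝ × V))
        ((smOn_Ub hU c hs).of_le (by exact_mod_cast le_top)) hproj hmaps
    have hn : ContDiff ℝ 1 (fun q : ℝ × (V × V) => ‖q.2.1‖ ^ 2 / 2) :=
      ((contDiff_norm_sq ℝ).comp (contDiff_fst.comp contDiff_snd)).div_const 2
    have hX : ContDiffOn ℝ 1 (fun q : ℝ × (V × V) => q.2.2) (Ioo (-1 : ℝ) 1 ×ˢ univ) := by
      fun_prop
    have h1 := (hn.neg.contDiffOn (s := Ioo (-1 : ℝ) 1 ×ˢ univ)).sub hUb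
    have h2 := contDiffOn_const (c := (2 * ρ ^ 2)⁻¹) |>.mul ((hX.sub hg).norm_sq ℝ)
    exact h1.sub h2
  refine (goodOn_vQ hU c hs ρ).map_evol_exp ((volume : Measure V).prod (volume : Measure V))
    (l := fun t p => lQ U c s ρ t p + (Real.log (cGau V) + Ub U s c + Real.log (Chan.gK V ρ)))
    (hl.add contDiffOn_const) (fun t ht p => ?_) ht₁ ht₂
  have h1 := lQ_continuity hU c hs ht ρ p
  rw [← h1]
  congr 2
  have : (fun q : ℝ × (V × V) => lQ U c s ρ q.1 q.2 + (Real.log (cGau V) + Ub U s c +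
    Real.log (Chan.gK V ρ))) = fun q : ℝ × (V × V) => (fun q : ℝ × (V × V) =>
      lQ U c s ρ q.1 q.2) q + (Real.log (cGau V) + Ub U s c + Real.log (Chan.gK V ρ)) := rfl
  rw [this, fderiv_add_const]

/-! ### Corollaries: the flow started at time `0` -/

theorem zero_mem_J : (0 : ℝ) ∈ Ioo (-1 : ℝ) 1 := ⟨by norm_num, by norm_num⟩

@[simp] theorem gS_zero (U : V → ℝ) (c : V) (s : ℝ) (η : V) : gS U c s 0 η = s • G U s c := by
  simp [gS]

@[simp] theorem muY_zero (U : V → ℝ) (c : V) (s : ℝ) : muY U c s 0 = stdGaussian V := by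
  have h1 : (fun η : V => ENNReal.ofReal
      (rexp (Ub U s c - Ub U (s * √(1 - (0 : ℝ) ^ 2)) (c + (s * 0) • η)))) = 1 := by
    funext η
    simp
  rw [muY, h1, withDensity_one]

theorem map_evol_vY' (hU : PotP h U) (c : V) {s : ℝ} (hs : 0 < s) {t : ℝ}
    (ht : t ∈ Ioo (-1 : ℝ) 1) :
    (stdGaussian V).map (evol (vY U c s) (Ioo (-1 : ℝ) 1) 0 t) = muY U c s t :=
  map_evol_vY hU c hs ht

theorem isProb_muY (hU : PotP h U) (c : V) {s : ℝ} (hs : 0 < s) {t : ℝ}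
    (ht : t ∈ Ioo (-1 : ℝ) 1) : IsProbabilityMeasure (muY U c s t) := by
  rw [← map_evol_vY' hU c hs ht]
  exact Measure.isProbabilityMeasure_map
    ((goodOn_vY hU c hs).continuous_evol zero_mem_J ht).measurable.aemeasurable

/-- The coupled flow `(η_t, X_t)` as a function of `ω = (η_0, b_0)`. -/
def cpl (U : V → ℝ) (c : V) (s ρ t : ℝ) (ω : V × V) : V × V :=
  evol (vQ U c s ρ) (Ioo (-1 : ℝ) 1) 0 t (ω.1, s • G U s c + ρ • ω.2)

/-- `b_t`. -/
def cplB (U : V → ℝ) (c : V) (s ρ t : ℝ) (ω : V × V) : V :=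
  ρ⁻¹ • ((cpl U c s ρ t ω).2 - gS U c s t (cpl U c s ρ t ω).1)

theorem cpl_zero (hU : PotP h U) (c : V) {s : ℝ} (hs : 0 < s) (ρ : ℝ) (ω : V × V) :
    cpl U c s ρ 0 ω = (ω.1, s • G U s c + ρ • ω.2) :=
  (goodOn_vQ hU c hs ρ).evol_self zero_mem_J _

theorem hasDerivAt_cpl (hU : PotP h U) (c : V) {s : ℝ} (hs : 0 < s) (ρ : ℝ) {t : ℝ}
    (ht : t ∈ Ioo (-1 : ℝ) 1) (ω : V × V) :
    HasDerivAt (fun t => cpl U c s ρ t ω) (vQ U c s ρ t (cpl U c s ρ t ω)) t :=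
  (goodOn_vQ hU c hs ρ).hasDerivAt_evol zero_mem_J ht _

theorem cpl_snd_eq (U : V → ℝ) (c : V) (s : ℝ) {ρ : ℝ} (hρ : 0 < ρ) (t : ℝ) (ω : V × V) :
    (cpl U c s ρ t ω).2 = gS U c s t (cpl U c s ρ t ω).1 + ρ • cplB U c s ρ t ω := by
  rw [cplB, smul_smul, mul_inv_cancel₀ hρ.ne', one_smul]
  abel

theorem continuous_cpl (hU : PotP h U) (c : V) {s : ℝ} (hs : 0 < s) (ρ : ℝ) {t : ℝ}
    (ht : t ∈ Ioo (-1 : ℝ) 1) : Continuous (cpl U c s ρ t) :=
  ((goodOn_vQ hU c hs ρ).continuous_evol zero_mem_J ht).comp (by fun_prop)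

theorem continuous_cplB (hU : PotP h U) (c : V) {s : ℝ} (hs : 0 < s) (ρ : ℝ) {t : ℝ}
    (ht : t ∈ Ioo (-1 : ℝ) 1) : Continuous (cplB U c s ρ t) := by
  have h1 := continuous_cpl hU c hs ρ ht
  exact continuous_const.smul ((continuous_snd.comp h1).sub
    ((continuous_gS hU c s t).comp (continuous_fst.comp h1)))

/-- Law of `(η_t, X_t)`. -/
theorem map_cpl (hU : PotP h U) (c : V) {s : ℝ} (hs : 0 < s) {ρ : ℝ} (hρ : 0 < ρ) {t : ℝ}
    (ht : t ∈ Ioo (-1 : ℝ) 1) :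
    ((stdGaussian V).prod (stdGaussian V)).map (cpl U c s ρ t) = lawQ U c s ρ t := by
  rw [← map_evol_vQ hU c hs hρ zero_mem_J ht, lawQ, Measure.map_map
    ((goodOn_vQ hU c hs ρ).continuous_evol zero_mem_J ht).measurable]
  · simp only [muY_zero, gS_zero]
    rfl
  · exact (continuous_fst.prodMk (((continuous_gS hU c s 0).comp continuous_fst).add
      (continuous_const.smul continuous_snd))).measurable

/-- **`(η_t, b_t)` has the product law `μ_t ⊗ γ`.** -/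
theorem map_cpl_b (hU : PotP h U) (c : V) {s : ℝ} (hs : 0 < s) {ρ : ℝ} (hρ : 0 < ρ) {t : ℝ}
    (ht : t ∈ Ioo (-1 : ℝ) 1) :
    ((stdGaussian V).prod (stdGaussian V)).map
      (fun ω => ((cpl U c s ρ t ω).1, cplB U c s ρ t ω)) = (muY U c s t).prod (stdGaussian V) := by
  have hgc := continuous_gS hU c s t
  have hprob := isProb_muY hU c hs ht
  have hm1 : Measurable fun p : V × V => (p.1, ρ⁻¹ • (p.2 - gS U c s t p.1)) :=
    (continuous_fst.prodMk (continuous_const.smul (continuous_snd.sub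
      (hgc.comp continuous_fst)))).measurable
  have h1 : (fun ω => ((cpl U c s ρ t ω).1, cplB U c s ρ t ω)) =
      (fun p : V × V => (p.1, ρ⁻¹ • (p.2 - gS U c s t p.1))) ∘ cpl U c s ρ t := rfl
  rw [h1, ← Measure.map_map hm1 (continuous_cpl hU c hs ρ ht).measurable, map_cpl hU c hs hρ ht,
    lawQ, Measure.map_map hm1]
  · have h2 : ((fun p : V × V => (p.1, ρ⁻¹ • (p.2 - gS U c s t p.1))) ∘
        fun q : V × V => (q.1, gS U c s t q.1 + ρ • q.2)) = id := by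
      funext q
      simp only [Function.comp_apply, add_sub_cancel_left, smul_smul, inv_mul_cancel₀ hρ.ne',
        one_smul, id]
    rw [h2, Measure.map_id]
  · exact (continuous_fst.prodMk ((hgc.comp continuous_fst).add
      (continuous_const.smul continuous_snd))).measurable

end Crest.Agent.R285
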