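import Crest.Agent.R285.Skew

/-!
Row 285, module CHANNEL, part 7 (helper582): from the Liouville theorem for the coupled flow (in the
coordinates `(η, X)`, `X = m_t(η) + ρ b`, `m_t(η) = s G_{s√(1-t²)}(c + s t η)`) to the product law of
`(η_t, b_t)`.
-/

set_option autoImplicit false
set_option linter.unusedSectionVars false

open MeasureTheory ProbabilityTheory Real Set
open scoped RealInnerProductSpace ENNReal

noncomputable section

namespace Crest.Agent.R285

variable {V : Type} [NormedAddCommGroup V] [InnerProductSpace ℝ V] [FiniteDimensional ℝ V]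
  [MeasurableSpace V] [BorelSpace V] {h : ℝ} {U : V → ℝ}

open Chan

/-- `m_t(η) = s G_{s√(1-t²)}(c + s t η)` -/
def mC (U : V → ℝ) (c : V) (s t : ℝ) (η : V) : V := s • G U (s * √(1 - t ^ 2)) (c + (s * t) • η)

theorem mC_eq_neg_vY (U : V → ℝ) (c : V) (s t : ℝ) (η : V) : mC U c s t η = -vY U c s t η := by
  rw [vY, neg_neg, mC]

theorem measurable_mC (hU : PotP h U) (c : V) (s t : ℝ) : Measurable (mC U c s t) := by
  have : Continuous (mC U c s t) := by
    unfold mC
    exact ((contDiff_gr hU).continuous.comp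
      (f := fun η : V => ((s * √(1 - t ^ 2), c + (s * t) • η) : ℝ × V)) (by fun_prop)).const_smul s
  exact this.measurable

theorem measurable_lY (hU : PotP h U) (c : V) (s t : ℝ) : Measurable (lY U c s t) := by
  have : Continuous (lY U c s t) := by
    unfold lY
    refine Continuous.sub (by fun_prop) ?_
    exact (contDiff_ub hU).continuous.comp
      (f := fun η : V => (s * √(1 - t ^ 2), c + (s * t) • η)) (by fun_prop)
  exact this.measurable

theorem smul_measure_cancel {α : Type*} [MeasurableSpace α] {k : ℝ≥0∞} (h0 : k ≠ 0) (ht : k ≠ ⊤)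
    {μ ν : Measure α} (h : k • μ = k • ν) : μ = ν := by
  have := congrArg (fun m => k⁻¹ • m) h
  simpa [smul_smul, ENNReal.inv_mul_cancel h0 ht] using this

/-- **The product law of the coupled flow**, from Liouville's theorem for the map `T` (the flow from
time `0` to time `t` in the coordinates `(η, X)`). -/
theorem coup_law_of (hU : PotP h U) (c : V) {s ρ t : ℝ} (hs : 0 < s) (hρ : 0 < ρ)
    (ht : t ∈ Ioo (-1 : ℝ) 1) {T : V × V → V × V} (hT : Measurable T)
    (hLi : (((volume : Measure V).prod volume).withDensity (fun p : V × V => ENNReal.ofReal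
        (rexp (lY U c s 0 p.1 - ‖p.2 - mC U c s 0 p.1‖ ^ 2 / (2 * ρ ^ 2))))).map T =
      ((volume : Measure V).prod volume).withDensity (fun p : V × V => ENNReal.ofReal
        (rexp (lY U c s t p.1 - ‖p.2 - mC U c s t p.1‖ ^ 2 / (2 * ρ ^ 2))))) :
    ((stdGaussian V).prod (stdGaussian V)).map (fun w =>
      ((T (w.1, mC U c s 0 w.1 + ρ • w.2)).1,
        ρ⁻¹ • ((T (w.1, mC U c s 0 w.1 + ρ • w.2)).2 -
          mC U c s t (T (w.1, mC U c s 0 w.1 + ρ • w.2)).1))) =
      ((stdGaussian V).map (evol (vY U c s) (Ioo (-1 : ℝ) 1) 0 t)).prod (stdGaussian V) := by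
  have hK := gK_pos (V := V) hρ
  have hK0 : ENNReal.ofReal (gK V ρ) ≠ 0 := (ENNReal.ofReal_pos.2 hK).ne'
  rw [withDensity_exp_skew (measurable_lY hU c s 0) (measurable_mC hU c s 0) hρ,
    withDensity_exp_skew (measurable_lY hU c s t) (measurable_mC hU c s t) hρ,
    Measure.map_smul] at hLi
  have h1 := smul_measure_cancel (ENNReal.inv_ne_zero.2 ENNReal.ofReal_ne_top)
    (ENNReal.inv_ne_top.2 hK0) hLi
  have hk1 : ENNReal.ofReal ((2 * π) ^ ((Module.finrank ℝ V : ℝ) / 2) * rexp (-Ub U s c)) ≠ 0 :=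
    (ENNReal.ofReal_pos.2 (by positivity)).ne'
  have h0 : (0 : ℝ) ∈ Ioo (-1 : ℝ) 1 := ⟨by norm_num, by norm_num⟩
  have e0 : (stdGaussian V).withDensity (fun η => ENNReal.ofReal
      (rexp (Ub U s c - Ub U (s * √(1 - (0 : ℝ) ^ 2)) (c + (s * (0 : ℝ)) • η)))) = stdGaussian V := by
    simp
  have hP : IsProbabilityMeasure ((stdGaussian V).withDensity fun η => ENNReal.ofReal
      (rexp (Ub U s c - Ub U (s * √(1 - t ^ 2)) (c + (s * t) • η)))) := by
    rw [← map_evol_vY hU c hs ht]
    exact Measure.isProbabilityMeasure_map (measurable_evol_vY hU c hs ht).aemeasurable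
  rw [withDensity_lY hU c s 0, withDensity_lY hU c s t, e0,
    skew_smul _ (measurable_mC hU c s 0) ρ _ ENNReal.ofReal_ne_top,
    skew_smul _ (measurable_mC hU c s t) ρ _ ENNReal.ofReal_ne_top, Measure.map_smul] at h1
  have h2 := smul_measure_cancel hk1 ENNReal.ofReal_ne_top h1
  rw [← map_evol_vY hU c hs ht] at h2
  exact map_of_skew hT (measurable_mC hU c s 0) (measurable_mC hU c s t) hρ.ne' h2

end Crest.Agent.R285
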