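import Crest.Agent.R285.Inner

/-!
Row 285: the block at a frozen centre `y` (all exact points with their defects), and the version with
a random centre `Y`, `(b, q) ∼ γ × γ` independent of `Y`.

Rescaled units.  `A = D G_κ (y)`, `B = A / ρ`; directions `b`, `u_m`, `q_m`; points `p_{v,k}`.
-/

set_option autoImplicit false
set_option linter.unusedSectionVars false

open Set Filter Topology MeasureTheory ProbabilityTheory
open scoped ENNReal NNReal RealInnerProductSpace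

noncomputable section

namespace Crest.Agent.R285

/-- Index type of the directions: `b`, `u m`, `q m`. -/
abbrev FDir (n : ℕ) : Type := Unit ⊕ Fin (n + 2) ⊕ Fin (n + 2)

variable {V : Type} [NormedAddCommGroup V] [InnerProductSpace ℝ V] [FiniteDimensional ℝ V]
  [MeasurableSpace V] [BorelSpace V]

/-- Exact directions. -/
def xdir (A : V →L[ℝ] V) (ρ : ℝ) (n : ℕ) (a0 : ℝ) (p : V × V) : FDir n → V
  | .inl _ => p.1
  | .inr (.inl m) => rotU (ρ⁻¹ • A) (a0 * Num.node (n + 2) m) p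
  | .inr (.inr m) => rotQ (ρ⁻¹ • A) (a0 * Num.node (n + 2) m) p

theorem measurable_xdir (A : V →L[ℝ] V) (ρ : ℝ) (n : ℕ) (a0 : ℝ) (v : FDir n) :
    Measurable (fun p => xdir A ρ n a0 p v) := by
  rcases v with _ | m | m
  · exact measurable_fst
  · exact measurable_rotU _ _
  · exact measurable_rotQ _ _

/-- Every direction is a standard Gaussian. -/
theorem map_xdir {A : V →L[ℝ] V} (hA : ∀ x y, ⟪A x, y⟫ = ⟪x, A y⟫) (ρ : ℝ) (n : ℕ) (a0 : ℝ)
    (v : FDir n) : (gam2 V).map (fun p => xdir A ρ n a0 p v) = stdGaussian V := by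
  rcases v with _ | m | m
  · show ((stdGaussian V).prod (stdGaussian V)).map Prod.fst = _
    simp
  · exact map_rotU _ (smul_symm hA _) _
  · exact map_rotQ _ (smul_symm hA _) _

theorem eLpNorm_comp_xdir {A : V →L[ℝ] V} (hA : ∀ x y, ⟪A x, y⟫ = ⟪x, A y⟫) (ρ : ℝ) (n : ℕ)
    (a0 : ℝ) (v : FDir n) {g : V → V} (hg : Continuous g) :
    eLpNorm (fun p => g (xdir A ρ n a0 p v)) 2 (gam2 V) = eLpNorm g 2 (stdGaussian V) := by
  conv_rhs => rw [← map_xdir hA ρ n a0 v]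
  rw [eLpNorm_map_measure hg.aestronglyMeasurable (measurable_xdir A ρ n a0 v).aemeasurable]
  rfl

variable {h τ κ ρ t0 a0 : ℝ} {f : V → ℝ} {n : ℕ} {B : ℝ≥0∞}

/-- Exact points of the inner flow in direction `v`. -/
def xpt (f : V → ℝ) (κ ρ : ℝ) (n : ℕ) (t0 a0 : ℝ) (y : V) (p : V × V) (v : FDir n)
    (k : Fin (n + 2)) : V :=
  ipt f y κ (t0 * Num.node (n + 2) k) (xdir (DGr f (κ, y)) ρ n a0 p v)

/-- Exact values of the field there. -/
def xG (f : V → ℝ) (κ ρ : ℝ) (n : ℕ) (t0 a0 : ℝ) (y : V) (p : V × V) (v : FDir n)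
    (k : Fin (n + 2)) : V :=
  G f (κ * √(1 - (t0 * Num.node (n + 2) k) ^ 2)) (xpt f κ ρ n t0 a0 y p v k)

/-- The numerical value of `A v` from the exact points. -/
def xAA (f : V → ℝ) (κ ρ : ℝ) (n : ℕ) (t0 a0 : ℝ) (y : V) (p : V × V) (v : FDir n) : V :=
  ∑ k, (db n t0 k / κ) • xG f κ ρ n t0 a0 y p v k

theorem xAA_eq (y : V) (p : V × V) (v : FDir n) :
    xAA f κ ρ n t0 a0 y p v = iS f y κ n t0 (xdir (DGr f (κ, y)) ρ n a0 p v) := by
  unfold xAA iS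
  rw [Finset.smul_sum]
  refine Finset.sum_congr rfl fun k _ => ?_
  rw [smul_smul, div_eq_inv_mul]
  rfl

theorem node_le_one {m : ℕ} (l : Fin m) : Num.node m l ≤ 1 := (Num.node_lt_one m l).le

/-! ### defects for a frozen centre -/

/-- the error of the stencil, in `L²(γ)` -/
def dS (n : ℕ) (κ t0 : ℝ) (B : ℝ≥0∞) : ℝ≥0∞ :=
  ENNReal.ofReal (Num.derC n * t0 ^ (n + 1) / κ ^ 2) * B

theorem froz_A (hf : PotP h f) (hκ : 0 < κ) (h0 : 0 < t0) (h1 : t0 < 1) (y : V)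
    (hB : InnB f y κ (n + 2) t0 B) (v : FDir n) :
    eLpNorm (fun p => DGr f (κ, y) (xdir (DGr f (κ, y)) ρ n a0 p v) -
      xAA f κ ρ n t0 a0 y p v) 2 (gam2 V) ≤ dS n κ t0 B := by
  have hc : Continuous (fun x => DGr f (κ, y) x - iS f y κ n t0 x) :=
    (DGr f (κ, y)).continuous.sub ((continuous_iS₂ hf hκ n h0.le h1).comp
      (f := fun x : V => (y, x)) (by fun_prop))
  simp_rw [xAA_eq]
  rw [eLpNorm_comp_xdir (DGr_symm hf _) ρ n a0 v hc]
  exact inner_stencil hf y hκ n h0 h1 hB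

theorem froz_p (hf : PotP h f) (hκ : 0 < κ) (h0 : 0 < t0) (h1 : t0 < 1) (y : V)
    (hB : InnB f y κ (n + 2) t0 B) (v : FDir n) (k : Fin (n + 2)) :
    eLpNorm (fun p => xpt f κ ρ n t0 a0 y p v k - (y + (κ * (t0 * Num.node (n + 2) k)) •
      (xdir (DGr f (κ, y)) ρ n a0 p v - κ • ∑ l, wb n t0 (Num.node (n + 2) k) l •
        xG f κ ρ n t0 a0 y p v l))) 2 (gam2 V) ≤
      ENNReal.ofReal (κ * rcQ n * t0 ^ (n + 4)) * B := by
  have hc : Continuous (fun x => ipt f y κ (t0 * Num.node (n + 2) k) x - (y +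
      (κ * (t0 * Num.node (n + 2) k)) • (x - κ • ∑ l, wb n t0 (Num.node (n + 2) k) l •
      iG f y κ (t0 * Num.node (n + 2) l) x))) := by
    refine (continuous_ipt hf y hκ (node_mem_Jm h0.le h1 k)).sub (continuous_const.add ?_)
    refine (continuous_id.sub ((continuous_finsetSum _ fun l _ => ?_).const_smul _)).const_smul _
    exact (continuous_iG hf y hκ (node_mem_Jm h0.le h1 l)).const_smul _
  have h2 := eLpNorm_comp_xdir (DGr_symm hf (κ, y)) ρ n a0 v hc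
  have h3 := inner_point hf y hκ n h0 h1 hB (Num.node_pos (n + 2) k).le (node_le_one k)
  rw [← h2] at h3
  exact h3

theorem froz_u (hf : PotP τ f) (hκ : 0 < κ) (hρ : 0 < ρ) (h0 : 0 < t0) (h1 : t0 < 1)
    (ha : 0 ≤ a0) (y : V) (hB : InnB f y κ (n + 2) t0 B) (m : Fin (n + 2)) :
    eLpNorm (fun p => xdir (DGr f (κ, y)) ρ n a0 p (.inr (.inl m)) - (p.1 - ∑ l,
      (ρ⁻¹ * wb n a0 (Num.node (n + 2) m) l) • xAA f κ ρ n t0 a0 y p (.inr (.inr l)))) 2 (gam2 V) ≤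
      ENNReal.ofReal (rcQ n * (a0 * (τ / ρ)) ^ (n + 3) * √(2 * Module.finrank ℝ V)) +
      ENNReal.ofReal (rcQ n * a0 / ρ) * dS n κ t0 B := by
  have h2 := rot_defect_u (n := n) (a0 := a0) (DGr_symm hf (κ, y)) (dgr_norm hf (κ, y)) hρ
    (measurable_iS hf y hκ n h0.le h1) (inner_stencil hf y hκ n h0 h1 hB) ha
    (Num.node_pos (n + 2) m).le (node_le_one m)
  refine le_trans (le_of_eq ?_) h2
  congr 1
  funext p
  rw [Finset.smul_sum]
  simp only [xAA_eq, xdir, smul_smul]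

theorem froz_q (hf : PotP τ f) (hκ : 0 < κ) (hρ : 0 < ρ) (h0 : 0 < t0) (h1 : t0 < 1)
    (ha : 0 ≤ a0) (y : V) (hB : InnB f y κ (n + 2) t0 B) (m : Fin (n + 2)) :
    eLpNorm (fun p => xdir (DGr f (κ, y)) ρ n a0 p (.inr (.inr m)) - (p.2 + ∑ l,
      (ρ⁻¹ * wb n a0 (Num.node (n + 2) m) l) • xAA f κ ρ n t0 a0 y p (.inr (.inl l)))) 2 (gam2 V) ≤
      ENNReal.ofReal (rcQ n * (a0 * (τ / ρ)) ^ (n + 3) * √(2 * Module.finrank ℝ V)) +
      ENNReal.ofReal (rcQ n * a0 / ρ) * dS n κ t0 B := by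
  have h2 := rot_defect_q (n := n) (a0 := a0) (DGr_symm hf (κ, y)) (dgr_norm hf (κ, y)) hρ
    (measurable_iS hf y hκ n h0.le h1) (inner_stencil hf y hκ n h0 h1 hB) ha
    (Num.node_pos (n + 2) m).le (node_le_one m)
  refine le_trans (le_of_eq ?_) h2
  congr 1
  funext p
  rw [Finset.smul_sum]
  simp only [xAA_eq, xdir, smul_smul]

theorem froz_R (hf : PotP τ f) (hκ : 0 < κ) (hρ : 0 < ρ) (h0 : 0 < t0) (h1 : t0 < 1)
    (ha : 0 < a0) (y : V) (hB : InnB f y κ (n + 2) t0 B) :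
    eLpNorm (fun p => ρ⁻¹ • DGr f (κ, y) (DGr f (κ, y) p.1) - ∑ m, db n a0 m •
      xAA f κ ρ n t0 a0 y p (.inr (.inr m))) 2 (gam2 V) ≤
      ENNReal.ofReal (Num.derC n * (τ * (τ / ρ)) * (a0 * (τ / ρ)) ^ (n + 1) *
        √(2 * Module.finrank ℝ V)) +
      ENNReal.ofReal (Num.derC n / a0) * dS n κ t0 B := by
  have h2 := rot_defect_R (n := n) (a0 := a0) (DGr_symm hf (κ, y)) (dgr_norm hf (κ, y)) hρ
    (measurable_iS hf y hκ n h0.le h1) (inner_stencil hf y hκ n h0 h1 hB) ha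
  refine le_trans (le_of_eq ?_) h2
  congr 1
  funext p
  simp only [xAA_eq, xdir]

/-! ### joint continuity -/

theorem continuous_xdir₂ (hf : PotP h f) (κ ρ : ℝ) (n : ℕ) (a0 : ℝ) (v : FDir n) :
    Continuous (fun z : V × (V × V) => xdir (DGr f (κ, z.1)) ρ n a0 z.2 v) := by
  have hD : Continuous (fun z : V × (V × V) => DGr f (κ, z.1)) :=
    (continuous_DGr hf κ).comp continuous_fst
  have hA : Continuous (fun z : V × (V × V) => ((ρ⁻¹ • DGr f (κ, z.1), z.2) :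
      (V →L[ℝ] V) × (V × V))) :=
    (hD.const_smul ρ⁻¹).prodMk continuous_snd
  rcases v with _ | m | m
  · exact continuous_fst.comp continuous_snd
  · have h2 := (continuous_rotC₂ true (a0 * Num.node (n + 2) m)).comp hA
    refine h2.congr fun z => ?_
    simp only [Function.comp_apply, rotC, if_true, xdir]
  · have h2 := (continuous_rotC₂ false (a0 * Num.node (n + 2) m)).comp hA
    refine h2.congr fun z => ?_
    simp only [Function.comp_apply, rotC, Bool.false_eq_true, if_false, xdir]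

theorem continuous_xpt₂ (hf : PotP h f) (hκ : 0 < κ) (ρ : ℝ) (n : ℕ) (h0 : 0 ≤ t0) (h1 : t0 < 1)
    (a0 : ℝ) (v : FDir n) (k : Fin (n + 2)) :
    Continuous (fun z : V × (V × V) => xpt f κ ρ n t0 a0 z.1 z.2 v k) :=
  (continuous_ipt₂ hf hκ (node_mem_Jm h0 h1 k)).comp
    (f := fun z : V × (V × V) => (z.1, xdir (DGr f (κ, z.1)) ρ n a0 z.2 v))
    (continuous_fst.prodMk (continuous_xdir₂ hf κ ρ n a0 v))

theorem continuous_xG₂ (hf : PotP h f) (hκ : 0 < κ) (ρ : ℝ) (n : ℕ) (h0 : 0 ≤ t0) (h1 : t0 < 1)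
    (a0 : ℝ) (v : FDir n) (k : Fin (n + 2)) :
    Continuous (fun z : V × (V × V) => xG f κ ρ n t0 a0 z.1 z.2 v k) :=
  (contDiff_gr hf).continuous.comp
    (f := fun z : V × (V × V) => ((κ * √(1 - (t0 * Num.node (n + 2) k) ^ 2),
      xpt f κ ρ n t0 a0 z.1 z.2 v k) : ℝ × V))
    (continuous_const.prodMk (continuous_xpt₂ hf hκ ρ n h0 h1 a0 v k))

theorem continuous_xAA₂ (hf : PotP h f) (hκ : 0 < κ) (ρ : ℝ) (n : ℕ) (h0 : 0 ≤ t0) (h1 : t0 < 1)
    (a0 : ℝ) (v : FDir n) :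
    Continuous (fun z : V × (V × V) => xAA f κ ρ n t0 a0 z.1 z.2 v) := by
  unfold xAA
  exact continuous_finsetSum _ fun k _ => (continuous_xG₂ hf hκ ρ n h0 h1 a0 v k).const_smul _

/-! ### random centre -/

section rand

variable {Ω : Type*} [MeasurableSpace Ω] {P : Measure Ω}

/-- `(b, q) ∼ γ × γ` independent of `Y`. -/
structure FrozLaw (P : Measure Ω) (Y b q : Ω → V) : Prop where
  mY : Measurable Y
  mb : Measurable b
  mq : Measurable q
  law : ∃ μ : Measure V, IsProbabilityMeasure μ ∧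
    P.map (fun ω => (Y ω, (b ω, q ω))) = μ.prod (gam2 V)

theorem FrozLaw.eLpNorm_le {Y b q : Ω → V} (hL : FrozLaw P Y b q) {H : Type*}
    [NormedAddCommGroup H] [MeasurableSpace H] [BorelSpace H] [SecondCountableTopology H]
    {g : V × (V × V) → H} (hg : Continuous g)
    {δ : ℝ≥0∞} (h : ∀ y, eLpNorm (fun p => g (y, p)) 2 (gam2 V) ≤ δ) :
    eLpNorm (fun ω => g (Y ω, (b ω, q ω))) 2 P ≤ δ := by
  obtain ⟨μ, hμ, hl⟩ := hL.law
  have hm : Measurable (fun ω => (Y ω, (b ω, q ω))) := hL.mY.prodMk (hL.mb.prodMk hL.mq)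
  have h1 := eLpNorm_map_measure (μ := P) (p := 2) (f := fun ω => (Y ω, (b ω, q ω))) (g := g)
    (by rw [hl]; exact hg.measurable.aestronglyMeasurable) hm.aemeasurable
  rw [hl] at h1
  have h2 : (fun ω => g (Y ω, (b ω, q ω))) = g ∘ (fun ω => (Y ω, (b ω, q ω))) := rfl
  rw [h2, ← h1]
  exact eLpNorm_prod_le h

variable {Y b q : Ω → V}

theorem FrozLaw.stencil (hL : FrozLaw P Y b q) (hf : PotP h f) (hκ : 0 < κ) (h0 : 0 < t0)
    (h1 : t0 < 1) (hB : ∀ y, InnB f y κ (n + 2) t0 B) (v : FDir n) :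
    eLpNorm (fun ω => DGr f (κ, Y ω) (xdir (DGr f (κ, Y ω)) ρ n a0 (b ω, q ω) v) -
      xAA f κ ρ n t0 a0 (Y ω) (b ω, q ω) v) 2 P ≤ dS n κ t0 B := by
  have hD : Continuous (fun z : V × (V × V) => DGr f (κ, z.1)) :=
    (continuous_DGr hf κ).comp continuous_fst
  exact hL.eLpNorm_le (g := fun z : V × (V × V) => DGr f (κ, z.1)
      (xdir (DGr f (κ, z.1)) ρ n a0 z.2 v) - xAA f κ ρ n t0 a0 z.1 z.2 v)
    ((hD.clm_apply (continuous_xdir₂ hf κ ρ n a0 v)).sub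
      (continuous_xAA₂ hf hκ ρ n h0.le h1 a0 v))
    (fun y => froz_A hf hκ h0 h1 y (hB y) v)

theorem FrozLaw.defect_p (hL : FrozLaw P Y b q) (hf : PotP h f) (hκ : 0 < κ) (h0 : 0 < t0)
    (h1 : t0 < 1) (hB : ∀ y, InnB f y κ (n + 2) t0 B) (v : FDir n) (k : Fin (n + 2)) :
    eLpNorm (fun ω => xpt f κ ρ n t0 a0 (Y ω) (b ω, q ω) v k -
      (Y ω + (κ * (t0 * Num.node (n + 2) k)) •
      (xdir (DGr f (κ, Y ω)) ρ n a0 (b ω, q ω) v - κ • ∑ l, wb n t0 (Num.node (n + 2) k) l •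
        xG f κ ρ n t0 a0 (Y ω) (b ω, q ω) v l))) 2 P ≤
      ENNReal.ofReal (κ * rcQ n * t0 ^ (n + 4)) * B := by
  refine hL.eLpNorm_le (g := fun z : V × (V × V) => xpt f κ ρ n t0 a0 z.1 z.2 v k -
      (z.1 + (κ * (t0 * Num.node (n + 2) k)) •
      (xdir (DGr f (κ, z.1)) ρ n a0 z.2 v - κ • ∑ l, wb n t0 (Num.node (n + 2) k) l •
        xG f κ ρ n t0 a0 z.1 z.2 v l))) ?_ (fun y => froz_p hf hκ h0 h1 y (hB y) v k)
  refine (continuous_xpt₂ hf hκ ρ n h0.le h1 a0 v k).sub (continuous_fst.add ?_)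
  refine ((continuous_xdir₂ hf κ ρ n a0 v).sub
    ((continuous_finsetSum _ fun l _ => ?_).const_smul _)).const_smul _
  exact (continuous_xG₂ hf hκ ρ n h0.le h1 a0 v l).const_smul _

theorem FrozLaw.defect_u (hL : FrozLaw P Y b q) (hf : PotP τ f) (hκ : 0 < κ) (hρ : 0 < ρ)
    (h0 : 0 < t0) (h1 : t0 < 1) (ha : 0 ≤ a0) (hB : ∀ y, InnB f y κ (n + 2) t0 B)
    (m : Fin (n + 2)) :
    eLpNorm (fun ω => xdir (DGr f (κ, Y ω)) ρ n a0 (b ω, q ω) (.inr (.inl m)) - (b ω - ∑ l,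
      (ρ⁻¹ * wb n a0 (Num.node (n + 2) m) l) •
        xAA f κ ρ n t0 a0 (Y ω) (b ω, q ω) (.inr (.inr l)))) 2 P ≤
      ENNReal.ofReal (rcQ n * (a0 * (τ / ρ)) ^ (n + 3) * √(2 * Module.finrank ℝ V)) +
      ENNReal.ofReal (rcQ n * a0 / ρ) * dS n κ t0 B := by
  refine hL.eLpNorm_le (g := fun z : V × (V × V) =>
      xdir (DGr f (κ, z.1)) ρ n a0 z.2 (.inr (.inl m)) - (z.2.1 - ∑ l,
      (ρ⁻¹ * wb n a0 (Num.node (n + 2) m) l) •
        xAA f κ ρ n t0 a0 z.1 z.2 (.inr (.inr l)))) ?_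
    (fun y => froz_u hf hκ hρ h0 h1 ha y (hB y) m)
  refine (continuous_xdir₂ hf κ ρ n a0 _).sub ((continuous_fst.comp continuous_snd).sub
    (continuous_finsetSum _ fun l _ => ?_))
  exact (continuous_xAA₂ hf hκ ρ n h0.le h1 a0 _).const_smul _

theorem FrozLaw.defect_q (hL : FrozLaw P Y b q) (hf : PotP τ f) (hκ : 0 < κ) (hρ : 0 < ρ)
    (h0 : 0 < t0) (h1 : t0 < 1) (ha : 0 ≤ a0) (hB : ∀ y, InnB f y κ (n + 2) t0 B)
    (m : Fin (n + 2)) :
    eLpNorm (fun ω => xdir (DGr f (κ, Y ω)) ρ n a0 (b ω, q ω) (.inr (.inr m)) - (q ω + ∑ l,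
      (ρ⁻¹ * wb n a0 (Num.node (n + 2) m) l) •
        xAA f κ ρ n t0 a0 (Y ω) (b ω, q ω) (.inr (.inl l)))) 2 P ≤
      ENNReal.ofReal (rcQ n * (a0 * (τ / ρ)) ^ (n + 3) * √(2 * Module.finrank ℝ V)) +
      ENNReal.ofReal (rcQ n * a0 / ρ) * dS n κ t0 B := by
  refine hL.eLpNorm_le (g := fun z : V × (V × V) =>
      xdir (DGr f (κ, z.1)) ρ n a0 z.2 (.inr (.inr m)) - (z.2.2 + ∑ l,
      (ρ⁻¹ * wb n a0 (Num.node (n + 2) m) l) •
        xAA f κ ρ n t0 a0 z.1 z.2 (.inr (.inl l)))) ?_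
    (fun y => froz_q hf hκ hρ h0 h1 ha y (hB y) m)
  refine (continuous_xdir₂ hf κ ρ n a0 _).sub ((continuous_snd.comp continuous_snd).add
    (continuous_finsetSum _ fun l _ => ?_))
  exact (continuous_xAA₂ hf hκ ρ n h0.le h1 a0 _).const_smul _

theorem FrozLaw.defect_R (hL : FrozLaw P Y b q) (hf : PotP τ f) (hκ : 0 < κ) (hρ : 0 < ρ)
    (h0 : 0 < t0) (h1 : t0 < 1) (ha : 0 < a0) (hB : ∀ y, InnB f y κ (n + 2) t0 B) :
    eLpNorm (fun ω => ρ⁻¹ • DGr f (κ, Y ω) (DGr f (κ, Y ω) (b ω)) - ∑ m, db n a0 m •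
      xAA f κ ρ n t0 a0 (Y ω) (b ω, q ω) (.inr (.inr m))) 2 P ≤
      ENNReal.ofReal (Num.derC n * (τ * (τ / ρ)) * (a0 * (τ / ρ)) ^ (n + 1) *
        √(2 * Module.finrank ℝ V)) +
      ENNReal.ofReal (Num.derC n / a0) * dS n κ t0 B := by
  have hD : Continuous (fun z : V × (V × V) => DGr f (κ, z.1)) :=
    (continuous_DGr hf κ).comp continuous_fst
  refine hL.eLpNorm_le (g := fun z : V × (V × V) =>
      ρ⁻¹ • DGr f (κ, z.1) (DGr f (κ, z.1) z.2.1) - ∑ m, db n a0 m •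
      xAA f κ ρ n t0 a0 z.1 z.2 (.inr (.inr m))) ?_
    (fun y => froz_R hf hκ hρ h0 h1 ha y (hB y))
  refine ((hD.clm_apply (hD.clm_apply (continuous_fst.comp continuous_snd))).const_smul _).sub
    (continuous_finsetSum _ fun l _ => ?_)
  exact (continuous_xAA₂ hf hκ ρ n h0.le h1 a0 _).const_smul _

end rand

end Crest.Agent.R285
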