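import Mathlib
import Crest.Agent.R285.NumRule
import Crest.Agent.R285.NumL2

/-!
# R285.YSysCore : the Y-system (collocation for the flow `η' = -g_ε(ε η)`), pathwise and `L²` error

Units `s = 1`, `c = 0`.  `g l` is the (exact) field at the node `ε_l = qnode n M 0 e l`.
-/

set_option autoImplicit false

open Set Finset MeasureTheory
open scoped ENNReal

namespace Crest.Agent.R285.YSys

open Crest.Agent.R285.Num

noncomputable section

variable {V : Type*} [NormedAddCommGroup V] [NormedSpace ℝ V]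

/-- index set of the points -/
abbrev Idx (n M : ℕ) := Fin M × Fin (n + 1)

/-- one Picard sweep: `x_j ↦ ε_j (ξ - ∑ V_{jl} g_l(x_l))` -/
def sweep (n M : ℕ) (e : ℝ) (g : Idx n M → V → V) (ξ : V) (x : Idx n M → V) : Idx n M → V :=
  fun j => qnode n M 0 e j • (ξ - ∑ l, qW n M 0 e j l • g l (x l))

/-- the output `e (ξ - ∑ v_l g_l(x_l))` (approximates `y_e = e η_e`) -/
def out (n M : ℕ) (e : ℝ) (g : Idx n M → V → V) (ξ : V) (x : Idx n M → V) : V :=
  e • (ξ - ∑ l, qw n M 0 e l • g l (x l))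

/-- the start `x_j = ε_j ξ` -/
def start (n M : ℕ) (e : ℝ) (ξ : V) : Idx n M → V := fun j => qnode n M 0 e j • ξ

/-- the constant of the rule -/
def CY (n : ℕ) : ℝ := (n + 1) * intC (n + 1)

lemma CY_nonneg (n : ℕ) : 0 ≤ CY n := mul_nonneg (by positivity) (intC_nonneg _)

lemma sum_abs_qW_le {n M : ℕ} {e : ℝ} (he0 : 0 ≤ e) (he1 : e ≤ 1) (j : Idx n M) :
    ∑ l, |qW n M 0 e j l| ≤ CY n := by
  have hM : 0 < M := Nat.pos_of_ne_zero (by rintro rfl; exact j.1.elim0)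
  have hM' : (0 : ℝ) < M := by exact_mod_cast hM
  calc ∑ l, |qW n M 0 e j l| ≤ ∑ _l : Idx n M, (e - 0) / M * intC (n + 1) :=
        Finset.sum_le_sum (fun l _ => abs_qW_le n M he0 j l)
    _ = (M * (n + 1) : ℝ) * ((e - 0) / M * intC (n + 1)) := by
        rw [Finset.sum_const, Finset.card_univ, Fintype.card_prod, Fintype.card_fin,
          Fintype.card_fin, nsmul_eq_mul]
        push_cast; ring
    _ = e * CY n := by unfold CY; field_simp; ring
    _ ≤ 1 * CY n := mul_le_mul_of_nonneg_right he1 (CY_nonneg n)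
    _ = CY n := one_mul _

lemma sum_abs_qw_le {n M : ℕ} (hM : 0 < M) {e : ℝ} (he0 : 0 ≤ e) (he1 : e ≤ 1) :
    ∑ l, |qw n M 0 e l| ≤ CY n := by
  have hM' : (0 : ℝ) < M := by exact_mod_cast hM
  calc ∑ l, |qw n M 0 e l| ≤ ∑ _l : Idx n M, (e - 0) / M * intC (n + 1) :=
        Finset.sum_le_sum (fun l _ => abs_qw_le n M he0 l)
    _ = (M * (n + 1) : ℝ) * ((e - 0) / M * intC (n + 1)) := by
        rw [Finset.sum_const, Finset.card_univ, Fintype.card_prod, Fintype.card_fin,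
          Fintype.card_fin, nsmul_eq_mul]
        push_cast; ring
    _ = e * CY n := by unfold CY; field_simp; ring
    _ ≤ 1 * CY n := mul_le_mul_of_nonneg_right he1 (CY_nonneg n)
    _ = CY n := one_mul _

lemma abs_qnode_le {n M : ℕ} {e : ℝ} (he0 : 0 < e) (he1 : e ≤ 1) (j : Idx n M) :
    |qnode n M 0 e j| ≤ 1 := by
  have := qnode_mem (n := n) (M := M) he0 j
  rw [abs_of_pos this.1]
  exact (this.2.le).trans he1

/-- sweeps contract the sup norm -/
theorem sweep_lipschitz {n M : ℕ} {e : ℝ} (he0 : 0 < e) (he1 : e ≤ 1) {g : Idx n M → V → V}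
    {τ : ℝ} (hτ : 0 ≤ τ) (hg : ∀ j x y, ‖g j x - g j y‖ ≤ τ * ‖x - y‖) (ξ : V)
    (x y : Idx n M → V) :
    dist (sweep n M e g ξ x) (sweep n M e g ξ y) ≤ (CY n * τ) * dist x y := by
  have hd : 0 ≤ (CY n * τ) * dist x y :=
    mul_nonneg (mul_nonneg (CY_nonneg n) hτ) dist_nonneg
  rw [dist_pi_le_iff hd]
  intro j
  rw [dist_eq_norm]
  have e1 : sweep n M e g ξ x j - sweep n M e g ξ y j =
      qnode n M 0 e j • ∑ l, qW n M 0 e j l • (g l (y l) - g l (x l)) := by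
    unfold sweep
    rw [← smul_sub]
    congr 1
    simp only [smul_sub, Finset.sum_sub_distrib]
    abel
  rw [e1, norm_smul, Real.norm_eq_abs]
  have h2 : ‖∑ l, qW n M 0 e j l • (g l (y l) - g l (x l))‖ ≤ CY n * (τ * dist x y) := by
    refine (norm_sum_le _ _).trans ?_
    calc ∑ l, ‖qW n M 0 e j l • (g l (y l) - g l (x l))‖ ≤
          ∑ l, |qW n M 0 e j l| * (τ * dist x y) := by
          refine Finset.sum_le_sum (fun l _ => ?_)
          rw [norm_smul, Real.norm_eq_abs]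
          refine mul_le_mul_of_nonneg_left ?_ (abs_nonneg _)
          refine (hg l _ _).trans (mul_le_mul_of_nonneg_left ?_ hτ)
          rw [norm_sub_rev, ← dist_eq_norm]
          exact dist_le_pi_dist x y l
      _ = (∑ l, |qW n M 0 e j l|) * (τ * dist x y) := by rw [Finset.sum_mul]
      _ ≤ CY n * (τ * dist x y) :=
          mul_le_mul_of_nonneg_right (sum_abs_qW_le he0.le he1 j)
            (mul_nonneg hτ dist_nonneg)
  calc |qnode n M 0 e j| * ‖∑ l, qW n M 0 e j l • (g l (y l) - g l (x l))‖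
      ≤ 1 * (CY n * (τ * dist x y)) :=
        mul_le_mul (abs_qnode_le he0 he1 j) h2 (norm_nonneg _) zero_le_one
    _ = (CY n * τ) * dist x y := by ring

/-- The exact path data of the flow, for one initial value `ξ`. -/
structure Path (n M : ℕ) (e : ℝ) (g : Idx n M → V → V) (ξ : V) (η : ℝ → V) (F : ℕ → ℝ → V) :
    Prop where
  tower : Tower (n + 1) F 0 e
  integ : ∀ t ∈ Icc 0 e, η t = ξ - ∫ u in (0 : ℝ)..t, F 0 u
  val : ∀ j, F 0 (qnode n M 0 e j) = g j (qnode n M 0 e j • η (qnode n M 0 e j))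

/-- the quadrature remainder -/
def rem (n M : ℕ) (e : ℝ) (F : ℕ → ℝ → V) : ℝ :=
  (1 + intC (n + 1)) * ((e / M) ^ (n + 1) * ∫ t in (0 : ℝ)..e, ‖F (n + 1) t‖)

theorem Path.defect [CompleteSpace V] {n M : ℕ} {e : ℝ} (he0 : 0 < e) (he1 : e ≤ 1)
    {g : Idx n M → V → V} {ξ : V} {η : ℝ → V} {F : ℕ → ℝ → V} (h : Path n M e g ξ η F) :
    dist (sweep n M e g ξ fun j => qnode n M 0 e j • η (qnode n M 0 e j))
      (fun j => qnode n M 0 e j • η (qnode n M 0 e j)) ≤ rem n M e F := by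
  have hr : 0 ≤ rem n M e F := by
    unfold rem
    have := intC_nonneg (n + 1)
    have h3 : 0 ≤ ∫ t in (0 : ℝ)..e, ‖F (n + 1) t‖ :=
      intervalIntegral.integral_nonneg he0.le (fun _ _ => norm_nonneg _)
    positivity
  rw [dist_pi_le_iff hr]
  intro j
  rw [dist_eq_norm]
  have hq := qnode_mem (n := n) (M := M) he0 j
  have e1 : sweep n M e g ξ (fun j => qnode n M 0 e j • η (qnode n M 0 e j)) j -
      qnode n M 0 e j • η (qnode n M 0 e j) =
      qnode n M 0 e j • ((∫ u in (0 : ℝ)..(qnode n M 0 e j), F 0 u) -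
        ∑ l, qW n M 0 e j l • F 0 (qnode n M 0 e l)) := by
    unfold sweep
    rw [← smul_sub, h.integ _ ⟨hq.1.le, hq.2.le⟩]
    congr 1
    simp only [h.val]
    abel
  rw [e1, norm_smul, Real.norm_eq_abs]
  have h2 := quad_partial n F he0.le h.tower j
  rw [sub_zero] at h2
  calc _ ≤ 1 * _ := mul_le_mul (abs_qnode_le he0 he1 j) h2 (norm_nonneg _) zero_le_one
    _ = rem n M e F := by rw [one_mul]; rfl

/-- **Pathwise error of the Y-system** after `K` sweeps. -/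
theorem Path.out_error [CompleteSpace V] {n M : ℕ} (hM : 0 < M) {e : ℝ} (he0 : 0 < e)
    (he1 : e ≤ 1) {g : Idx n M → V → V} {τ : ℝ} (hτ : 0 ≤ τ)
    (hg : ∀ j x y, ‖g j x - g j y‖ ≤ τ * ‖x - y‖) (hL : CY n * τ ≤ 1 / 2)
    {ξ : V} {η : ℝ → V} {F : ℕ → ℝ → V} (h : Path n M e g ξ η F) (K : ℕ) :
    ‖out n M e g ξ ((sweep n M e g ξ)^[K] (start n M e ξ)) - e • η e‖ ≤
      (CY n * τ) ^ (K + 1) * (∫ t in (0 : ℝ)..e, ‖F 0 t‖) + 2 * rem n M e F := by
  set xs : Idx n M → V := fun j => qnode n M 0 e j • η (qnode n M 0 e j) with hxs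
  set A : ℝ := ∫ t in (0 : ℝ)..e, ‖F 0 t‖ with hA
  have hA0 : 0 ≤ A := intervalIntegral.integral_nonneg he0.le (fun _ _ => norm_nonneg _)
  have hL0 : 0 ≤ CY n * τ := mul_nonneg (CY_nonneg n) hτ
  have hr0 : 0 ≤ rem n M e F := dist_nonneg.trans (h.defect he0 he1)
  have hp := picard_defect (Φ := sweep n M e g ξ) hL0 (by linarith)
    (sweep_lipschitz he0 he1 hτ hg ξ) (h.defect he0 he1) (start n M e ξ) K
  have h0mem : (0 : ℝ) ∈ Icc 0 e := ⟨le_rfl, he0.le⟩
  have hemem : e ∈ Icc 0 e := ⟨he0.le, le_rfl⟩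
  have hstart : dist (start n M e ξ) xs ≤ A := by
    rw [dist_pi_le_iff hA0]
    intro j
    have hq := qnode_mem (n := n) (M := M) he0 j
    rw [dist_eq_norm]
    have e1 : start n M e ξ j - xs j = qnode n M 0 e j • ∫ u in (0 : ℝ)..(qnode n M 0 e j), F 0 u := by
      simp only [start, hxs]
      rw [← smul_sub, h.integ _ ⟨hq.1.le, hq.2.le⟩]
      congr 1
      abel
    rw [e1, norm_smul, Real.norm_eq_abs]
    have h2 : ‖∫ u in (0 : ℝ)..(qnode n M 0 e j), F 0 u‖ ≤ A := by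
      refine (intervalIntegral.norm_integral_le_integral_norm hq.1.le).trans ?_
      refine intervalIntegral.integral_mono_interval le_rfl hq.1.le hq.2.le ?_
        (h.tower.intervalIntegrable_norm (Nat.zero_le _) h0mem hemem)
      exact Filter.Eventually.of_forall (fun t => norm_nonneg _)
    calc _ ≤ 1 * A := mul_le_mul (abs_qnode_le he0 he1 j) h2 (norm_nonneg _) zero_le_one
      _ = A := one_mul _
  have hdist : dist ((sweep n M e g ξ)^[K] (start n M e ξ)) xs ≤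
      (CY n * τ) ^ K * A + 2 * rem n M e F := by
    refine hp.trans ?_
    have h1 : (CY n * τ) ^ K * dist (start n M e ξ) xs ≤ (CY n * τ) ^ K * A := by
      gcongr
    have h2 : rem n M e F / (1 - CY n * τ) ≤ 2 * rem n M e F := by
      rw [div_le_iff₀ (by linarith)]
      nlinarith
    linarith
  set x := (sweep n M e g ξ)^[K] (start n M e ξ) with hx
  have e2 : out n M e g ξ x - e • η e =
      e • (((∫ u in (0 : ℝ)..e, F 0 u) - ∑ l, qw n M 0 e l • F 0 (qnode n M 0 e l)) +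
        ∑ l, qw n M 0 e l • (g l (xs l) - g l (x l))) := by
    unfold out
    rw [← smul_sub, h.integ _ hemem]
    congr 1
    simp only [smul_sub, Finset.sum_sub_distrib, h.val, hxs]
    abel
  have h3 := quad_total n F hM he0.le h.tower
  rw [sub_zero] at h3
  have h4 : ‖∑ l, qw n M 0 e l • (g l (xs l) - g l (x l))‖ ≤ (CY n * τ) * dist x xs := by
    refine (norm_sum_le _ _).trans ?_
    calc ∑ l, ‖qw n M 0 e l • (g l (xs l) - g l (x l))‖ ≤
          ∑ l, |qw n M 0 e l| * (τ * dist x xs) := by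
          refine Finset.sum_le_sum (fun l _ => ?_)
          rw [norm_smul, Real.norm_eq_abs]
          refine mul_le_mul_of_nonneg_left ?_ (abs_nonneg _)
          refine (hg l _ _).trans (mul_le_mul_of_nonneg_left ?_ hτ)
          rw [norm_sub_rev, ← dist_eq_norm]
          exact dist_le_pi_dist x xs l
      _ = (∑ l, |qw n M 0 e l|) * (τ * dist x xs) := by rw [Finset.sum_mul]
      _ ≤ CY n * (τ * dist x xs) :=
          mul_le_mul_of_nonneg_right (sum_abs_qw_le hM he0.le he1) (mul_nonneg hτ dist_nonneg)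
      _ = (CY n * τ) * dist x xs := by ring
  rw [e2, norm_smul, Real.norm_eq_abs, abs_of_pos he0]
  calc e * ‖((∫ u in (0 : ℝ)..e, F 0 u) - ∑ l, qw n M 0 e l • F 0 (qnode n M 0 e l)) +
        ∑ l, qw n M 0 e l • (g l (xs l) - g l (x l))‖
      ≤ 1 * (rem n M e F + (CY n * τ) * dist x xs) := by
        refine mul_le_mul he1 ((norm_add_le _ _).trans (add_le_add h3 h4)) (norm_nonneg _)
          zero_le_one
    _ ≤ rem n M e F + (CY n * τ) * ((CY n * τ) ^ K * A + 2 * rem n M e F) := by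
        rw [one_mul]
        gcongr
    _ = (CY n * τ) ^ (K + 1) * A + (1 + 2 * (CY n * τ)) * rem n M e F := by ring
    _ ≤ (CY n * τ) ^ (K + 1) * A + 2 * rem n M e F := by
        gcongr
        linarith

/-! ### Random paths -/

variable {Ω : Type*} [MeasurableSpace Ω] {P : Measure Ω}

/-- `E ∫_a^b ‖F_t‖ dt ≤ (b - a) sup_t E ‖F_t‖`. -/
lemma lintegral_time_le [SFinite P] {a b : ℝ} {F : ℝ → Ω → V}
    (hm : Measurable (fun p : ℝ × Ω => ‖F p.1 p.2‖ₑ)) {B : ℝ≥0∞}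
    (hB : ∀ t ∈ Ioc a b, ∫⁻ ω, ‖F t ω‖ₑ ∂P ≤ B) :
    ∫⁻ ω, (∫⁻ t in Ioc a b, ‖F t ω‖ₑ) ∂P ≤ ENNReal.ofReal (b - a) * B := by
  have hm2 : Measurable (fun p : Ω × ℝ => ‖F p.2 p.1‖ₑ) := hm.comp measurable_swap
  rw [lintegral_lintegral_swap hm2.aemeasurable]
  calc ∫⁻ t in Ioc a b, ∫⁻ ω, ‖F t ω‖ₑ ∂P ≤ ∫⁻ _ in Ioc a b, B :=
        setLIntegral_mono' measurableSet_Ioc hB
    _ = ENNReal.ofReal (b - a) * B := by
        rw [setLIntegral_const, Real.volume_Ioc, mul_comm]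

lemma ofReal_time_integral {a b : ℝ} (hab : a ≤ b) {f : ℝ → V}
    (hf : IntervalIntegrable f volume a b) :
    ENNReal.ofReal (∫ t in a..b, ‖f t‖) = ∫⁻ t in Ioc a b, ‖f t‖ₑ := by
  rw [intervalIntegral.integral_of_le hab, ofReal_integral_norm_eq_lintegral_enorm]
  exact (intervalIntegrable_iff_integrableOn_Ioc_of_le hab).mp hf

/-- **Mean error of the Y-system.** -/
theorem out_error_mean [CompleteSpace V] [SFinite P] {n M : ℕ} (hM : 0 < M) {e : ℝ}
    (he0 : 0 < e) (he1 : e ≤ 1) {g : Idx n M → V → V} {τ : ℝ} (hτ : 0 ≤ τ)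
    (hg : ∀ j x y, ‖g j x - g j y‖ ≤ τ * ‖x - y‖) (hL : CY n * τ ≤ 1 / 2)
    {ξ : Ω → V} {η : Ω → ℝ → V} {F : ℕ → ℝ → Ω → V}
    (h : ∀ ω, Path n M e g (ξ ω) (η ω) (fun k t => F k t ω))
    (hm0 : Measurable (fun p : ℝ × Ω => ‖F 0 p.1 p.2‖ₑ))
    (hmn : Measurable (fun p : ℝ × Ω => ‖F (n + 1) p.1 p.2‖ₑ)) {B₀ Bn : ℝ≥0∞}
    (hB₀ : ∀ t ∈ Ioc 0 e, ∫⁻ ω, ‖F 0 t ω‖ₑ ∂P ≤ B₀)
    (hBn : ∀ t ∈ Ioc 0 e, ∫⁻ ω, ‖F (n + 1) t ω‖ₑ ∂P ≤ Bn) (K : ℕ) :
    ∫⁻ ω, ‖out n M e g (ξ ω) ((sweep n M e g (ξ ω))^[K] (start n M e (ξ ω))) - e • η ω e‖ₑ ∂P ≤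
      ENNReal.ofReal ((CY n * τ) ^ (K + 1)) * B₀ +
        ENNReal.ofReal (2 * (1 + intC (n + 1)) * (e / M) ^ (n + 1)) * Bn := by
  have hL0 : 0 ≤ CY n * τ := mul_nonneg (CY_nonneg n) hτ
  have hC := intC_nonneg (n + 1)
  have hM' : (0 : ℝ) < M := by exact_mod_cast hM
  set c₁ : ℝ := 2 * (1 + intC (n + 1)) * (e / M) ^ (n + 1) with hc₁
  have hc₁0 : 0 ≤ c₁ := by positivity
  have h0mem : (0 : ℝ) ∈ Icc 0 e := ⟨le_rfl, he0.le⟩
  have hemem : e ∈ Icc 0 e := ⟨he0.le, le_rfl⟩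
  have key : ∀ ω, ‖out n M e g (ξ ω) ((sweep n M e g (ξ ω))^[K] (start n M e (ξ ω))) - e • η ω e‖ₑ ≤
      ENNReal.ofReal ((CY n * τ) ^ (K + 1)) * (∫⁻ t in Ioc 0 e, ‖F 0 t ω‖ₑ) +
      ENNReal.ofReal c₁ * (∫⁻ t in Ioc 0 e, ‖F (n + 1) t ω‖ₑ) := by
    intro ω
    have h1 := (h ω).out_error hM he0 he1 hτ hg hL K
    rw [← ofReal_norm]
    refine (ENNReal.ofReal_le_ofReal h1).trans ?_
    rw [ENNReal.ofReal_add (mul_nonneg (pow_nonneg hL0 _)
        (intervalIntegral.integral_nonneg he0.le (fun _ _ => norm_nonneg _)))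
      (mul_nonneg zero_le_two (dist_nonneg.trans ((h ω).defect he0 he1)))]
    rw [ENNReal.ofReal_mul (pow_nonneg hL0 _), ofReal_time_integral he0.le
      ((h ω).tower.intervalIntegrable (Nat.zero_le _) h0mem hemem)]
    have e3 : 2 * rem n M e (fun k t => F k t ω) = c₁ * ∫ t in (0 : ℝ)..e, ‖F (n + 1) t ω‖ := by
      unfold rem; rw [hc₁]; ring
    rw [e3, ENNReal.ofReal_mul hc₁0, ofReal_time_integral he0.le
      ((h ω).tower.intervalIntegrable le_rfl h0mem hemem)]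
  have hmA : ∀ k, Measurable (fun p : ℝ × Ω => ‖F k p.1 p.2‖ₑ) →
      Measurable (fun ω => ∫⁻ t in Ioc 0 e, ‖F k t ω‖ₑ) := by
    intro k hk
    have hm2 : Measurable (fun p : Ω × ℝ => ‖F k p.2 p.1‖ₑ) := hk.comp measurable_swap
    exact hm2.lintegral_prod_right' (ν := volume.restrict (Ioc 0 e))
  refine (lintegral_mono key).trans ?_
  rw [lintegral_add_left ((hmA 0 hm0).const_mul _), lintegral_const_mul _ (hmA 0 hm0),
    lintegral_const_mul _ (hmA (n + 1) hmn)]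
  have hle1 : ENNReal.ofReal (e - 0) ≤ 1 := by
    rw [sub_zero]; exact ENNReal.ofReal_le_one.mpr he1
  refine add_le_add ?_ ?_
  · refine mul_le_mul_right ((lintegral_time_le hm0 hB₀).trans ?_) _
    calc ENNReal.ofReal (e - 0) * B₀ ≤ 1 * B₀ := mul_le_mul_left hle1 _
      _ = B₀ := one_mul _
  · refine mul_le_mul_right ((lintegral_time_le hmn hBn).trans ?_) _
    calc ENNReal.ofReal (e - 0) * Bn ≤ 1 * Bn := mul_le_mul_left hle1 _
      _ = Bn := one_mul _

end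

end Crest.Agent.R285.YSys
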