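import Crest.Agent.R285.Conv3
import Crest.Agent.R285.Rot
import Crest.Agent.R285.YSysCore

/-!
Row 285 (S0430): the Q-SYSTEM as a flat system, rescaled units (`s = 1`, `c = 0`).

Visible vectors `![y₁, X₁, q]`; main nodes `j : QJ n M` (`qnode n M 0 e₁`), stencil and rotation nodes
`Fin (n+2)`; directions `QD n` = `b | u m | q m`; points `QI n M` = main points and stencil points.

`AA j v = κ_j⁻¹ ∑ db_k G(p_{j,v,k})`, `RR j = ∑ db_m AA j (q m)`, `XX j = X₁ - ∑ W_{jl} ε_l RR l`,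
`bb j = ρ⁻¹ (XX j - G(y_j))`, `uu, qq` = rotation, `yy j = (ε_j/e₁) y₁ + ε_j ∑ W_{jl}(G(y_l) - ρ⁻¹ AA l b)`,
`pp j v k = yy j + κ_j t_k (dir j v - κ_j ∑ wb G(p_{j,v,l}))`, `out = X₁ - ∑ qw_l ε_l RR l`.
-/

set_option autoImplicit false
set_option linter.unusedSectionVars false

open Finset

noncomputable section

namespace Crest.Agent.R285

open Crest.Agent.R285.Num

namespace LF

variable {P ι : Type} [Fintype P] [Fintype ι]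

/-- the coefficient of a visible vector -/
def visc (k : P) : LF P ι →ₗ[ℝ] ℝ where
  toFun f := f.2.1 k
  map_add' _ _ := rfl
  map_smul' _ _ := rfl

theorem visc_apply (k : P) (f : LF P ι) : visc k f = f.2.1 k := rfl

@[simp] theorem visc_vis [DecidableEq P] (k l : P) :
    visc k (vis l : LF P ι) = if k = l then 1 else 0 := by
  simp [visc_apply, vis, Pi.single_apply]

@[simp] theorem visc_call [DecidableEq ι] (k : P) (i : ι) : visc k (call i : LF P ι) = 0 := rfl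

@[simp] theorem visc_hid (k : P) : visc k (hid : LF P ι) = 0 := rfl

/-- the sum of the call coefficients -/
def NN (f : LF P ι) : ℝ := l1 (fun _ => 1) f

theorem NN_eq (f : LF P ι) : NN f = ∑ i, |f.2.2 i| := by simp [NN, l1]

theorem NN_nonneg (f : LF P ι) : 0 ≤ NN f := l1_nonneg (fun _ => zero_le_one) f

theorem NN_add_le (f g : LF P ι) : NN (f + g) ≤ NN f + NN g := l1_add_le (fun _ => zero_le_one) f g

theorem NN_sub_le (f g : LF P ι) : NN (f - g) ≤ NN f + NN g := l1_sub_le (fun _ => zero_le_one) f g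

theorem NN_smul (a : ℝ) (f : LF P ι) : NN (a • f) = |a| * NN f := l1_smul _ a f

theorem NN_sum_le {κ : Type} (s : Finset κ) (f : κ → LF P ι) :
    NN (∑ i ∈ s, f i) ≤ ∑ i ∈ s, NN (f i) := l1_sum_le (fun _ => zero_le_one) s f

@[simp] theorem NN_vis [DecidableEq P] (k : P) : NN (vis k : LF P ι) = 0 := l1_vis _ k

@[simp] theorem NN_call [DecidableEq ι] (i : ι) : NN (call i : LF P ι) = 1 := l1_call _ i

theorem NN_sum_smul_le {κ : Type} [Fintype κ] (a : κ → ℝ) (f : κ → LF P ι) {B : ℝ}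
    (h : ∀ i, NN (f i) ≤ B) : NN (∑ i, a i • f i) ≤ (∑ i, |a i|) * B := by
  refine (NN_sum_le _ _).trans ?_
  rw [Finset.sum_mul]
  refine Finset.sum_le_sum fun i _ => ?_
  rw [NN_smul]
  exact mul_le_mul_of_nonneg_left (h i) (abs_nonneg _)

theorem l1_const (w : ℝ) (f : LF P ι) : l1 (fun _ => w) f = w * NN f := by
  rw [NN_eq, l1, Finset.mul_sum]
  exact Finset.sum_congr rfl fun i _ => mul_comm _ _

end LF

/-- main nodes -/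
abbrev QJ (n M : ℕ) := Fin M × Fin (n + 1)
/-- directions: `b`, `u m`, `q m` -/
abbrev QD (n : ℕ) := Unit ⊕ (Fin (n + 2) ⊕ Fin (n + 2))
/-- evaluation points -/
abbrev QI (n M : ℕ) := QJ n M ⊕ (QJ n M × QD n × Fin (n + 2))

/-- the direction `b` -/
abbrev qdB {n : ℕ} : QD n := Sum.inl ()
/-- the direction `u m` -/
abbrev qdU {n : ℕ} (m : Fin (n + 2)) : QD n := Sum.inr (Sum.inl m)
/-- the direction `q m` -/
abbrev qdQ {n : ℕ} (m : Fin (n + 2)) : QD n := Sum.inr (Sum.inr m)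

/-- Numerical parameters of the Q-system. -/
structure QPar where
  /-- order of the rules -/
  n : ℕ
  /-- number of blocks of the main grid -/
  M : ℕ
  /-- end of the main grid -/
  e1 : ℝ
  /-- stencil step -/
  t0 : ℝ
  /-- rotation step -/
  a0 : ℝ
  /-- reserved noise (rescaled units) -/
  ρ : ℝ

namespace QPar

variable (Q : QPar)

/-- linear forms of the Q-system -/
abbrev F : Type := LF (Fin 3) (QI Q.n Q.M)

/-- `ε_j` -/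
def nd (j : QJ Q.n Q.M) : ℝ := qnode Q.n Q.M 0 Q.e1 j
/-- `κ_j` -/
def kj (j : QJ Q.n Q.M) : ℝ := √(1 - Q.nd j ^ 2)
/-- `κ₁` -/
def k1 : ℝ := √(1 - Q.e1 ^ 2)
/-- `t_k` -/
def tk (k : Fin (Q.n + 2)) : ℝ := Q.t0 * node (Q.n + 2) k
/-- weights for `∫_{ε_j}^{e₁}` -/
def Wb (j l : QJ Q.n Q.M) : ℝ := qw Q.n Q.M 0 Q.e1 l - qW Q.n Q.M 0 Q.e1 j l
/-- weights for `∫_0^{e₁}` -/
def W0 (l : QJ Q.n Q.M) : ℝ := qw Q.n Q.M 0 Q.e1 l

/-- value of `G` at the main point -/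
def ca (j : QJ Q.n Q.M) : Q.F := LF.call (Sum.inl j)
/-- value of `G` at the stencil point -/
def cb (j : QJ Q.n Q.M) (v : QD Q.n) (k : Fin (Q.n + 2)) : Q.F := LF.call (Sum.inr (j, v, k))
/-- numerical `A v` -/
def AA (j : QJ Q.n Q.M) (v : QD Q.n) : Q.F := ∑ k, (db Q.n Q.t0 k / Q.kj j) • Q.cb j v k
/-- numerical `A B b` -/
def RR (j : QJ Q.n Q.M) : Q.F := ∑ m, db Q.n Q.a0 m • Q.AA j (qdQ m)
/-- numerical `X` -/
def XX (j : QJ Q.n Q.M) : Q.F := LF.vis 1 - ∑ l, (Q.Wb j l * Q.nd l) • Q.RR l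
/-- numerical `b` -/
def bb (j : QJ Q.n Q.M) : Q.F := Q.ρ⁻¹ • (Q.XX j - Q.ca j)
/-- numerical `u` -/
def uu (j : QJ Q.n Q.M) (m : Fin (Q.n + 2)) : Q.F :=
  Q.bb j - ∑ l, (Q.ρ⁻¹ * wb Q.n Q.a0 (node (Q.n + 2) m) l) • Q.AA j (qdQ l)
/-- numerical `q` -/
def qq (j : QJ Q.n Q.M) (m : Fin (Q.n + 2)) : Q.F :=
  LF.vis 2 + ∑ l, (Q.ρ⁻¹ * wb Q.n Q.a0 (node (Q.n + 2) m) l) • Q.AA j (qdU l)
/-- the directions -/
def dir (j : QJ Q.n Q.M) : QD Q.n → Q.F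
  | Sum.inl _ => Q.bb j
  | Sum.inr (Sum.inl m) => Q.uu j m
  | Sum.inr (Sum.inr m) => Q.qq j m
/-- numerical `y` -/
def yy (j : QJ Q.n Q.M) : Q.F :=
  (Q.nd j / Q.e1) • LF.vis 0 + Q.nd j • ∑ l, Q.Wb j l • (Q.ca l - Q.ρ⁻¹ • Q.AA l qdB)
/-- stencil points -/
def pp (j : QJ Q.n Q.M) (v : QD Q.n) (k : Fin (Q.n + 2)) : Q.F :=
  Q.yy j + (Q.kj j * Q.tk k) •
    (Q.dir j v - Q.kj j • ∑ l, wb Q.n Q.t0 (node (Q.n + 2) k) l • Q.cb j v l)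

/-- **The Q-system** in rescaled units. -/
def sys : FlatSys (Fin 3) (QI Q.n Q.M) where
  r
    | Sum.inl j => Q.kj j
    | Sum.inr (j, _, k) => Q.kj j * √(1 - Q.tk k ^ 2)
  pt
    | Sum.inl j => Q.yy j
    | Sum.inr (j, v, k) => Q.pp j v k
  out := LF.vis 1 - ∑ l, (Q.W0 l * Q.nd l) • Q.RR l

/-- Admissible numerical parameters. -/
structure Ok : Prop where
  M0 : 0 < Q.M
  e0 : 0 < Q.e1
  e1 : Q.e1 < 1
  t0 : 0 < Q.t0
  t1 : Q.t0 ≤ 1 / 2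
  at1 : 1 ≤ Q.a0 * Q.t0
  ρ0 : 0 < Q.ρ

/-! ### constants -/

/-- constant of the main grid -/
def cW (n : ℕ) : ℝ := 2 * YSys.CY n
/-- constant of the bounds of the call coefficients of the points -/
def cN (n : ℕ) : ℝ :=
  cW n * (1 + derC n) + (1 + cW n * derC n ^ 2 + intC (n + 2) * derC n) + intC (n + 2)
/-- constant of the bound of the call coefficients of the output -/
def cO (n : ℕ) : ℝ := cW n * derC n ^ 2

variable {Q}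

theorem cW_nonneg (n : ℕ) : 0 ≤ cW n := mul_nonneg zero_le_two (YSys.CY_nonneg n)

theorem cN_pos (n : ℕ) : 0 < cN n := by
  unfold cN
  have h1 := cW_nonneg n
  have h2 := derC_nonneg n
  have h3 := intC_nonneg (n + 2)
  positivity

theorem cO_nonneg (n : ℕ) : 0 ≤ cO n := by
  unfold cO
  have h1 := cW_nonneg n
  have h2 := derC_nonneg n
  positivity

namespace Ok

theorem a1 (h : Q.Ok) : 2 ≤ Q.a0 := by
  have h1 := h.at1
  have h2 := h.t1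
  have h3 := h.t0
  by_contra hc
  push Not at hc
  nlinarith

theorem a0 (h : Q.Ok) : 0 < Q.a0 := by linarith [h.a1]

theorem nd_mem (h : Q.Ok) (j : QJ Q.n Q.M) : 0 < Q.nd j ∧ Q.nd j < Q.e1 := by
  have := qnode_mem (n := Q.n) (M := Q.M) h.e0 j
  exact ⟨this.1, this.2⟩

theorem nd_lt (h : Q.Ok) (j : QJ Q.n Q.M) : Q.nd j < 1 := (h.nd_mem j).2.trans h.e1

theorem abs_nd_le (h : Q.Ok) (j : QJ Q.n Q.M) : |Q.nd j| ≤ 1 := by
  rw [abs_of_pos (h.nd_mem j).1]; exact (h.nd_lt j).le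

theorem k1_pos (h : Q.Ok) : 0 < Q.k1 := by
  unfold k1
  refine Real.sqrt_pos.mpr ?_
  nlinarith [h.e0, h.e1]

theorem k1_le (_h : Q.Ok) : Q.k1 ≤ 1 := by
  unfold k1
  refine Real.sqrt_le_one.mpr ?_
  nlinarith [sq_nonneg Q.e1]

theorem k1_le_kj (h : Q.Ok) (j : QJ Q.n Q.M) : Q.k1 ≤ Q.kj j := by
  unfold k1 kj
  have := h.nd_mem j
  exact Real.sqrt_le_sqrt (by nlinarith)

theorem kj_pos (h : Q.Ok) (j : QJ Q.n Q.M) : 0 < Q.kj j := h.k1_pos.trans_le (h.k1_le_kj j)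

theorem kj_le (_h : Q.Ok) (j : QJ Q.n Q.M) : Q.kj j ≤ 1 := by
  unfold kj
  refine Real.sqrt_le_one.mpr ?_
  nlinarith [sq_nonneg (Q.nd j)]

theorem one_sub_nd_le (h : Q.Ok) (j : QJ Q.n Q.M) : 1 - Q.nd j / Q.e1 ≤ Q.kj j := by
  have h1 := h.nd_mem j
  have h2 := h.nd_lt j
  have h3 : Q.nd j ≤ Q.nd j / Q.e1 := by
    rw [le_div_iff₀ h.e0]
    nlinarith [h.e1]
  have h4 : 1 - Q.nd j ≤ Q.kj j := by
    unfold kj
    refine Real.le_sqrt_of_sq_le ?_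
    nlinarith
  linarith

theorem nd_div_mem (h : Q.Ok) (j : QJ Q.n Q.M) : 0 ≤ Q.nd j / Q.e1 ∧ Q.nd j / Q.e1 ≤ 1 := by
  have h1 := h.nd_mem j
  exact ⟨div_nonneg h1.1.le h.e0.le, by rw [div_le_one h.e0]; exact h1.2.le⟩

theorem tk_pos (h : Q.Ok) (k : Fin (Q.n + 2)) : 0 < Q.tk k := mul_pos h.t0 (node_pos _ _)

theorem tk_le (h : Q.Ok) (k : Fin (Q.n + 2)) : Q.tk k ≤ Q.t0 := by
  unfold tk
  have := node_lt_one (Q.n + 2) k
  nlinarith [h.t0]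

theorem sqrt_tk (h : Q.Ok) (k : Fin (Q.n + 2)) : 3 / 4 ≤ √(1 - Q.tk k ^ 2) := by
  refine Real.le_sqrt_of_sq_le ?_
  have h1 := h.tk_pos k
  have h2 := (h.tk_le k).trans h.t1
  nlinarith

theorem r_ge (h : Q.Ok) (i : QI Q.n Q.M) : 3 / 4 * Q.k1 ≤ Q.sys.r i := by
  rcases i with j | ⟨j, v, k⟩
  · change _ ≤ Q.kj j
    have := h.k1_le_kj j
    have := h.k1_pos
    linarith
  · change _ ≤ Q.kj j * √(1 - Q.tk k ^ 2)
    have h1 := h.k1_le_kj j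
    have h2 := h.sqrt_tk k
    have h3 := h.k1_pos
    nlinarith

theorem r_le (h : Q.Ok) (i : QI Q.n Q.M) : Q.sys.r i ≤ 1 := by
  rcases i with j | ⟨j, v, k⟩
  · exact h.kj_le j
  · change Q.kj j * √(1 - Q.tk k ^ 2) ≤ 1
    have h1 := h.kj_le j
    have h2 : √(1 - Q.tk k ^ 2) ≤ 1 := by
      exact Real.sqrt_le_one.mpr (by nlinarith [sq_nonneg (Q.tk k)])
    exact mul_le_one₀ h1 (Real.sqrt_nonneg _) h2

theorem r_pos (h : Q.Ok) (i : QI Q.n Q.M) : 0 < Q.sys.r i := by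
  have := h.r_ge i
  have := h.k1_pos
  linarith

/-! ### bounds of the call coefficients -/

theorem sum_W0_le (h : Q.Ok) : ∑ l, |Q.W0 l| ≤ YSys.CY Q.n := YSys.sum_abs_qw_le h.M0 h.e0.le h.e1.le

theorem sum_Wb_le (h : Q.Ok) (j : QJ Q.n Q.M) : ∑ l, |Q.Wb j l| ≤ cW Q.n := by
  calc ∑ l, |Q.Wb j l| ≤ ∑ l, (|qw Q.n Q.M 0 Q.e1 l| + |qW Q.n Q.M 0 Q.e1 j l|) :=
        Finset.sum_le_sum fun l _ => abs_sub _ _
    _ = (∑ l, |qw Q.n Q.M 0 Q.e1 l|) + ∑ l, |qW Q.n Q.M 0 Q.e1 j l| := Finset.sum_add_distrib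
    _ ≤ YSys.CY Q.n + YSys.CY Q.n :=
        add_le_add (YSys.sum_abs_qw_le h.M0 h.e0.le h.e1.le) (YSys.sum_abs_qW_le h.e0.le h.e1.le j)
    _ = cW Q.n := by unfold cW; ring

theorem NN_AA (h : Q.Ok) (j : QJ Q.n Q.M) (v : QD Q.n) :
    LF.NN (Q.AA j v) ≤ derC Q.n / (Q.t0 * Q.k1) := by
  unfold AA
  refine (LF.NN_sum_smul_le _ _ (B := 1) fun k => ?_).trans ?_
  · simp [cb]
  · rw [mul_one]
    simp only [abs_div, abs_of_pos (h.kj_pos j), ← Finset.sum_div]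
    rw [sum_abs_db Q.n h.t0, div_div]
    have := derC_nonneg Q.n
    have h1 := h.k1_le_kj j
    have h2 := h.k1_pos
    have h3 := h.t0
    gcongr

theorem NN_RR (h : Q.Ok) (j : QJ Q.n Q.M) :
    LF.NN (Q.RR j) ≤ derC Q.n ^ 2 / (Q.a0 * Q.t0 * Q.k1) := by
  unfold RR
  refine (LF.NN_sum_smul_le _ _ fun k => h.NN_AA j _).trans (le_of_eq ?_)
  rw [sum_abs_db Q.n h.a0]
  have h1 := h.a0.ne'
  have h2 := h.t0.ne'
  have h3 := h.k1_pos.ne'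
  field_simp

theorem NN_XX (h : Q.Ok) (j : QJ Q.n Q.M) :
    LF.NN (Q.XX j) ≤ cW Q.n * derC Q.n ^ 2 / (Q.a0 * Q.t0 * Q.k1) := by
  unfold XX
  refine (LF.NN_sub_le _ _).trans ?_
  rw [LF.NN_vis, zero_add]
  refine (LF.NN_sum_smul_le _ _ fun k => h.NN_RR k).trans ?_
  have h1 : ∑ l, |Q.Wb j l * Q.nd l| ≤ cW Q.n := by
    refine le_trans (Finset.sum_le_sum fun l _ => ?_) (h.sum_Wb_le j)
    rw [abs_mul]
    exact mul_le_of_le_one_right (abs_nonneg _) (h.abs_nd_le l)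
  have h2 : 0 ≤ derC Q.n ^ 2 / (Q.a0 * Q.t0 * Q.k1) := by
    have := h.a0
    have := h.t0
    have := h.k1_pos
    positivity
  calc _ ≤ cW Q.n * (derC Q.n ^ 2 / (Q.a0 * Q.t0 * Q.k1)) := mul_le_mul_of_nonneg_right h1 h2
    _ = _ := by ring

theorem inv_le (h : Q.Ok) : (Q.ρ * Q.t0 * Q.k1)⁻¹ ≤ Q.a0 / (Q.ρ * Q.k1) := by
  have h1 := h.ρ0
  have h2 := h.t0
  have h3 := h.k1_pos
  rw [inv_eq_one_div, div_le_div_iff₀ (by positivity) (by positivity)]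
  have := h.at1
  calc 1 * (Q.ρ * Q.k1) ≤ (Q.a0 * Q.t0) * (Q.ρ * Q.k1) := by gcongr
    _ = Q.a0 * (Q.ρ * Q.t0 * Q.k1) := by ring

theorem NN_bb (h : Q.Ok) (j : QJ Q.n Q.M) :
    LF.NN (Q.bb j) ≤ (1 + cW Q.n * derC Q.n ^ 2) * (Q.ρ * Q.t0 * Q.k1)⁻¹ := by
  unfold bb
  have h1 := h.ρ0
  have h2 := h.t0
  have h3 := h.k1_pos
  rw [LF.NN_smul, abs_of_pos (inv_pos.mpr h1)]
  have h4 : LF.NN (Q.XX j - Q.ca j) ≤ cW Q.n * derC Q.n ^ 2 / (Q.a0 * Q.t0 * Q.k1) + 1 := by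
    refine (LF.NN_sub_le _ _).trans (add_le_add (h.NN_XX j) ?_)
    simp [ca]
  have h5 : cW Q.n * derC Q.n ^ 2 / (Q.a0 * Q.t0 * Q.k1) + 1
      ≤ (1 + cW Q.n * derC Q.n ^ 2) * (Q.t0 * Q.k1)⁻¹ := by
    have hc : 0 ≤ cW Q.n * derC Q.n ^ 2 := by have := cW_nonneg Q.n; positivity
    have e1 : (Q.a0 * Q.t0 * Q.k1)⁻¹ ≤ (Q.t0 * Q.k1)⁻¹ := by
      refine inv_anti₀ (by positivity) ?_
      have := h.a1
      have : 0 < Q.t0 * Q.k1 := by positivity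
      nlinarith
    have e2 : 1 ≤ (Q.t0 * Q.k1)⁻¹ := by
      refine (one_le_inv₀ (by positivity)).mpr ?_
      calc Q.t0 * Q.k1 ≤ 1 * 1 := by
            gcongr
            · linarith [h.t1]
            · exact h.k1_le
        _ = 1 := by norm_num
    rw [div_eq_mul_inv, add_mul]
    nlinarith [mul_le_mul_of_nonneg_left e1 hc]
  calc Q.ρ⁻¹ * LF.NN (Q.XX j - Q.ca j)
      ≤ Q.ρ⁻¹ * ((1 + cW Q.n * derC Q.n ^ 2) * (Q.t0 * Q.k1)⁻¹) :=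
        mul_le_mul_of_nonneg_left (h4.trans h5) (inv_pos.mpr h1).le
    _ = _ := by rw [mul_assoc Q.ρ, mul_inv Q.ρ]; ring

theorem NN_rot (h : Q.Ok) (j : QJ Q.n Q.M) (m : Fin (Q.n + 2)) (v : Fin (Q.n + 2) → QD Q.n) :
    LF.NN (∑ l, (Q.ρ⁻¹ * wb Q.n Q.a0 (node (Q.n + 2) m) l) • Q.AA j (v l))
      ≤ (intC (Q.n + 2) * derC Q.n) * (Q.a0 * (Q.ρ * Q.t0 * Q.k1)⁻¹) := by
  have h1 := h.ρ0
  have h2 := h.t0
  have h3 := h.k1_pos
  have hD := derC_nonneg Q.n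
  refine (LF.NN_sum_smul_le _ _ fun k => h.NN_AA j _).trans ?_
  have h4 : ∑ l, |Q.ρ⁻¹ * wb Q.n Q.a0 (node (Q.n + 2) m) l| ≤ Q.ρ⁻¹ * (Q.a0 * intC (Q.n + 2)) := by
    simp only [abs_mul, abs_of_pos (inv_pos.mpr h1), ← Finset.mul_sum]
    exact mul_le_mul_of_nonneg_left (sum_abs_wb_le Q.n h.a0.le (node_pos _ _).le
      (node_lt_one _ _).le) (inv_pos.mpr h1).le
  calc _ ≤ (Q.ρ⁻¹ * (Q.a0 * intC (Q.n + 2))) * (derC Q.n / (Q.t0 * Q.k1)) :=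
        mul_le_mul_of_nonneg_right h4 (by positivity)
    _ = _ := by rw [mul_assoc Q.ρ, mul_inv Q.ρ]; field_simp

theorem NN_dir (h : Q.Ok) (j : QJ Q.n Q.M) (v : QD Q.n) :
    LF.NN (Q.dir j v) ≤ (1 + cW Q.n * derC Q.n ^ 2 + intC (Q.n + 2) * derC Q.n)
      * (Q.a0 * (Q.ρ * Q.t0 * Q.k1)⁻¹) := by
  have h1 := h.ρ0
  have h2 := h.t0
  have h3 := h.k1_pos
  have hD := derC_nonneg Q.n
  have hI := intC_nonneg (Q.n + 2)
  have hW := cW_nonneg Q.n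
  have ha := h.a1
  have hb : LF.NN (Q.bb j) ≤ (1 + cW Q.n * derC Q.n ^ 2) * (Q.a0 * (Q.ρ * Q.t0 * Q.k1)⁻¹) := by
    refine (h.NN_bb j).trans (mul_le_mul_of_nonneg_left ?_ (by positivity))
    exact le_mul_of_one_le_left (by positivity) (by linarith)
  rcases v with _ | m | m
  · refine hb.trans (mul_le_mul_of_nonneg_right ?_ (by have := h.a0; positivity))
    nlinarith [mul_nonneg hI hD]
  · change LF.NN (Q.uu j m) ≤ _
    unfold uu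
    refine (LF.NN_sub_le _ _).trans ((add_le_add hb (h.NN_rot j m _)).trans (le_of_eq ?_))
    ring
  · change LF.NN (Q.qq j m) ≤ _
    unfold qq
    refine (LF.NN_add_le _ _).trans ?_
    rw [LF.NN_vis, zero_add]
    refine (h.NN_rot j m _).trans (mul_le_mul_of_nonneg_right ?_ (by have := h.a0; positivity))
    have : 0 ≤ cW Q.n * derC Q.n ^ 2 := by positivity
    linarith

theorem NN_yy (h : Q.Ok) (j : QJ Q.n Q.M) :
    LF.NN (Q.yy j) ≤ cW Q.n * (1 + derC Q.n) * (1 + (Q.ρ * Q.t0 * Q.k1)⁻¹) := by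
  have h1 := h.ρ0
  have h2 := h.t0
  have h3 := h.k1_pos
  have hD := derC_nonneg Q.n
  have hW := cW_nonneg Q.n
  have hterm : ∀ l, LF.NN (Q.ca l - Q.ρ⁻¹ • Q.AA l qdB)
      ≤ (1 + derC Q.n) * (1 + (Q.ρ * Q.t0 * Q.k1)⁻¹) := by
    intro l
    refine (LF.NN_sub_le _ _).trans ?_
    rw [LF.NN_smul, abs_of_pos (inv_pos.mpr h1)]
    have e1 : LF.NN (Q.ca l) = 1 := by simp [ca]
    have e2 : Q.ρ⁻¹ * LF.NN (Q.AA l qdB) ≤ derC Q.n * (Q.ρ * Q.t0 * Q.k1)⁻¹ := by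
      calc Q.ρ⁻¹ * LF.NN (Q.AA l qdB) ≤ Q.ρ⁻¹ * (derC Q.n / (Q.t0 * Q.k1)) :=
            mul_le_mul_of_nonneg_left (h.NN_AA l _) (inv_pos.mpr h1).le
        _ = _ := by rw [mul_assoc Q.ρ, mul_inv Q.ρ]; field_simp
    rw [e1]
    have e3 : 0 ≤ (Q.ρ * Q.t0 * Q.k1)⁻¹ := by positivity
    nlinarith
  unfold yy
  refine (LF.NN_add_le _ _).trans ?_
  rw [LF.NN_smul, LF.NN_vis, mul_zero, zero_add, LF.NN_smul]
  have h5 : LF.NN (∑ l, Q.Wb j l • (Q.ca l - Q.ρ⁻¹ • Q.AA l qdB))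
      ≤ cW Q.n * ((1 + derC Q.n) * (1 + (Q.ρ * Q.t0 * Q.k1)⁻¹)) :=
    (LF.NN_sum_smul_le _ _ hterm).trans
      (mul_le_mul_of_nonneg_right (h.sum_Wb_le j) (by positivity))
  calc _ ≤ 1 * (cW Q.n * ((1 + derC Q.n) * (1 + (Q.ρ * Q.t0 * Q.k1)⁻¹))) :=
        mul_le_mul (h.abs_nd_le j) h5 (LF.NN_nonneg _) zero_le_one
    _ = _ := by ring

theorem NN_pp (h : Q.Ok) (j : QJ Q.n Q.M) (v : QD Q.n) (k : Fin (Q.n + 2)) :
    LF.NN (Q.pp j v k) ≤ cN Q.n * (1 + Q.a0 / (Q.ρ * Q.k1)) := by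
  have h1 := h.ρ0
  have h2 := h.t0
  have h3 := h.k1_pos
  have hD := derC_nonneg Q.n
  have hI := intC_nonneg (Q.n + 2)
  have hW := cW_nonneg Q.n
  have hinv := h.inv_le
  have ha := h.a0
  have hk0 := h.kj_pos j
  have hk1 := h.kj_le j
  have ht0 := h.tk_pos k
  have ht1 := h.tk_le k
  have hq : 0 ≤ Q.a0 / (Q.ρ * Q.k1) := by positivity
  unfold pp
  refine (LF.NN_add_le _ _).trans ?_
  rw [LF.NN_smul, abs_of_pos (mul_pos hk0 ht0)]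
  have e1 : LF.NN (∑ l, wb Q.n Q.t0 (node (Q.n + 2) k) l • Q.cb j v l) ≤ Q.t0 * intC (Q.n + 2) := by
    refine (LF.NN_sum_smul_le _ _ (B := 1) fun l => by simp [cb]).trans ?_
    rw [mul_one]
    exact sum_abs_wb_le Q.n h.t0.le (node_pos _ _).le (node_lt_one _ _).le
  have e2 : LF.NN (Q.dir j v - Q.kj j • ∑ l, wb Q.n Q.t0 (node (Q.n + 2) k) l • Q.cb j v l)
      ≤ (1 + cW Q.n * derC Q.n ^ 2 + intC (Q.n + 2) * derC Q.n) * (Q.a0 * (Q.ρ * Q.t0 * Q.k1)⁻¹)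
        + Q.t0 * intC (Q.n + 2) := by
    refine (LF.NN_sub_le _ _).trans (add_le_add (h.NN_dir j v) ?_)
    rw [LF.NN_smul, abs_of_pos hk0]
    calc Q.kj j * _ ≤ 1 * (Q.t0 * intC (Q.n + 2)) :=
          mul_le_mul hk1 e1 (LF.NN_nonneg _) zero_le_one
      _ = _ := one_mul _
  have e3 : Q.kj j * Q.tk k ≤ Q.t0 := by
    calc Q.kj j * Q.tk k ≤ 1 * Q.t0 := mul_le_mul hk1 ht1 ht0.le zero_le_one
      _ = _ := one_mul _
  have e4 : (Q.kj j * Q.tk k) *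
      LF.NN (Q.dir j v - Q.kj j • ∑ l, wb Q.n Q.t0 (node (Q.n + 2) k) l • Q.cb j v l)
      ≤ Q.t0 * ((1 + cW Q.n * derC Q.n ^ 2 + intC (Q.n + 2) * derC Q.n)
        * (Q.a0 * (Q.ρ * Q.t0 * Q.k1)⁻¹) + Q.t0 * intC (Q.n + 2)) :=
    mul_le_mul e3 e2 (LF.NN_nonneg _) h2.le
  have e5 : Q.t0 * (Q.a0 * (Q.ρ * Q.t0 * Q.k1)⁻¹) = Q.a0 / (Q.ρ * Q.k1) := by
    field_simp
  have e6 : Q.t0 * (Q.t0 * intC (Q.n + 2)) ≤ intC (Q.n + 2) * (1 + Q.a0 / (Q.ρ * Q.k1)) := by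
    have a1 : Q.t0 * Q.t0 ≤ 1 := by nlinarith [h.t1]
    calc Q.t0 * (Q.t0 * intC (Q.n + 2)) = intC (Q.n + 2) * (Q.t0 * Q.t0) := by ring
      _ ≤ intC (Q.n + 2) * (1 + Q.a0 / (Q.ρ * Q.k1)) := by gcongr; linarith
  have e7 : cW Q.n * (1 + derC Q.n) * (1 + (Q.ρ * Q.t0 * Q.k1)⁻¹)
      ≤ cW Q.n * (1 + derC Q.n) * (1 + Q.a0 / (Q.ρ * Q.k1)) := by gcongr
  have e8 : Q.a0 / (Q.ρ * Q.k1) ≤ 1 + Q.a0 / (Q.ρ * Q.k1) := by linarith
  calc LF.NN (Q.yy j) + _ ≤ cW Q.n * (1 + derC Q.n) * (1 + Q.a0 / (Q.ρ * Q.k1))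
        + Q.t0 * ((1 + cW Q.n * derC Q.n ^ 2 + intC (Q.n + 2) * derC Q.n)
        * (Q.a0 * (Q.ρ * Q.t0 * Q.k1)⁻¹) + Q.t0 * intC (Q.n + 2)) :=
          add_le_add ((h.NN_yy j).trans e7) e4
    _ = cW Q.n * (1 + derC Q.n) * (1 + Q.a0 / (Q.ρ * Q.k1))
        + ((1 + cW Q.n * derC Q.n ^ 2 + intC (Q.n + 2) * derC Q.n)
          * (Q.t0 * (Q.a0 * (Q.ρ * Q.t0 * Q.k1)⁻¹)) + Q.t0 * (Q.t0 * intC (Q.n + 2))) := by ring
    _ ≤ cW Q.n * (1 + derC Q.n) * (1 + Q.a0 / (Q.ρ * Q.k1))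
        + ((1 + cW Q.n * derC Q.n ^ 2 + intC (Q.n + 2) * derC Q.n)
          * (1 + Q.a0 / (Q.ρ * Q.k1)) + intC (Q.n + 2) * (1 + Q.a0 / (Q.ρ * Q.k1))) := by
          rw [e5]; gcongr
    _ = cN Q.n * (1 + Q.a0 / (Q.ρ * Q.k1)) := by unfold cN; ring

/-- **Call coefficients of the points.** -/
theorem NN_pt (h : Q.Ok) (i : QI Q.n Q.M) :
    LF.NN (Q.sys.pt i) ≤ cN Q.n * (1 + Q.a0 / (Q.ρ * Q.k1)) := by
  rcases i with j | ⟨j, v, k⟩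
  · change LF.NN (Q.yy j) ≤ _
    refine (h.NN_yy j).trans ?_
    have hD := derC_nonneg Q.n
    have hI := intC_nonneg (Q.n + 2)
    have hW := cW_nonneg Q.n
    have hinv := h.inv_le
    have h8 : cW Q.n * (1 + derC Q.n) ≤ cN Q.n := by
      unfold cN
      have : 0 ≤ cW Q.n * derC Q.n ^ 2 := by positivity
      have : 0 ≤ intC (Q.n + 2) * derC Q.n := by positivity
      linarith
    have h9 : 0 ≤ (Q.ρ * Q.t0 * Q.k1)⁻¹ := by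
      have := h.ρ0
      have := h.t0
      have := h.k1_pos
      positivity
    exact mul_le_mul h8 (by linarith) (by linarith) (cN_pos _).le
  · exact h.NN_pp j v k

/-- **Call coefficients of the output.** -/
theorem NN_out (h : Q.Ok) : LF.NN Q.sys.out ≤ cO Q.n / (Q.a0 * Q.t0 * Q.k1) := by
  change LF.NN (LF.vis 1 - ∑ l, (Q.W0 l * Q.nd l) • Q.RR l) ≤ _
  refine (LF.NN_sub_le _ _).trans ?_
  rw [LF.NN_vis, zero_add]
  refine (LF.NN_sum_smul_le _ _ fun k => h.NN_RR k).trans ?_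
  have hW := YSys.CY_nonneg Q.n
  have h1 : ∑ l, |Q.W0 l * Q.nd l| ≤ cW Q.n := by
    refine le_trans (Finset.sum_le_sum fun l _ => ?_) (h.sum_W0_le.trans ?_)
    · rw [abs_mul]
      exact mul_le_of_le_one_right (abs_nonneg _) (h.abs_nd_le l)
    · unfold cW; linarith
  have h2 : 0 ≤ derC Q.n ^ 2 / (Q.a0 * Q.t0 * Q.k1) := by
    have := h.a0
    have := h.t0
    have := h.k1_pos
    positivity
  calc _ ≤ cW Q.n * (derC Q.n ^ 2 / (Q.a0 * Q.t0 * Q.k1)) := mul_le_mul_of_nonneg_right h1 h2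
    _ = _ := by unfold cO; ring

/-! ### visible coefficients -/

theorem visc_AA (_h : Q.Ok) (i : Fin 3) (j : QJ Q.n Q.M) (v : QD Q.n) :
    LF.visc i (Q.AA j v) = 0 := by simp [AA, cb, map_sum]

theorem visc_RR (h : Q.Ok) (i : Fin 3) (j : QJ Q.n Q.M) : LF.visc i (Q.RR j) = 0 := by
  simp [RR, map_sum, h.visc_AA]

theorem visc_bb (h : Q.Ok) (i : Fin 3) (j : QJ Q.n Q.M) :
    LF.visc i (Q.bb j) = if i = 1 then Q.ρ⁻¹ else 0 := by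
  simp only [bb, XX, ca, map_smul, map_sub, map_sum, h.visc_RR, LF.visc_vis, LF.visc_call,
    smul_eq_mul, mul_zero, Finset.sum_const_zero, sub_zero]
  split_ifs <;> simp

theorem visc_dir (h : Q.Ok) (i : Fin 3) (j : QJ Q.n Q.M) (v : QD Q.n) :
    (LF.visc 0 (Q.dir j v) = 0) ∧ |LF.visc 1 (Q.dir j v)| ≤ Q.ρ⁻¹ ∧ |LF.visc 2 (Q.dir j v)| ≤ 1 := by
  have h1 := inv_pos.mpr h.ρ0
  rcases v with _ | m | m
  · change (LF.visc 0 (Q.bb j) = 0) ∧ |LF.visc 1 (Q.bb j)| ≤ Q.ρ⁻¹ ∧ |LF.visc 2 (Q.bb j)| ≤ 1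
    rw [h.visc_bb, h.visc_bb, h.visc_bb]
    simp [abs_of_pos h.ρ0]
  · change (LF.visc 0 (Q.uu j m) = 0) ∧ |LF.visc 1 (Q.uu j m)| ≤ Q.ρ⁻¹ ∧ |LF.visc 2 (Q.uu j m)| ≤ 1
    simp only [uu, map_sub, map_sum, map_smul, h.visc_bb, h.visc_AA]
    simp [abs_of_pos h.ρ0]
  · change (LF.visc 0 (Q.qq j m) = 0) ∧ |LF.visc 1 (Q.qq j m)| ≤ Q.ρ⁻¹ ∧ |LF.visc 2 (Q.qq j m)| ≤ 1
    simp only [qq, map_add, map_sum, map_smul, h.visc_AA, LF.visc_vis]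
    simp [h.ρ0.le]

theorem visc_yy (h : Q.Ok) (i : Fin 3) (j : QJ Q.n Q.M) :
    LF.visc i (Q.yy j) = if i = 0 then Q.nd j / Q.e1 else 0 := by
  simp only [yy, ca, map_add, map_smul, map_sum, map_sub, h.visc_AA, LF.visc_vis, LF.visc_call,
    smul_eq_mul, mul_zero, sub_zero, Finset.sum_const_zero, add_zero]
  split_ifs <;> simp

/-- **Visible coefficients of the points.** -/
theorem visc_pt (h : Q.Ok) (i : QI Q.n Q.M) :
    (0 ≤ (Q.sys.pt i).2.1 0 ∧ (Q.sys.pt i).2.1 0 ≤ 1 ∧ 1 - (Q.sys.pt i).2.1 0 ≤ Q.sys.r i * (4 / 3)) ∧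
      |(Q.sys.pt i).2.1 1| ≤ Q.ρ⁻¹ ∧ |(Q.sys.pt i).2.1 2| ≤ 1 := by
  have h1 := inv_pos.mpr h.ρ0
  rcases i with j | ⟨j, v, k⟩
  · change (0 ≤ LF.visc 0 (Q.yy j) ∧ LF.visc 0 (Q.yy j) ≤ 1 ∧ 1 - LF.visc 0 (Q.yy j) ≤ Q.kj j * (4 / 3)) ∧
      |LF.visc 1 (Q.yy j)| ≤ Q.ρ⁻¹ ∧ |LF.visc 2 (Q.yy j)| ≤ 1
    rw [h.visc_yy, h.visc_yy, h.visc_yy]
    have h2 := h.nd_div_mem j
    have h3 := h.one_sub_nd_le j
    have h4 := h.kj_pos j
    refine ⟨⟨by simpa using h2.1, by simpa using h2.2, ?_⟩, by simp [h.ρ0.le], by simp⟩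
    simp only [if_true]
    linarith
  · change (0 ≤ LF.visc 0 (Q.pp j v k) ∧ LF.visc 0 (Q.pp j v k) ≤ 1 ∧
        1 - LF.visc 0 (Q.pp j v k) ≤ Q.kj j * √(1 - Q.tk k ^ 2) * (4 / 3)) ∧
      |LF.visc 1 (Q.pp j v k)| ≤ Q.ρ⁻¹ ∧ |LF.visc 2 (Q.pp j v k)| ≤ 1
    have h2 := h.nd_div_mem j
    have h3 := h.one_sub_nd_le j
    have h4 := h.kj_pos j
    have h5 := h.sqrt_tk k
    have hd := h.visc_dir 0 j v
    have hkt0 : 0 ≤ Q.kj j * Q.tk k := (mul_pos h4 (h.tk_pos k)).le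
    have hkt1 : Q.kj j * Q.tk k ≤ 1 := by
      calc Q.kj j * Q.tk k ≤ 1 * 1 := mul_le_mul (h.kj_le j)
            ((h.tk_le k).trans (h.t1.trans (by norm_num))) (h.tk_pos k).le zero_le_one
        _ = 1 := one_mul _
    have e : ∀ i : Fin 3, LF.visc i (Q.pp j v k)
        = LF.visc i (Q.yy j) + Q.kj j * Q.tk k * LF.visc i (Q.dir j v) := by
      intro i
      simp only [pp, cb, map_add, map_smul, map_sub, map_sum, LF.visc_call, smul_eq_mul, mul_zero,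
        Finset.sum_const_zero, sub_zero]
    rw [e, e, e, h.visc_yy, h.visc_yy, h.visc_yy, hd.1]
    simp only [if_true, mul_zero, add_zero]
    refine ⟨⟨h2.1, h2.2, ?_⟩, ?_, ?_⟩
    · nlinarith
    · simp only [Fin.isValue, one_ne_zero, if_false, zero_add, abs_mul]
      rw [← abs_mul, abs_of_nonneg hkt0]
      calc _ ≤ 1 * Q.ρ⁻¹ := mul_le_mul hkt1 hd.2.1 (abs_nonneg _) zero_le_one
        _ = _ := one_mul _
    · have e20 : (2 : Fin 3) ≠ 0 := by decide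
      simp only [e20, if_false, zero_add, abs_mul]
      rw [← abs_mul, abs_of_nonneg hkt0]
      calc _ ≤ 1 * 1 := mul_le_mul hkt1 hd.2.2 (abs_nonneg _) zero_le_one
        _ = _ := one_mul _

theorem visc_out (h : Q.Ok) :
    (Q.sys.out).2.1 0 = 0 ∧ (Q.sys.out).2.1 1 = 1 ∧ (Q.sys.out).2.1 2 = 0 := by
  have e : ∀ i : Fin 3, (Q.sys.out).2.1 i = LF.visc i (LF.vis 1 : Q.F) := by
    intro i
    change LF.visc i (LF.vis 1 - ∑ l, (Q.W0 l * Q.nd l) • Q.RR l) = _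
    simp only [map_sub, map_sum, map_smul, h.visc_RR, smul_zero, Finset.sum_const_zero, sub_zero]
  rw [e, e, e]
  simp

end Ok

end QPar

end Crest.Agent.R285
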