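import Crest.Agent.R285.CurveL2
import Crest.Agent.R285.Inner
import Crest.Agent.R285.QFlat

/-!
Row 285 (S0430), SEM_Q, MAIN GRID (helper367): quadrature defects of `y_j`, `X_j`, `X_0` along the
coupled flow, in rescaled units (`s = 1`, centre `a`), in `L²`.

* `curve_backward`, `curve_start` : abstract (any linear coordinate `L` of the state);
* `CoupField f a ρ v` : `v` is the field of the coupled flow of `(η, X)`;
* `CoupField.main_y`, `main_X`, `main_X0` : the defects, with values = exact integrands.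
-/

set_option autoImplicit false
set_option linter.unusedSectionVars false

open Set Filter Topology MeasureTheory ProbabilityTheory
open scoped ENNReal NNReal

noncomputable section

namespace Crest.Agent.R285

/-- constant of the main grid errors -/
def mgC (n M : ℕ) (e1 : ℝ) : ℝ := (1 + Num.intC (n + 1)) * (e1 / M) ^ (n + 1) * e1

theorem mgC_nonneg (n M : ℕ) {e1 : ℝ} (he : 0 ≤ e1) : 0 ≤ mgC n M e1 := by
  unfold mgC
  have := Num.intC_nonneg (n + 1)
  positivity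

section abs

variable {E : Type} [NormedAddCommGroup E] [NormedSpace ℝ E] [FiniteDimensional ℝ E]
  [MeasurableSpace E] [BorelSpace E]
  {F : Type*} [NormedAddCommGroup F] [NormedSpace ℝ F] [FiniteDimensional ℝ F]
  [MeasurableSpace F] [BorelSpace F]

variable {v : ℝ → E → E} {J : Set ℝ} {P : Measure E} [SFinite P]

/-- The increment of a linear coordinate along the flow is the integral of the field. -/
theorem coord_integral (hv : GoodOn v J) (L : E →L[ℝ] F) {s a b : ℝ} (hs : s ∈ J)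
    (hab : uIcc a b ⊆ J) (x : E) :
    ∫ t in a..b, L (v t (evol v J s t x)) = L (evol v J s b x) - L (evol v J s a x) := by
  have : CompleteSpace F := FiniteDimensional.complete ℝ F
  have hd : ∀ t ∈ uIcc a b, HasDerivAt (fun t => L (evol v J s t x))
      (L (v t (evol v J s t x))) t := fun t ht =>
    L.hasFDerivAt.comp_hasDerivAt t (hv.hasDerivAt_evol hs (hab ht) x)
  have hc : ContinuousOn (fun t => L (v t (evol v J s t x))) (uIcc a b) := by
    have h1 := hv.contDiffOn.continuousOn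
    refine L.continuous.comp_continuousOn (h1.comp (f := fun t => ((t, evol v J s t x) : ℝ × E))
      (continuousOn_id.prodMk fun t ht => ?_) (fun t ht => ⟨hab ht, mem_univ _⟩))
    exact (hv.hasDerivAt_evol hs (hab ht) x).continuousAt.continuousWithinAt
  exact intervalIntegral.integral_eq_sub_of_hasDerivAt hd hc.intervalIntegrable

theorem smOn_coord (hvs : SmOn v J) (L : E →L[ℝ] F) : SmOn (fun t x => L (v t x)) J :=
  L.contDiff.comp_contDiffOn hvs

theorem continuous_val (hv : GoodOn v J) (L : E →L[ℝ] F) {s t : ℝ} (hs : s ∈ J) (ht : t ∈ J) :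
    Continuous (fun x => L (v t (evol v J s t x))) := by
  have h1 := hv.contDiffOn.continuousOn
  have h2 : Continuous (fun x => ((t, evol v J s t x) : ℝ × E)) :=
    continuous_const.prodMk (hv.continuous_evol hs ht)
  exact L.continuous.comp (h1.comp_continuous h2 fun x => ⟨ht, mem_univ _⟩)

/-- From a node back to the end point of the grid, `L²` error. -/
theorem curve_backward (hv : GoodOn v J) (hvs : SmOn v J) (L : E →L[ℝ] F) {s e1 : ℝ} (hs : s ∈ J)
    (he : 0 < e1) (hab : Icc 0 e1 ⊆ J) (n : ℕ) {M : ℕ} (hM : 0 < M) (j : Fin M × Fin (n + 1))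
    {B : ℝ≥0∞} (hB : ∀ t ∈ Ioc 0 e1,
      eLpNorm (fun x => ((Dv v)^[n + 1] (fun t x => L (v t x))) t (evol v J s t x)) 2 P ≤ B) :
    eLpNorm (fun x => L (evol v J s (Num.qnode n M 0 e1 j) x) - (L (evol v J s e1 x) -
        ∑ l, (Num.qw n M 0 e1 l - Num.qW n M 0 e1 j l) •
          L (v (Num.qnode n M 0 e1 l) (evol v J s (Num.qnode n M 0 e1 l) x)))) 2 P ≤
      ENNReal.ofReal (2 * mgC n M e1) * B := by
  have hnode : ∀ l, Num.qnode n M 0 e1 l ∈ Icc 0 e1 := fun l =>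
    Ioo_subset_Icc_self (Num.qnode_mem he l)
  have h0J : (0 : ℝ) ∈ J := hab ⟨le_rfl, he.le⟩
  have h1J : e1 ∈ J := hab ⟨he.le, le_rfl⟩
  have hnJ : ∀ l, Num.qnode n M 0 e1 l ∈ J := fun l => hab (hnode l)
  have hf := smOn_coord hvs L
  have t1 := curve_total (P := P) hv hvs hf hs he.le hab n hM hB
  have t2 := curve_partial (P := P) hv hvs hf hs he.le hab n j hB
  have i1 : ∀ x, ∫ t in (0 : ℝ)..e1, L (v t (evol v J s t x)) =
      L (evol v J s e1 x) - L (evol v J s 0 x) := fun x =>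
    coord_integral hv L hs (by rw [uIcc_of_le he.le]; exact hab) x
  have i2 : ∀ x, ∫ t in (0 : ℝ)..(Num.qnode n M 0 e1 j), L (v t (evol v J s t x)) =
      L (evol v J s (Num.qnode n M 0 e1 j) x) - L (evol v J s 0 x) := fun x =>
    coord_integral hv L hs (by
      rw [uIcc_of_le (hnode j).1]
      exact (Icc_subset_Icc_right (hnode j).2).trans hab) x
  have cL : ∀ {t : ℝ}, t ∈ J → Continuous (fun x => L (evol v J s t x)) := fun ht =>
    L.continuous.comp (hv.continuous_evol hs ht)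
  have cS : ∀ w : Fin M × Fin (n + 1) → ℝ, Continuous (fun x => ∑ l, w l •
      L (v (Num.qnode n M 0 e1 l) (evol v J s (Num.qnode n M 0 e1 l) x))) := fun w =>
    continuous_finsetSum _ fun l _ => (continuous_val hv L hs (hnJ l)).const_smul _
  have m1 : AEStronglyMeasurable (fun x => (∫ t in (0 : ℝ)..e1, L (v t (evol v J s t x))) -
      ∑ l, Num.qw n M 0 e1 l •
        L (v (Num.qnode n M 0 e1 l) (evol v J s (Num.qnode n M 0 e1 l) x))) P := by
    simp_rw [i1]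
    exact (((cL h1J).sub (cL h0J)).sub (cS _)).aestronglyMeasurable
  have m2 : AEStronglyMeasurable (fun x => (∫ t in (0 : ℝ)..(Num.qnode n M 0 e1 j),
      L (v t (evol v J s t x))) - ∑ l, Num.qW n M 0 e1 j l •
        L (v (Num.qnode n M 0 e1 l) (evol v J s (Num.qnode n M 0 e1 l) x))) P := by
    simp_rw [i2]
    exact (((cL (hnJ j)).sub (cL h0J)).sub (cS _)).aestronglyMeasurable
  have key := eLpNorm_sub_le m2 m1 (by norm_num : (1 : ℝ≥0∞) ≤ 2)
  have hC := mgC_nonneg n M he.le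
  have hsum : ENNReal.ofReal (2 * mgC n M e1) * B =
      ENNReal.ofReal (mgC n M e1) * B + ENNReal.ofReal (mgC n M e1) * B := by
    rw [two_mul, ENNReal.ofReal_add hC hC, add_mul]
  rw [hsum]
  simp only [sub_zero] at t1 t2
  refine le_trans (le_of_eq ?_) (key.trans (add_le_add t2 t1))
  congr 1
  funext x
  simp only [Pi.sub_apply]
  rw [i1 x, i2 x]
  simp_rw [sub_smul]
  rw [Finset.sum_sub_distrib]
  abel

/-- From the starting point of the grid back to its end point, `L²` error. -/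
theorem curve_start (hv : GoodOn v J) (hvs : SmOn v J) (L : E →L[ℝ] F) {s e1 : ℝ} (hs : s ∈ J)
    (he : 0 < e1) (hab : Icc 0 e1 ⊆ J) (n : ℕ) {M : ℕ} (hM : 0 < M)
    {B : ℝ≥0∞} (hB : ∀ t ∈ Ioc 0 e1,
      eLpNorm (fun x => ((Dv v)^[n + 1] (fun t x => L (v t x))) t (evol v J s t x)) 2 P ≤ B) :
    eLpNorm (fun x => L (evol v J s 0 x) - (L (evol v J s e1 x) -
        ∑ l, Num.qw n M 0 e1 l •
          L (v (Num.qnode n M 0 e1 l) (evol v J s (Num.qnode n M 0 e1 l) x)))) 2 P ≤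
      ENNReal.ofReal (mgC n M e1) * B := by
  have hf := smOn_coord hvs L
  have t1 := curve_total (P := P) hv hvs hf hs he.le hab n hM hB
  have i1 : ∀ x, ∫ t in (0 : ℝ)..e1, L (v t (evol v J s t x)) =
      L (evol v J s e1 x) - L (evol v J s 0 x) := fun x =>
    coord_integral hv L hs (by rw [uIcc_of_le he.le]; exact hab) x
  simp only [sub_zero] at t1
  refine le_trans (le_of_eq ?_) t1
  rw [← eLpNorm_neg]
  congr 1
  funext x
  simp only [Pi.neg_apply]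
  rw [i1 x]
  abel

end abs

section coupled

variable {V : Type} [NormedAddCommGroup V] [InnerProductSpace ℝ V] [FiniteDimensional ℝ V]
  [MeasurableSpace V] [BorelSpace V]

/-- `G` at `y = t η`, centre `a` -/
def cG (f : V → ℝ) (a : V) (t : ℝ) (p : V × V) : V := G f (√(1 - t ^ 2)) (a + t • p.1)

/-- `A = D G` there -/
def cA (f : V → ℝ) (a : V) (t : ℝ) (p : V × V) : V →L[ℝ] V :=
  DGr f (√(1 - t ^ 2), a + t • p.1)

/-- `b = (X - G) / ρ` -/
def cb (f : V → ℝ) (a : V) (ρ : ℝ) (t : ℝ) (p : V × V) : V := ρ⁻¹ • (p.2 - cG f a t p)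

/-- `v` is the field of the coupled flow of `(η, X)`, rescaled units:
`η' = -(g - A b / ρ)`, `X' = t (A A b / ρ)`. -/
structure CoupField (f : V → ℝ) (a : V) (ρ : ℝ) (v : ℝ → V × V → V × V) : Prop where
  good : GoodOn v Jm
  smooth : SmOn v Jm
  fst_eq : ∀ t ∈ Jm, ∀ p, (v t p).1 = -(cG f a t p - ρ⁻¹ • cA f a t p (cb f a ρ t p))
  snd_eq : ∀ t ∈ Jm, ∀ p, (v t p).2 = t • (ρ⁻¹ • cA f a t p (cA f a t p (cb f a ρ t p)))

/-- `y_t = t η_t` -/
def yv (v : ℝ → V × V → V × V) (t : ℝ) (x : V × V) : V := t • (evol v Jm 0 t x).1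
/-- `X_t` -/
def Xv (v : ℝ → V × V → V × V) (t : ℝ) (x : V × V) : V := (evol v Jm 0 t x).2
/-- `b_t` -/
def bv (f : V → ℝ) (a : V) (ρ : ℝ) (v : ℝ → V × V → V × V) (t : ℝ) (x : V × V) : V :=
  ρ⁻¹ • (Xv v t x - G f (√(1 - t ^ 2)) (a + yv v t x))

variable {f : V → ℝ} {a : V} {ρ : ℝ} {v : ℝ → V × V → V × V} {P : Measure (V × V)} [SFinite P]

/-- Smoothness hypotheses (SM1) of the main grid: `L²` bounds of the total derivatives of the two
components of the field along the flow. -/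
structure MainB (v : ℝ → V × V → V × V) (P : Measure (V × V)) (n : ℕ) (e1 : ℝ)
    (B1 B2 : ℝ≥0∞) : Prop where
  b1 : ∀ t ∈ Ioc 0 e1, eLpNorm (fun x => ((Dv v)^[n + 1] (fun t x => (v t x).1)) t
    (evol v Jm 0 t x)) 2 P ≤ B1
  b2 : ∀ t ∈ Ioc 0 e1, eLpNorm (fun x => ((Dv v)^[n + 1] (fun t x => (v t x).2)) t
    (evol v Jm 0 t x)) 2 P ≤ B2

theorem Icc_subset_Jm' {e1 : ℝ} (h1 : e1 < 1) : Icc (0 : ℝ) e1 ⊆ Jm := fun t ht =>
  ⟨by linarith [ht.1], by linarith [ht.2]⟩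

namespace CoupField

variable (hv : CoupField f a ρ v) (Q : QPar)

include hv

/-- `X_t = ρ b_t + g_t`. -/
theorem Xv_eq (hρ : ρ ≠ 0) (t : ℝ) (x : V × V) :
    Xv v t x = ρ • bv f a ρ v t x + G f (√(1 - t ^ 2)) (a + yv v t x) := by
  unfold bv
  rw [smul_inv_smul₀ hρ]
  abel

/-- **Main grid defect of `y_j`.** -/
theorem main_y (hM : 0 < Q.M) (h0 : 0 < Q.e1) (h1 : Q.e1 < 1) {B1 B2 : ℝ≥0∞}
    (hB : MainB v P Q.n Q.e1 B1 B2) (j : QJ Q.n Q.M) :
    eLpNorm (fun x => yv v (Q.nd j) x - ((Q.nd j / Q.e1) • yv v Q.e1 x +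
      Q.nd j • ∑ l, Q.Wb j l • (G f (Q.kj l) (a + yv v (Q.nd l) x) -
        ρ⁻¹ • DGr f (Q.kj l, a + yv v (Q.nd l) x) (bv f a ρ v (Q.nd l) x)))) 2 P ≤
      ENNReal.ofReal (2 * mgC Q.n Q.M Q.e1) * B1 := by
  have hJ := Icc_subset_Jm' h1
  have key := curve_backward (P := P) hv.good hv.smooth (ContinuousLinearMap.fst ℝ V V)
    zero_mem_Jm h0 hJ Q.n hM j hB.b1
  have hnd := Num.qnode_mem (n := Q.n) (M := Q.M) h0 j
  have hnJ : ∀ l, Num.qnode Q.n Q.M 0 Q.e1 l ∈ Jm := fun l =>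
    hJ (Ioo_subset_Icc_self (Num.qnode_mem h0 l))
  have e : (fun x => yv v (Q.nd j) x - ((Q.nd j / Q.e1) • yv v Q.e1 x +
      Q.nd j • ∑ l, Q.Wb j l • (G f (Q.kj l) (a + yv v (Q.nd l) x) -
        ρ⁻¹ • DGr f (Q.kj l, a + yv v (Q.nd l) x) (bv f a ρ v (Q.nd l) x)))) =
      (Q.nd j) • fun x => ContinuousLinearMap.fst ℝ V V (evol v Jm 0 (Num.qnode Q.n Q.M 0 Q.e1 j) x)
        - (ContinuousLinearMap.fst ℝ V V (evol v Jm 0 Q.e1 x) -
        ∑ l, (Num.qw Q.n Q.M 0 Q.e1 l - Num.qW Q.n Q.M 0 Q.e1 j l) •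
          ContinuousLinearMap.fst ℝ V V (v (Num.qnode Q.n Q.M 0 Q.e1 l)
            (evol v Jm 0 (Num.qnode Q.n Q.M 0 Q.e1 l) x))) := by
    funext x
    simp only [Pi.smul_apply, ContinuousLinearMap.coe_fst']
    have e2 : ∀ l, (v (Num.qnode Q.n Q.M 0 Q.e1 l) (evol v Jm 0 (Num.qnode Q.n Q.M 0 Q.e1 l) x)).1 =
        -(G f (Q.kj l) (a + yv v (Q.nd l) x) -
          ρ⁻¹ • DGr f (Q.kj l, a + yv v (Q.nd l) x) (bv f a ρ v (Q.nd l) x)) := fun l =>
      hv.fst_eq _ (hnJ l) _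
    simp_rw [e2, smul_neg]
    rw [Finset.sum_neg_distrib, sub_neg_eq_add]
    have e3 : (Q.nd j / Q.e1) • yv v Q.e1 x = Q.nd j • (evol v Jm 0 Q.e1 x).1 := by
      unfold yv
      rw [smul_smul, div_mul_cancel₀ _ h0.ne']
    rw [e3]
    unfold yv
    rw [← smul_add, ← smul_sub]
    rfl
  rw [e]
  refine (eLpNorm_const_smul_le (c := Q.nd j)).trans ?_
  have hle : ‖Q.nd j‖ₑ ≤ 1 := by
    have h5 : ‖Q.nd j‖ ≤ 1 := by
      have h6 : ‖Q.nd j‖ = Q.nd j := Real.norm_of_nonneg hnd.1.le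
      rw [h6]
      exact hnd.2.le.trans h1.le
    calc ‖Q.nd j‖ₑ = ENNReal.ofReal ‖Q.nd j‖ := (ofReal_norm _).symm
      _ ≤ ENNReal.ofReal 1 := ENNReal.ofReal_le_ofReal h5
      _ = 1 := ENNReal.ofReal_one
  calc _ ≤ 1 * (ENNReal.ofReal (2 * mgC Q.n Q.M Q.e1) * B1) := mul_le_mul' hle key
    _ = _ := one_mul _

/-- **Main grid defect of `X_j`.** -/
theorem main_X (hM : 0 < Q.M) (h0 : 0 < Q.e1) (h1 : Q.e1 < 1) {B1 B2 : ℝ≥0∞}
    (hB : MainB v P Q.n Q.e1 B1 B2) (j : QJ Q.n Q.M) :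
    eLpNorm (fun x => Xv v (Q.nd j) x - (Xv v Q.e1 x -
      ∑ l, (Q.Wb j l * Q.nd l) • (ρ⁻¹ • DGr f (Q.kj l, a + yv v (Q.nd l) x)
        (DGr f (Q.kj l, a + yv v (Q.nd l) x) (bv f a ρ v (Q.nd l) x))))) 2 P ≤
      ENNReal.ofReal (2 * mgC Q.n Q.M Q.e1) * B2 := by
  have hJ := Icc_subset_Jm' h1
  have key := curve_backward (P := P) hv.good hv.smooth (ContinuousLinearMap.snd ℝ V V)
    zero_mem_Jm h0 hJ Q.n hM j hB.b2
  have hnJ : ∀ l, Num.qnode Q.n Q.M 0 Q.e1 l ∈ Jm := fun l =>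
    hJ (Ioo_subset_Icc_self (Num.qnode_mem h0 l))
  refine le_trans (le_of_eq ?_) key
  congr 1
  funext x
  simp only [ContinuousLinearMap.coe_snd']
  congr 2
  refine Finset.sum_congr rfl fun l _ => ?_
  rw [hv.snd_eq _ (hnJ l), mul_smul]
  rfl

/-- **Main grid defect of the output.** -/
theorem main_X0 (hM : 0 < Q.M) (h0 : 0 < Q.e1) (h1 : Q.e1 < 1) {B1 B2 : ℝ≥0∞}
    (hB : MainB v P Q.n Q.e1 B1 B2) :
    eLpNorm (fun x => x.2 - (Xv v Q.e1 x -
      ∑ l, (Q.W0 l * Q.nd l) • (ρ⁻¹ • DGr f (Q.kj l, a + yv v (Q.nd l) x)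
        (DGr f (Q.kj l, a + yv v (Q.nd l) x) (bv f a ρ v (Q.nd l) x))))) 2 P ≤
      ENNReal.ofReal (mgC Q.n Q.M Q.e1) * B2 := by
  have hJ := Icc_subset_Jm' h1
  have key := curve_start (P := P) hv.good hv.smooth (ContinuousLinearMap.snd ℝ V V)
    zero_mem_Jm h0 hJ Q.n hM hB.b2
  have hnJ : ∀ l, Num.qnode Q.n Q.M 0 Q.e1 l ∈ Jm := fun l =>
    hJ (Ioo_subset_Icc_self (Num.qnode_mem h0 l))
  refine le_trans (le_of_eq ?_) key
  congr 1
  funext x
  simp only [ContinuousLinearMap.coe_snd']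
  rw [hv.good.evol_self zero_mem_Jm x]
  congr 2
  refine Finset.sum_congr rfl fun l _ => ?_
  rw [hv.snd_eq _ (hnJ l), mul_smul]
  rfl

/-! ### versions on a probability space -/

omit [SFinite P] in
theorem continuous_yv {t : ℝ} (ht : t ∈ Jm) : Continuous (yv v t) :=
  (continuous_fst.comp (hv.good.continuous_evol zero_mem_Jm ht)).const_smul t

omit [SFinite P] in
theorem continuous_Xv {t : ℝ} (ht : t ∈ Jm) : Continuous (Xv v t) :=
  continuous_snd.comp (hv.good.continuous_evol zero_mem_Jm ht)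

omit [SFinite P] in
theorem continuous_gv {h : ℝ} (hf : PotP h f) {t : ℝ} (ht : t ∈ Jm) (σ : ℝ) :
    Continuous (fun x => G f σ (a + yv v t x)) :=
  (contDiff_gr hf).continuous.comp (f := fun x => ((σ, a + yv v t x) : ℝ × V))
    (continuous_const.prodMk (continuous_const.add (hv.continuous_yv ht)))

omit [SFinite P] in
theorem continuous_bv {h : ℝ} (hf : PotP h f) {t : ℝ} (ht : t ∈ Jm) :
    Continuous (bv f a ρ v t) :=
  ((hv.continuous_Xv ht).sub (hv.continuous_gv hf ht _)).const_smul _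

omit [SFinite P] in
theorem continuous_Av {h : ℝ} (hf : PotP h f) {t : ℝ} (ht : t ∈ Jm) (σ : ℝ) {w : V × V → V}
    (hw : Continuous w) : Continuous (fun x => DGr f (σ, a + yv v t x) (w x)) :=
  ((continuous_DGr hf σ).comp (continuous_const.add (hv.continuous_yv ht))).clm_apply hw

variable {Ω : Type*} [MeasurableSpace Ω] {R : Measure Ω} [SFinite R] {X : Ω → V × V}

omit [SFinite P] in
theorem nd_mem_Jm (h0 : 0 < Q.e1) (h1 : Q.e1 < 1) (l : QJ Q.n Q.M) : Q.nd l ∈ Jm :=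
  Icc_subset_Jm' h1 (Ioo_subset_Icc_self (Num.qnode_mem h0 l))

omit [SFinite P] in
theorem main_y' {h : ℝ} (hf : PotP h f) (hX : Measurable X) (hM : 0 < Q.M) (h0 : 0 < Q.e1)
    (h1 : Q.e1 < 1) {B1 B2 : ℝ≥0∞}
    (hB : MainB v (R.map X) Q.n Q.e1 B1 B2) (j : QJ Q.n Q.M) :
    eLpNorm (fun ω => yv v (Q.nd j) (X ω) - ((Q.nd j / Q.e1) • yv v Q.e1 (X ω) +
      Q.nd j • ∑ l, Q.Wb j l • (G f (Q.kj l) (a + yv v (Q.nd l) (X ω)) -
        ρ⁻¹ • DGr f (Q.kj l, a + yv v (Q.nd l) (X ω)) (bv f a ρ v (Q.nd l) (X ω))))) 2 R ≤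
      ENNReal.ofReal (2 * mgC Q.n Q.M Q.e1) * B1 := by
  have key := hv.main_y (P := R.map X) Q hM h0 h1 hB j
  have hn := fun l => nd_mem_Jm hv Q h0 h1 l
  have he : Q.e1 ∈ Jm := Icc_subset_Jm' h1 ⟨h0.le, le_rfl⟩
  rwa [eLpNorm_map_measure (Continuous.aestronglyMeasurable ?_) hX.aemeasurable] at key
  refine (hv.continuous_yv (hn j)).sub (((hv.continuous_yv he).const_smul _).add
    (Continuous.const_smul (continuous_finsetSum _ fun l _ => ?_) _))
  exact ((hv.continuous_gv hf (hn l) _).sub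
    ((hv.continuous_Av hf (hn l) _ (hv.continuous_bv hf (hn l))).const_smul _)).const_smul _

omit [SFinite P] in
theorem main_X' {h : ℝ} (hf : PotP h f) (hX : Measurable X) (hM : 0 < Q.M) (h0 : 0 < Q.e1)
    (h1 : Q.e1 < 1) {B1 B2 : ℝ≥0∞}
    (hB : MainB v (R.map X) Q.n Q.e1 B1 B2) (j : QJ Q.n Q.M) :
    eLpNorm (fun ω => Xv v (Q.nd j) (X ω) - (Xv v Q.e1 (X ω) -
      ∑ l, (Q.Wb j l * Q.nd l) • (ρ⁻¹ • DGr f (Q.kj l, a + yv v (Q.nd l) (X ω))
        (DGr f (Q.kj l, a + yv v (Q.nd l) (X ω)) (bv f a ρ v (Q.nd l) (X ω)))))) 2 R ≤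
      ENNReal.ofReal (2 * mgC Q.n Q.M Q.e1) * B2 := by
  have key := hv.main_X (P := R.map X) Q hM h0 h1 hB j
  have hn := fun l => nd_mem_Jm hv Q h0 h1 l
  have he : Q.e1 ∈ Jm := Icc_subset_Jm' h1 ⟨h0.le, le_rfl⟩
  rwa [eLpNorm_map_measure (Continuous.aestronglyMeasurable ?_) hX.aemeasurable] at key
  refine (hv.continuous_Xv (hn j)).sub ((hv.continuous_Xv he).sub
    (continuous_finsetSum _ fun l _ => ?_))
  exact ((hv.continuous_Av hf (hn l) _
    (hv.continuous_Av hf (hn l) _ (hv.continuous_bv hf (hn l)))).const_smul _).const_smul _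

omit [SFinite P] in
theorem main_X0' {h : ℝ} (hf : PotP h f) (hX : Measurable X) (hM : 0 < Q.M) (h0 : 0 < Q.e1)
    (h1 : Q.e1 < 1) {B1 B2 : ℝ≥0∞} (hB : MainB v (R.map X) Q.n Q.e1 B1 B2) :
    eLpNorm (fun ω => (X ω).2 - (Xv v Q.e1 (X ω) -
      ∑ l, (Q.W0 l * Q.nd l) • (ρ⁻¹ • DGr f (Q.kj l, a + yv v (Q.nd l) (X ω))
        (DGr f (Q.kj l, a + yv v (Q.nd l) (X ω)) (bv f a ρ v (Q.nd l) (X ω)))))) 2 R ≤
      ENNReal.ofReal (mgC Q.n Q.M Q.e1) * B2 := by
  have key := hv.main_X0 (P := R.map X) Q hM h0 h1 hB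
  have hn := fun l => nd_mem_Jm hv Q h0 h1 l
  have he : Q.e1 ∈ Jm := Icc_subset_Jm' h1 ⟨h0.le, le_rfl⟩
  rwa [eLpNorm_map_measure (Continuous.aestronglyMeasurable ?_) hX.aemeasurable] at key
  refine continuous_snd.sub ((hv.continuous_Xv he).sub
    (continuous_finsetSum _ fun l _ => ?_))
  exact ((hv.continuous_Av hf (hn l) _
    (hv.continuous_Av hf (hn l) _ (hv.continuous_bv hf (hn l)))).const_smul _).const_smul _

end CoupField

end coupled

end Crest.Agent.R285
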