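import Crest.Agent.R285.SemQ
import Crest.Agent.R285.SemQMain
import Crest.Agent.R285.CoupLaw
import Crest.Agent.R285.LawQ
import Crest.Agent.R285.CoupGen

/-!
Row 285 (S0430), SEM_Q (helper367): the data `ExQ` of the Q-system from the coupled flow:
main grid (`SemQMain`), product law (`CoupLaw`, `LawQ`), smoothness (`MainB`).
Rescaled units, centre `a`; sample space `gam3 V`, `ω = ((ξ, b₀), q)`.
-/

set_option autoImplicit false
set_option linter.unusedSectionVars false

open Set Filter Topology MeasureTheory ProbabilityTheory Real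
open scoped ENNReal NNReal RealInnerProductSpace

noncomputable section

namespace Crest.Agent.R285

variable {V : Type} [NormedAddCommGroup V] [InnerProductSpace ℝ V] [FiniteDimensional ℝ V]
  [MeasurableSpace V] [BorelSpace V]

/-- initial state `(ξ, G₁(a) + ρ b₀)` -/
def xin (f : V → ℝ) (a : V) (ρ : ℝ) (w : V × V) : V × V := (w.1, G f 1 a + ρ • w.2)

theorem continuous_xin (f : V → ℝ) (a : V) (ρ : ℝ) : Continuous (xin f a ρ) := by
  unfold xin
  fun_prop

/-- Liouville's theorem for the coupled flow in the coordinates `(η, X)`, unit scale. -/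
def CoupLi (f : V → ℝ) (a : V) (ρ : ℝ) (v : ℝ → V × V → V × V) : Prop :=
  ∀ t ∈ Jm, (((volume : Measure V).prod volume).withDensity (fun p : V × V => ENNReal.ofReal
        (rexp (lY f a 1 0 p.1 - ‖p.2 - mC f a 1 0 p.1‖ ^ 2 / (2 * ρ ^ 2))))).map (evol v Jm 0 t) =
      ((volume : Measure V).prod volume).withDensity (fun p : V × V => ENNReal.ofReal
        (rexp (lY f a 1 t p.1 - ‖p.2 - mC f a 1 t p.1‖ ^ 2 / (2 * ρ ^ 2))))

theorem mC_one (f : V → ℝ) (a : V) (t : ℝ) (η : V) :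
    mC f a 1 t η = G f (√(1 - t ^ 2)) (a + t • η) := by
  unfold mC
  rw [one_smul, one_mul, one_mul]

theorem mC_zero (f : V → ℝ) (a : V) (η : V) : mC f a 1 0 η = G f 1 a := by
  rw [mC_one]
  simp

variable {f : V → ℝ} {a : V} {ρ τ : ℝ} {v : ℝ → V × V → V × V}

/-- The product law of `(η_t, b_t)`. -/
theorem coup_law (hf : PotP τ f) (hρ : 0 < ρ) (hv : CoupField f a ρ v) (hLi : CoupLi f a ρ v)
    {t : ℝ} (ht : t ∈ Jm) :
    ((stdGaussian V).prod (stdGaussian V)).map (fun w =>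
      ((evol v Jm 0 t (xin f a ρ w)).1, bv f a ρ v t (xin f a ρ w))) =
      ((stdGaussian V).map (evol (vY f a 1) Jm 0 t)).prod (stdGaussian V) := by
  have h1 := coup_law_of hf a one_pos hρ ht
    (hv.good.continuous_evol zero_mem_Jm ht).measurable (hLi t ht)
  refine Eq.trans ?_ h1
  congr 1
  funext w
  rw [mC_zero, mC_one]
  rfl

theorem measurable_evol_xin (hv : CoupField f a ρ v) {t : ℝ} (ht : t ∈ Jm) :
    Measurable (fun w => (evol v Jm 0 t (xin f a ρ w)).1) :=
  (continuous_fst.comp ((hv.good.continuous_evol zero_mem_Jm ht).comp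
    (continuous_xin f a ρ))).measurable

theorem measurable_bv_xin (hf : PotP τ f) (hv : CoupField f a ρ v) {t : ℝ} (ht : t ∈ Jm) :
    Measurable (fun w => bv f a ρ v t (xin f a ρ w)) :=
  ((hv.continuous_bv hf ht).comp (continuous_xin f a ρ)).measurable

theorem isProb_evol_vY (hf : PotP τ f) (a : V) {t : ℝ} (ht : t ∈ Jm) :
    IsProbabilityMeasure ((stdGaussian V).map (evol (vY f a 1) Jm 0 t)) :=
  Measure.isProbabilityMeasure_map (measurable_evol_vY hf a one_pos ht).aemeasurable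

/-- 41's structure along the coupled flow. -/
theorem frozLaw_coup (hf : PotP τ f) (hρ : 0 < ρ) (hv : CoupField f a ρ v)
    (hLi : CoupLi f a ρ v) {t : ℝ} (ht : t ∈ Jm) :
    FrozLaw (gam3 V) (fun ω => a + yv v t (xin f a ρ ω.1)) (fun ω => bv f a ρ v t (xin f a ρ ω.1))
      (fun ω => ω.2) := by
  have := isProb_evol_vY hf a ht
  exact frozLaw_of (measurable_evol_xin hv ht) (measurable_bv_xin hf hv ht)
    (coup_law hf hρ hv hLi ht) (Φ := fun η => a + t • η) (by fun_prop)

theorem map_xin_fst : (gam3 V).map (fun ω => xin f a ρ ω.1) =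
    ((stdGaussian V).prod (stdGaussian V)).map (xin f a ρ) := by
  have h1 : (fun ω : (V × V) × V => xin f a ρ ω.1) = xin f a ρ ∘ Prod.fst := rfl
  rw [h1, ← Measure.map_map (continuous_xin f a ρ).measurable measurable_fst]
  congr 1
  have : ((((stdGaussian V).prod (stdGaussian V)).prod (stdGaussian V)) : Measure _).map Prod.fst =
    (stdGaussian V).prod (stdGaussian V) := by
    rw [Measure.map_fst_prod]
    simp
  exact this

variable {Q : QPar}

/-- **The exact data of the Q-system** from the coupled flow. -/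
theorem exq_of (hv : CoupField f a Q.ρ v) (hLi : CoupLi f a Q.ρ v) (ok : Q.Ok) (hf : PotP τ f)
    {B B1 B2 : ℝ≥0∞} (inn : ∀ j Y, InnB f Y (Q.kj j) (Q.n + 2) Q.t0 B)
    (hB : MainB v (((stdGaussian V).prod (stdGaussian V)).map (xin f a Q.ρ)) Q.n Q.e1 B1 B2) :
    SemQ.ExQ Q f a (fun j (ω : (V × V) × V) => yv v (Q.nd j) (xin f a Q.ρ ω.1))
      (fun j ω => bv f a Q.ρ v (Q.nd j) (xin f a Q.ρ ω.1))
      (fun ω => yv v Q.e1 (xin f a Q.ρ ω.1)) (fun ω => Xv v Q.e1 (xin f a Q.ρ ω.1))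
      (fun ω => G f 1 a + Q.ρ • ω.1.2) (fun ω => ω.2) τ (gam3 V) B
      (ENNReal.ofReal (2 * mgC Q.n Q.M Q.e1) * B1) (ENNReal.ofReal (2 * mgC Q.n Q.M Q.e1) * B2) := by
  have he : Q.e1 ∈ Jm := Icc_subset_Jm' ok.e1 ⟨ok.e0.le, le_rfl⟩
  have hX : Measurable (fun ω : (V × V) × V => xin f a Q.ρ ω.1) :=
    (continuous_xin f a Q.ρ).measurable.comp measurable_fst
  rw [← map_xin_fst] at hB
  refine ⟨ok, hf, inn, fun j => ?_, ?_, ?_, ?_, fun j => ?_, fun j => ?_, ?_⟩
  · exact frozLaw_coup hf ok.ρ0 hv hLi (CoupField.nd_mem_Jm hv Q ok.e0 ok.e1 j)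
  · exact (hv.continuous_yv he).measurable.comp hX
  · exact (hv.continuous_Xv he).measurable.comp hX
  · fun_prop
  · exact hv.main_y' Q hf hX ok.M0 ok.e0 ok.e1 hB j
  · have key := hv.main_X' Q hf hX ok.M0 ok.e0 ok.e1 hB j
    refine le_trans (le_of_eq ?_) key
    congr 1
    funext ω
    rw [hv.Xv_eq ok.ρ0.ne' (Q.nd j) (xin f a Q.ρ ω.1)]
    rfl
  · have key := hv.main_X0' Q hf hX ok.M0 ok.e0 ok.e1 hB
    refine key.trans (mul_le_mul' (ENNReal.ofReal_le_ofReal ?_) le_rfl)
    have := mgC_nonneg Q.n Q.M ok.e0.le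
    linarith

/-! ### the field of 946 -/

open Crest.OracleSampling (E)

theorem coupField_vC {d : ℕ} {f : E d → ℝ} {h ρ : ℝ} (hf : PotP h f) (a : E d)
    (hgood : GoodOn (Inst.vC f a ρ) Jm) : CoupField f a ρ (Inst.vC f a ρ) where
  good := hgood
  smooth := Inst.smOn_vC hf a ρ
  fst_eq := fun t _ p => by
    rw [neg_sub', sub_neg_eq_add]
    rfl
  snd_eq := fun t _ p => by
    rw [← mul_smul]
    rfl

end Crest.Agent.R285
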