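import Mathlib
import Crest.Agent.R285.Flow3
import Crest.Agent.R285.CoupGen
import Crest.Agent.R285.SemQPlug

/-!
Row 285: the coupled flow of `Flow3` in the shapes of `CoupGen` (`vC`) and `SemQMain` (`CoupField`).
-/

set_option autoImplicit false
set_option maxSynthPendingDepth 3
set_option linter.unusedSectionVars false

open MeasureTheory ProbabilityTheory Real Filter Topology Set
open scoped RealInnerProductSpace ENNReal
open Crest.OracleSampling (E)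

noncomputable section

namespace Crest.Agent.R285

section general

variable {V : Type} [NormedAddCommGroup V] [InnerProductSpace ℝ V] [FiniteDimensional ℝ V]
  [MeasurableSpace V] [BorelSpace V] {h : ℝ} {f : V → ℝ}

/-- The coupled field at unit scale. -/
def vU (f : V → ℝ) (a : V) (ρ : ℝ) : ℝ → V × V → V × V := vQ f a 1 ρ

theorem vU_fst (f : V → ℝ) (a : V) (ρ t : ℝ) (p : V × V) :
    (vU f a ρ t p).1 = -(G f √(1 - t ^ 2) (a + t • p.1)) + ρ⁻¹ • DGr f (√(1 - t ^ 2), a + t • p.1)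
      (ρ⁻¹ • (p.2 - G f √(1 - t ^ 2) (a + t • p.1))) := by
  have e : (ρ ^ 2)⁻¹ = ρ⁻¹ * ρ⁻¹ := by rw [pow_two, mul_inv]
  simp only [vU, vQ, gS, opA, one_mul, one_smul, one_pow, map_smul, smul_smul, e]

theorem vU_snd (f : V → ℝ) (a : V) (ρ t : ℝ) (p : V × V) :
    (vU f a ρ t p).2 = (t * ρ⁻¹) • DGr f (√(1 - t ^ 2), a + t • p.1)
      (DGr f (√(1 - t ^ 2), a + t • p.1) (ρ⁻¹ • (p.2 - G f √(1 - t ^ 2) (a + t • p.1)))) := by
  have e : (ρ ^ 2)⁻¹ = ρ⁻¹ * ρ⁻¹ := by rw [pow_two, mul_inv]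
  simp only [vU, vQ, gS, opA, one_mul, one_smul, one_pow, map_smul, smul_smul, e, mul_assoc]

theorem goodOn_vU (hf : PotP h f) (a : V) (ρ : ℝ) : GoodOn (vU f a ρ) (Ioo (-1 : ℝ) 1) :=
  goodOn_vQ hf a one_pos ρ

theorem smOn_vU (hf : PotP h f) (a : V) (ρ : ℝ) : SmOn (vU f a ρ) (Ioo (-1 : ℝ) 1) :=
  smOn_vQ hf a one_pos ρ

theorem coupField_vU (hf : PotP h f) (a : V) (ρ : ℝ) : CoupField f a ρ (vU f a ρ) where
  good := goodOn_vU hf a ρ
  smooth := smOn_vU hf a ρ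
  fst_eq t _ p := by
    rw [vU_fst, neg_sub', cG, cA, cb]
    simp only [cG]
    abel
  snd_eq t _ p := by
    rw [vU_snd, cA, cb, smul_smul]
    rfl

/-- **Product law** at unit scale: `(η_t, b_t) ∼ μ_t ⊗ γ`. -/
theorem law_vU (hf : PotP h f) (a : V) {ρ : ℝ} (hρ : 0 < ρ) {t : ℝ} (ht : t ∈ Ioo (-1 : ℝ) 1) :
    ((stdGaussian V).prod (stdGaussian V)).map (fun w =>
      ((evol (vU f a ρ) (Ioo (-1 : ℝ) 1) 0 t (w.1, G f 1 a + ρ • w.2)).1,
        ρ⁻¹ • ((evol (vU f a ρ) (Ioo (-1 : ℝ) 1) 0 t (w.1, G f 1 a + ρ • w.2)).2 -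
          G f √(1 - t ^ 2) (a + t • (evol (vU f a ρ) (Ioo (-1 : ℝ) 1) 0 t
            (w.1, G f 1 a + ρ • w.2)).1)))) =
      ((stdGaussian V).map (evol (vY f a 1) (Ioo (-1 : ℝ) 1) 0 t)).prod (stdGaussian V) := by
  rw [map_evol_vY' hf a one_pos ht, ← map_cpl_b hf a one_pos hρ ht]
  simp only [cpl, cplB, vU, gS, one_smul, one_mul]

/-- Liouville in density form (367's `CoupLi`). -/
theorem coupLi_vU (hf : PotP h f) (a : V) (ρ : ℝ) : CoupLi f a ρ (vU f a ρ) := by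
  intro t ht
  have hl : ContDiffOn ℝ 1 (fun q : ℝ × (V × V) => lQ f a 1 ρ q.1 q.2)
      (Ioo (-1 : ℝ) 1 ×ˢ univ) := by
    have hproj : ContDiffOn ℝ 1 (fun q : ℝ × (V × V) => ((q.1, q.2.1) : ℝ × V))
        (Ioo (-1 : ℝ) 1 ×ˢ univ) := by fun_prop
    have hmaps : MapsTo (fun q : ℝ × (V × V) => ((q.1, q.2.1) : ℝ × V))
        (Ioo (-1 : ℝ) 1 ×ˢ univ) (Ioo (-1 : ℝ) 1 ×ˢ univ) := fun q hq => ⟨hq.1, mem_univ _⟩
    have hg : ContDiffOn ℝ 1 (fun q : ℝ × (V × V) => gS f a 1 q.1 q.2.1)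
        (Ioo (-1 : ℝ) 1 ×ˢ univ) :=
      ContDiffOn.comp (g := fun p : ℝ × V => gS f a 1 p.1 p.2)
        (f := fun q : ℝ × (V × V) => ((q.1, q.2.1) : ℝ × V))
        ((smOn_gS hf a one_pos).of_le (by exact_mod_cast le_top)) hproj hmaps
    have hUb : ContDiffOn ℝ 1 (fun q : ℝ × (V × V) => Ub f (1 * √(1 - q.1 ^ 2))
        (a + (1 * q.1) • q.2.1)) (Ioo (-1 : ℝ) 1 ×ˢ univ) :=
      ContDiffOn.comp (g := fun p : ℝ × V => Ub f (1 * √(1 - p.1 ^ 2)) (a + (1 * p.1) • p.2))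
        (f := fun q : ℝ × (V × V) => ((q.1, q.2.1) : ℝ × V))
        ((smOn_Ub hf a one_pos).of_le (by exact_mod_cast le_top)) hproj hmaps
    have hn : ContDiff ℝ 1 (fun q : ℝ × (V × V) => ‖q.2.1‖ ^ 2 / 2) :=
      ((contDiff_norm_sq ℝ).comp (contDiff_fst.comp contDiff_snd)).div_const 2
    have hX : ContDiffOn ℝ 1 (fun q : ℝ × (V × V) => q.2.2) (Ioo (-1 : ℝ) 1 ×ˢ univ) := by
      fun_prop
    have h1 := (hn.neg.contDiffOn (s := Ioo (-1 : ℝ) 1 ×ˢ univ)).sub hUb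
    have h2 := contDiffOn_const (c := (2 * ρ ^ 2)⁻¹) |>.mul ((hX.sub hg).norm_sq ℝ)
    exact h1.sub h2
  have key := (goodOn_vU hf a ρ).map_evol_exp ((volume : Measure V).prod (volume : Measure V))
    (l := fun t p => lQ f a 1 ρ t p) hl (fun t ht p => lQ_continuity hf a one_pos ht ρ p)
    zero_mem_J ht
  have e : ∀ t (p : V × V), lY f a 1 t p.1 - ‖p.2 - mC f a 1 t p.1‖ ^ 2 / (2 * ρ ^ 2) =
      lQ f a 1 ρ t p := by
    intro t p
    rw [lQ, div_eq_inv_mul]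
    rfl
  simp_rw [e]
  exact key

end general

section euclid

variable {d : ℕ} {h : ℝ} {f : E d → ℝ}

theorem vC_eq (f : E d → ℝ) (a : E d) (ρ : ℝ) : Inst.vC f a ρ = vU f a ρ := by
  funext t x
  refine Prod.ext ?_ ?_
  · rw [vU_fst]; rfl
  · rw [vU_snd]; rfl

theorem goodOn_vC (hf : PotP h f) (a : E d) (ρ : ℝ) : GoodOn (Inst.vC f a ρ) (Ioo (-1 : ℝ) 1) := by
  rw [vC_eq]; exact goodOn_vU hf a ρ

theorem coupField_vC' (hf : PotP h f) (a : E d) (ρ : ℝ) : CoupField f a ρ (Inst.vC f a ρ) := by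
  rw [vC_eq]; exact coupField_vU hf a ρ

theorem coupLi_vC (hf : PotP h f) (a : E d) (ρ : ℝ) : CoupLi f a ρ (Inst.vC f a ρ) := by
  rw [vC_eq]; exact coupLi_vU hf a ρ

end euclid

end Crest.Agent.R285
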