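import Crest.Agent.R285.Curve
import Crest.Agent.R285.NumL2
import Crest.Agent.R285.Rot

/-!
Row 285: `L²` errors of the quadrature rules and of the stencil along curves of a flow.
-/

set_option autoImplicit false
set_option linter.unusedSectionVars false

open Set Filter Topology MeasureTheory ProbabilityTheory
open scoped ENNReal NNReal

noncomputable section

namespace Crest.Agent.R285

variable {E : Type} [NormedAddCommGroup E] [NormedSpace ℝ E] [FiniteDimensional ℝ E]
  [MeasurableSpace E] [BorelSpace E]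
  {F : Type*} [NormedAddCommGroup F] [NormedSpace ℝ F] [FiniteDimensional ℝ F]
  [MeasurableSpace F] [BorelSpace F]

variable {v : ℝ → E → E} {J : Set ℝ} {f : ℝ → E → F} {P : Measure E} [SFinite P]

/-- Pathwise `L¹`-in-time error bounds along the flow give `L²` bounds. -/
theorem curve_err_le (hv : GoodOn v J) (hvs : SmOn v J) (hf : SmOn f J) {s a b : ℝ} (hs : s ∈ J)
    (hab : Icc a b ⊆ J) (hle : a ≤ b) (m : ℕ) {err : E → F} {K : ℝ} (hK : 0 ≤ K)
    (herr : ∀ x, ‖err x‖ ≤ K * ∫ t in a..b, ‖((Dv v)^[m] f) t (evol v J s t x)‖) {B : ℝ≥0∞}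
    (hB : ∀ t ∈ Ioc a b, eLpNorm (fun x => ((Dv v)^[m] f) t (evol v J s t x)) 2 P ≤ B) :
    eLpNorm err 2 P ≤ ENNReal.ofReal (K * (b - a)) * B := by
  refine Num.eLpNorm_err_le_of_bound (F := fun t x => curveF v f J s a b m t x) hle hK
    (fun x => ?_) ?_ (ae_of_all _ fun x => ?_) (fun t ht => ?_)
  · exact (tower_curveF hv hf hvs hs hab m x).intervalIntegrable le_rfl
      (left_mem_Icc.mpr hle) (right_mem_Icc.mpr hle)
  · exact (measurable_curveF hv hf hvs hs hab m).enorm
  · refine (herr x).trans (le_of_eq ?_)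
    congr 1
    refine intervalIntegral.integral_congr fun t ht => ?_
    rw [uIcc_of_le hle] at ht
    simp only [curveF_of_mem ht]
  · have e : (fun x => curveF v f J s a b m t x) =
        fun x => ((Dv v)^[m] f) t (evol v J s t x) :=
      funext fun x => curveF_of_mem (Ioc_subset_Icc_self ht) m x
    rw [e]
    exact hB t ht

/-- Quadrature on one block, `L²` error. -/
theorem curve_quad (hv : GoodOn v J) (hvs : SmOn v J) (hf : SmOn f J) {s a a0 : ℝ} (hs : s ∈ J)
    (ha : 0 ≤ a0) (hab : Icc a (a + a0) ⊆ J) (n : ℕ) {θ : ℝ} (h0 : 0 ≤ θ) (h1 : θ ≤ 1)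
    {B : ℝ≥0∞} (hB : ∀ t ∈ Ioc a (a + a0),
      eLpNorm (fun x => ((Dv v)^[n + 2] f) t (evol v J s t x)) 2 P ≤ B) :
    eLpNorm (fun x => (∫ t in a..(a + a0 * θ), f t (evol v J s t x)) -
        ∑ l, wb n a0 θ l • f (a + a0 * Num.node (n + 2) l)
          (evol v J s (a + a0 * Num.node (n + 2) l) x)) 2 P ≤
      ENNReal.ofReal (rcQ n * a0 ^ (n + 3)) * B := by
  have hr := rcQ_nonneg n
  have h := curve_err_le hv hvs hf hs hab (by linarith) (n + 2)
    (err := fun x => (∫ t in a..(a + a0 * θ), f t (evol v J s t x)) -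
        ∑ l, wb n a0 θ l • f (a + a0 * Num.node (n + 2) l)
          (evol v J s (a + a0 * Num.node (n + 2) l) x)) (K := rcQ n * a0 ^ (n + 2))
    (by positivity) (fun x => ?_) hB
  · refine h.trans (le_of_eq ?_)
    congr 2
    ring
  · have : CompleteSpace F := FiniteDimensional.complete ℝ F
    have h := Num.quad_block (n + 1) (fun k t => ((Dv v)^[k] f) t (evol v J s t x)) a a0 ha
      (tower_comp_curve hv.isOpen hf hvs (fun t ht => hv.hasDerivAt_evol hs ht x) hab (n + 2))
      h0 h1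
    refine h.trans (le_of_eq ?_)
    unfold rcQ
    ring

/-- Stencil, `L²` error. -/
theorem curve_stencil (hv : GoodOn v J) (hvs : SmOn v J) (hf : SmOn f J) {s a a0 : ℝ} (hs : s ∈ J)
    (ha : 0 < a0) (hab : Icc a (a + a0) ⊆ J) (n : ℕ)
    {B : ℝ≥0∞} (hB : ∀ t ∈ Ioc a (a + a0),
      eLpNorm (fun x => ((Dv v)^[n + 2] f) t (evol v J s t x)) 2 P ≤ B) :
    eLpNorm (fun x => Dv v f a (evol v J s a x) -
        ∑ l, db n a0 l • f (a + a0 * Num.node (n + 2) l)
          (evol v J s (a + a0 * Num.node (n + 2) l) x)) 2 P ≤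
      ENNReal.ofReal (Num.derC n * a0 ^ (n + 1)) * B := by
  have hr := Num.derC_nonneg n
  have h := curve_err_le hv hvs hf hs hab (by linarith) (n + 2)
    (err := fun x => Dv v f a (evol v J s a x) -
        ∑ l, db n a0 l • f (a + a0 * Num.node (n + 2) l)
          (evol v J s (a + a0 * Num.node (n + 2) l) x)) (K := Num.derC n * a0 ^ n)
    (by positivity) (fun x => ?_) hB
  · refine h.trans (le_of_eq ?_)
    congr 2
    ring
  · have : CompleteSpace F := FiniteDimensional.complete ℝ F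
    have h := Num.deriv_block n (fun k t => ((Dv v)^[k] f) t (evol v J s t x)) a a0 ha
      (tower_comp_curve hv.isOpen hf hvs (fun t ht => hv.hasDerivAt_evol hs ht x) hab (n + 2))
    refine h.trans (le_of_eq ?_)
    ring

/-- Composite rule on a uniform grid, total integral, `L²` error. -/
theorem curve_total (hv : GoodOn v J) (hvs : SmOn v J) (hf : SmOn f J) {s a b : ℝ} (hs : s ∈ J)
    (hle : a ≤ b) (hab : Icc a b ⊆ J) (n : ℕ) {M : ℕ} (hM : 0 < M)
    {B : ℝ≥0∞} (hB : ∀ t ∈ Ioc a b,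
      eLpNorm (fun x => ((Dv v)^[n + 1] f) t (evol v J s t x)) 2 P ≤ B) :
    eLpNorm (fun x => (∫ t in a..b, f t (evol v J s t x)) -
        ∑ j, Num.qw n M a b j • f (Num.qnode n M a b j)
          (evol v J s (Num.qnode n M a b j) x)) 2 P ≤
      ENNReal.ofReal ((1 + Num.intC (n + 1)) * ((b - a) / M) ^ (n + 1) * (b - a)) * B := by
  have hr := Num.intC_nonneg (n + 1)
  have h0 : 0 ≤ (b - a) / M := div_nonneg (by linarith) (by positivity)
  refine curve_err_le hv hvs hf hs hab hle (n + 1) (by positivity) (fun x => ?_) hB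
  have : CompleteSpace F := FiniteDimensional.complete ℝ F
  have h := Num.quad_total n (fun k t => ((Dv v)^[k] f) t (evol v J s t x)) hM hle
    (tower_comp_curve hv.isOpen hf hvs (fun t ht => hv.hasDerivAt_evol hs ht x) hab (n + 1))
  refine h.trans (le_of_eq ?_)
  ring

/-- Composite rule on a uniform grid, integral up to a node, `L²` error. -/
theorem curve_partial (hv : GoodOn v J) (hvs : SmOn v J) (hf : SmOn f J) {s a b : ℝ} (hs : s ∈ J)
    (hle : a ≤ b) (hab : Icc a b ⊆ J) (n : ℕ) {M : ℕ} (i : Fin M × Fin (n + 1))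
    {B : ℝ≥0∞} (hB : ∀ t ∈ Ioc a b,
      eLpNorm (fun x => ((Dv v)^[n + 1] f) t (evol v J s t x)) 2 P ≤ B) :
    eLpNorm (fun x => (∫ t in a..(Num.qnode n M a b i), f t (evol v J s t x)) -
        ∑ j, Num.qW n M a b i j • f (Num.qnode n M a b j)
          (evol v J s (Num.qnode n M a b j) x)) 2 P ≤
      ENNReal.ofReal ((1 + Num.intC (n + 1)) * ((b - a) / M) ^ (n + 1) * (b - a)) * B := by
  have hr := Num.intC_nonneg (n + 1)
  have h0 : 0 ≤ (b - a) / M := div_nonneg (by linarith) (by positivity)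
  refine curve_err_le hv hvs hf hs hab hle (n + 1) (by positivity) (fun x => ?_) hB
  have : CompleteSpace F := FiniteDimensional.complete ℝ F
  have h := Num.quad_partial n (fun k t => ((Dv v)^[k] f) t (evol v J s t x)) hle
    (tower_comp_curve hv.isOpen hf hvs (fun t ht => hv.hasDerivAt_evol hs ht x) hab (n + 1)) i
  refine h.trans (le_of_eq ?_)
  ring

theorem eLpNorm_two_sq {Z H : Type*} [MeasurableSpace Z] [NormedAddCommGroup H] (P : Measure Z)
    (f : Z → H) : eLpNorm f 2 P ^ 2 = ∫⁻ ω, ‖f ω‖ₑ ^ 2 ∂P := by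
  rw [eLpNorm_eq_lintegral_rpow_enorm_toReal (by norm_num) (by norm_num), ← ENNReal.rpow_natCast,
    ← ENNReal.rpow_mul]
  norm_num

/-- Fubini for `L²` bounds that hold for every frozen first coordinate. -/
theorem eLpNorm_prod_le {X Y H : Type*} [MeasurableSpace X] [MeasurableSpace Y]
    [NormedAddCommGroup H] {μ : Measure X} [IsProbabilityMeasure μ] {ν : Measure Y} [SFinite ν]
    {g : X × Y → H} {δ : ℝ≥0∞} (h : ∀ x, eLpNorm (fun y => g (x, y)) 2 ν ≤ δ) :
    eLpNorm g 2 (μ.prod ν) ≤ δ := by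
  have h2 : eLpNorm g 2 (μ.prod ν) ^ 2 ≤ δ ^ 2 := by
    rw [eLpNorm_two_sq]
    refine (lintegral_prod_le _).trans ?_
    calc ∫⁻ x, ∫⁻ y, ‖g (x, y)‖ₑ ^ 2 ∂ν ∂μ ≤ ∫⁻ _, δ ^ 2 ∂μ := by
          refine lintegral_mono fun x => ?_
          rw [← eLpNorm_two_sq ν (fun y => g (x, y))]
          exact pow_le_pow_left' (h x) 2
      _ = δ ^ 2 := by rw [lintegral_const, measure_univ, mul_one]
  exact (ENNReal.pow_le_pow_left_iff two_ne_zero).mp h2

end Crest.Agent.R285
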