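import Crest.Agent.R285.DLip

/-!
Row 285 (S0430): dual-Lipschitz closeness with BOUNDED 1-Lipschitz test functions.

`DLb P Q e` : `|∫ f dP - ∫ f dQ| ≤ e` for every bounded 1-Lipschitz `f`.  No moments are needed,
so that integrability of outputs of programs never has to be proved.  `DLb.toDLip` converts to
`DLip` as soon as `Q` has a first moment.
-/

set_option autoImplicit false
set_option linter.unusedSectionVars false

open MeasureTheory Set Filter Topology
open scoped ENNReal NNReal

noncomputable section

namespace Crest.Agent.R285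

/-- Dual bounded-Lipschitz closeness. -/
def DLb {X : Type} [PseudoMetricSpace X] [MeasurableSpace X] (P Q : Measure X) (e : ℝ) : Prop :=
  ∀ f : X → ℝ, LipschitzWith 1 f → (∃ M, ∀ x, |f x| ≤ M) → |∫ x, f x ∂P - ∫ x, f x ∂Q| ≤ e

section Basic

variable {X Y : Type} [PseudoMetricSpace X] [MeasurableSpace X]
  [PseudoMetricSpace Y] [MeasurableSpace Y]
variable {P Q S : Measure X} {e e' : ℝ}

namespace DLb

theorem nonneg (h : DLb P Q e) : 0 ≤ e := by
  have := h (fun _ => 0) ((LipschitzWith.const (0 : ℝ)).weaken zero_le_one) ⟨0, by simp⟩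
  simpa using this

theorem symm (h : DLb P Q e) : DLb Q P e := fun f hf hb => by
  rw [abs_sub_comm]; exact h f hf hb

theorem mono (h : DLb P Q e) (he : e ≤ e') : DLb P Q e' := fun f hf hb => (h f hf hb).trans he

theorem refl (P : Measure X) : DLb P P 0 := fun f _ _ => by simp

theorem of_eq (h : P = Q) (he : 0 ≤ e) : DLb P Q e := by
  subst h; exact (refl P).mono he

theorem trans (h : DLb P Q e) (h' : DLb Q S e') : DLb P S (e + e') := fun f hf hb =>
  (abs_sub_le _ (∫ x, f x ∂Q) _).trans (add_le_add (h f hf hb) (h' f hf hb))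

/-- Test functions with any Lipschitz constant. -/
theorem lip (h : DLb P Q e) {K : ℝ≥0} {f : X → ℝ} (hf : LipschitzWith K f)
    (hb : ∃ M, ∀ x, |f x| ≤ M) :
    |∫ x, f x ∂P - ∫ x, f x ∂Q| ≤ K * e := by
  obtain ⟨M, hM⟩ := hb
  rcases eq_or_ne K 0 with hK | hK
  · subst hK
    -- f is constant along distances 0; use scaled tests `n • f`
    have key : ∀ n : ℕ, (n : ℝ) * |∫ x, f x ∂P - ∫ x, f x ∂Q| ≤ e := by
      intro n
      have hn : LipschitzWith 1 (fun x => (n : ℝ) * f x) := by
        refine LipschitzWith.of_dist_le_mul fun x y => ?_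
        have h0 := hf.dist_le_mul x y
        have h1 : f x = f y := by
          rw [← dist_le_zero]; simpa using h0
        rw [h1, dist_self]; positivity
      have h1 := h _ hn ⟨n * M, fun x => by
        rw [abs_mul, Nat.abs_cast]
        exact mul_le_mul_of_nonneg_left (hM x) (Nat.cast_nonneg n)⟩
      rw [integral_const_mul, integral_const_mul, ← mul_sub, abs_mul, Nat.abs_cast] at h1
      exact h1
    have h0 : |∫ x, f x ∂P - ∫ x, f x ∂Q| ≤ 0 := by
      by_contra hc
      push Not at hc
      obtain ⟨n, hn⟩ := exists_nat_gt (e / |∫ x, f x ∂P - ∫ x, f x ∂Q|)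
      rw [div_lt_iff₀ hc] at hn
      exact absurd (key n) (not_le.mpr hn)
    simpa using h0
  · have hK0 : (0 : ℝ) < K := by positivity
    have h1 : LipschitzWith 1 (fun x => (K : ℝ)⁻¹ * f x) := by
      refine LipschitzWith.of_dist_le_mul fun x y => ?_
      have h0 := hf.dist_le_mul x y
      rw [Real.dist_eq] at h0 ⊢
      rw [← mul_sub, abs_mul, abs_of_pos (inv_pos.mpr hK0), inv_mul_le_iff₀ hK0]
      simpa using h0
    have h2 := h _ h1 ⟨(K : ℝ)⁻¹ * M, fun x => by
      rw [abs_mul, abs_of_pos (inv_pos.mpr hK0)]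
      exact mul_le_mul_of_nonneg_left (hM x) (inv_pos.mpr hK0).le⟩
    rw [integral_const_mul, integral_const_mul, ← mul_sub, abs_mul,
      abs_of_pos (inv_pos.mpr hK0), inv_mul_le_iff₀ hK0] at h2
    exact h2

/-- Images under Lipschitz maps. -/
theorem map [OpensMeasurableSpace X] [BorelSpace Y]
    (h : DLb P Q e) {K : ℝ≥0} {g : X → Y}
    (hg : LipschitzWith K g) : DLb (P.map g) (Q.map g) (K * e) := by
  have hm : Measurable g := hg.continuous.measurable
  intro f hf hb
  obtain ⟨M, hM⟩ := hb
  rw [integral_map hm.aemeasurable hf.continuous.measurable.aestronglyMeasurable,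
    integral_map hm.aemeasurable hf.continuous.measurable.aestronglyMeasurable]
  have := h.lip (hf.comp hg) ⟨M, fun x => hM (g x)⟩
  simpa using this

end DLb

/-- Bounded Lipschitz functions are integrable. -/
theorem integrable_of_bdd {X : Type} [PseudoMetricSpace X] [MeasurableSpace X]
    [OpensMeasurableSpace X] {P : Measure X} [IsFiniteMeasure P] {f : X → ℝ} {K : ℝ≥0}
    (hf : LipschitzWith K f) {M : ℝ} (hM : ∀ x, |f x| ≤ M) : Integrable f P :=
  Integrable.mono' (integrable_const M) hf.continuous.measurable.aestronglyMeasurable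
    (Eventually.of_forall fun x => by simpa using hM x)

/-- A pathwise coupling bounds the distance (no integrability of the variables needed). -/
theorem DLb.of_coupling {Ω : Type} [MeasurableSpace Ω] {μ : Measure Ω} [IsFiniteMeasure μ]
    {X : Type} [PseudoMetricSpace X] [MeasurableSpace X] [OpensMeasurableSpace X]
    {F G : Ω → X} (hF : AEMeasurable F μ) (hG : AEMeasurable G μ)
    (hFG : Integrable (fun ω => dist (F ω) (G ω)) μ) {e : ℝ}
    (he : ∫ ω, dist (F ω) (G ω) ∂μ ≤ e) : DLb (μ.map F) (μ.map G) e := by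
  intro f hf hb
  obtain ⟨M, hM⟩ := hb
  rw [integral_map hF hf.continuous.measurable.aestronglyMeasurable,
    integral_map hG hf.continuous.measurable.aestronglyMeasurable]
  have i1 : Integrable (fun ω => f (F ω)) μ :=
    Integrable.mono' (integrable_const M)
      ((hf.continuous.measurable.comp_aemeasurable hF).aestronglyMeasurable)
      (Eventually.of_forall fun x => by simpa using hM _)
  have i2 : Integrable (fun ω => f (G ω)) μ :=
    Integrable.mono' (integrable_const M)
      ((hf.continuous.measurable.comp_aemeasurable hG).aestronglyMeasurable)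
      (Eventually.of_forall fun x => by simpa using hM _)
  rw [← integral_sub i1 i2]
  refine (abs_integral_le_integral_abs).trans (le_trans ?_ he)
  refine integral_mono (i1.sub i2).abs hFG (fun ω => ?_)
  have := hf.dist_le_mul (F ω) (G ω)
  rw [Real.dist_eq] at this
  simpa using this

/-- Pathwise uniformly close variables. -/
theorem DLb.of_dist_le {Ω : Type} [MeasurableSpace Ω] {μ : Measure Ω} [IsProbabilityMeasure μ]
    {X : Type} [PseudoMetricSpace X] [MeasurableSpace X] [OpensMeasurableSpace X]
    {F G : Ω → X} (hF : AEMeasurable F μ) (hG : AEMeasurable G μ) {e : ℝ}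
    (he : ∀ ω, dist (F ω) (G ω) ≤ e) : DLb (μ.map F) (μ.map G) e := by
  intro f hf hb
  obtain ⟨M, hM⟩ := hb
  rw [integral_map hF hf.continuous.measurable.aestronglyMeasurable,
    integral_map hG hf.continuous.measurable.aestronglyMeasurable]
  have i1 : Integrable (fun ω => f (F ω)) μ :=
    Integrable.mono' (integrable_const M)
      ((hf.continuous.measurable.comp_aemeasurable hF).aestronglyMeasurable)
      (Eventually.of_forall fun x => by simpa using hM _)
  have i2 : Integrable (fun ω => f (G ω)) μ :=
    Integrable.mono' (integrable_const M)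
      ((hf.continuous.measurable.comp_aemeasurable hG).aestronglyMeasurable)
      (Eventually.of_forall fun x => by simpa using hM _)
  rw [← integral_sub i1 i2]
  refine (abs_integral_le_integral_abs).trans ?_
  have : ∀ ω, |f (F ω) - f (G ω)| ≤ e := fun ω => by
    have := hf.dist_le_mul (F ω) (G ω)
    rw [Real.dist_eq] at this
    exact (by simpa using this : _ ≤ dist (F ω) (G ω)).trans (he ω)
  refine (integral_mono (i1.sub i2).abs (integrable_const e) this).trans ?_
  simp

end Basic

section Hybrid

variable {X : Type} [PseudoMetricSpace X] [MeasurableSpace X] [OpensMeasurableSpace X]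
  [SecondCountableTopology X]

/-- **Hybrid lemma**: replace independent arguments one after the other. -/
theorem DLb.hybrid {m : ℕ} {P Q : Fin m → Measure X} [∀ i, IsProbabilityMeasure (P i)]
    [∀ i, IsProbabilityMeasure (Q i)] {e : Fin m → ℝ} (h : ∀ i, DLb (P i) (Q i) (e i))
    {Φ : (Fin m → X) → ℝ} {L : Fin m → ℝ≥0}
    (hΦ : ∀ x y, |Φ x - Φ y| ≤ ∑ i, L i * dist (x i) (y i)) {M : ℝ} (hM : ∀ x, |Φ x| ≤ M) :
    |∫ x, Φ x ∂(Measure.pi P) - ∫ x, Φ x ∂(Measure.pi Q)| ≤ ∑ i, L i * e i := by
  induction m with
  | zero =>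
    have : Measure.pi P = Measure.pi Q := by
      congr 1
      funext i
      exact i.elim0
    rw [this]
    simp
  | succ m ih =>
    have hcont : Continuous Φ := by
      have hL : LipschitzWith (∑ i, L i) Φ := by
        refine LipschitzWith.of_dist_le_mul fun x y => ?_
        rw [Real.dist_eq]
        refine (hΦ x y).trans ?_
        push_cast
        rw [Finset.sum_mul]
        refine Finset.sum_le_sum fun i _ => ?_
        exact mul_le_mul_of_nonneg_left (dist_le_pi_dist x y i) (L i).2
      exact hL.continuous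
    have hcons : ∀ y : X, Continuous fun x : Fin m → X => (Fin.cons y x : Fin (m + 1) → X) := by
      intro y
      refine continuous_pi fun i => ?_
      refine Fin.cases ?_ (fun j => ?_) i
      · simpa using continuous_const
      · simpa using continuous_apply j
    -- split off the first coordinate
    have key : ∀ (R : Fin (m + 1) → Measure X) [∀ i, IsProbabilityMeasure (R i)],
        ∫ x, Φ x ∂(Measure.pi R)
          = ∫ y, ∫ x, Φ (Fin.cons y x) ∂(Measure.pi fun i : Fin m => R i.succ) ∂(R 0) := by
      intro R _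
      have hmp := (measurePreserving_piFinSuccAbove R 0).symm
      have hint : Integrable Φ (Measure.pi R) :=
        Integrable.mono' (integrable_const M) hcont.measurable.aestronglyMeasurable
          (Eventually.of_forall fun x => by simpa using hM x)
      rw [← hmp.map_eq, integral_map hmp.measurable.aemeasurable
        (by rw [hmp.map_eq]; exact hint.aestronglyMeasurable)]
      have e1 : ∀ z : X × (Fin m → X), Φ ((MeasurableEquiv.piFinSuccAbove (fun _ => X) 0).symm z)
          = Φ (Fin.cons z.1 z.2) := by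
        intro z
        congr 1
        simp [MeasurableEquiv.piFinSuccAbove, Fin.insertNthEquiv]
      simp_rw [e1]
      have hint' : Integrable (fun z : X × (Fin m → X) => Φ (Fin.cons z.1 z.2))
          ((R 0).prod (Measure.pi fun i : Fin m => R (Fin.succAbove 0 i))) := by
        have := hmp.integrable_comp_of_integrable hint
        refine this.congr (Filter.Eventually.of_forall fun z => ?_)
        exact e1 z
      rw [integral_prod _ hint']
      rfl
    rw [key P, key Q]
    set ΨP : X → ℝ := fun y => ∫ x, Φ (Fin.cons y x) ∂(Measure.pi fun i : Fin m => P i.succ)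
    set ΨQ : X → ℝ := fun y => ∫ x, Φ (Fin.cons y x) ∂(Measure.pi fun i : Fin m => Q i.succ)
    have hΦt : ∀ y (x x' : Fin m → X),
        |Φ (Fin.cons y x) - Φ (Fin.cons y x')| ≤ ∑ i, L i.succ * dist (x i) (x' i) := by
      intro y x x'
      have := hΦ (Fin.cons y x) (Fin.cons y x')
      rw [Fin.sum_univ_succ] at this
      simpa using this
    have hΦ0 : ∀ y y' (x : Fin m → X),
        |Φ (Fin.cons y x) - Φ (Fin.cons y' x)| ≤ L 0 * dist y y' := by
      intro y y' x
      have := hΦ (Fin.cons y x) (Fin.cons y' x)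
      rw [Fin.sum_univ_succ] at this
      simpa using this
    have hint : ∀ (R : Fin m → Measure X) [∀ i, IsProbabilityMeasure (R i)] (y : X),
        Integrable (fun x => Φ (Fin.cons y x)) (Measure.pi R) := fun R _ y =>
      Integrable.mono' (integrable_const M)
        ((hcont.comp (hcons y)).measurable.aestronglyMeasurable)
        (Eventually.of_forall fun x => by simpa using hM _)
    have hlip : ∀ (R : Fin m → Measure X) [∀ i, IsProbabilityMeasure (R i)] (y y' : X),
        |∫ x, Φ (Fin.cons y x) ∂(Measure.pi R) - ∫ x, Φ (Fin.cons y' x) ∂(Measure.pi R)|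
          ≤ L 0 * dist y y' := by
      intro R _ y y'
      rw [← integral_sub (hint R y) (hint R y')]
      refine (abs_integral_le_integral_abs).trans ?_
      refine (integral_mono_of_nonneg (Filter.Eventually.of_forall fun ω => abs_nonneg _)
        (integrable_const (L 0 * dist y y')) (Filter.Eventually.of_forall fun x => hΦ0 y y' x)).trans
        ?_
      simp
    have hbd : ∀ (R : Fin m → Measure X) [∀ i, IsProbabilityMeasure (R i)] (y : X),
        |∫ x, Φ (Fin.cons y x) ∂(Measure.pi R)| ≤ M := by
      intro R _ y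
      refine (abs_integral_le_integral_abs).trans ?_
      refine (integral_mono_of_nonneg (Filter.Eventually.of_forall fun ω => abs_nonneg _)
        (integrable_const M) (Filter.Eventually.of_forall fun x => hM _)).trans ?_
      simp
    have hlP : LipschitzWith (L 0) ΨP := LipschitzWith.of_dist_le_mul fun y y' => by
      rw [Real.dist_eq]; exact hlip _ y y'
    have hlQ : LipschitzWith (L 0) ΨQ := LipschitzWith.of_dist_le_mul fun y y' => by
      rw [Real.dist_eq]; exact hlip _ y y'
    have hd : ∀ y, |ΨP y - ΨQ y| ≤ ∑ i : Fin m, L i.succ * e i.succ := fun y =>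
      ih (P := fun i => P i.succ) (Q := fun i => Q i.succ) (e := fun i => e i.succ)
        (fun i => h i.succ) (L := fun i => L i.succ) (hΦt y) (fun x => hM _)
    have iPQ : Integrable ΨP (Q 0) := integrable_of_bdd hlP (hbd _)
    have iQQ : Integrable ΨQ (Q 0) := integrable_of_bdd hlQ (hbd _)
    have s1 : |∫ y, ΨP y ∂(P 0) - ∫ y, ΨP y ∂(Q 0)| ≤ L 0 * e 0 :=
      (h 0).lip hlP ⟨M, hbd _⟩
    have s2 : |∫ y, ΨP y ∂(Q 0) - ∫ y, ΨQ y ∂(Q 0)| ≤ ∑ i : Fin m, L i.succ * e i.succ := by
      rw [← integral_sub iPQ iQQ]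
      refine (abs_integral_le_integral_abs).trans ?_
      refine (integral_mono_of_nonneg (Filter.Eventually.of_forall fun ω => abs_nonneg _)
        (integrable_const (∑ i : Fin m, (L i.succ : ℝ) * e i.succ))
        (Filter.Eventually.of_forall fun y => hd y)).trans ?_
      simp
    rw [Fin.sum_univ_succ]
    have : ∫ y, ΨP y ∂(P 0) - ∫ y, ΨQ y ∂(Q 0)
        = (∫ y, ΨP y ∂(P 0) - ∫ y, ΨP y ∂(Q 0)) + (∫ y, ΨP y ∂(Q 0) - ∫ y, ΨQ y ∂(Q 0)) := by
      ring
    rw [this]
    exact (abs_add_le _ _).trans (add_le_add s1 s2)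

/-- Hybrid lemma in the form: Lipschitz in the sup metric with constant `K`. -/
theorem DLb.hybrid_sup {m : ℕ} {P Q : Fin m → Measure X} [∀ i, IsProbabilityMeasure (P i)]
    [∀ i, IsProbabilityMeasure (Q i)] {e : ℝ} (h : ∀ i, DLb (P i) (Q i) e)
    {Φ : (Fin m → X) → ℝ} {K : ℝ≥0} (hΦ : LipschitzWith K Φ) {M : ℝ} (hM : ∀ x, |Φ x| ≤ M) :
    |∫ x, Φ x ∂(Measure.pi P) - ∫ x, Φ x ∂(Measure.pi Q)| ≤ m * (K * e) := by
  have := DLb.hybrid h (L := fun _ => K) (Φ := Φ) (M := M) (fun x y => ?_) hM
  · simpa using this
  · rw [← Real.dist_eq]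
    refine (hΦ.dist_le_mul x y).trans ?_
    rw [← Finset.mul_sum]
    refine mul_le_mul_of_nonneg_left ?_ K.2
    rw [dist_pi_le_iff (Finset.sum_nonneg fun i _ => dist_nonneg)]
    intro i
    exact Finset.single_le_sum (f := fun i => dist (x i) (y i)) (fun i _ => dist_nonneg)
      (Finset.mem_univ i)

end Hybrid

section ToDLip

variable {X : Type} [NormedAddCommGroup X] [MeasurableSpace X] [BorelSpace X]
  [SecondCountableTopology X]

/-- Truncation of a 1-Lipschitz function. -/
theorem lipschitz_trunc {f : X → ℝ} (hf : LipschitzWith 1 f) (M : ℝ) :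
    LipschitzWith 1 (fun x => max (-M) (min (f x) M)) := by
  have h1 : LipschitzWith 1 (fun x => min (f x) M) := hf.min_const M
  have h2 := h1.const_max (-M)
  exact h2

theorem abs_trunc_le {a M : ℝ} (hM : 0 ≤ M) : |max (-M) (min a M)| ≤ M := by
  rw [abs_le]
  exact ⟨le_max_left _ _, max_le (by linarith) (min_le_right _ _)⟩

theorem abs_trunc_le_abs {a M : ℝ} (hM : 0 ≤ M) : |max (-M) (min a M)| ≤ |a| := by
  rw [abs_le]
  rcases le_total 0 a with h | h
  · rw [abs_of_nonneg h]
    constructor
    · have : 0 ≤ max (-M) (min a M) := le_max_of_le_right (le_min h hM)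
      linarith
    · exact max_le (by linarith) (min_le_left _ _)
  · rw [abs_of_nonpos h, neg_neg]
    constructor
    · refine le_max_of_le_right (le_min le_rfl (by linarith))
    · refine max_le (by linarith) ((min_le_left _ _).trans (by linarith))

theorem tendsto_trunc (a : ℝ) :
    Tendsto (fun n : ℕ => max (-(n : ℝ)) (min a n)) atTop (𝓝 a) := by
  refine tendsto_atTop_of_eventually_const (i₀ := ⌈|a|⌉₊) (fun n hn => ?_)
  have h1 : |a| ≤ n := (Nat.le_ceil _).trans (by exact_mod_cast hn)
  rw [abs_le] at h1
  rw [min_eq_left h1.2, max_eq_right h1.1]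

/-- From bounded tests to all 1-Lipschitz tests; `P` gets its first moment for free. -/
theorem DLb.toDLip {P Q : Measure X} [IsProbabilityMeasure P] [IsProbabilityMeasure Q] {e : ℝ}
    (h : DLb P Q e) (hQ : Integrable (fun x => ‖x‖) Q) : DLip P Q e := by
  have he := h.nonneg
  -- first moment of P
  have hn1 : LipschitzWith 1 (fun x : X => ‖x‖) := lipschitzWith_one_norm
  have hP : Integrable (fun x => ‖x‖) P := by
    have hb : ∀ n : ℕ, ∫ x, max (-(n : ℝ)) (min ‖x‖ n) ∂P ≤ ∫ x, ‖x‖ ∂Q + e := by
      intro n
      have h1 := h _ (lipschitz_trunc hn1 n) ⟨n, fun x => abs_trunc_le (Nat.cast_nonneg n)⟩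
      have h2 : ∫ x, max (-(n : ℝ)) (min ‖x‖ n) ∂Q ≤ ∫ x, ‖x‖ ∂Q := by
        refine integral_mono (integrable_of_bdd (lipschitz_trunc hn1 n)
          (fun x => abs_trunc_le (Nat.cast_nonneg n))) hQ (fun x => ?_)
        exact max_le (by have := norm_nonneg x; have : (0:ℝ) ≤ n := Nat.cast_nonneg n; linarith)
          (min_le_left _ _)
      have h3 := (abs_le.1 h1).2
      linarith
    refine ⟨continuous_norm.aestronglyMeasurable, ?_⟩
    have hlim : ∫⁻ x, ‖(‖x‖ : ℝ)‖ₑ ∂P
        ≤ ENNReal.ofReal (∫ x, ‖x‖ ∂Q + e) := by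
      have hmono : ∫⁻ x, ‖(‖x‖ : ℝ)‖ₑ ∂P
          = ∫⁻ x, ⨆ n : ℕ, ENNReal.ofReal (max (-(n : ℝ)) (min ‖x‖ n)) ∂P := by
        refine lintegral_congr fun x => ?_
        rw [← ofReal_norm, norm_norm]
        apply le_antisymm
        · refine le_iSup_of_le ⌈‖x‖⌉₊ ?_
          refine ENNReal.ofReal_le_ofReal ?_
          exact le_max_of_le_right (le_min le_rfl (Nat.le_ceil _))
        · refine iSup_le fun n => ENNReal.ofReal_le_ofReal ?_
          exact max_le (by have := norm_nonneg x; have : (0:ℝ) ≤ n := Nat.cast_nonneg n; linarith)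
            (min_le_left _ _)
      rw [hmono, lintegral_iSup]
      · refine iSup_le fun n => ?_
        rw [← ofReal_integral_eq_lintegral_ofReal]
        · exact ENNReal.ofReal_le_ofReal (hb n)
        · exact integrable_of_bdd (lipschitz_trunc hn1 n)
            (fun x => abs_trunc_le (Nat.cast_nonneg n))
        · refine Eventually.of_forall fun x => ?_
          exact le_max_of_le_right (le_min (norm_nonneg x) (Nat.cast_nonneg n))
      · intro n
        exact (lipschitz_trunc hn1 n).continuous.measurable.ennreal_ofReal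
      · intro n m hnm x
        refine ENNReal.ofReal_le_ofReal ?_
        have hc : (n : ℝ) ≤ m := by exact_mod_cast hnm
        refine max_le ?_ ?_
        · exact le_max_of_le_right (le_min (by
            have := norm_nonneg x; have : (0:ℝ) ≤ n := Nat.cast_nonneg n; linarith)
            (by have : (0:ℝ) ≤ n := Nat.cast_nonneg n; have : (0:ℝ) ≤ m := Nat.cast_nonneg m
                linarith))
        · exact le_max_of_le_right (min_le_min le_rfl hc)
    exact lt_of_le_of_lt hlim ENNReal.ofReal_lt_top
  refine ⟨hP, hQ, fun f hf => ?_⟩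
  have iP : Integrable f P := integrable_of_lipschitz hP hf
  have iQ : Integrable f Q := integrable_of_lipschitz hQ hf
  have lim : ∀ (S : Measure X) [IsProbabilityMeasure S], Integrable f S →
      Tendsto (fun n : ℕ => ∫ x, max (-(n : ℝ)) (min (f x) n) ∂S) atTop (𝓝 (∫ x, f x ∂S)) := by
    intro S _ hR
    refine tendsto_integral_of_dominated_convergence (fun x => |f x|) ?_ hR.abs ?_ ?_
    · intro n
      exact (lipschitz_trunc hf n).continuous.aestronglyMeasurable
    · intro n
      refine Eventually.of_forall fun x => ?_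
      rw [Real.norm_eq_abs]
      exact abs_trunc_le_abs (Nat.cast_nonneg n)
    · exact Eventually.of_forall fun x => tendsto_trunc (f x)
  have l := ((lim P iP).sub (lim Q iQ)).abs
  refine le_of_tendsto l (Eventually.of_forall fun n => ?_)
  exact h _ (lipschitz_trunc hf n) ⟨n, fun x => abs_trunc_le (Nat.cast_nonneg n)⟩

end ToDLip

end Crest.Agent.R285
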