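import Crest.Agent.R285.Draw

/-!
Row 285 (S0430): averaging.  Four draws of `N(c, rc²)` give one draw of `N(c, (rc/2)²)`.
-/

set_option autoImplicit false
set_option linter.unusedSectionVars false

open MeasureTheory ProbabilityTheory Set Filter
open Crest.OracleSampling (E Admissible)
open scoped NNReal ENNReal

noncomputable section

namespace Crest.Agent.R285

open Crest.Agent.R285.Comp

variable {d : ℕ} {P X : Type} [PseudoMetricSpace P] [MeasurableSpace P]
  [PseudoMetricSpace X] [MeasurableSpace X] {ι : Type} [Fintype ι] {rc : ℝ} {q : ℕ} {L : ℝ≥0}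

/-- block averages -/
def blockAvg (m : ℕ) (y : ((_ : ι) × Fin m) → E d) (i : ι) : E d :=
  ∑ j, ((m : ℝ)⁻¹) • y ⟨i, j⟩

theorem measurable_blockAvg (m : ℕ) : Measurable (blockAvg (d := d) (ι := ι) m) := by
  unfold blockAvg
  fun_prop

theorem blockAvg_lipschitz {m : ℕ} (hm : 0 < m) :
    LipschitzWith 1 (blockAvg (d := d) (ι := ι) m) := by
  refine LipschitzWith.of_dist_le_mul fun x y => ?_
  rw [NNReal.coe_one, one_mul, dist_pi_le_iff dist_nonneg]
  intro i
  have hm' : (0 : ℝ) < m := by exact_mod_cast hm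
  rw [dist_eq_norm]
  have h1 : blockAvg m x i - blockAvg m y i = ∑ j, ((m : ℝ)⁻¹) • (x ⟨i, j⟩ - y ⟨i, j⟩) := by
    simp only [blockAvg, smul_sub, Finset.sum_sub_distrib]
  rw [h1]
  refine (norm_sum_le _ _).trans ?_
  calc ∑ j : Fin m, ‖((m : ℝ)⁻¹) • (x ⟨i, j⟩ - y ⟨i, j⟩)‖
      ≤ ∑ _j : Fin m, (m : ℝ)⁻¹ * dist x y := by
        refine Finset.sum_le_sum fun j _ => ?_
        rw [norm_smul, Real.norm_eq_abs, abs_of_pos (inv_pos.mpr hm')]
        refine mul_le_mul_of_nonneg_left ?_ (inv_pos.mpr hm').le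
        rw [← dist_eq_norm]
        exact dist_le_pi_dist x y _
    _ = dist x y := by
        rw [Finset.sum_const, Finset.card_univ, Fintype.card_fin, nsmul_eq_mul, ← mul_assoc,
          mul_inv_cancel₀ hm'.ne', one_mul]

theorem map_blockAvg {m : ℕ} (hm : 0 < m) (c : E d) (h0 : 0 ≤ rc) :
    (Measure.pi fun _ : (_ : ι) × Fin m => gN c rc).map (blockAvg m)
      = Measure.pi fun _ : ι => gN c (rc / √(m : ℝ)) := by
  have h1 := pi_curry (ι := ι) (K := fun _ => Fin m) (gN c rc)
  have hg : Measurable fun z : ι → Fin m → E d => fun i => ∑ j, ((m : ℝ)⁻¹) • z i j := by fun_prop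
  have e1 : (Measure.pi fun _ : (_ : ι) × Fin m => gN c rc).map (blockAvg m)
      = ((Measure.pi fun _ : (_ : ι) × Fin m => gN c rc).map (fun y i k => y ⟨i, k⟩)).map
        (fun z i => ∑ j, ((m : ℝ)⁻¹) • z i j) := by
    rw [Measure.map_map hg (by fun_prop)]
    rfl
  rw [e1, h1]
  have h2 := Measure.pi_map_pi (μ := fun _ : ι => Measure.pi fun _ : Fin m => gN c rc)
    (f := fun _ (z : Fin m → E d) => ∑ j, ((m : ℝ)⁻¹) • z j)
    (fun i => (by fun_prop : Measurable fun z : Fin m → E d =>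
      ∑ j, ((m : ℝ)⁻¹) • z j).aemeasurable)
  rw [h2]
  congr 1
  funext i
  exact gN_avg c rc h0 m hm

/-- Averages of `m` draws. -/
theorem GD.avg {m : ℕ} (hm : 0 < m) (h0 : 0 ≤ rc)
    {T : (E d → ℝ) → E d → P → Measure X} {err : (E d → ℝ) → E d → P → ℝ}
    (h : GD ι (rc / √(m : ℝ)) q L T err) : GD ((_ : ι) × Fin m) rc q L T err := by
  obtain ⟨Ω, mΩ, μ, hμ, f, hf, H⟩ := h
  have hb := measurable_blockAvg (d := d) (ι := ι) m
  have hm1 : Measurable fun z : (P × (((_ : ι) × Fin m) → E d)) × Ω =>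
      ((z.1.1, blockAvg m z.1.2), z.2) := by fun_prop
  refine ⟨Ω, mΩ, μ, hμ, fun V z => f V ((z.1.1, blockAvg m z.1.2), z.2), hf.comap hm1,
    fun V hV => ⟨fun ω => ?_, fun c p => ?_⟩⟩
  · have h1 : LipschitzWith 1 fun y : P × (((_ : ι) × Fin m) → E d) => (y.1, blockAvg m y.2) := by
      have := (LipschitzWith.prod_fst (α := P) (β := ((_ : ι) × Fin m) → E d)).prodMk
        ((blockAvg_lipschitz (d := d) (ι := ι) hm).comp
          (LipschitzWith.prod_snd (α := P) (β := ((_ : ι) × Fin m) → E d)))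
      simpa using this
    have h2 := ((H V hV).1 ω).comp h1
    rw [mul_one] at h2
    exact h2
  · have hfm : Measurable (f V) := hf.measurable (measurable_oracle hV)
    have e1 : ((Measure.pi fun _ : (_ : ι) × Fin m => gN c rc).prod μ).map
        (fun y => f V ((p, blockAvg m y.1), y.2))
        = ((Measure.pi fun _ : ι => gN c (rc / √(m : ℝ))).prod μ).map
          fun y => f V ((p, y.1), y.2) := by
      rw [← map_blockAvg hm c h0]
      have e3 : μ = μ.map id := by rw [Measure.map_id]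
      conv_rhs => rw [e3]
      rw [Measure.map_prod_map _ _ hb measurable_id, Measure.map_map (by fun_prop) (by fun_prop)]
      rfl
    have := (H V hV).2 c p
    rw [← e1] at this
    exact this

/-- Four draws give half of the noise. -/
theorem GD.avg4 (h0 : 0 ≤ rc)
    {T : (E d → ℝ) → E d → P → Measure X} {err : (E d → ℝ) → E d → P → ℝ}
    (h : GD ι (rc / 2) q L T err) : GD (ι × Fin 4) rc q L T err := by
  have h4 : √((4 : ℕ) : ℝ) = 2 := by
    rw [show ((4 : ℕ) : ℝ) = 2 ^ 2 by norm_num, Real.sqrt_sq (by norm_num)]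
  have h1 : GD ((_ : ι) × Fin 4) rc q L T err := GD.avg (by norm_num) h0 (by rw [h4]; exact h)
  exact GD.reindex h1 (g := fun s : (_ : ι) × Fin 4 => (s.1, s.2)) (fun s t hst => by
    obtain ⟨s1, s2⟩ := s
    obtain ⟨t1, t2⟩ := t
    simp only [Prod.mk.injEq] at hst
    obtain ⟨rfl, rfl⟩ := hst
    rfl)

end Crest.Agent.R285
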