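import Crest.Agent.R285.Draw
import Crest.Agent.R285.Flat

/-!
Row 285 (S0430): draws of the value of a linear form (`LF` of Flat.lean) in the hidden centre, the
visible persistent vectors and the `G`-values.
-/

set_option autoImplicit false
set_option linter.unusedSectionVars false

open MeasureTheory ProbabilityTheory Set Filter
open Crest.OracleSampling (E Admissible)
open scoped NNReal ENNReal

noncomputable section

namespace Crest.Agent.R285

variable {d : ℕ}

/-- Linear combinations with a visible part, in `Draw` form. -/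
theorem Draw.linV {P : Type} [PseudoMetricSpace P] [MeasurableSpace P] {rc : ℝ}
    {J : Type} [Fintype J] {N qq : J → ℕ} {LL : J → ℝ≥0} {σ : J → ℝ}
    {v : J → (E d → ℝ) → E d → P → E d} {err : J → E d → P → ℝ}
    (h : ∀ j, Draw rc (N j) (qq j) (LL j) (σ j) (v j) (err j)) (a : J → ℝ)
    {w : P → E d} (hw : Measurable w) {b : ℝ≥0} (hwL : LipschitzWith b w) {R : ℝ}
    (hR : Real.sqrt (∑ j, (a j * σ j) ^ 2) ≤ R) :
    Draw rc (∑ j, N j) (∑ j, qq j) (b + ∑ j, ‖a j‖₊ * LL j) R
      (fun V c p => w p + ∑ j, a j • v j V c p) (fun c p => ∑ j, |a j| * err j c p) := by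
  have h1 := GD.lin (fun j => (h j).toGD) a (w := fun _ p => w p) (q' := 0)
    (IsQ.const hw) (b := b) (fun _ _ => hwL) hR
  rw [add_zero] at h1
  exact GD.toDraw h1 (by simp) (fun V hV c p => le_rfl)

theorem Draw.form {Pt ι : Type} [Fintype Pt] [Fintype ι] {rc : ℝ} {N q : ℕ} {L : ℝ≥0}
    {σ : ι → ℝ} {g : (E d → ℝ) → E d → (Pt → E d) → ι → E d} {err : E d → (Pt → E d) → ℝ}
    (hrc : 0 ≤ rc) (hσ : ∀ i, 0 ≤ σ i)
    (h : ∀ i, Draw rc N q L (σ i) (fun V c p => g V c p i) err)
    (f : LF Pt ι) {r : ℝ} (hr : LF.nz rc σ f ≤ r) {T : ℝ≥0} (hT : LF.tot f ≤ T) :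
    Draw rc (1 + Fintype.card ι * N) (Fintype.card ι * q) (T * (1 + L)) r
      (fun V c p => LF.eval c p (g V c p) f) (fun c p => (∑ i, |f.2.2 i|) * err c p) := by
  have hw : Measurable fun p : Pt → E d => ∑ k, f.2.1 k • p k := by fun_prop
  have hwL : LipschitzWith (∑ k, ‖f.2.1 k‖₊) fun p : Pt → E d => ∑ k, f.2.1 k • p k := by
    refine LipschitzWith.of_dist_le_mul fun x y => ?_
    rw [dist_eq_norm, ← Finset.sum_sub_distrib]
    push_cast
    rw [Finset.sum_mul]
    refine (norm_sum_le _ _).trans (Finset.sum_le_sum fun j _ => ?_)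
    rw [← smul_sub, norm_smul, ← dist_eq_norm]
    exact mul_le_mul_of_nonneg_left (dist_le_pi_dist x y j) (norm_nonneg _)
  have hv : ∀ o : Option ι, Draw (P := Pt → E d) rc (o.elim 1 fun _ => N) (o.elim 0 fun _ => q)
      (o.elim 1 fun _ => L) (o.elim rc fun i => σ i)
      (fun V c p => o.elim c fun i => g V c p i) (fun c p => o.elim 0 fun _ => err c p) := by
    intro o
    cases o with
    | none => exact Draw.hid hrc le_rfl
    | some i => exact h i
  have hR : Real.sqrt (∑ o : Option ι, ((o.elim f.1 fun i => f.2.2 i) *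
      (o.elim rc fun i => σ i)) ^ 2) ≤ r := by
    refine le_trans (le_of_eq ?_) hr
    rw [← Real.sqrt_sq (LF.nz_nonneg rc σ f), LF.nz_sq, Fintype.sum_option]
    rfl
  have h1 := Draw.linV hv (fun o => o.elim f.1 fun i => f.2.2 i) hw hwL hR
  have h2 : Draw rc (1 + Fintype.card ι * N) (Fintype.card ι * q)
      ((∑ k, ‖f.2.1 k‖₊) + ∑ o : Option ι, ‖o.elim f.1 fun i => f.2.2 i‖₊ * o.elim 1 fun _ => L) r
      (fun V c p => LF.eval c p (g V c p) f) (fun c p => (∑ i, |f.2.2 i|) * err c p) := by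
    refine Draw.congr (Draw.mono h1 (le_of_eq ?_) (le_of_eq ?_) le_rfl (fun c p => le_of_eq ?_)) ?_
    · rw [Fintype.sum_option]
      simp
    · rw [Fintype.sum_option]
      simp
    · rw [Fintype.sum_option]
      simp [Finset.sum_mul]
    · intro V hV c p
      rw [LF.eval_apply, Fintype.sum_option]
      simp only [Option.elim]
      abel
  refine Draw.mono h2 le_rfl le_rfl ?_ (fun _ _ => le_rfl)
  rw [Fintype.sum_option]
  simp only [Option.elim, mul_one]
  rw [← NNReal.coe_le_coe]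
  push_cast
  have e1 : (∑ k, ‖f.2.1 k‖) + (‖f.1‖ + ∑ i, ‖f.2.2 i‖ * (L : ℝ))
      ≤ (|f.1| + ∑ k, |f.2.1 k| + ∑ i, |f.2.2 i|) * (1 + L) := by
    simp only [Real.norm_eq_abs]
    rw [← Finset.sum_mul]
    have a1 : 0 ≤ |f.1| := abs_nonneg _
    have a2 : 0 ≤ ∑ k, |f.2.1 k| := Finset.sum_nonneg fun _ _ => abs_nonneg _
    have a3 : 0 ≤ ∑ i, |f.2.2 i| := Finset.sum_nonneg fun _ _ => abs_nonneg _
    have a4 : (0 : ℝ) ≤ L := L.2
    nlinarith [mul_nonneg a1 a4, mul_nonneg a2 a4]
  refine e1.trans ?_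
  exact mul_le_mul_of_nonneg_right hT (by positivity)

end Crest.Agent.R285
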