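import Crest.Agent.R285.PolyDv

/-!
Row 285: `Dv` and products / curves (auxiliary for SM1, SM2).
-/

set_option autoImplicit false
set_option linter.unusedSectionVars false

open Set Filter Topology MeasureTheory
open scoped ENNReal

noncomputable section

namespace Crest.Agent.R285.PolyDv

open Crest.Agent.R285

variable {V W : Type} [NormedAddCommGroup V] [NormedSpace ℝ V] [NormedAddCommGroup W]
  [NormedSpace ℝ W] {F : Type*} [NormedAddCommGroup F] [NormedSpace ℝ F] {J : Set ℝ}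

/-- `Dv` from derivatives along curves. -/
theorem Dv_of_curve {v : ℝ → W → W} {f : ℝ → W → F} (hJ : IsOpen J) (hf : SmOn f J) {t : ℝ}
    (ht : t ∈ J) {x : W} {D : F}
    (h : ∀ c : ℝ → W, c t = x → HasDerivAt c (v t x) t → HasDerivAt (fun r => f r (c r)) D t) :
    Dv v f t x = D := by
  set c : ℝ → W := fun r => x + (r - t) • v t x with hc
  have hct : c t = x := by simp [hc]
  have h1 : HasDerivAt c (v t x) t := by
    have h2 : HasDerivAt (fun r : ℝ => (r - t) • v t x) ((1 : ℝ) • v t x) t :=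
      ((hasDerivAt_id t).sub_const t).smul_const (v t x)
    have h3 := h2.const_add x
    rw [one_smul] at h3
    exact h3
  have h3 : HasDerivAt c (v t (c t)) t := by rw [hct]; exact h1
  have h4 := hasDerivAt_comp_curve (f := f) h3 (by rw [hct]; exact hf.differentiableAt hJ ht x)
  rw [hct] at h4
  exact h4.unique (h c hct h1)

/-- Lift of a function of the first coordinate. -/
theorem SmOn.fst {f : ℝ → V → F} (hf : SmOn f J) : SmOn (fun t (p : V × W) => f t p.1) J :=
  ContDiffOn.comp (g := fun q : ℝ × V => f q.1 q.2) (f := fun q : ℝ × V × W => (q.1, q.2.1)) hf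
    (by fun_prop) (fun q hq => ⟨hq.1, mem_univ _⟩)

theorem Dv_fst {v : ℝ → V → V} {v₂ : ℝ → V × W → V × W} {f : ℝ → V → F} {t : ℝ} {p : V × W}
    (hv : (v₂ t p).1 = v t p.1)
    (hf : DifferentiableAt ℝ (fun q : ℝ × V => f q.1 q.2) (t, p.1)) :
    Dv v₂ (fun t (p : V × W) => f t p.1) t p = Dv v f t p.1 := by
  have h1 : HasFDerivAt (fun q : ℝ × V × W => ((q.1, q.2.1) : ℝ × V))
      ((ContinuousLinearMap.fst ℝ ℝ (V × W)).prod ((ContinuousLinearMap.fst ℝ V W).comp
        (ContinuousLinearMap.snd ℝ ℝ (V × W)))) (t, p) := by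
    have := ((ContinuousLinearMap.fst ℝ ℝ (V × W)).prod ((ContinuousLinearMap.fst ℝ V W).comp
        (ContinuousLinearMap.snd ℝ ℝ (V × W)))).hasFDerivAt (x := (t, p))
    exact this
  have h2 := hf.hasFDerivAt.comp (t, p) h1
  have h3 : HasFDerivAt (fun q : ℝ × V × W => f q.1 q.2.1) _ (t, p) := h2
  simp only [Dv]
  rw [h3.fderiv]
  simp [hv]

theorem iterate_Dv_fst {v : ℝ → V → V} {v₂ : ℝ → V × W → V × W} {f : ℝ → V → F} (hJ : IsOpen J)
    (hf : SmOn f J) (hvs : SmOn v J) (hv : ∀ t ∈ J, ∀ p, (v₂ t p).1 = v t p.1) (n : ℕ) :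
    ∀ t ∈ J, ∀ p, (Dv v₂)^[n] (fun t (p : V × W) => f t p.1) t p = (Dv v)^[n] f t p.1 := by
  induction n with
  | zero => intro t _ p; rfl
  | succ n ih =>
    intro t ht p
    rw [Function.iterate_succ_apply', Function.iterate_succ_apply']
    rw [Dv_congr hJ ih t ht p]
    exact Dv_fst (hv t ht p) ((hf.iterate_Dv hJ hvs n).differentiableAt hJ ht p.1)

/-- Change of coordinates: if `φ` transports the field `v` to `v'`, then `Dv v (f ∘ φ) = (Dv v' f) ∘ φ`. -/
theorem Dv_conj {v : ℝ → V → V} {v' : ℝ → W → W} {φ : ℝ → V → W} {f : ℝ → W → F} {t : ℝ} {x : V}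
    (hφ : DifferentiableAt ℝ (fun q : ℝ × V => φ q.1 q.2) (t, x))
    (hv : Dv v φ t x = v' t (φ t x))
    (hf : DifferentiableAt ℝ (fun q : ℝ × W => f q.1 q.2) (t, φ t x)) :
    Dv v (fun t x => f t (φ t x)) t x = Dv v' f t (φ t x) := by
  have h1 : HasFDerivAt (fun q : ℝ × V => ((q.1, φ q.1 q.2) : ℝ × W))
      ((ContinuousLinearMap.fst ℝ ℝ V).prod (fderiv ℝ (fun q : ℝ × V => φ q.1 q.2) (t, x))) (t, x) :=
    hasFDerivAt_fst.prodMk hφ.hasFDerivAt
  have h2 := hf.hasFDerivAt.comp (t, x) h1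
  have h3 : HasFDerivAt (fun q : ℝ × V => f q.1 (φ q.1 q.2)) _ (t, x) := h2
  simp only [Dv] at hv ⊢
  rw [h3.fderiv]
  simp only [ContinuousLinearMap.comp_apply, ContinuousLinearMap.prod_apply,
    ContinuousLinearMap.coe_fst']
  rw [hv]

theorem iterate_Dv_conj {v : ℝ → V → V} {v' : ℝ → W → W} {φ : ℝ → V → W} {f : ℝ → W → F}
    (hJ : IsOpen J) (hφ : SmOn φ J) (hv : ∀ t ∈ J, ∀ x, Dv v φ t x = v' t (φ t x))
    (hv' : SmOn v' J) (hf : SmOn f J) (n : ℕ) :
    ∀ t ∈ J, ∀ x, (Dv v)^[n] (fun t x => f t (φ t x)) t x = (Dv v')^[n] f t (φ t x) := by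
  induction n with
  | zero => intro t _ x; rfl
  | succ n ih =>
    intro t ht x
    rw [Function.iterate_succ_apply', Function.iterate_succ_apply']
    rw [Dv_congr hJ ih t ht x]
    exact Dv_conj (hφ.differentiableAt hJ ht x) (hv t ht x)
      ((hf.iterate_Dv hJ hv' n).differentiableAt hJ ht _)

section meas

variable [MeasurableSpace V] [BorelSpace V] [MeasurableSpace W]

theorem eLpNorm_fst {μ : Measure V} {γ : Measure W} [SFinite μ] [IsProbabilityMeasure γ]
    {g : V → F} (hg : Continuous g) [SecondCountableTopology V] {p : ℝ≥0∞} :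
    eLpNorm (fun x : V × W => g x.1) p (μ.prod γ) = eLpNorm g p μ := by
  have h1 : (μ.prod γ).map Prod.fst = μ := by
    rw [Measure.map_fst_prod, measure_univ, one_smul]
  have h2 := eLpNorm_map_measure (p := p) (μ := μ.prod γ) (f := (Prod.fst : V × W → V)) (g := g)
    (hg.aestronglyMeasurable) measurable_fst.aemeasurable
  rw [h1] at h2
  exact h2.symm

end meas

end Crest.Agent.R285.PolyDv
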