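import Crest.Agent.R285.Query

/-!
Row 285 (S0430): reduction of small dimensions.  An algorithm for dimension `d + k` run on the lifted
potential `V (P x) + (3/4) |Q x|²` gives one for dimension `d` with the same number of queries.
-/

set_option autoImplicit false

open MeasureTheory Crest.OracleSampling

namespace Crest.Agent.R285.SmallD

variable {d k : ℕ}

/-- The splitting `ℝ^(d+k) = ℝ^d × ℝ^k`. -/
noncomputable abbrev spl (d k : ℕ) : E (d + k) ≃L[ℝ] E d × E k := EuclideanSpace.finAddEquivProd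

theorem spl_norm_sq (x : E (d + k)) : ‖x‖ ^ 2 = ‖(spl d k x).1‖ ^ 2 + ‖(spl d k x).2‖ ^ 2 := by
  set e1 := (LinearIsometryEquiv.piLpCongrLeft 2 ℝ ℝ (finSumFinEquiv (m := d) (n := k)).symm)
  set e2 := PiLp.sumPiLpEquivProdLpPiLp (𝕜 := ℝ) 2 (fun _ : Fin d ⊕ Fin k => ℝ)
  have h1 : ‖x‖ = ‖e2 (e1 x)‖ := by rw [LinearIsometryEquiv.norm_map, LinearIsometryEquiv.norm_map]
  rw [h1, WithLp.prod_norm_sq_eq_of_L2]
  rfl

theorem spl_inner (x y : E (d + k)) :
    inner ℝ x y = inner ℝ (spl d k x).1 (spl d k y).1 + inner ℝ (spl d k x).2 (spl d k y).2 := by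
  set e1 := (LinearIsometryEquiv.piLpCongrLeft 2 ℝ ℝ (finSumFinEquiv (m := d) (n := k)).symm)
  set e2 := PiLp.sumPiLpEquivProdLpPiLp (𝕜 := ℝ) 2 (fun _ : Fin d ⊕ Fin k => ℝ)
  have h1 : inner ℝ x y = inner ℝ (e2 (e1 x)) (e2 (e1 y)) := by
    rw [LinearIsometryEquiv.inner_map_map, LinearIsometryEquiv.inner_map_map]
  rw [h1, WithLp.prod_inner_apply]
  rfl

theorem spl_measurePreserving :
    MeasurePreserving (spl d k) (volume : Measure (E (d + k))) ((volume : Measure (E d)).prod
      (volume : Measure (E k))) := by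
  set e1 := (LinearIsometryEquiv.piLpCongrLeft 2 ℝ ℝ (finSumFinEquiv (m := d) (n := k)).symm)
  set e2 := PiLp.sumPiLpEquivProdLpPiLp (𝕜 := ℝ) 2 (fun _ : Fin d ⊕ Fin k => ℝ)
  have h1 := e1.measurePreserving
  have h2 := e2.measurePreserving
  have h3 := WithLp.volume_preserving_ofLp (E d) (E k)
  exact h3.comp (h2.comp h1)

/-- First block. -/
noncomputable def P (d k : ℕ) : E (d + k) →L[ℝ] E d :=
  (ContinuousLinearMap.fst ℝ (E d) (E k)).comp (spl d k : E (d + k) →L[ℝ] E d × E k)

/-- Second block. -/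
noncomputable def Q (d k : ℕ) : E (d + k) →L[ℝ] E k :=
  (ContinuousLinearMap.snd ℝ (E d) (E k)).comp (spl d k : E (d + k) →L[ℝ] E d × E k)

theorem P_apply (x : E (d + k)) : P d k x = (spl d k x).1 := rfl

theorem Q_apply (x : E (d + k)) : Q d k x = (spl d k x).2 := rfl

/-- The lifted potential. -/
noncomputable def lift (k : ℕ) (V : E d → ℝ) (x : E (d + k)) : ℝ :=
  V (P d k x) + (3 / 4) * ‖Q d k x‖ ^ 2

theorem hasFDerivAt_quad (y : E k) :
    HasFDerivAt (fun y : E k => (3 / 4) * ‖y‖ ^ 2) ((3 / 2 : ℝ) • innerSL ℝ y) y := by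
  have h := (hasStrictFDerivAt_norm_sq y).hasFDerivAt.const_mul (3 / 4 : ℝ)
  have e : (3 / 4 : ℝ) • (2 • (innerSL ℝ) y) = (3 / 2 : ℝ) • innerSL ℝ y := by
    ext v
    simp
    ring
  rw [e] at h
  exact h

theorem lift_hasFDerivAt {V : E d → ℝ} (x : E (d + k)) (hV : DifferentiableAt ℝ V (P d k x)) :
    HasFDerivAt (lift k V) ((fderiv ℝ V (P d k x)).comp (P d k) +
      ((3 / 2 : ℝ) • innerSL ℝ (Q d k x)).comp (Q d k)) x := by
  have h1 := (hV.hasFDerivAt).comp x (P d k).hasFDerivAt
  have h2 := (hasFDerivAt_quad (Q d k x)).comp x (Q d k).hasFDerivAt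
  exact h1.add h2

theorem lift_fderiv_apply {V : E d → ℝ} (x h : E (d + k)) (hV : DifferentiableAt ℝ V (P d k x)) :
    fderiv ℝ (lift k V) x h = fderiv ℝ V (P d k x) (P d k h) +
      (3 / 2) * inner ℝ (Q d k x) (Q d k h) := by
  rw [(lift_hasFDerivAt x hV).fderiv]
  rfl

theorem lift_gradient {V : E d → ℝ} (x : E (d + k)) (hV : DifferentiableAt ℝ V (P d k x)) :
    gradient (lift k V) x = (spl d k).symm (gradient V (P d k x), (3 / 2 : ℝ) • Q d k x) := by
  refine ext_inner_right ℝ fun v => ?_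
  rw [spl_inner ((spl d k).symm _) v, ContinuousLinearEquiv.apply_symm_apply]
  rw [← P_apply, ← Q_apply]
  have h1 : inner ℝ (gradient (lift k V) x) v = fderiv ℝ (lift k V) x v := by
    rw [← InnerProductSpace.toDual_apply_apply, gradient, LinearIsometryEquiv.apply_symm_apply]
  have h2 : inner ℝ (gradient V (P d k x)) (P d k v) = fderiv ℝ V (P d k x) (P d k v) := by
    rw [← InnerProductSpace.toDual_apply_apply, gradient, LinearIsometryEquiv.apply_symm_apply]
  rw [h1, lift_fderiv_apply x v hV]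
  simp only [inner_smul_left]
  rw [h2]
  rfl

theorem lift_iteratedFDeriv {V : E d → ℝ} (hV : ContDiff ℝ 2 V) (hL : ContDiff ℝ 2 (lift k V))
    (x h : E (d + k)) :
    iteratedFDeriv ℝ 2 (lift k V) x ![h, h] =
      iteratedFDeriv ℝ 2 V (P d k x) ![P d k h, P d k h] + (3 / 2) * ‖Q d k h‖ ^ 2 := by
  rw [iteratedFDeriv_two_apply, iteratedFDeriv_two_apply]
  have hd : Differentiable ℝ V := hV.differentiable (by norm_num)
  have hd2 : Differentiable ℝ (fderiv ℝ V) :=
    (hV.fderiv_right (m := 1) (by norm_num)).differentiable (by norm_num)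
  have hd3 : Differentiable ℝ (fderiv ℝ (lift k V)) :=
    (hL.fderiv_right (m := 1) (by norm_num)).differentiable (by norm_num)
  have h1 : ∀ x, HasFDerivAt (fun x => fderiv ℝ (lift k V) x h)
      ((fderiv ℝ (fderiv ℝ (lift k V)) x).flip h) x := fun x =>
    ((hd3 x).hasFDerivAt).clm_apply (hasFDerivAt_const h x) |>.congr_fderiv (by ext; simp)
  have h2 : HasFDerivAt (fun x => fderiv ℝ V (P d k x) (P d k h))
      (((fderiv ℝ (fderiv ℝ V) (P d k x)).flip (P d k h)).comp (P d k)) x :=
    (((hd2 (P d k x)).hasFDerivAt).clm_apply (hasFDerivAt_const (P d k h) (P d k x))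
      |>.congr_fderiv (by ext; simp)).comp x (P d k).hasFDerivAt
  have h3 : HasFDerivAt (fun x : E (d + k) => (3 / 2) * inner ℝ (Q d k x) (Q d k h))
      ((3 / 2 : ℝ) • (innerSL ℝ (Q d k h)).comp (Q d k)) x := by
    have := (((innerSL ℝ (Q d k h)).comp (Q d k)).hasFDerivAt (x := x)).const_mul (3 / 2 : ℝ)
    refine this.congr_of_eventuallyEq (Filter.Eventually.of_forall fun y => ?_)
    simp only [ContinuousLinearMap.comp_apply, innerSL_apply_apply]
    rw [real_inner_comm]
  have h4 : (fun x => fderiv ℝ (lift k V) x h) = fun x => fderiv ℝ V (P d k x) (P d k h) +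
      (3 / 2) * inner ℝ (Q d k x) (Q d k h) := by
    funext y
    exact lift_fderiv_apply y h (hd _)
  have h5 := h1 x
  rw [h4] at h5
  have h6 := h5.unique (h2.add h3)
  have h7 := congrArg (fun L => L h) h6
  simp only [ContinuousLinearMap.flip_apply] at h7
  simp only [Matrix.cons_val_zero, Matrix.cons_val_one]
  rw [h7]
  change fderiv ℝ (fderiv ℝ V) (P d k x) (P d k h) (P d k h) +
    (3 / 2) * inner ℝ (Q d k h) (Q d k h) = _
  rw [real_inner_self_eq_norm_sq]

theorem lift_contDiff {V : E d → ℝ} (h1 : ContDiff ℝ 2 V) : ContDiff ℝ 2 (lift k V) := by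
  have e1 : ContDiff ℝ 2 (fun x : E (d + k) => V (P d k x)) := h1.comp (P d k).contDiff
  have e2 : ContDiff ℝ 2 (fun x : E (d + k) => (3 / 4 : ℝ) * ‖Q d k x‖ ^ 2) :=
    contDiff_const.mul ((Q d k).contDiff.norm_sq ℝ)
  exact e1.add e2

theorem lift_admissible {V : E d → ℝ} (hV : Admissible d V) : Admissible (d + k) (lift k V) := by
  obtain ⟨h1, h2, h3, h4⟩ := hV
  refine ⟨lift_contDiff h1, ?_, ?_, fun x h => ?_⟩
  · simp [lift, h2]
  · rw [lift_gradient _ (h1.differentiable (by norm_num) _)]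
    simp [h3]
  · rw [lift_iteratedFDeriv h1 (lift_contDiff h1)]
    have e1 := h4 (P d k x) (P d k h)
    have e2 := spl_norm_sq h
    rw [← P_apply, ← Q_apply] at e2
    have e3 := sq_nonneg ‖Q d k h‖
    constructor <;> nlinarith

/-! ### simulation of the oracle -/

/-- Translation of an answer. -/
noncomputable def tr (x : E (d + k)) (a : Answer d) : Answer (d + k) :=
  (a.1 + (3 / 4) * ‖Q d k x‖ ^ 2, (spl d k).symm (a.2, (3 / 2 : ℝ) • Q d k x))

theorem measurable_tr : Measurable (fun p : E (d + k) × Answer d => tr p.1 p.2) := by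
  have h1 : Measurable fun p : E (d + k) × Answer d => Q d k p.1 :=
    (Q d k).continuous.measurable.comp measurable_fst
  refine Measurable.prodMk ?_ ?_
  · exact (measurable_fst.comp measurable_snd).add ((h1.norm.pow_const 2).const_mul _)
  · exact (spl d k).symm.continuous.measurable.comp
      ((measurable_snd.comp measurable_snd).prodMk (h1.const_smul (3 / 2 : ℝ)))

theorem oracle_lift {V : E d → ℝ} (hV : Differentiable ℝ V) (x : E (d + k)) :
    oracle (lift k V) x = tr x (oracle V (P d k x)) := by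
  refine Prod.ext rfl ?_
  exact lift_gradient x (hV _)

variable {Ω : Type} [MeasurableSpace Ω]

/-- The simulated transcript. -/
noncomputable def sim (Qy : (i : ℕ) → Ω → (Fin i → Answer (d + k)) → E (d + k)) (ω : Ω) :
    (i : ℕ) → (Fin i → Answer d) → (Fin i → Answer (d + k))
  | 0, _ => Fin.elim0
  | i + 1, a => Fin.snoc (α := fun _ => Answer (d + k)) (sim Qy ω i (Fin.init a))
      (tr (Qy i ω (sim Qy ω i (Fin.init a))) (a (Fin.last i)))

theorem measurable_sim {Qy : (i : ℕ) → Ω → (Fin i → Answer (d + k)) → E (d + k)}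
    (hQ : ∀ i, Measurable (Function.uncurry (Qy i))) (i : ℕ) :
    Measurable fun p : Ω × (Fin i → Answer d) => sim Qy p.1 i p.2 := by
  induction i with
  | zero => exact measurable_const
  | succ i ih =>
    have h0 : Measurable fun p : Ω × (Fin (i + 1) → Answer d) => sim Qy p.1 i (Fin.init p.2) := by
      refine ih.comp (measurable_fst.prodMk ?_)
      exact measurable_pi_lambda _ fun j => (measurable_pi_apply _).comp measurable_snd
    refine measurable_pi_lambda _ fun j => ?_
    refine Fin.lastCases ?_ (fun j => ?_) j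
    · simp only [sim, Fin.snoc_last]
      exact measurable_tr.comp (((hQ i).comp (measurable_fst.prodMk h0)).prodMk
        ((measurable_pi_apply (Fin.last i)).comp measurable_snd))
    · simp only [sim, Fin.snoc_castSucc]
      exact (measurable_pi_apply j).comp h0

/-- Queries to the lifted potential are simulated by queries to the potential. -/
theorem IsQ.lower {β : Type} [MeasurableSpace β] {q : ℕ} {f : (E (d + k) → ℝ) → Ω → β}
    (hf : IsQ q f) : ∃ g : (E d → ℝ) → Ω → β, IsQ q g ∧
      ∀ V, Differentiable ℝ V → ∀ ω, g V ω = f (lift k V) ω := by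
  obtain ⟨Qy, O, hQ, hO, H⟩ := hf
  let Q' : (i : ℕ) → Ω → (Fin i → Answer d) → E d := fun i ω a => P d k (Qy i ω (sim Qy ω i a))
  let O' : Ω → (Fin q → Answer d) → β := fun ω a => O ω (sim Qy ω q a)
  refine ⟨fun V ω => O' ω (trans Q' V ω q), ⟨Q', O', fun i => ?_, ?_, fun V ω => rfl⟩,
    fun V hV ω => ?_⟩
  · exact (P d k).continuous.measurable.comp ((hQ i).comp (measurable_fst.prodMk
      (measurable_sim hQ i)))
  · exact hO.comp (measurable_fst.prodMk (measurable_sim hQ q))
  · have key : ∀ i, sim Qy ω i (trans Q' V ω i) = trans Qy (lift k V) ω i := by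
      intro i
      induction i with
      | zero => rfl
      | succ i ih =>
        have e1 : Fin.init (trans Q' V ω (i + 1)) = trans Q' V ω i := by
          simp only [trans, Fin.init_snoc]
        have e2 : trans Q' V ω (i + 1) (Fin.last i) = oracle V (Q' i ω (trans Q' V ω i)) := by
          simp only [trans, Fin.snoc_last]
        simp only [sim]
        rw [e1, e2, ih]
        simp only [trans]
        congr 1
        rw [oracle_lift hV]
        simp only [Q', ih]
    change O ω (sim Qy ω q (trans Q' V ω q)) = _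
    rw [key, H]

/-! ### marginal of the target -/

/-- The normalising constant of the extra block. -/
noncomputable def cst (k : ℕ) : ENNReal :=
  ∫⁻ y : E k, ENNReal.ofReal (Real.exp (-((3 / 4) * ‖y‖ ^ 2)))

theorem integrable_gauss : Integrable (fun y : E k => Real.exp (-((3 / 4) * ‖y‖ ^ 2))) := by
  have h := GaussianFourier.integrable_cexp_neg_mul_sq_norm_add (V := E k) (b := ((3 / 4 : ℝ) : ℂ))
    (by norm_num) 0 0
  have h2 := h.norm
  refine h2.congr (Filter.Eventually.of_forall fun y => ?_)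
  simp only [zero_mul, add_zero, Complex.norm_exp]
  congr 1
  rw [show (-((3 / 4 : ℝ) : ℂ) * (‖y‖ : ℂ) ^ 2) = ((-((3 / 4) * ‖y‖ ^ 2) : ℝ) : ℂ) by
    push_cast; ring]
  exact Complex.ofReal_re _

theorem cst_ne_top : cst k ≠ ⊤ := (integrable_gauss (k := k)).lintegral_lt_top.ne

theorem cst_ne_zero : cst k ≠ 0 := by
  unfold cst
  rw [Ne, lintegral_eq_zero_iff' (by fun_prop)]
  intro h
  have h1 : ∀ y : E k, ENNReal.ofReal (Real.exp (-((3 / 4) * ‖y‖ ^ 2))) ≠ 0 := fun y => by
    rw [Ne, ENNReal.ofReal_eq_zero, not_le]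
    exact Real.exp_pos _
  have h2 : (∀ᵐ y : E k, False) := h.mono fun y hy => h1 y hy
  rw [Filter.eventually_false_iff_eq_bot, ae_eq_bot] at h2
  have h3 : (volume : Measure (E k)) (Metric.ball 0 1) ≠ 0 :=
    (Metric.isOpen_ball.measure_pos volume (Metric.nonempty_ball.2 one_pos)).ne'
  rw [h2] at h3
  exact h3 rfl

theorem withDensity_lift (V : E d → ℝ) (hV : Measurable V) {B : Set (E d)} (hB : MeasurableSet B) :
    (volume : Measure (E (d + k))).withDensity (fun x => ENNReal.ofReal (Real.exp (-lift k V x)))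
      (P d k ⁻¹' B) =
    (volume : Measure (E d)).withDensity (fun x => ENNReal.ofReal (Real.exp (-V x))) B * cst k := by
  have hPm : Measurable (P d k) := (P d k).continuous.measurable
  rw [withDensity_apply _ (hPm hB), withDensity_apply _ hB, ← lintegral_indicator (hPm hB),
    ← lintegral_indicator hB]
  have h1 : ∀ x : E (d + k), (P d k ⁻¹' B).indicator
      (fun x => ENNReal.ofReal (Real.exp (-lift k V x))) x =
      (fun z : E d × E k => B.indicator (fun x => ENNReal.ofReal (Real.exp (-V x))) z.1 *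
        ENNReal.ofReal (Real.exp (-((3 / 4) * ‖z.2‖ ^ 2)))) (spl d k x) := by
    intro x
    by_cases hx : P d k x ∈ B
    · rw [Set.indicator_of_mem (by exact hx)]
      have hx' : (spl d k x).1 ∈ B := hx
      simp only [Set.indicator_of_mem hx']
      rw [← ENNReal.ofReal_mul (Real.exp_pos _).le, ← Real.exp_add]
      congr 2
      simp only [lift, P_apply, Q_apply]
      ring
    · rw [Set.indicator_of_notMem (by exact hx)]
      have hx' : (spl d k x).1 ∉ B := hx
      simp only [Set.indicator_of_notMem hx', zero_mul]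
  rw [lintegral_congr h1]
  have h2 : Measurable (fun z : E d × E k =>
      B.indicator (fun x => ENNReal.ofReal (Real.exp (-V x))) z.1 *
        ENNReal.ofReal (Real.exp (-((3 / 4) * ‖z.2‖ ^ 2)))) := by
    refine Measurable.mul ?_ (by fun_prop)
    exact (((hV.neg.exp).ennreal_ofReal).indicator hB).comp measurable_fst
  rw [spl_measurePreserving.lintegral_comp h2]
  have hV' : Measurable fun x => ENNReal.ofReal (Real.exp (-V x)) := by fun_prop
  exact lintegral_prod_mul (hV'.indicator hB).aemeasurable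
    (g := fun y : E k => ENNReal.ofReal (Real.exp (-((3 / 4) * ‖y‖ ^ 2)))) (by fun_prop)

theorem target_lift (V : E d → ℝ) (hV : Measurable V) {B : Set (E d)} (hB : MeasurableSet B) :
    target (d + k) (lift k V) (P d k ⁻¹' B) = target d V B := by
  simp only [target, Measure.smul_apply, smul_eq_mul]
  have h1 := withDensity_lift (k := k) V hV hB
  have h2 := withDensity_lift (k := k) V hV MeasurableSet.univ
  rw [Set.preimage_univ] at h2
  rw [h1, h2, ENNReal.mul_inv (Or.inr cst_ne_top) (Or.inr cst_ne_zero)]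
  set a := (volume : Measure (E d)).withDensity (fun x => ENNReal.ofReal (Real.exp (-V x)))
  calc (a Set.univ)⁻¹ * (cst k)⁻¹ * (a B * cst k)
      = (a Set.univ)⁻¹ * a B * ((cst k)⁻¹ * cst k) := by ring
    _ = (a Set.univ)⁻¹ * a B := by rw [ENNReal.inv_mul_cancel cst_ne_zero cst_ne_top, mul_one]

/-! ### conclusion -/

theorem isQ_run {q : ℕ} (A : QueryAlg d q) : @IsQ d A.Ω (E d) A.mΩ _ q (run A) := by
  let _ := A.mΩ
  refine ⟨A.query, A.output, A.query_meas, A.output_meas, fun V ω => ?_⟩
  have ht : ∀ i, transcript A V ω i = trans A.query V ω i := by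
    intro i
    induction i with
    | zero => rfl
    | succ i ih =>
      simp only [transcript, trans]
      rw [ih]
  simp only [run, ht]

theorem measurable_oracle {V : E d → ℝ} (hV : ContDiff ℝ 2 V) :
    Measurable (Crest.OracleSampling.oracle V) := by
  refine Measurable.prodMk hV.continuous.measurable ?_
  have h1 : Continuous (fderiv ℝ V) := hV.continuous_fderiv (by norm_num)
  exact ((InnerProductSpace.toDual ℝ (E d)).symm.continuous.comp h1).measurable

/-- **Reduction of small dimensions**, one step: an algorithm in dimension `d + k` gives one in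
dimension `d` with the same number of queries. -/
theorem exists_alg_of_add {q : ℕ} (A : QueryAlg (d + k) q)
    (hA : ∀ V : E (d + k) → ℝ, Admissible (d + k) V → Succeeds A V) :
    ∃ A' : QueryAlg d q, ∀ V : E d → ℝ, Admissible d V → Succeeds A' V := by
  let _ := A.mΩ
  have := A.prob
  obtain ⟨g, hg, hgV⟩ := IsQ.lower (isQ_run A)
  have hg' : IsQ q (fun V ω => P d k (g V ω)) :=
    hg.map (g := fun p => P d k p.2) ((P d k).continuous.measurable.comp measurable_snd)
  obtain ⟨A', hA'⟩ := hg'.exists_alg A.μ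
  refine ⟨A', fun V hV B hB => ?_⟩
  have hrun : Measurable (run A (lift k V)) :=
    (isQ_run A).measurable (measurable_oracle (lift_contDiff hV.1))
  have h1 : outputLaw A' V B = outputLaw A (lift k V) (P d k ⁻¹' B) := by
    have hPm : Measurable (P d k) := (P d k).continuous.measurable
    rw [hA' V]
    have e : (fun ω => P d k (g V ω)) = P d k ∘ run A (lift k V) := by
      funext ω
      simp only [Function.comp_apply]
      rw [hgV V (hV.1.differentiable (by norm_num)) ω]
    rw [e, outputLaw, Measure.map_apply (hPm.comp hrun) hB]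
    rw [show @Measure.map _ _ A.mΩ _ (run A (lift k V)) A.μ = Measure.map (run A (lift k V)) A.μ
      from rfl, Measure.map_apply hrun (hPm hB)]
    rfl
  rw [h1, ← target_lift (k := k) V hV.1.continuous.measurable hB]
  exact hA _ (lift_admissible hV) _ ((P d k).continuous.measurable hB)

theorem exists_alg_of_le {D q : ℕ} (hdD : d ≤ D)
    (h : ∃ A : QueryAlg D q, ∀ V : E D → ℝ, Admissible D V → Succeeds A V) :
    ∃ A' : QueryAlg d q, ∀ V : E d → ℝ, Admissible d V → Succeeds A' V := by
  obtain ⟨k, rfl⟩ := Nat.exists_eq_add_of_le hdD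
  obtain ⟨A, hA⟩ := h
  exact exists_alg_of_add A hA

/-- It is enough to treat large dimensions. -/
theorem of_large
    (H : ∀ ε : ℝ, 0 < ε → ∃ (C : ℝ) (d0 : ℕ), ∀ d : ℕ, d0 ≤ d →
      ∃ (q : ℕ) (A : QueryAlg d q), (q : ℝ) ≤ C * (d : ℝ) ^ ε ∧
        ∀ V : E d → ℝ, Admissible d V → Succeeds A V) :
    ∀ ε : ℝ, 0 < ε → ∃ C : ℝ, ∀ d : ℕ, 2 ≤ d →
      ∃ (q : ℕ) (A : QueryAlg d q), (q : ℝ) ≤ C * (d : ℝ) ^ ε ∧
        ∀ V : E d → ℝ, Admissible d V → Succeeds A V := by
  intro ε hε
  obtain ⟨C, d0, h⟩ := H ε hε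
  obtain ⟨q0, A0, hq0, hA0⟩ := h (max d0 2) (le_max_left _ _)
  refine ⟨max C q0, fun d hd => ?_⟩
  have hd1 : (1 : ℝ) ≤ (d : ℝ) ^ ε := by
    refine Real.one_le_rpow ?_ hε.le
    exact_mod_cast (by omega : 1 ≤ d)
  by_cases hdd : d0 ≤ d
  · obtain ⟨q, A, hq, hA⟩ := h d hdd
    exact ⟨q, A, hq.trans (mul_le_mul_of_nonneg_right (le_max_left _ _) (by positivity)), hA⟩
  · push Not at hdd
    obtain ⟨A', hA'⟩ := exists_alg_of_le (d := d) (by omega : d ≤ max d0 2) ⟨A0, hA0⟩
    refine ⟨q0, A', ?_, hA'⟩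
    calc (q0 : ℝ) = q0 * 1 := (mul_one _).symm
      _ ≤ max C q0 * (d : ℝ) ^ ε :=
        mul_le_mul (le_max_right _ _) hd1 zero_le_one ((Nat.cast_nonneg _).trans (le_max_right _ _))

end Crest.Agent.R285.SmallD
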