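import Crest.Agent.R285.TopChain
import Crest.Agent.R285.SmallD

/-!
Row 285 (S0430), module TOP: assembly.  From samplers of the posterior with a visible centre to the
statement S0430.
-/

set_option autoImplicit false

open MeasureTheory Crest.OracleSampling Set Filter Topology
open scoped ENNReal RealInnerProductSpace NNReal

noncomputable section

namespace Crest.Agent.R285.Top

variable {d : ℕ}

/-- The final step as an algorithm. -/
theorem final_alg {q : ℕ} {δ σ : ℝ} (hG : GS d q δ) (hσ : 0 < σ) (hσ1 : σ ≤ 1) (hd : 0 < d) :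
    ∃ A : QueryAlg d (q + 1), ∀ V, Admissible d V → ∀ B, MeasurableSet B →
      |(outputLaw A V B).toReal - (target d V B).toReal| ≤
        δ / σ + 8 * d * σ ^ 2 + 288 * d * σ ^ 4 := by
  obtain ⟨Ω, mΩ, μ, hμ, X, hX, H⟩ := hG
  have hns := ns_prob (d := d) σ hσ
  -- the output map
  have hq : IsQ (q + 1) (fun (V : E d → ℝ) (w : Ω × (E d × E d)) =>
      TT V σ (X V w.1 + w.2.1) + w.2.2) := by
    have h1 : IsQ q (fun (V : E d → ℝ) (w : Ω × (E d × E d)) => X V w.1) :=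
      hX.comap measurable_fst
    have hm2 : Measurable fun p : (Ω × (E d × E d)) × E d => p.2 + p.1.2.1 := by fun_prop
    have h2 : IsQ q (fun (V : E d → ℝ) (w : Ω × (E d × E d)) => X V w.1 + w.2.1) :=
      h1.map hm2
    have h3 : IsQ 1 (fun (V : E d → ℝ) (p : (Ω × (E d × E d)) × E d) => gradient V p.2) :=
      (IsQ.const (d := d) (measurable_snd (α := Ω × (E d × E d)) (β := E d))).grad
    have hm4 : Measurable fun r : ((Ω × (E d × E d)) × E d) × E d =>
        r.1.2 - σ ^ 2 • r.2 + r.1.1.2.2 := by fun_prop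
    have h4 : IsQ 1 (fun (V : E d → ℝ) (p : (Ω × (E d × E d)) × E d) =>
        p.2 - σ ^ 2 • gradient V p.2 + p.1.2.2) := h3.map hm4
    exact h2.bind h4
  obtain ⟨A, hA⟩ := hq.exists_alg (μ.prod ((ns d σ).prod (ns d σ)))
  refine ⟨A, fun V hV B hB => ?_⟩
  have mX : Measurable (X V) := hX.measurable (measurable_oracle hV)
  have hP : IsProbabilityMeasure (μ.map (X V)) := Measure.isProbabilityMeasure_map mX.aemeasurable
  have key := fin_tv hV hσ hσ1 hd (H V hV) hB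
  have e1 : fin V σ (μ.map (X V)) = (μ.prod ((ns d σ).prod (ns d σ))).map
      (fun w => TT V σ (X V w.1 + w.2.1) + w.2.2) := by
    have h3 : (μ.map (X V)).prod ((ns d σ).prod (ns d σ)) =
        (μ.prod ((ns d σ).prod (ns d σ))).map (Prod.map (X V) id) := by
      rw [← Measure.map_prod_map _ _ mX measurable_id, Measure.map_id]
    have hm : Measurable fun p : E d × (E d × E d) => TT V σ (p.1 + p.2.1) + p.2.2 :=
      ((measurable_TT hV σ).comp (measurable_fst.add (measurable_fst.comp measurable_snd))).add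
        (measurable_snd.comp measurable_snd)
    rw [fin, h3, Measure.map_map hm (mX.prodMap measurable_id)]
    rfl
  rw [hA V, ← e1, target_eq_gibbs]
  exact key

/-- Numerical bookkeeping of the final error. -/
theorem num_err {r C δ σ : ℝ} (hr : 1 ≤ r) (hC : 0 < C) (hrC : 20 * (40 + 400 * C) < r)
    (hσ : σ = 1 / (20 * √r))
    (hδ : δ ≤ 2 * (1 / r ^ 2) * √r + 20 * C * (1 / r ^ 3) * r) :
    δ / σ + 8 * r * σ ^ 2 + 288 * r * σ ^ 4 ≤ 1 / 10 := by
  have hdp : 0 < r := by linarith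
  have hs2 : √r * √r = r := Real.mul_self_sqrt hdp.le
  have hsp : 0 < √r := Real.sqrt_pos.mpr hdp
  have hsqd : √r ≤ r := by rw [Real.sqrt_le_left hdp.le]; nlinarith
  have hsq1 : 1 ≤ √r := Real.one_le_sqrt.mpr hr
  have hσ0 : 0 < σ := by rw [hσ]; positivity
  have e1 : 8 * r * σ ^ 2 = 1 / 50 := by
    rw [hσ, div_pow, mul_pow, Real.sq_sqrt hdp.le]; field_simp; norm_num
  have e2 : 288 * r * σ ^ 4 ≤ 1 / 500 := by
    have : σ ^ 4 = 1 / (160000 * r ^ 2) := by
      have h4 : √r ^ 4 = r ^ 2 := by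
        rw [show (4 : ℕ) = 2 * 2 by norm_num, pow_mul, Real.sq_sqrt hdp.le]
      rw [hσ, div_pow, mul_pow, h4]; norm_num
    rw [this, mul_one_div, div_le_div_iff₀ (by positivity) (by norm_num)]
    nlinarith
  have hu : √r = r * (1 / √r) := by
    rw [mul_one_div, eq_div_iff (ne_of_gt hsp)]; exact hs2
  have e3 : δ / σ ≤ 1 / 20 := by
    rw [div_le_iff₀ hσ0]
    refine hδ.trans ?_
    have h1 : 1 / 20 * σ = 1 / 400 * (1 / √r) := by
      rw [hσ]; field_simp; norm_num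
    have h4 : 2 * (1 / r ^ 2) * √r = 2 / r * (1 / √r) := by
      calc 2 * (1 / r ^ 2) * √r = 2 * (1 / r ^ 2) * (r * (1 / √r)) := by rw [← hu]
        _ = _ := by field_simp
    have h5 : 20 * C * (1 / r ^ 3) * r ≤ 20 * C / r * (1 / √r) := by
      have h6 : 20 * C * (1 / r ^ 3) * r = 20 * C / r * (1 / r) := by field_simp
      rw [h6]
      have : 1 / r ≤ 1 / √r := one_div_le_one_div_of_le hsp hsqd
      gcongr
    have h7 : (2 + 20 * C) / r ≤ 1 / 400 := by
      rw [div_le_div_iff₀ hdp (by norm_num)]; linarith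
    calc 2 * (1 / r ^ 2) * √r + 20 * C * (1 / r ^ 3) * r
        ≤ 2 / r * (1 / √r) + 20 * C / r * (1 / √r) := by rw [h4]; linarith
      _ = (2 + 20 * C) / r * (1 / √r) := by ring
      _ ≤ 1 / 400 * (1 / √r) := by
          have : 0 ≤ 1 / √r := by positivity
          gcongr
      _ = 1 / 20 * σ := h1.symm
  rw [e1]
  linarith

/-- Numerical bookkeeping of the chain. -/
theorem num_chain {r C s2 D x : ℝ} (hr : 1 ≤ r) (hC : 0 < C) (hx2 : x ≤ 1 / 4)
    (hx0 : 0 < x) (hs : s2 = r ^ (-(2 * x))) (hrC : 4 * C < r) (hD : D = C * r ^ (-3 : ℝ)) :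
    0 < s2 ∧ s2 ≤ 1 ∧ 0 ≤ D ∧ D ≤ s2 / 4 ∧ 20 * D * √r / s2 ≤ 20 * C * (1 / r ^ 3) * r := by
  have hdp : 0 < r := by linarith
  have hs0 : 0 < s2 := by rw [hs]; positivity
  have hs1 : s2 ≤ 1 := by
    rw [hs]; exact Real.rpow_le_one_of_one_le_of_nonpos hr (by linarith)
  have hsq : √r * √r = r := Real.mul_self_sqrt hdp.le
  have hsp : 0 < √r := Real.sqrt_pos.mpr hdp
  have hsqd : √r ≤ r := by rw [Real.sqrt_le_left hdp.le]; nlinarith
  have hge : 1 / √r ≤ s2 := by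
    have h1 : r ^ (-(1 / 2) : ℝ) ≤ s2 := by
      rw [hs]; exact Real.rpow_le_rpow_of_exponent_le hr (by linarith)
    have h2 : r ^ (-(1 / 2) : ℝ) = 1 / √r := by
      rw [Real.rpow_neg hdp.le, Real.sqrt_eq_rpow, one_div, one_div]
    rwa [h2] at h1
  have hd3 : r ^ (-3 : ℝ) = 1 / r ^ 3 := by
    rw [Real.rpow_neg hdp.le, one_div]; norm_cast
  have hD0 : 0 ≤ D := by rw [hD]; positivity
  have hDle : D ≤ s2 / 4 := by
    have h1 : D ≤ 1 / (4 * r) := by
      rw [hD, hd3, mul_one_div, div_le_div_iff₀ (by positivity) (by positivity)]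
      have h2 : 4 * C * r ≤ r * r := by nlinarith
      have h3 : r * r ≤ r ^ 3 := by nlinarith [mul_pos hdp hdp]
      linarith
    have h2 : 1 / (4 * r) ≤ 1 / √r / 4 := by
      rw [div_div, mul_comm (√r) 4]
      apply one_div_le_one_div_of_le (by positivity)
      linarith
    linarith
  refine ⟨hs0, hs1, hD0, hDle, ?_⟩
  rw [div_le_iff₀ hs0]
  have h5 : √r = r * (1 / √r) := by
    rw [mul_one_div, eq_div_iff (ne_of_gt hsp)]; exact hsq
  have h6 : 0 ≤ 20 * C * (1 / r ^ 3) * r := by positivity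
  calc 20 * D * √r = 20 * C * (1 / r ^ 3) * r * (1 / √r) := by
        rw [hD, hd3]
        nth_rewrite 1 [h5]
        ring
    _ ≤ 20 * C * (1 / r ^ 3) * r * s2 := by gcongr

/-- Number of steps. -/
theorem num_steps {r s2 x : ℝ} (hr : 1 ≤ r) (hx0 : 0 < x) (hs : s2 = r ^ (-(2 * x)))
    (hs1 : s2 ≤ 1) {k : ℕ} (hk : k = ⌈8 * Real.log r / s2⌉₊) :
    (1 - s2 / 4) ^ k ≤ 1 / r ^ 2 ∧ (k : ℝ) ≤ (8 / x + 1) * r ^ (3 * x) := by
  have hdp : 0 < r := by linarith
  have hs0 : 0 < s2 := by rw [hs]; positivity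
  have hlog0 : 0 ≤ Real.log r := Real.log_nonneg hr
  have hk1 : 8 * Real.log r / s2 ≤ k := by rw [hk]; exact Nat.le_ceil _
  constructor
  · have h1 : 1 - s2 / 4 ≤ Real.exp (-(s2 / 4)) := by
      have := Real.add_one_le_exp (-(s2 / 4)); linarith
    calc (1 - s2 / 4) ^ k ≤ (Real.exp (-(s2 / 4))) ^ k := by
          apply pow_le_pow_left₀ (by linarith) h1
      _ = Real.exp (-(k * (s2 / 4))) := by rw [← Real.exp_nat_mul]; congr 1; ring
      _ ≤ Real.exp (-(2 * Real.log r)) := by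
          apply Real.exp_le_exp.mpr
          have h2 : 8 * Real.log r / s2 * (s2 / 4) ≤ k * (s2 / 4) := by gcongr
          have h3 : 8 * Real.log r / s2 * (s2 / 4) = 2 * Real.log r := by field_simp; ring
          linarith
      _ = 1 / r ^ 2 := by
          rw [Real.exp_neg, ← Real.log_rpow hdp, Real.exp_log (by positivity), one_div]
          norm_cast
  · have hlog : Real.log r ≤ r ^ x / x := Real.log_le_rpow_div hdp.le hx0
    have hd3x : 1 ≤ r ^ (3 * x) := Real.one_le_rpow hr (by positivity)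
    have h1 : (k : ℝ) ≤ 8 * Real.log r / s2 + 1 := by
      rw [hk]; exact (Nat.ceil_lt_add_one (by positivity)).le
    have h2 : 8 * Real.log r / s2 ≤ 8 / x * r ^ (3 * x) := by
      rw [div_le_iff₀ hs0, hs]
      calc 8 * Real.log r ≤ 8 * (r ^ x / x) := by gcongr
        _ = 8 / x * (r ^ (3 * x) * r ^ (-(2 * x))) := by
            rw [← Real.rpow_add hdp]
            rw [show 3 * x + -(2 * x) = x by ring]; ring
        _ = _ := by ring
    linarith

/-- The family of visible-centre posterior samplers needed by the outer chain. -/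
def HS : Prop := ∀ x A g : ℝ, 0 < x → 0 < A → 0 < g → ∃ C : ℝ, 0 < C ∧ ∀ᶠ d : ℕ in atTop,
  ∃ q : ℕ, (q : ℝ) ≤ C * (d : ℝ) ^ g ∧ VS d q ((d : ℝ) ^ (-x)) (C * (d : ℝ) ^ (-A))

theorem large_of_HS (H : HS) (ε : ℝ) (hε : 0 < ε) : ∃ (C : ℝ) (d0 : ℕ), ∀ d : ℕ, d0 ≤ d →
    ∃ (q : ℕ) (A : QueryAlg d q), (q : ℝ) ≤ C * (d : ℝ) ^ ε ∧
      ∀ V : E d → ℝ, Admissible d V → Succeeds A V := by
  set x : ℝ := min (ε / 8) (1 / 4) with hx
  have hx0 : 0 < x := lt_min (by positivity) (by norm_num)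
  have hx1 : x ≤ ε / 8 := min_le_left _ _
  have hx2 : x ≤ 1 / 4 := min_le_right _ _
  obtain ⟨C, hC, hE⟩ := H x 3 (ε / 8) hx0 (by norm_num) (by positivity)
  obtain ⟨d1, hd1⟩ := eventually_atTop.mp hE
  obtain ⟨d2, hd2⟩ := exists_nat_gt (max (20 * (40 + 400 * C)) (4 * C))
  refine ⟨(8 / x + 1) * C + 1, max d1 (max d2 1), fun d hd => ?_⟩
  have hdd1 : d1 ≤ d := (le_max_left _ _).trans hd
  have hdd2 : d2 ≤ d := (le_max_left _ _).trans ((le_max_right _ _).trans hd)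
  have hd0 : 0 < d := lt_of_lt_of_le one_pos ((le_max_right _ _).trans ((le_max_right _ _).trans hd))
  have hdr : (1 : ℝ) ≤ d := by exact_mod_cast hd0
  have hdp : (0 : ℝ) < d := by linarith
  have hdC : 20 * (40 + 400 * C) < d := by
    have h1 : max (20 * (40 + 400 * C)) (4 * C) < (d : ℝ) := hd2.trans_le (by exact_mod_cast hdd2)
    exact (le_max_left _ _).trans_lt h1
  have hdC2 : 4 * C < d := by
    have h1 : max (20 * (40 + 400 * C)) (4 * C) < (d : ℝ) := hd2.trans_le (by exact_mod_cast hdd2)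
    exact (le_max_right _ _).trans_lt h1
  obtain ⟨q, hq, hVS⟩ := hd1 d hdd1
  set s : ℝ := (d : ℝ) ^ (-x) with hs
  set D : ℝ := C * (d : ℝ) ^ (-3 : ℝ) with hD
  have hs0 : 0 < s := by positivity
  have hs1 : s ≤ 1 := Real.rpow_le_one_of_one_le_of_nonpos hdr (by linarith)
  have hs2 : s ^ 2 = (d : ℝ) ^ (-(2 * x)) := by
    rw [hs, ← Real.rpow_natCast, ← Real.rpow_mul hdp.le]; congr 1; push_cast; ring
  have hD0 : 0 ≤ D := by positivity
  obtain ⟨hs2p, hs21, hD0', hDle, hchain⟩ := num_chain hdr hC hx2 hx0 hs2 hdC2 hD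
  set k : ℕ := ⌈8 * Real.log d / s ^ 2⌉₊ with hk
  obtain ⟨hpow, hk2⟩ := num_steps hdr hx0 hs2 hs21 hk
  have hG := GS_chain hs0 hs1 hd0 hVS hDle hD0 k
  set δ : ℝ := 2 * (1 - s ^ 2 / 4) ^ k * √(d : ℝ) + 20 * D * √(d : ℝ) / s ^ 2 with hδ
  have hδle : δ ≤ 2 * (1 / (d : ℝ) ^ 2) * √(d : ℝ) + 20 * C * (1 / (d : ℝ) ^ 3) * d := by
    have h0 : 0 ≤ √(d : ℝ) := Real.sqrt_nonneg _
    have h1 : 2 * (1 - s ^ 2 / 4) ^ k * √(d : ℝ) ≤ 2 * (1 / (d : ℝ) ^ 2) * √(d : ℝ) := by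
      gcongr
    rw [hδ]
    exact add_le_add h1 hchain
  have hsq1 : 1 ≤ √(d : ℝ) := Real.one_le_sqrt.mpr hdr
  have hσ0 : 0 < 1 / (20 * √(d : ℝ)) := by positivity
  have hσ1 : 1 / (20 * √(d : ℝ)) ≤ 1 := by
    rw [div_le_one (by positivity)]; linarith
  obtain ⟨A, hA⟩ := final_alg hG hσ0 hσ1 hd0
  refine ⟨k * q + 1, A, ?_, fun V hV B hB => (hA V hV B hB).trans
    (num_err hdr hC hdC rfl hδle)⟩
  have hexp : (d : ℝ) ^ (3 * x) * (d : ℝ) ^ (ε / 8) ≤ (d : ℝ) ^ ε := by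
    rw [← Real.rpow_add hdp]
    apply Real.rpow_le_rpow_of_exponent_le hdr
    linarith
  have hde : 1 ≤ (d : ℝ) ^ ε := Real.one_le_rpow hdr hε.le
  have h8x : 0 < 8 / x + 1 := by positivity
  have hprod : (k : ℝ) * q ≤ ((8 / x + 1) * (d : ℝ) ^ (3 * x)) * (C * (d : ℝ) ^ (ε / 8)) :=
    mul_le_mul hk2 hq (Nat.cast_nonneg _) (by positivity)
  have h9 : ((8 / x + 1) * (d : ℝ) ^ (3 * x)) * (C * (d : ℝ) ^ (ε / 8)) ≤
      ((8 / x + 1) * C) * (d : ℝ) ^ ε := by
    calc ((8 / x + 1) * (d : ℝ) ^ (3 * x)) * (C * (d : ℝ) ^ (ε / 8))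
        = ((8 / x + 1) * C) * ((d : ℝ) ^ (3 * x) * (d : ℝ) ^ (ε / 8)) := by ring
      _ ≤ _ := mul_le_mul_of_nonneg_left hexp (by positivity)
  push_cast
  linarith

/-- **TOP**: the statement S0430 from visible-centre posterior samplers. -/
theorem S0430_of_HS (H : HS) :
    ∀ ε : ℝ, 0 < ε → ∃ C : ℝ, ∀ d : ℕ, 2 ≤ d →
      ∃ (q : ℕ) (A : Crest.OracleSampling.QueryAlg d q), (q : ℝ) ≤ C * (d : ℝ) ^ ε ∧
        ∀ V : Crest.OracleSampling.E d → ℝ, Crest.OracleSampling.Admissible d V →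
          Crest.OracleSampling.Succeeds A V :=
  SmallD.of_large fun ε hε => large_of_HS H ε hε

end Crest.Agent.R285.Top
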