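import Crest.Agent.R285.Link
import Crest.Agent.R285.TopMain

/-!
Row 285 (S0430): the last link.  The statement from the posterior samplers `SP x g 1 A`, and from the
five lemmas of the recursion.
-/

set_option autoImplicit false

open MeasureTheory ProbabilityTheory Filter Topology
open Crest.OracleSampling (E Admissible)
open scoped NNReal

noncomputable section

namespace Crest.Agent.R285.Link

theorem vs_of_con {d : ℕ} {s : ℝ} (hs : 0 < s) {N q : ℕ} {L : ℝ≥0} {D : ℝ}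
    (h : Con (d := d) (s / 4) N q L (fun V c => post V c s) D) : Top.VS d q s D := by
  obtain ⟨Ω, mΩ, μ, hμ, f, hf, H⟩ := visible_of_con hs h
  exact ⟨Ω, mΩ, μ, hμ, fun V p => f V (p.2, p.1), hf.comap measurable_swap, H⟩

theorem topHS_of_SP (h : ∀ x : ℝ, 0 < x → ∀ A g : ℝ, 0 < g → SP x g 1 A) : Top.HS := by
  intro x A g hx _ hg
  obtain ⟨C, hC, hS⟩ := h x hx (A / x) (g / x) (by positivity)
  refine ⟨C, hC, ?_⟩
  filter_upwards [hS, eventually_gt_atTop 0] with d hd hd0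
  have hdR : (0 : ℝ) < d := by exact_mod_cast hd0
  have hd1 : (1 : ℝ) ≤ d := by exact_mod_cast hd0
  have hs : 0 < (d : ℝ) ^ (-x) := Real.rpow_pos_of_pos hdR _
  have hs1 : (d : ℝ) ^ (-x) ≤ 1 := Real.rpow_le_one_of_one_le_of_nonpos hd1 (by linarith)
  have h1 := hd ((d : ℝ) ^ (-x)) hs (by
    rw [Real.rpow_one]; change _ ≤ (d : ℝ) ^ (-x); nlinarith)
  have e1 : bt x d ^ (-(g / x)) = (d : ℝ) ^ g := by
    unfold bt
    rw [← Real.rpow_mul hdR.le]
    congr 1; field_simp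
  have e2 : bt x d ^ (A / x) = (d : ℝ) ^ (-A) := by
    unfold bt
    rw [← Real.rpow_mul hdR.le]
    congr 1; field_simp
  rw [e1, e2] at h1
  exact ⟨_, Nat.floor_le (by positivity), vs_of_con hs h1⟩

/-- The statement from the posterior samplers. -/
theorem S0430_of_SP (h : ∀ x : ℝ, 0 < x → ∀ A g : ℝ, 0 < g → SP x g 1 A) :
    ∀ ε : ℝ, 0 < ε → ∃ C : ℝ, ∀ d : ℕ, 2 ≤ d →
      ∃ (q : ℕ) (A : Crest.OracleSampling.QueryAlg d q), (q : ℝ) ≤ C * (d : ℝ) ^ ε ∧
        ∀ V : Crest.OracleSampling.E d → ℝ, Crest.OracleSampling.Admissible d V →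
          Crest.OracleSampling.Succeeds A V :=
  Top.S0430_of_HS (topHS_of_SP h)

end Crest.Agent.R285.Link
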