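import Crest.Agent.R285.InstFix

/-!
Row 285 (S0430): the functional `If` is the integral against `ν ⊗ γ`, where
`ν = exp (C - ψ) γ` is the (normalised) law of the flow at the fixed time.
-/

set_option autoImplicit false
set_option linter.unusedSectionVars false

open MeasureTheory ProbabilityTheory Set Filter Topology
open Crest.OracleSampling (E)
open Crest.Agent.R285.IBP Crest.Agent.R285.AF Crest.Agent.R285.PolyEv Crest.Agent.R285.FixVals
open scoped ENNReal

noncomputable section

namespace Crest.Agent.R285.InstFix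

variable {E : Type*} [NormedAddCommGroup E] [InnerProductSpace ℝ E] [FiniteDimensional ℝ E]
  [MeasurableSpace E] [BorelSpace E]

/-- The normalisation constant. -/
def nrm (E : Type*) [NormedAddCommGroup E] [InnerProductSpace ℝ E] (C : ℝ) : ℝ :=
  (((2 : ℝ) * Real.pi) ^ (-(Module.finrank ℝ E : ℝ) / 2))⁻¹ * Real.exp (-C)

theorem nrm_pos (C : ℝ) : 0 < nrm E C := by unfold nrm; positivity

theorem gd_eq (ψ : E → ℝ) (C : ℝ) (x : E) :
    gd ψ x = nrm E C * (gdens x * Real.exp (C - ψ x)) := by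
  unfold gd nrm gdens
  have h : (((2 : ℝ) * Real.pi) ^ (-(Module.finrank ℝ E : ℝ) / 2)) ≠ 0 := by positivity
  have e : Real.exp (-(‖x‖ ^ 2 / 2) - ψ x)
      = Real.exp (-C) * (Real.exp (-‖x‖ ^ 2 / 2) * Real.exp (C - ψ x)) := by
    rw [← Real.exp_add, ← Real.exp_add]; congr 1; ring
  rw [e]
  field_simp

theorem dens_gd_eq {ψ : E → ℝ} (hψ : Continuous ψ) (C : ℝ) :
    dens volume (gd ψ) = ENNReal.ofReal (nrm E C) •
      (stdGaussian E).withDensity (fun η => ENNReal.ofReal (Real.exp (C - ψ η))) := by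
  rw [stdGaussian_eq_withDensity, ← withDensity_mul _ continuous_gdens.measurable.ennreal_ofReal
    (by fun_prop), ← withDensity_smul _ (by
      have := continuous_gdens (V := E)
      fun_prop)]
  unfold dens
  congr 1
  funext x
  simp only [Pi.smul_apply, Pi.mul_apply, smul_eq_mul]
  rw [← ENNReal.ofReal_mul (gdens_pos x).le, ← ENNReal.ofReal_mul (nrm_pos C).le, gd_eq ψ C]

/-- The functional in terms of the law of the flow. -/
theorem functional_eq {ψ : E → ℝ} (hψ : Continuous ψ) {L : ℝ} (hL : ∀ x, -L ≤ ψ x) (C : ℝ)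
    [hp : IsProbabilityMeasure ((stdGaussian E).withDensity
      fun η => ENNReal.ofReal (Real.exp (C - ψ η)))]
    {H : Type*} [NormedAddCommGroup H] [NormedSpace ℝ H] (F : E × E → H) :
    (mass ψ)⁻¹ • ∫ x, F x ∂(M2 ψ) = ∫ x, F x ∂(((stdGaussian E).withDensity
      fun η => ENNReal.ofReal (Real.exp (C - ψ η))).prod (stdGaussian E)) := by
  have h1 : M2 ψ = ENNReal.ofReal (nrm E C) • (((stdGaussian E).withDensity
      fun η => ENNReal.ofReal (Real.exp (C - ψ η))).prod (stdGaussian E)) := by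
    unfold M2
    rw [dens_gd_eq hψ C, Measure.prod_smul_left]
  have h2 : mass ψ = nrm E C := by
    rw [← M2_univ hψ hL, h1, measureReal_def, Measure.smul_apply, smul_eq_mul,
      ENNReal.toReal_mul, measure_univ, ENNReal.toReal_one, mul_one,
      ENNReal.toReal_ofReal (nrm_pos C).le]
  rw [h1, integral_smul_measure, h2, ENNReal.toReal_ofReal (nrm_pos C).le, smul_smul,
    inv_mul_cancel₀ (nrm_pos C).ne', one_smul]

theorem If_eq {Gen : Type} {val : Gen → E × E → ℝ} {ψ : E → ℝ}
    (hI : ∀ f, Integrable (fun x => evp val x f) (M2 ψ)) (hψ : Continuous ψ) {L : ℝ}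
    (hL : ∀ x, -L ≤ ψ x) (C : ℝ) [hp : IsProbabilityMeasure ((stdGaussian E).withDensity
      fun η => ENNReal.ofReal (Real.exp (C - ψ η)))] (f : MvPolynomial Gen ℝ) :
    If val ψ hI f = ∫ x, evp val x f ∂(((stdGaussian E).withDensity
      fun η => ENNReal.ofReal (Real.exp (C - ψ η))).prod (stdGaussian E)) := by
  rw [← functional_eq hψ hL C]
  rfl

theorem fixSett_I {d : ℕ} {f : Crest.OracleSampling.E d → ℝ} {h κ : ℝ} {c : ℕ → ℝ} {K et : ℝ}
    (hK : 1 ≤ K) (het : |et| ≤ 1) (hf : PotP h f)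
    (hκ : 0 < κ) (a : Crest.OracleSampling.E d) {ε : ℝ} (hε : |ε| ≤ 1) {τ : ℝ} (hτ : τ ≠ 0)
    (hτ1 : |τ| ≤ 1) (AF) (C : ℝ)
    [hp : IsProbabilityMeasure ((stdGaussian (Crest.OracleSampling.E d)).withDensity
      fun η => ENNReal.ofReal (Real.exp (C - Ub f κ (a + ε • η))))]
    (g : Inst.A (Fin d)) :
    (fixSett c K et hK het hf hκ a ε hε hτ hτ1 AF).I g
      = ∫ x, evp (gval f κ a ε τ) x g ∂(((stdGaussian (Crest.OracleSampling.E d)).withDensity
      fun η => ENNReal.ofReal (Real.exp (C - Ub f κ (a + ε • η)))).prod (stdGaussian _)) :=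
  have : IsProbabilityMeasure ((stdGaussian (Crest.OracleSampling.E d)).withDensity
      fun η => ENNReal.ofReal (Real.exp (C - psi f κ a ε η))) := hp
  If_eq (vals hf hκ a ε hτ (bdd_of_AF hτ AF)).integrable (psi_cont hf hκ a ε)
    (psi_lower hf hκ a ε) C g

end Crest.Agent.R285.InstFix
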