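import Crest.Agent.R285.PolyEv
import Crest.Agent.R285.PDM
import Crest.Agent.R285.Smooth

/-!
Row 285 (S0430): values of the generators at a fixed time, centre `a`, `u = Ub f κ` (`κ > 0`):
growth, continuity and line derivatives of
`T m : x ↦ τ⁻¹ · pdm m u (a + ε • x.1)`, `η_i`, `w_i = η_i + ε pd i u (a + ε η)`, `b_i`.
-/

set_option autoImplicit false
set_option linter.unusedSectionVars false

open MeasureTheory ProbabilityTheory Set Filter Topology
open Crest.OracleSampling (E)
open Crest.Agent.R285.IBP Crest.Agent.R285.AF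
open scoped RealInnerProductSpace ContDiff

noncomputable section

namespace Crest.Agent.R285.FixVals

variable {d : ℕ}

/-- Smoothness of the coarse potential for a positive scale. -/
theorem contDiff_Ub_slice {h : ℝ} {f : E d → ℝ} (hf : PotP h f) {κ : ℝ} (hκ : 0 < κ) :
    ContDiff ℝ ∞ (Ub f κ) := by
  have h1 := contDiffOn_ub_top hf
  rw [← contDiffOn_univ]
  exact h1.comp (f := fun y : E d => (κ, y)) (contDiff_const.prodMk contDiff_id).contDiffOn
    (fun y _ => hκ)

theorem Ub_nonneg {h : ℝ} {f : E d → ℝ} (hf : PotP h f) (κ : ℝ) (y : E d) : 0 ≤ Ub f κ y := by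
  unfold Ub
  have h1 : ∫ g, Real.exp (-f (y + κ • g)) ∂(stdGaussian (E d)) ≤ 1 := by
    have h2 : ∫ g, Real.exp (-f (y + κ • g)) ∂(stdGaussian (E d))
        ≤ ∫ _g : E d, (1 : ℝ) ∂(stdGaussian (E d)) := by
      refine integral_mono_of_nonneg (ae_of_all _ fun g => (Real.exp_pos _).le)
        (integrable_const _) (ae_of_all _ fun g => ?_)
      exact Real.exp_le_one_iff.mpr (by linarith [pot_nonneg hf (y + κ • g)])
    simpa using h2
  have h0 : 0 ≤ ∫ g, Real.exp (-f (y + κ • g)) ∂(stdGaussian (E d)) :=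
    integral_nonneg fun g => (Real.exp_pos _).le
  linarith [Real.log_nonpos h0 h1]

/-- Linear growth of the first derivatives. -/
theorem PB_fderiv_Ub {h : ℝ} {f : E d → ℝ} (hf : PotP h f) (κ : ℝ) :
    PB (fderiv ℝ (Ub f κ)) := by
  obtain ⟨C, hC0, hC⟩ := gr_growth hf |κ|
  refine PB.of_linear (C := C + h) fun x => ?_
  have h1 : ‖fderiv ℝ (Ub f κ) x‖ = ‖G f κ x‖ := by
    unfold G gradient
    simp
  rw [h1]
  have h2 := hC κ le_rfl x
  nlinarith [norm_nonneg x, hf.hh]

theorem PB_pd_Ub {h : ℝ} {f : E d → ℝ} (hf : PotP h f) (κ : ℝ) (l : Fin d) :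
    PB (pd l (Ub f κ)) := (PB_fderiv_Ub hf κ).clm_apply (ev l)

/-- A function with polynomially bounded derivative is polynomially bounded. -/
theorem PB_of_fderiv {V : Type*} [NormedAddCommGroup V] [NormedSpace ℝ V] {F : V → ℝ}
    (hd : Differentiable ℝ F) (h : PB (fderiv ℝ F)) : PB F := by
  obtain ⟨C, k, hC, hk⟩ := h
  refine ⟨|F 0| + C, k + 1, by positivity, fun x => ?_⟩
  have h1 : ‖F x - F 0‖ ≤ C * (1 + ‖x‖) ^ k * ‖x - 0‖ := by
    refine (convex_closedBall (0 : V) ‖x‖).norm_image_sub_le_of_norm_fderiv_le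
      (fun y _ => hd y) (fun y hy => ?_) (by simp) (by simp)
    refine (hk y).trans (mul_le_mul_of_nonneg_left (pow_le_pow_left₀ (by positivity) ?_ k) hC)
    have : ‖y‖ ≤ ‖x‖ := by simpa using hy
    linarith
  rw [sub_zero] at h1
  have h2 : ‖F x‖ ≤ |F 0| + C * (1 + ‖x‖) ^ k * ‖x‖ := by
    have := norm_le_norm_add_norm_sub' (F x) (F 0)
    rw [Real.norm_eq_abs (F 0)] at this
    linarith
  refine h2.trans ?_
  have h3 : (1 : ℝ) ≤ (1 + ‖x‖) ^ (k + 1) := one_le_pow₀ (one_le_one_add_norm x)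
  have h4 : C * (1 + ‖x‖) ^ k * ‖x‖ ≤ C * (1 + ‖x‖) ^ (k + 1) := by
    rw [pow_succ, mul_assoc]
    refine mul_le_mul_of_nonneg_left ?_ hC
    refine mul_le_mul_of_nonneg_left (by linarith) (by positivity)
  nlinarith [abs_nonneg (F 0)]

theorem PB_Ub {h : ℝ} {f : E d → ℝ} (hf : PotP h f) {κ : ℝ} (hκ : 0 < κ) : PB (Ub f κ) :=
  PB_of_fderiv ((contDiff_Ub_slice hf hκ).differentiable (by norm_num)) (PB_fderiv_Ub hf κ)

/-- All multiset derivatives are polynomially bounded, given the boundedness from order two on. -/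
theorem PB_pdm_Ub {h : ℝ} {f : E d → ℝ} (hf : PotP h f) {κ : ℝ} (hκ : 0 < κ)
    (hB : ∀ m : Multiset (Fin d), 2 ≤ Multiset.card m → ∃ C, ∀ y, |pdm m (Ub f κ) y| ≤ C)
    (m : Multiset (Fin d)) : PB (pdm m (Ub f κ)) := by
  rcases Nat.lt_or_ge (Multiset.card m) 2 with h2 | h2
  · have h3 : Multiset.card m = 0 ∨ Multiset.card m = 1 := by omega
    rcases h3 with h0 | h1
    · rw [Multiset.card_eq_zero] at h0
      subst h0
      have : pdm (0 : Multiset (Fin d)) (Ub f κ) = Ub f κ := by simp [pdm, pdl]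
      rw [this]
      exact PB_Ub hf hκ
    · obtain ⟨l, rfl⟩ := Multiset.card_eq_one.mp h1
      rw [pdm_single (contDiff_Ub_slice hf hκ) l]
      exact PB_pd_Ub hf κ l
  · obtain ⟨C, hC⟩ := hB m h2
    exact PB.of_bound (C := C) fun y => hC y

section lines

variable {f : E d → ℝ} {h κ : ℝ} (hf : PotP h f) (hκ : 0 < κ) (a : E d) (ε : ℝ)

/-- Line derivative of an affine substitution, first direction. -/
theorem line_fst {F : E d → ℝ} (hF : Differentiable ℝ F) (i : Fin d) (x : E d × E d) :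
    HasLineDerivAt ℝ (fun x : E d × E d => F (a + ε • x.1)) (ε * pd i F (a + ε • x.1)) x
      (ev i, 0) := by
  have h1 : HasDerivAt (fun t : ℝ => a + ε • (x.1 + t • ev i)) (ε • ev i) 0 := by
    have h2 : HasDerivAt (fun t : ℝ => x.1 + t • ev i) (ev i) 0 := by
      have := ((hasDerivAt_id (0 : ℝ)).smul_const (ev i)).const_add x.1
      simpa using this
    exact (h2.const_smul ε).const_add a
  have h3 : HasFDerivAt F (fderiv ℝ F (a + ε • (x.1 + (0 : ℝ) • ev i)))
    (a + ε • (x.1 + (0 : ℝ) • ev i)) := (hF _).hasFDerivAt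
  have h4 : HasDerivAt (fun t : ℝ => F (a + ε • (x.1 + t • ev i))) _ 0 :=
    h3.comp_hasDerivAt (0 : ℝ) h1
  have h5 := h4.congr_deriv (g' := ε * pd i F (a + ε • x.1)) (by simp [pd])
  simpa [HasLineDerivAt] using h5

theorem line_snd {F : E d → ℝ} (i : Fin d) (x : E d × E d) :
    HasLineDerivAt ℝ (fun x : E d × E d => F x.1) 0 x (0, ev i) := by
  have h1 : HasDerivAt (fun _ : ℝ => F x.1) 0 0 := hasDerivAt_const _ _
  simpa [HasLineDerivAt] using h1

theorem line_single {F : E d → ℝ} (hF : Differentiable ℝ F) (i : Fin d) (y : E d) :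
    HasLineDerivAt ℝ (fun y : E d => F (a + ε • y)) (ε * pd i F (a + ε • y)) y (ev i) := by
  have h := line_fst a ε hF i (y, (0 : E d))
  simpa [HasLineDerivAt] using h

theorem line_eta_fst (i j : Fin d) (x : E d × E d) :
    HasLineDerivAt ℝ (fun x : E d × E d => x.1 j) (if i = j then 1 else 0) x (ev i, 0) := by
  have h1 : HasDerivAt (fun t : ℝ => x.1 j + t * (if i = j then 1 else 0))
      (if i = j then 1 else 0) 0 := by
    have := ((hasDerivAt_id (0 : ℝ)).mul_const (if i = j then (1 : ℝ) else 0)).const_add (x.1 j)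
    simpa using this
  have e : (fun t : ℝ => (x + t • ((ev i, 0) : E d × E d)).1 j)
      = fun t : ℝ => x.1 j + t * (if i = j then 1 else 0) := by
    funext t
    simp [ev, eq_comm]
  simp only [HasLineDerivAt]
  rw [e]
  exact h1

theorem line_b_snd (i j : Fin d) (x : E d × E d) :
    HasLineDerivAt ℝ (fun x : E d × E d => x.2 j) (if i = j then 1 else 0) x (0, ev i) := by
  have h1 : HasDerivAt (fun t : ℝ => x.2 j + t * (if i = j then 1 else 0))
      (if i = j then 1 else 0) 0 := by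
    have := ((hasDerivAt_id (0 : ℝ)).mul_const (if i = j then (1 : ℝ) else 0)).const_add (x.2 j)
    simpa using this
  have e : (fun t : ℝ => (x + t • ((0, ev i) : E d × E d)).2 j)
      = fun t : ℝ => x.2 j + t * (if i = j then 1 else 0) := by
    funext t
    simp [ev, eq_comm]
  simp only [HasLineDerivAt]
  rw [e]
  exact h1

theorem line_eta_snd (i j : Fin d) (x : E d × E d) :
    HasLineDerivAt ℝ (fun x : E d × E d => x.1 j) 0 x (0, ev i) :=
  line_snd (F := fun y : E d => y j) i x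

theorem line_b_fst (i j : Fin d) (x : E d × E d) :
    HasLineDerivAt ℝ (fun x : E d × E d => x.2 j) 0 x (ev i, 0) := by
  have h1 : HasDerivAt (fun _ : ℝ => x.2 j) 0 0 := hasDerivAt_const _ _
  simpa [HasLineDerivAt] using h1

theorem PB_eta (j : Fin d) : PB (fun x : E d × E d => x.1 j) := by
  refine (PB.fst : PB (fun x : E d × E d => x.1)).mono fun x => ?_
  exact PiLp.norm_apply_le x.1 j

theorem PB_b (j : Fin d) : PB (fun x : E d × E d => x.2 j) := by
  refine (PB.snd : PB (fun x : E d × E d => x.2)).mono fun x => ?_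
  exact PiLp.norm_apply_le x.2 j

theorem inner_ev (x : E d) (i : Fin d) : ⟪x, ev i⟫ = x i := by
  rw [ev, EuclideanSpace.inner_single_right]; simp

/-- An affine substitution preserves polynomial growth. -/
theorem PB_aff {F : E d → ℝ} (hF : PB F) : PB (fun x : E d × E d => F (a + ε • x.1)) :=
  hF.comp ((PB.const a).add ((PB.const ε).smul PB.fst))

theorem continuous_aff {F : E d → ℝ} (hF : Continuous F) :
    Continuous (fun x : E d × E d => F (a + ε • x.1)) := by fun_prop

end lines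

/-- Values of the tensor generators. -/
def vT (f : E d → ℝ) (κ : ℝ) (a : E d) (ε τ : ℝ) (m : Multiset (Fin d)) (x : E d × E d) : ℝ :=
  τ⁻¹ * pdm m (Ub f κ) (a + ε • x.1)

section vT

variable {f : E d → ℝ} {h κ : ℝ} (hf : PotP h f) (hκ : 0 < κ) (a : E d) (ε τ : ℝ)
include hf hκ

theorem vT_cont (m : Multiset (Fin d)) : Continuous (vT f κ a ε τ m) :=
  continuous_const.mul (continuous_aff a ε (contDiff_pdm (contDiff_Ub_slice hf hκ) m).continuous)

theorem vT_PB (hB : ∀ m : Multiset (Fin d), 2 ≤ Multiset.card m →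
    ∃ C, ∀ y, |pdm m (Ub f κ) y| ≤ C) (m : Multiset (Fin d)) : PB (vT f κ a ε τ m) :=
  (PB.const τ⁻¹).mul (PB_aff a ε (PB_pdm_Ub hf hκ hB m))

theorem vT_fst (m : Multiset (Fin d)) (i : Fin d) (x : E d × E d) :
    HasLineDerivAt ℝ (vT f κ a ε τ m) (ε * vT f κ a ε τ (i ::ₘ m) x) x (ev i, 0) := by
  have hs := contDiff_Ub_slice hf hκ
  have h1 := line_fst a ε ((contDiff_pdm hs m).differentiable (by norm_num)) i x
  have h2 : HasDerivAt (fun t : ℝ => pdm m (Ub f κ) (a + ε • (x + t • ((ev i, 0) : E d × E d)).1))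
    (ε * pd i (pdm m (Ub f κ)) (a + ε • x.1)) 0 := h1
  have h3 := h2.const_mul τ⁻¹
  refine HasDerivAt.congr_deriv h3 ?_
  unfold vT
  rw [pdm_cons hs]
  ring

theorem vT_snd (m : Multiset (Fin d)) (i : Fin d) (x : E d × E d) :
    HasLineDerivAt ℝ (vT f κ a ε τ m) 0 x (0, ev i) :=
  line_snd (F := fun y : E d => τ⁻¹ * pdm m (Ub f κ) (a + ε • y)) i x

/-- The score: line derivative of `ψ η = u (a + ε η)`. -/
theorem psi_line (i : Fin d) (y : E d) (hτ : τ ≠ 0) :
    HasLineDerivAt ℝ (fun y : E d => Ub f κ (a + ε • y))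
      (τ * (ε * vT f κ a ε τ {i} (y, 0))) y (ev i) := by
  have hs := contDiff_Ub_slice hf hκ
  have h1 := line_single a ε (hs.differentiable (by norm_num)) i y
  refine HasDerivAt.congr_deriv h1 ?_
  unfold vT
  rw [pdm_single hs]
  simp only
  field_simp

theorem psi_cont : Continuous (fun y : E d => Ub f κ (a + ε • y)) := by
  have hs := (contDiff_Ub_slice hf hκ).continuous
  fun_prop

theorem psi_lower (y : E d) : -(0 : ℝ) ≤ Ub f κ (a + ε • y) := by
  simpa using Ub_nonneg hf κ (a + ε • y)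

end vT

end Crest.Agent.R285.FixVals
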