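import Crest.Agent.R285.Flat
import Crest.Agent.R285.NumL2

/-!
Row 285: mean error of the output of a flat system against random exact points
(Picard iterates versus points of small defect, in mean).
-/

set_option autoImplicit false
set_option linter.unusedSectionVars false

open MeasureTheory Finset
open scoped ENNReal

noncomputable section

namespace Crest.Agent.R285

namespace FlatSys

variable {Pt ι : Type} [Fintype Pt] [Fintype ι] {X : Type} [NormedAddCommGroup X]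
  [NormedSpace ℝ X]

/-- Pathwise: sums instead of suprema of the defects; all weights `1`. -/
theorem out_sub_le_sum (S : FlatSys Pt ι) {G : ℝ → X → X} {Λ L : ℝ}
    (hS : S.Contr Λ (fun _ => 1) L) (hL0 : 0 ≤ L) (hL : L ≤ 1 / 2)
    (hG : ∀ i x y, ‖G (S.r i) x - G (S.r i) y‖ ≤ Λ * ‖x - y‖) (hΛ : 0 ≤ Λ)
    (c : X) (p : Pt → X) (x : ι → X) (X0 : X) (k : ℕ) :
    ‖S.outv G c p (k + 1) - X0‖ ≤ Λ * LF.l1 (fun _ => 1) S.out *
        (L ^ k * (∑ i, ‖S.point G c p 0 i - x i‖) +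
          2 * ∑ i, ‖x i - S.evalAt G c p x (S.pt i)‖) +
      ‖S.evalAt G c p x S.out - X0‖ := by
  have h1 := S.out_sub_le hS hL0 hL hG hΛ c p x
    (δ := ∑ i, ‖x i - S.evalAt G c p x (S.pt i)‖) (B := ∑ i, ‖S.point G c p 0 i - x i‖)
    (Finset.sum_nonneg fun _ _ => norm_nonneg _) (Finset.sum_nonneg fun _ _ => norm_nonneg _)
    (fun i => by
      rw [mul_one]
      exact Finset.single_le_sum (f := fun i => ‖x i - S.evalAt G c p x (S.pt i)‖)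
        (fun _ _ => norm_nonneg _) (Finset.mem_univ i))
    (fun i => by
      rw [mul_one]
      exact Finset.single_le_sum (f := fun i => ‖S.point G c p 0 i - x i‖)
        (fun _ _ => norm_nonneg _) (Finset.mem_univ i)) k
  calc ‖S.outv G c p (k + 1) - X0‖ ≤ ‖S.outv G c p (k + 1) - S.evalAt G c p x S.out‖ +
        ‖S.evalAt G c p x S.out - X0‖ := norm_sub_le_norm_sub_add_norm_sub _ _ _
    _ ≤ _ := add_le_add h1 le_rfl

variable {Ω : Type*} [MeasurableSpace Ω] {P : Measure Ω}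

/-- **Mean error of the output.** -/
theorem out_mean (S : FlatSys Pt ι) {G : ℝ → X → X} {Λ L : ℝ}
    (hS : S.Contr Λ (fun _ => 1) L) (hL0 : 0 ≤ L) (hL : L ≤ 1 / 2)
    (hG : ∀ i x y, ‖G (S.r i) x - G (S.r i) y‖ ≤ Λ * ‖x - y‖) (hΛ : 0 ≤ Λ)
    (c : X) (p : Ω → Pt → X) (x : Ω → ι → X) (X0 : Ω → X) (k : ℕ)
    (hm0 : ∀ i, AEMeasurable (fun ω => ‖S.point G c (p ω) 0 i - x ω i‖ₑ) P)
    (hm1 : ∀ i, AEMeasurable (fun ω => ‖x ω i - S.evalAt G c (p ω) (x ω) (S.pt i)‖ₑ) P)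
    {B0 δ : ι → ℝ≥0∞} {δo : ℝ≥0∞}
    (hB : ∀ i, ∫⁻ ω, ‖S.point G c (p ω) 0 i - x ω i‖ₑ ∂P ≤ B0 i)
    (hδ : ∀ i, ∫⁻ ω, ‖x ω i - S.evalAt G c (p ω) (x ω) (S.pt i)‖ₑ ∂P ≤ δ i)
    (hδo : ∫⁻ ω, ‖S.evalAt G c (p ω) (x ω) S.out - X0 ω‖ₑ ∂P ≤ δo) :
    ∫⁻ ω, ‖S.outv G c (p ω) (k + 1) - X0 ω‖ₑ ∂P ≤
      ENNReal.ofReal (Λ * LF.l1 (fun _ => 1) S.out) *
        (ENNReal.ofReal (L ^ k) * (∑ i, B0 i) + 2 * ∑ i, δ i) + δo := by
  have hl1 : 0 ≤ LF.l1 (fun _ => (1 : ℝ)) S.out := LF.l1_nonneg (fun _ => zero_le_one) _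
  have key : ∀ ω, ‖S.outv G c (p ω) (k + 1) - X0 ω‖ₑ ≤
      ENNReal.ofReal (Λ * LF.l1 (fun _ => 1) S.out) *
        (ENNReal.ofReal (L ^ k) * (∑ i, ‖S.point G c (p ω) 0 i - x ω i‖ₑ) +
          2 * ∑ i, ‖x ω i - S.evalAt G c (p ω) (x ω) (S.pt i)‖ₑ) +
      ‖S.evalAt G c (p ω) (x ω) S.out - X0 ω‖ₑ := by
    intro ω
    have h1 := S.out_sub_le_sum hS hL0 hL hG hΛ c (p ω) (x ω) (X0 ω) k
    have e : ∀ a : ι → X, ∑ i, ‖a i‖ₑ = ENNReal.ofReal (∑ i, ‖a i‖) := by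
      intro a
      rw [ENNReal.ofReal_sum_of_nonneg fun _ _ => norm_nonneg _]
      exact Finset.sum_congr rfl fun i _ => (ofReal_norm _).symm
    rw [← ofReal_norm, e, e]
    refine (ENNReal.ofReal_le_ofReal h1).trans (le_of_eq ?_)
    have s1 : 0 ≤ ∑ i, ‖S.point G c (p ω) 0 i - x ω i‖ :=
      Finset.sum_nonneg fun _ _ => norm_nonneg _
    have s2 : 0 ≤ ∑ i, ‖x ω i - S.evalAt G c (p ω) (x ω) (S.pt i)‖ :=
      Finset.sum_nonneg fun _ _ => norm_nonneg _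
    have hLk : 0 ≤ L ^ k := pow_nonneg hL0 k
    have h2 : (2 : ℝ≥0∞) = ENNReal.ofReal 2 := by simp
    rw [h2, ← ENNReal.ofReal_mul hLk, ← ENNReal.ofReal_mul zero_le_two,
      ← ENNReal.ofReal_add (mul_nonneg hLk s1) (mul_nonneg zero_le_two s2),
      ← ENNReal.ofReal_mul (mul_nonneg hΛ hl1), ← ofReal_norm,
      ← ENNReal.ofReal_add (mul_nonneg (mul_nonneg hΛ hl1)
        (add_nonneg (mul_nonneg hLk s1) (mul_nonneg zero_le_two s2))) (norm_nonneg _)]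
  refine (lintegral_mono key).trans ?_
  have hs0 : AEMeasurable (fun ω => ∑ i, ‖S.point G c (p ω) 0 i - x ω i‖ₑ) P :=
    Finset.aemeasurable_fun_sum _ fun i _ => hm0 i
  have hs1 : AEMeasurable (fun ω => ∑ i, ‖x ω i - S.evalAt G c (p ω) (x ω) (S.pt i)‖ₑ) P :=
    Finset.aemeasurable_fun_sum _ fun i _ => hm1 i
  have hs2 : AEMeasurable (fun ω => ENNReal.ofReal (L ^ k) *
      (∑ i, ‖S.point G c (p ω) 0 i - x ω i‖ₑ) +
        2 * ∑ i, ‖x ω i - S.evalAt G c (p ω) (x ω) (S.pt i)‖ₑ) P :=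
    (hs0.const_mul _).add (hs1.const_mul _)
  rw [lintegral_add_left' (hs2.const_mul _), lintegral_const_mul'' _ hs2,
    lintegral_add_left' (hs0.const_mul _), lintegral_const_mul'' _ hs0,
    lintegral_const_mul'' _ hs1, lintegral_finsetSum' _ fun i _ => hm0 i,
    lintegral_finsetSum' _ fun i _ => hm1 i]
  gcongr with i _ i _
  · exact hB i
  · exact hδ i

/-- `L¹ ≤ L²` on a probability space. -/
theorem lintegral_enorm_le_eLpNorm {H : Type*} [NormedAddCommGroup H] [IsProbabilityMeasure P]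
    {f : Ω → H} (hf : AEStronglyMeasurable f P) : ∫⁻ ω, ‖f ω‖ₑ ∂P ≤ eLpNorm f 2 P := by
  rw [← eLpNorm_one_eq_lintegral_enorm]
  exact eLpNorm_le_eLpNorm_of_exponent_le (by norm_num) hf

end FlatSys

end Crest.Agent.R285
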