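import Crest.Agent.R285.Froz
import Crest.Agent.R285.PostMean

/-!
Row 285: crude pathwise bounds of the exact points of the block at a frozen centre.
-/

set_option autoImplicit false
set_option linter.unusedSectionVars false

open Set Filter Topology MeasureTheory ProbabilityTheory
open scoped ENNReal NNReal RealInnerProductSpace

noncomputable section

namespace Crest.Agent.R285

variable {V : Type} [NormedAddCommGroup V] [InnerProductSpace ℝ V] [FiniteDimensional ℝ V]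
  [MeasurableSpace V] [BorelSpace V]

variable {h : ℝ} {U : V → ℝ}

theorem norm_vY_le (hU : PotP h U) (y : V) {r : ℝ} (hr : 0 < r) (hh : h * r ^ 2 ≤ 1 / 2) {t : ℝ}
    (ht : t ∈ Jm) (x : V) :
    ‖vY U y r t x‖ ≤ 2 * h * r ^ 2 * ‖x‖ + 2 * h * r * (‖y‖ + r * √(Module.finrank ℝ V)) := by
  have hU0 := hU.hh
  have hs : 0 < r * √(1 - t ^ 2) := mul_pos hr (Real.sqrt_pos.mpr (Jm_pos ht))
  have hs1 : √(1 - t ^ 2) ≤ 1 := by rw [Real.sqrt_le_one]; nlinarith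
  have hs2 : r * √(1 - t ^ 2) ≤ r := by nlinarith [Real.sqrt_nonneg (1 - t ^ 2)]
  have h1 := norm_G_le hU (y + (r * t) • x) hs (by
    calc h * (r * √(1 - t ^ 2)) ^ 2 ≤ h * r ^ 2 := by gcongr
      _ ≤ 1 / 2 := hh)
  have h2 : |t| ≤ 1 := abs_le.mpr ⟨ht.1.le, ht.2.le⟩
  have h3 : ‖y + (r * t) • x‖ ≤ ‖y‖ + r * ‖x‖ := by
    refine (norm_add_le _ _).trans (add_le_add le_rfl ?_)
    rw [norm_smul, Real.norm_eq_abs, abs_mul, abs_of_pos hr]
    have : r * |t| * ‖x‖ ≤ r * 1 * ‖x‖ := by gcongr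
    linarith
  rw [vY, norm_neg, norm_smul, Real.norm_eq_abs, abs_of_pos hr]
  calc r * ‖G U (r * √(1 - t ^ 2)) (y + (r * t) • x)‖ ≤
        r * (2 * h * ((‖y‖ + r * ‖x‖) + r * √(Module.finrank ℝ V))) := by
        refine mul_le_mul_of_nonneg_left (h1.trans ?_) hr.le
        gcongr
    _ = _ := by ring

theorem norm_ievol_le (hU : PotP h U) (y : V) {r : ℝ} (hr : 0 < r) (hh : h * r ^ 2 ≤ 1 / 2)
    {t : ℝ} (h0 : 0 ≤ t) (h1 : t < 1) (x : V) :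
    ‖ievol U y r t x‖ ≤ 3 * (‖x‖ + 2 * h * r * (‖y‖ + r * √(Module.finrank ℝ V))) := by
  have hU0 := hU.hh
  set ε : ℝ := 2 * h * r * (‖y‖ + r * √(Module.finrank ℝ V)) with hε
  have hε0 : 0 ≤ ε := by positivity
  have hsub : Icc 0 t ⊆ Jm := fun u hu => ⟨by linarith [hu.1], by linarith [hu.2]⟩
  have hg := norm_le_gronwallBound_of_norm_deriv_right_le (f := fun u => ievol U y r u x)
    (f' := fun u => vY U y r u (ievol U y r u x)) (δ := ‖x‖) (K := 1) (ε := ε) (a := 0) (b := t)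
    (fun u hu => (hasDerivAt_ievol hU y hr (hsub hu) x).continuousAt.continuousWithinAt)
    (fun u hu => (hasDerivAt_ievol hU y hr (hsub (Ico_subset_Icc_self hu)) x).hasDerivWithinAt)
    (by simp only [ievol_zero hU y hr]; exact le_rfl)
    (fun u hu => (norm_vY_le hU y hr hh (hsub (Ico_subset_Icc_self hu)) _).trans (by
      have := norm_nonneg (ievol U y r u x)
      have : 2 * h * r ^ 2 * ‖ievol U y r u x‖ ≤ 1 * ‖ievol U y r u x‖ := by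
        refine mul_le_mul_of_nonneg_right ?_ this
        linarith
      linarith)) t ⟨h0, le_rfl⟩
  simp only [sub_zero] at hg
  refine hg.trans ?_
  rw [gronwallBound_of_K_ne_0 one_ne_zero]
  simp only [one_mul, div_one]
  have he : Real.exp t ≤ 3 := by
    have h2 : Real.exp t ≤ Real.exp 1 := Real.exp_le_exp.mpr h1.le
    have := Real.exp_one_lt_d9
    linarith
  have hx := norm_nonneg x
  have he1 : 1 ≤ Real.exp t := Real.one_le_exp h0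
  nlinarith

theorem norm_ipt_le (hU : PotP h U) (y : V) {r : ℝ} (hr : 0 < r) (hh : h * r ^ 2 ≤ 1 / 2)
    {t : ℝ} (h0 : 0 ≤ t) (h1 : t < 1) (x : V) :
    ‖ipt U y r t x‖ ≤
      ‖y‖ + 3 * r * (‖x‖ + 2 * h * r * (‖y‖ + r * √(Module.finrank ℝ V))) := by
  have hU0 := hU.hh
  unfold ipt
  refine (norm_add_le _ _).trans (add_le_add le_rfl ?_)
  rw [norm_smul, Real.norm_eq_abs, abs_of_nonneg (by positivity)]
  have h2 := norm_ievol_le hU y hr hh h0 h1 x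
  calc r * t * ‖ievol U y r t x‖ ≤ r * 1 *
        (3 * (‖x‖ + 2 * h * r * (‖y‖ + r * √(Module.finrank ℝ V)))) := by gcongr
    _ = _ := by ring

theorem norm_toLp_le (p : V × V) : ‖WithLp.toLp 2 p‖ ≤ ‖p.1‖ + ‖p.2‖ := by
  have h1 := WithLp.prod_norm_sq_eq_of_L2 (WithLp.toLp 2 p)
  have h2 : ‖WithLp.toLp 2 p‖ ^ 2 ≤ (‖p.1‖ + ‖p.2‖) ^ 2 := by
    rw [h1]
    show ‖p.1‖ ^ 2 + ‖p.2‖ ^ 2 ≤ _
    nlinarith [norm_nonneg p.1, norm_nonneg p.2, mul_nonneg (norm_nonneg p.1) (norm_nonneg p.2)]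
  exact (pow_le_pow_iff_left₀ (norm_nonneg _) (by positivity) two_ne_zero).mp h2

theorem norm_rotC_le {B : V →L[ℝ] V} (hB : ∀ x y, ⟪B x, y⟫ = ⟪x, B y⟫) (c : Bool) (a : ℝ)
    (p : V × V) : ‖rotC B c a p‖ ≤ ‖p.1‖ + ‖p.2‖ := by
  have h1 := norm_rotE B hB a (WithLp.toLp 2 p)
  have h2 := norm_toLp_le p
  have h3 := WithLp.prod_norm_sq_eq_of_L2 (rotE B a (WithLp.toLp 2 p))
  have h4 : ‖(rotE B a (WithLp.toLp 2 p)).fst‖ ≤ ‖rotE B a (WithLp.toLp 2 p)‖ := by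
    refine (pow_le_pow_iff_left₀ (norm_nonneg _) (norm_nonneg _) two_ne_zero).mp ?_
    rw [h3]; nlinarith [sq_nonneg ‖(rotE B a (WithLp.toLp 2 p)).snd‖]
  have h5 : ‖(rotE B a (WithLp.toLp 2 p)).snd‖ ≤ ‖rotE B a (WithLp.toLp 2 p)‖ := by
    refine (pow_le_pow_iff_left₀ (norm_nonneg _) (norm_nonneg _) two_ne_zero).mp ?_
    rw [h3]; nlinarith [sq_nonneg ‖(rotE B a (WithLp.toLp 2 p)).fst‖]
  cases c
  · exact (h5.trans_eq h1).trans h2
  · exact (h4.trans_eq h1).trans h2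

theorem norm_xdir_le {A : V →L[ℝ] V} (hA : ∀ x y, ⟪A x, y⟫ = ⟪x, A y⟫) (ρ : ℝ) (n : ℕ) (a0 : ℝ)
    (p : V × V) (v : FDir n) : ‖xdir A ρ n a0 p v‖ ≤ ‖p.1‖ + ‖p.2‖ := by
  rcases v with _ | m | m
  · show ‖p.1‖ ≤ _
    linarith [norm_nonneg p.2]
  · exact norm_rotC_le (smul_symm hA _) true _ p
  · exact norm_rotC_le (smul_symm hA _) false _ p

/-- Crude bound of the exact points. -/
theorem norm_xpt_le {τ κ ρ t0 a0 : ℝ} {f : V → ℝ} {n : ℕ} (hf : PotP τ f) (hτ : τ ≤ 1 / 2)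
    (hκ : 0 < κ) (hκ1 : κ ≤ 1) (h0 : 0 < t0) (h1 : t0 < 1) (y : V) (p : V × V) (v : FDir n)
    (k : Fin (n + 2)) :
    ‖xpt f κ ρ n t0 a0 y p v k‖ ≤
      4 * (‖y‖ + ‖p.1‖ + ‖p.2‖ + √(Module.finrank ℝ V)) := by
  have hτ0 := hf.hh
  have hn := node_mem_Jm h0.le h1 k
  have hn0 : 0 ≤ t0 * Num.node (n + 2) k := mul_nonneg h0.le (Num.node_pos _ k).le
  have h2 := norm_ipt_le hf y hκ (by
    calc τ * κ ^ 2 ≤ τ * 1 ^ 2 := by gcongr
      _ ≤ 1 / 2 := by linarith) hn0 hn.2 (xdir (DGr f (κ, y)) ρ n a0 p v)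
  have h3 := norm_xdir_le (DGr_symm hf (κ, y)) ρ n a0 p v
  refine h2.trans ?_
  have hs := Real.sqrt_nonneg (Module.finrank ℝ V : ℝ)
  have hy := norm_nonneg y
  calc ‖y‖ + 3 * κ * (‖xdir (DGr f (κ, y)) ρ n a0 p v‖ +
        2 * τ * κ * (‖y‖ + κ * √(Module.finrank ℝ V))) ≤
      ‖y‖ + 3 * 1 * ((‖p.1‖ + ‖p.2‖) + 2 * (1 / 2) * 1 * (‖y‖ + 1 * √(Module.finrank ℝ V))) := by
        gcongr
    _ ≤ _ := by nlinarith [norm_nonneg p.1, norm_nonneg p.2]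

end Crest.Agent.R285
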