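import Crest.Agent.R285.Glue

/-!
Row 285 (S0430): splitting of the draws, weakening of contracts.
-/

set_option autoImplicit false
set_option linter.unusedSectionVars false

open MeasureTheory ProbabilityTheory Filter Topology
open Crest.OracleSampling (E Admissible oracle)
open scoped NNReal
open Crest.Agent.R285.Comp (measurable_oracle)

noncomputable section

namespace Crest.Agent.R285.Rec

open Crest.Agent.R285

section split

variable {α : Type} [MeasurableSpace α]

/-- Splitting `N + M` independent draws. -/
theorem pi_map_split (N M : ℕ) (μ : Measure α) [IsProbabilityMeasure μ] :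
    (Measure.pi fun _ : Fin (N + M) => μ).map
      (fun x => ((fun i : Fin N => x (Fin.castAdd M i)), fun j : Fin M => x (Fin.natAdd N j)))
      = (Measure.pi fun _ : Fin N => μ).prod (Measure.pi fun _ : Fin M => μ) := by
  have h1 := (measurePreserving_piCongrLeft (fun _ : Fin (N + M) => μ)
    (finSumFinEquiv : Fin N ⊕ Fin M ≃ Fin (N + M))).symm
  have h2 := measurePreserving_sumPiEquivProdPi (X := fun _ : Fin N ⊕ Fin M => α)
    (fun _ : Fin N ⊕ Fin M => μ)
  have h3 := h2.comp h1
  rw [← h3.map_eq]
  rfl

theorem measurable_split (N M : ℕ) : Measurable (fun x : Fin (N + M) → α =>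
    ((fun i : Fin N => x (Fin.castAdd M i)), fun j : Fin M => x (Fin.natAdd N j))) :=
  (measurable_pi_lambda _ fun _ => measurable_pi_apply _).prodMk
    (measurable_pi_lambda _ fun _ => measurable_pi_apply _)

theorem pi_map_head {N N' : ℕ} (h : N ≤ N') (μ : Measure α) [IsProbabilityMeasure μ] :
    (Measure.pi fun _ : Fin N' => μ).map (fun x => fun i : Fin N => x (Fin.castLE h i))
      = Measure.pi fun _ : Fin N => μ := by
  obtain ⟨M, rfl⟩ := Nat.exists_eq_add_of_le h
  have h1 := congrArg (Measure.map Prod.fst) (pi_map_split N M μ)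
  rw [Measure.map_map measurable_fst (measurable_split N M), Measure.map_fst_prod,
    measure_univ, one_smul] at h1
  exact h1

end split

section weaken

variable {d : ℕ}

theorem Con.weaken {rin : ℝ} {N q N' q' : ℕ} {L L' : ℝ≥0} {T : (E d → ℝ) → E d → Measure (E d)}
    {D D' : ℝ} (h : Con rin N q L T D) (hN : N ≤ N') (hq : q ≤ q') (hL : L ≤ L') (hD : D ≤ D') :
    Con rin N' q' L' T D' := by
  obtain ⟨Ω, _, μ, _, f, hf, H⟩ := h
  refine ⟨Ω, inferInstance, μ, inferInstance,
    fun V z => f V (fun i => z.1 (Fin.castLE hN i), z.2), ?_, ?_⟩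
  · refine (hf.mono hq).comap (g := fun z : (Fin N' → E d) × Ω =>
      (fun i => z.1 (Fin.castLE hN i), z.2)) ?_
    exact (measurable_pi_lambda _ fun i => by fun_prop).prodMk measurable_snd
  · intro V hV
    obtain ⟨h1, h2⟩ := H V hV
    have hm : Measurable (f V) := hf.measurable (measurable_oracle hV)
    have hr : Measurable (fun x : Fin N' → E d => fun i : Fin N => x (Fin.castLE hN i)) :=
      measurable_pi_lambda _ fun i => by fun_prop
    refine ⟨fun ω => ?_, fun c => ?_⟩
    · have h0 : LipschitzWith 1 (fun x : Fin N' → E d => fun i : Fin N => x (Fin.castLE hN i)) := by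
        refine LipschitzWith.of_dist_le_mul fun y y' => ?_
        rw [dist_pi_le_iff (by positivity)]
        intro i
        simpa using dist_le_pi_dist y y' (Fin.castLE hN i)
      have h3 := (h1 ω).comp h0
      rw [mul_one] at h3
      exact h3.weaken hL
    · have e1 : ((Measure.pi fun _ : Fin N' => gN c rin).prod μ).map
          (fun z => f V (fun i => z.1 (Fin.castLE hN i), z.2))
          = ((Measure.pi fun _ : Fin N => gN c rin).prod μ).map (f V) := by
        have h4 : ((Measure.pi fun _ : Fin N => gN c rin).prod μ)
            = ((Measure.pi fun _ : Fin N' => gN c rin).prod μ).map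
              (Prod.map (fun x => fun i : Fin N => x (Fin.castLE hN i)) id) := by
          rw [← Measure.map_prod_map _ _ hr measurable_id, Measure.map_id, pi_map_head hN]
        rw [h4, Measure.map_map hm (hr.prodMap measurable_id)]
        rfl
      rw [e1]
      refine (h2 c).mono ?_
      have : 0 ≤ √(d : ℝ) + ‖c‖ := by positivity
      exact mul_le_mul_of_nonneg_right hD this

end weaken

end Crest.Agent.R285.Rec
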