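import Crest.Agent.R285.Glue2

/-!
Row 285 (S0430): the composition `Y-step → X₁ → output system` of the Q-step, at fixed parameters.
-/

set_option autoImplicit false
set_option linter.unusedSectionVars false

open MeasureTheory ProbabilityTheory Filter Topology
open Crest.OracleSampling (E Admissible oracle)
open scoped NNReal
open Crest.Agent.R285.Comp (measurable_oracle)

noncomputable section

namespace Crest.Agent.R285.Rec

open Crest.Agent.R285

section perm

variable {A B C D : Type} [MeasurableSpace A] [MeasurableSpace B] [MeasurableSpace C]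
  [MeasurableSpace D]

theorem mp_assoc' (α : Measure A) (β : Measure B) (γ : Measure C) [IsProbabilityMeasure α]
    [IsProbabilityMeasure β] [IsProbabilityMeasure γ] :
    MeasurePreserving (fun z : A × (B × C) => ((z.1, z.2.1), z.2.2)) (α.prod (β.prod γ))
      ((α.prod β).prod γ) :=
  (measurePreserving_prodAssoc α β γ).symm

/-- `(b, (c, d)) ↦ (c, (b, d))`. -/
theorem mp_swapL (β : Measure B) (γ : Measure C) (δ : Measure D) [IsProbabilityMeasure β]
    [IsProbabilityMeasure γ] [IsProbabilityMeasure δ] :
    MeasurePreserving (fun z : B × (C × D) => (z.2.1, (z.1, z.2.2))) (β.prod (γ.prod δ))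
      (γ.prod (β.prod δ)) := by
  have h1 := mp_assoc' β γ δ
  have h2 : MeasurePreserving (Prod.map (Prod.swap : B × C → C × B) (id : D → D))
      ((β.prod γ).prod δ) ((γ.prod β).prod δ) :=
    (Measure.measurePreserving_swap).prod (MeasurePreserving.id δ)
  have h3 := measurePreserving_prodAssoc γ β δ
  exact h3.comp (h2.comp h1)

theorem mp_prod4 (α : Measure A) (β : Measure B) (γ : Measure C) (δ : Measure D)
    [IsProbabilityMeasure α] [IsProbabilityMeasure β] [IsProbabilityMeasure γ]
    [IsProbabilityMeasure δ] :
    MeasurePreserving (fun z : (A × B) × (C × D) => ((z.1.1, z.2.1), (z.1.2, z.2.2)))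
      ((α.prod β).prod (γ.prod δ)) ((α.prod γ).prod (β.prod δ)) :=
  ⟨by fun_prop, prod4 α β γ δ⟩

end perm

variable {d : ℕ}

/-- Exact law of the visible data `(y₁, X₁, q)` of the Q-system. -/
def PX (T₁ : (E d → ℝ) → E d → Measure (E d)) (GX : (E d → ℝ) → E d → E d) (σb : ℝ)
    (V : E d → ℝ) (c : E d) : Measure (Fin 3 → E d) :=
  ((T₁ V c).prod ((stdGaussian (E d)).prod (stdGaussian (E d)))).map
    (fun z => ![z.1, GX V z.1 + σb • z.2.1, z.2.2])

theorem measurable_vec3 {α : Type} [MeasurableSpace α] {a b c : α → E d} (ha : Measurable a)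
    (hb : Measurable b) (hc : Measurable c) : Measurable fun z => (![a z, b z, c z] : Fin 3 → E d) := by
  refine measurable_pi_lambda _ fun i => ?_
  fin_cases i
  · exact ha
  · exact hb
  · exact hc

theorem dist_vec3_le {a a' b b' c c' : E d} {r : ℝ} (ha : dist a a' ≤ r) (hb : dist b b' ≤ r)
    (hc : dist c c' ≤ r) : dist (![a, b, c] : Fin 3 → E d) ![a', b', c'] ≤ r := by
  have hr : 0 ≤ r := dist_nonneg.trans ha
  rw [dist_pi_le_iff hr]
  intro i
  fin_cases i
  · exact ha
  · exact hb
  · exact hc

/-- **Composition for the Q-step.** -/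
theorem Con.qstep {rin rX σb r σ : ℝ} {NY qY NX qX NO qO : ℕ} {LY LX LO : ℝ≥0}
    {T₁ : (E d → ℝ) → E d → Measure (E d)} {GX Gout : (E d → ℝ) → E d → E d}
    {v : (E d → ℝ) → E d → (Fin 3 → E d) → E d} {err : E d → (Fin 3 → E d) → ℝ}
    {DY DX K Derr δ : ℝ}
    (hY : Con rin NY qY LY T₁ DY)
    (hX : Con rX NX qX LX (fun V y => gN (GX V y) σb) DX) (hDX : 0 ≤ DX)
    (hO : Draw rin NO qO LO r v err)
    (hT : ∀ V, Admissible d V → ∀ c, IsProbabilityMeasure (T₁ V c) ∧
      Integrable (fun y => ‖y‖) (T₁ V c) ∧ ∫ y, ‖y‖ ∂(T₁ V c) ≤ K * (√(d : ℝ) + ‖c‖))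
    (hG : ∀ V, Admissible d V → Measurable (GX V))
    (hv : ∀ V, Admissible d V → ∀ c, Measurable (v V c))
    (herr : ∀ V, Admissible d V → ∀ c, Integrable (err c) (PX T₁ GX σb V c) ∧
      ∫ p, err c p ∂(PX T₁ GX σb V c) ≤ Derr * (√(d : ℝ) + ‖c‖))
    (hsem : ∀ V, Admissible d V → ∀ c,
      DLb (((PX T₁ GX σb V c).prod (stdGaussian (E d))).map fun z => v V c z.1 + r • z.2)
        (gN (Gout V c) σ) (δ * (√(d : ℝ) + ‖c‖))) :
    Con rin (NY + NO) (qY + (qX + qO)) (LO * max 1 (max LY (LX * LY)))
      (fun V c => gN (Gout V c) σ)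
      (LO * max 1 LX * DY + LO * DX * (1 + K) + Derr + δ) := by
  obtain ⟨ΩY, _, μY, _, fY, hqY, HY⟩ := hY
  obtain ⟨ΩX, _, μX, _, fX, hqX, HX⟩ := hX
  obtain ⟨ΩO, _, μO, _, fO, hqO, HO⟩ := hO
  let γ : Measure (E d) := stdGaussian (E d)
  let γN : Measure (Fin NX → E d) := Measure.pi fun _ : Fin NX => stdGaussian (E d)
  -- the three stages as functions of (draws, seed)
  let y1 : (E d → ℝ) → (Fin (NY + NO) → E d) × (ΩY × (((Fin NX → E d) × ΩX) × (E d × ΩO))) → E d :=
    fun V z => fY V (fun i => z.1 (Fin.castAdd NO i), z.2.1)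
  let f : (E d → ℝ) → (Fin (NY + NO) → E d) × (ΩY × (((Fin NX → E d) × ΩX) × (E d × ΩO))) → E d :=
    fun V z => fO V ((![y1 V z, fX V (fun i => y1 V z + rX • z.2.2.1.1 i, z.2.2.1.2), z.2.2.2.1],
      fun j => z.1 (Fin.natAdd NY j)), z.2.2.2.2)
  refine ⟨ΩY × (((Fin NX → E d) × ΩX) × (E d × ΩO)), inferInstance,
    μY.prod ((γN.prod μX).prod (γ.prod μO)), inferInstance, f, ?_, ?_⟩
  · -- queries
    have h1 : IsQ qY y1 := hqY.comap
      (g := fun z : (Fin (NY + NO) → E d) × (ΩY × (((Fin NX → E d) × ΩX) × (E d × ΩO))) =>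
        (fun i => z.1 (Fin.castAdd NO i), z.2.1))
      ((measurable_pi_lambda _ fun i => by fun_prop).prodMk (by fun_prop))
    have h2 : IsQ qX (fun V (z : ((Fin (NY + NO) → E d) ×
        (ΩY × (((Fin NX → E d) × ΩX) × (E d × ΩO)))) × E d) =>
        fX V (fun i => z.2 + rX • z.1.2.2.1.1 i, z.1.2.2.1.2)) := by
      refine hqX.comap (g := fun z : ((Fin (NY + NO) → E d) ×
        (ΩY × (((Fin NX → E d) × ΩX) × (E d × ΩO)))) × E d =>
        (fun i => z.2 + rX • z.1.2.2.1.1 i, z.1.2.2.1.2)) ?_
      exact (measurable_pi_lambda _ fun i => by fun_prop).prodMk (by fun_prop)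
    have h3 : IsQ qO (fun V (z : (((Fin (NY + NO) → E d) ×
        (ΩY × (((Fin NX → E d) × ΩX) × (E d × ΩO)))) × E d) × E d) =>
        fO V ((![z.1.2, z.2, z.1.1.2.2.2.1], fun j => z.1.1.1 (Fin.natAdd NY j)),
          z.1.1.2.2.2.2)) := by
      refine hqO.comap (g := fun z : (((Fin (NY + NO) → E d) ×
        (ΩY × (((Fin NX → E d) × ΩX) × (E d × ΩO)))) × E d) × E d =>
        ((![z.1.2, z.2, z.1.1.2.2.2.1], fun j => z.1.1.1 (Fin.natAdd NY j)),
          z.1.1.2.2.2.2)) ?_
      refine Measurable.prodMk (Measurable.prodMk ?_ ?_) (by fun_prop)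
      · exact measurable_vec3 (by fun_prop) (by fun_prop) (by fun_prop)
      · exact measurable_pi_lambda _ fun i => by fun_prop
    exact h1.bind (h2.bind h3)
  · intro V hV
    obtain ⟨hLY, hCY⟩ := HY V hV
    obtain ⟨hLX, hCX⟩ := HX V hV
    obtain ⟨hLO, hCO⟩ := HO V hV
    have hOr := measurable_oracle hV
    have hmY : Measurable (fY V) := hqY.measurable hOr
    have hmX : Measurable (fX V) := hqX.measurable hOr
    have hmO : Measurable (fO V) := hqO.measurable hOr
    -- the map `y ↦ (y + rX g i)_i` is 1-Lipschitz
    have hadd : ∀ g : Fin NX → E d, LipschitzWith 1 (fun y : E d => (fun i => y + rX • g i)) := by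
      intro g
      refine LipschitzWith.of_dist_le_mul fun y y' => ?_
      rw [dist_pi_le_iff (by positivity)]
      intro i
      simp
    constructor
    · intro w
      refine LipschitzWith.of_dist_le_mul fun x x' => ?_
      have h1 : dist (y1 V (x, w)) (y1 V (x', w)) ≤ LY * dist x x' := by
        refine ((hLY w.1).dist_le_mul _ _).trans ?_
        refine mul_le_mul_of_nonneg_left ?_ LY.2
        rw [dist_pi_le_iff dist_nonneg]
        exact fun i => dist_le_pi_dist x x' _
      have h2 : dist (fX V (fun i => y1 V (x, w) + rX • w.2.1.1 i, w.2.1.2))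
          (fX V (fun i => y1 V (x', w) + rX • w.2.1.1 i, w.2.1.2)) ≤ LX * LY * dist x x' := by
        have h3 := ((hLX w.2.1.2).comp (hadd w.2.1.1)).dist_le_mul (y1 V (x, w)) (y1 V (x', w))
        rw [mul_one] at h3
        refine h3.trans ?_
        rw [mul_assoc]
        exact mul_le_mul_of_nonneg_left h1 LX.2
      refine ((hLO w.2.2.2).dist_le_mul _ _).trans ?_
      push_cast
      rw [mul_assoc]
      refine mul_le_mul_of_nonneg_left ?_ LO.2
      have hd0 : 0 ≤ dist x x' := dist_nonneg
      rw [Prod.dist_eq]
      refine max_le ?_ ?_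
      · refine dist_vec3_le (h1.trans ?_) (h2.trans ?_) ?_
        · gcongr
          exact le_max_of_le_right (le_max_left _ _)
        · gcongr
          exact le_max_of_le_right (le_max_right _ _)
        · rw [dist_self]; positivity
      · refine le_trans ?_ (le_mul_of_one_le_left hd0 (le_max_left _ _))
        rw [dist_pi_le_iff dist_nonneg]
        exact fun i => dist_le_pi_dist x x' _
    · intro c
      obtain ⟨hp, hi, hK⟩ := hT V hV c
      have hmG := hG V hV
      have hmv := hv V hV c
      obtain ⟨hie, hje⟩ := herr V hV c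
      let A : Measure (Fin NY → E d) := Measure.pi fun _ => gN c rin
      let B : Measure (Fin NO → E d) := Measure.pi fun _ => gN c rin
      let Z : Measure ((Fin NX → E d) × ΩX) := γN.prod μX
      let W : Measure (((Fin NX → E d) × ΩX) × (E d × ((Fin NO → E d) × ΩO))) :=
        Z.prod (γ.prod (B.prod μO))
      let F : E d × (((Fin NX → E d) × ΩX) × (E d × ((Fin NO → E d) × ΩO))) → E d := fun z =>
        fO V ((![z.1, fX V (fun i => z.1 + rX • z.2.1.1 i, z.2.1.2), z.2.2.1], z.2.2.2.1),
          z.2.2.2.2)
      have hmF : Measurable F := by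
        refine hmO.comp (Measurable.prodMk (Measurable.prodMk ?_ (by fun_prop)) (by fun_prop))
        refine measurable_vec3 (by fun_prop) ?_ (by fun_prop)
        exact hmX.comp (Measurable.prodMk (measurable_pi_lambda _ fun i => by fun_prop)
          (by fun_prop))
      have hLF : ∀ w, LipschitzWith (LO * max 1 LX) fun y => F (y, w) := by
        intro w
        refine LipschitzWith.of_dist_le_mul fun y y' => ?_
        refine ((hLO w.2.2.2).dist_le_mul _ _).trans ?_
        push_cast
        rw [mul_assoc]
        refine mul_le_mul_of_nonneg_left ?_ LO.2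
        have hd0 : 0 ≤ dist y y' := dist_nonneg
        have h3 := ((hLX w.1.2).comp (hadd w.1.1)).dist_le_mul y y'
        rw [mul_one] at h3
        rw [Prod.dist_eq]
        refine max_le ?_ ?_
        · refine dist_vec3_le ?_ (h3.trans ?_) ?_
          · exact le_mul_of_one_le_left hd0 (le_max_left _ _)
          · gcongr
            exact le_max_right _ _
          · rw [dist_self]; positivity
        · rw [dist_self]; positivity
      -- rearrangement of the seeds
      have e1 : ((Measure.pi fun _ : Fin (NY + NO) => gN c rin).prod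
          (μY.prod ((γN.prod μX).prod (γ.prod μO)))).map (f V)
          = (((A.prod μY).map (fY V)).prod W).map F := by
        have m1 : MeasurePreserving (Prod.map (fun x : Fin (NY + NO) → E d =>
            ((fun i : Fin NY => x (Fin.castAdd NO i)), fun j : Fin NO => x (Fin.natAdd NY j)))
            (id : ΩY × (((Fin NX → E d) × ΩX) × (E d × ΩO)) → _))
            ((Measure.pi fun _ : Fin (NY + NO) => gN c rin).prod
              (μY.prod ((γN.prod μX).prod (γ.prod μO))))
            ((A.prod B).prod (μY.prod (Z.prod (γ.prod μO)))) :=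
          MeasurePreserving.prod ⟨measurable_split NY NO, pi_map_split NY NO (gN c rin)⟩
            (MeasurePreserving.id _)
        have m2 := mp_prod4 A B μY (Z.prod (γ.prod μO))
        have m3 := (MeasurePreserving.id (A.prod μY)).prod (mp_swapL B Z (γ.prod μO))
        have m4 := (MeasurePreserving.id (A.prod μY)).prod
          ((MeasurePreserving.id Z).prod (mp_swapL B γ μO))
        have m5 := m4.comp (m3.comp (m2.comp m1))
        have h5 : f V = F ∘ (Prod.map (fY V) id) ∘
            (Prod.map id (Prod.map id (fun z : (Fin NO → E d) × (E d × ΩO) =>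
              (z.2.1, (z.1, z.2.2)))) ∘
            (Prod.map id (fun z : (Fin NO → E d) × (((Fin NX → E d) × ΩX) × (E d × ΩO)) =>
              (z.2.1, (z.1, z.2.2))) ∘
            ((fun z : ((Fin NY → E d) × (Fin NO → E d)) ×
                (ΩY × (((Fin NX → E d) × ΩX) × (E d × ΩO))) =>
              ((z.1.1, z.2.1), (z.1.2, z.2.2))) ∘
            (Prod.map (fun x : Fin (NY + NO) → E d =>
            ((fun i : Fin NY => x (Fin.castAdd NO i)), fun j : Fin NO => x (Fin.natAdd NY j)))
            id)))) := rfl
        rw [h5, ← Measure.map_map hmF ((hmY.prodMap measurable_id).comp m5.measurable),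
          ← Measure.map_map (hmY.prodMap measurable_id) m5.measurable, m5.map_eq]
        congr 1
        rw [← Measure.map_prod_map _ _ hmY measurable_id, Measure.map_id]
      rw [e1]
      have hpY : IsProbabilityMeasure ((A.prod μY).map (fY V)) :=
        Measure.isProbabilityMeasure_map hmY.aemeasurable
      have s1 := DLb.kernel (μ := W) (hCY c) hmF hLF
      -- stage B
      let H : E d × (E d × (E d × ((Fin NO → E d) × ΩO))) → E d := fun z =>
        fO V ((![z.1, GX V z.1 + σb • z.2.1, z.2.2.1], z.2.2.2.1), z.2.2.2.2)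
      have hmH : Measurable H := by
        refine hmO.comp (Measurable.prodMk (Measurable.prodMk ?_ (by fun_prop)) (by fun_prop))
        exact measurable_vec3 (by fun_prop) (by fun_prop) (by fun_prop)
      have s2 : DLb (((T₁ V c).prod W).map F)
          (((T₁ V c).prod (γ.prod (γ.prod (B.prod μO)))).map H)
          (∫ y, LO * (DX * (√(d : ℝ) + ‖y‖)) ∂(T₁ V c)) := by
        refine DLb.kernel_right hmF
          (T := fun y => (γ.prod (γ.prod (B.prod μO))).map fun w => H (y, w))
          ((((integrable_const _).add hi).const_mul _).const_mul _) (fun y => ?_) ?_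
        · -- fixed `y`
          let Ky : E d × (E d × ((Fin NO → E d) × ΩO)) → E d := fun z =>
            fO V ((![y, z.1, z.2.1], z.2.2.1), z.2.2.2)
          have hmK : Measurable Ky := by
            refine hmO.comp (Measurable.prodMk (Measurable.prodMk ?_ (by fun_prop)) (by fun_prop))
            exact measurable_vec3 (by fun_prop) (by fun_prop) (by fun_prop)
          have hLK : ∀ w, LipschitzWith LO fun X => Ky (X, w) := by
            intro w
            refine LipschitzWith.of_dist_le_mul fun X X' => ?_
            refine ((hLO w.2.2).dist_le_mul _ _).trans ?_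
            refine mul_le_mul_of_nonneg_left ?_ LO.2
            rw [Prod.dist_eq]
            refine max_le (dist_vec3_le (by rw [dist_self]; exact dist_nonneg) le_rfl
              (by rw [dist_self]; exact dist_nonneg)) (by rw [dist_self]; exact dist_nonneg)
          have hmx : Measurable fun z : (Fin NX → E d) × ΩX =>
              fX V (fun i => y + rX • z.1 i, z.2) :=
            hmX.comp (Measurable.prodMk (measurable_pi_lambda _ fun i => by fun_prop)
              (by fun_prop))
          have hpx : IsProbabilityMeasure (Z.map fun z : (Fin NX → E d) × ΩX =>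
              fX V (fun i => y + rX • z.1 i, z.2)) :=
            Measure.isProbabilityMeasure_map hmx.aemeasurable
          have e2 : (W.map fun w => F (y, w)) = ((Z.map fun z : (Fin NX → E d) × ΩX =>
              fX V (fun i => y + rX • z.1 i, z.2)).prod (γ.prod (B.prod μO))).map Ky := by
            have h6 : (fun w => F (y, w)) = Ky ∘ (Prod.map (fun z : (Fin NX → E d) × ΩX =>
              fX V (fun i => y + rX • z.1 i, z.2)) id) := rfl
            rw [h6, ← Measure.map_map hmK (hmx.prodMap measurable_id)]
            congr 1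
            rw [← Measure.map_prod_map _ _ hmx measurable_id, Measure.map_id]
          have e3 : ((γ.prod (γ.prod (B.prod μO))).map fun w => H (y, w))
              = ((gN (GX V y) σb).prod (γ.prod (B.prod μO))).map Ky := by
            have h6 : (fun w => H (y, w)) = Ky ∘ (Prod.map (fun b : E d => GX V y + σb • b)
              id) := rfl
            rw [h6, ← Measure.map_map hmK ((measurable_aff _ _).prodMap measurable_id)]
            congr 1
            rw [← Measure.map_prod_map _ _ (measurable_aff _ _) measurable_id, Measure.map_id]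
            rfl
          rw [e2, e3]
          have h7 := hCX y
          rw [map_visible hmX] at h7
          exact DLb.kernel h7 hmK hLK
        · intro φ hφ hb
          obtain ⟨M, hM⟩ := hb
          have hI := integrable_test (μ := (T₁ V c).prod (γ.prod (γ.prod (B.prod μO)))) hmH hφ hM
          have hmH' : ∀ y, Measurable fun w => H (y, w) := fun y =>
            hmH.comp measurable_prodMk_left
          have e4 : (fun y => ∫ z, φ z ∂((γ.prod (γ.prod (B.prod μO))).map fun w => H (y, w)))
              = fun y => ∫ w, φ (H (y, w)) ∂(γ.prod (γ.prod (B.prod μO))) := by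
            funext y
            rw [integral_map (hmH' y).aemeasurable hφ.continuous.measurable.aestronglyMeasurable]
          rw [e4, integral_map hmH.aemeasurable hφ.continuous.measurable.aestronglyMeasurable,
            integral_prod _ hI]
          exact ⟨hI.integral_prod_left, rfl⟩
      -- stage C
      have hmP : Measurable fun z : E d × (E d × E d) =>
          (![z.1, GX V z.1 + σb • z.2.1, z.2.2] : Fin 3 → E d) :=
        measurable_vec3 (by fun_prop) (by fun_prop) (by fun_prop)
      have hpP : IsProbabilityMeasure (PX T₁ GX σb V c) :=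
        Measure.isProbabilityMeasure_map hmP.aemeasurable
      have e5 : ((T₁ V c).prod (γ.prod (γ.prod (B.prod μO)))).map H
          = ((PX T₁ GX σb V c).prod (B.prod μO)).map
            (fun z => fO V ((z.1, z.2.1), z.2.2)) := by
        have n1 := (MeasurePreserving.id (T₁ V c)).prod (mp_assoc' γ γ (B.prod μO))
        have n2 := mp_assoc' (T₁ V c) (γ.prod γ) (B.prod μO)
        have n3 := n2.comp n1
        have h8 : H = (fun z : (Fin 3 → E d) × ((Fin NO → E d) × ΩO) =>
            fO V ((z.1, z.2.1), z.2.2)) ∘
            (Prod.map (fun z : E d × (E d × E d) =>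
              (![z.1, GX V z.1 + σb • z.2.1, z.2.2] : Fin 3 → E d)) id) ∘
            ((fun z : E d × ((E d × E d) × ((Fin NO → E d) × ΩO)) => ((z.1, z.2.1), z.2.2)) ∘
              (Prod.map id (fun z : E d × (E d × ((Fin NO → E d) × ΩO)) =>
                ((z.1, z.2.1), z.2.2)))) := rfl
        have hmo' : Measurable fun z : (Fin 3 → E d) × ((Fin NO → E d) × ΩO) =>
            fO V ((z.1, z.2.1), z.2.2) := hmO.comp (by fun_prop)
        rw [h8, ← Measure.map_map hmo' ((hmP.prodMap measurable_id).comp n3.measurable),
          ← Measure.map_map (hmP.prodMap measurable_id) n3.measurable, n3.map_eq]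
        congr 1
        rw [← Measure.map_prod_map _ _ hmP measurable_id, Measure.map_id]
        rfl
      have s3 : DLb (((PX T₁ GX σb V c).prod (B.prod μO)).map
            (fun z => fO V ((z.1, z.2.1), z.2.2)))
          (((PX T₁ GX σb V c).prod (stdGaussian (E d))).map fun z => v V c z.1 + r • z.2)
          (∫ p, err c p ∂(PX T₁ GX σb V c)) := by
        have hmo' : Measurable fun z : (Fin 3 → E d) × ((Fin NO → E d) × ΩO) =>
            fO V ((z.1, z.2.1), z.2.2) := hmO.comp (by fun_prop)
        refine DLb.kernel_right hmo' (T := fun p => gN (v V c p) r) hie (fun p => hCO c p) ?_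
        intro φ hφ hb
        obtain ⟨M, hM⟩ := hb
        have hmv' : Measurable fun z : (Fin 3 → E d) × E d => v V c z.1 + r • z.2 := by
          fun_prop
        have hI := integrable_test (μ := (PX T₁ GX σb V c).prod (stdGaussian (E d))) hmv' hφ hM
        have e6 : (fun p => ∫ z, φ z ∂(gN (v V c p) r))
            = fun p => ∫ g, φ (v V c p + r • g) ∂(stdGaussian (E d)) := by
          funext p
          rw [gN, integral_map (measurable_aff _ _).aemeasurable
            hφ.continuous.measurable.aestronglyMeasurable]
        rw [e6, integral_map hmv'.aemeasurable hφ.continuous.measurable.aestronglyMeasurable,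
          integral_prod _ hI]
        exact ⟨hI.integral_prod_left, rfl⟩
      rw [← e5] at s3
      refine (((s1.trans s2).trans s3).trans (hsem V hV c)).mono ?_
      rw [integral_const_mul, integral_const_mul, integral_add (integrable_const _) hi]
      simp only [integral_const, probReal_univ, smul_eq_mul, one_mul]
      push_cast
      have h0 : 0 ≤ (LO : ℝ) * DX := mul_nonneg LO.2 hDX
      have h9 : (LO : ℝ) * (DX * (√(d : ℝ) + ∫ y, ‖y‖ ∂(T₁ V c)))
          ≤ LO * DX * (1 + K) * (√(d : ℝ) + ‖c‖) := by
        have h10 : √(d : ℝ) + ∫ y, ‖y‖ ∂(T₁ V c) ≤ (1 + K) * (√(d : ℝ) + ‖c‖) := by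
          have := norm_nonneg c
          linarith
        calc (LO : ℝ) * (DX * (√(d : ℝ) + ∫ y, ‖y‖ ∂(T₁ V c)))
            = (LO * DX) * (√(d : ℝ) + ∫ y, ‖y‖ ∂(T₁ V c)) := by ring
          _ ≤ (LO * DX) * ((1 + K) * (√(d : ℝ) + ‖c‖)) := mul_le_mul_of_nonneg_left h10 h0
          _ = _ := by ring
      linarith

end Crest.Agent.R285.Rec
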