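import Crest.Agent.R285.GlueQ

/-!
Row 285 (S0430): from a coupling (semantic theorem) to the hypothesis `hsem` of `Con.qstep`.
-/

set_option autoImplicit false
set_option linter.unusedSectionVars false

open MeasureTheory ProbabilityTheory Filter Topology
open Crest.OracleSampling (E Admissible oracle)
open scoped NNReal

noncomputable section

namespace Crest.Agent.R285.Rec

open Crest.Agent.R285

variable {d : ℕ}

/-- `hsem` from a coupling. -/
theorem hsem_of_coupling {Ξ : Type} [MeasurableSpace Ξ] {ρ : Measure Ξ} [IsProbabilityMeasure ρ]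
    {P : Type} [MeasurableSpace P] {p : Ξ → P} (hp : Measurable p) {X₀ : Ξ → E d}
    (hX₀ : Measurable X₀) {v : P → E d} (hv : Measurable v) {Q : Measure P}
    (hQ : ρ.map p = Q) {G₀ : E d} {σb r σ : ℝ} (hX : ρ.map X₀ = gN G₀ σb) (hσb : 0 ≤ σb)
    (hr : 0 ≤ r) (hσ : 0 ≤ σ) (hσr : σb ^ 2 + r ^ 2 = σ ^ 2) {e : ℝ}
    (hi : Integrable (fun ξ => ‖v (p ξ) - X₀ ξ‖) ρ) (he : ∫ ξ, ‖v (p ξ) - X₀ ξ‖ ∂ρ ≤ e) :
    DLb ((Q.prod (stdGaussian (E d))).map fun z => v z.1 + r • z.2) (gN G₀ σ) e := by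
  have e1 : (Q.prod (stdGaussian (E d))).map (fun z => v z.1 + r • z.2)
      = (ρ.prod (stdGaussian (E d))).map fun z => v (p z.1) + r • z.2 := by
    have h1 : Q.prod (stdGaussian (E d)) = (ρ.prod (stdGaussian (E d))).map (Prod.map p id) := by
      rw [← Measure.map_prod_map _ _ hp measurable_id, Measure.map_id, hQ]
    rw [h1, Measure.map_map (by fun_prop) (hp.prodMap measurable_id)]
    rfl
  have hle : σb ≤ σ := by
    refine le_of_sq_le_sq ?_ hσ
    nlinarith [sq_nonneg r]
  have hr' : r = √(σ ^ 2 - σb ^ 2) := by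
    rw [← hσr, add_sub_cancel_left, Real.sqrt_sq hr]
  have e2 : gN G₀ σ = (ρ.prod (stdGaussian (E d))).map fun z => X₀ z.1 + r • z.2 := by
    have h1 : (gN G₀ σb).prod (stdGaussian (E d))
        = (ρ.prod (stdGaussian (E d))).map (Prod.map X₀ id) := by
      rw [← Measure.map_prod_map _ _ hX₀ measurable_id, Measure.map_id, hX]
    rw [← gN_complete G₀ hσb hle, ← hr', h1, Measure.map_map (by fun_prop)
      (hX₀.prodMap measurable_id)]
    rfl
  rw [e1, e2]
  have hi' : Integrable (fun z : Ξ × E d => ‖v (p z.1) - X₀ z.1‖) (ρ.prod (stdGaussian (E d))) :=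
    hi.comp_fst _
  have hd : ∀ z : Ξ × E d, dist (v (p z.1) + r • z.2) (X₀ z.1 + r • z.2) = ‖v (p z.1) - X₀ z.1‖ := by
    intro z
    rw [dist_add_right, dist_eq_norm]
  refine DLb.of_coupling (by fun_prop) (by fun_prop) ?_ ?_
  · simp only [hd]; exact hi'
  · simp only [hd]
    rw [integral_prod _ hi']
    simpa using he

end Crest.Agent.R285.Rec
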