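import Crest.Agent.R285.Sob

/-!
Row 285 (S0430): the formal differential ring of the word calculus.

`A N` is the polynomial ring in `eps`, `eta i`, `b i`, `T m` (`m` a multiset of indices).  It carries the
commuting derivations `dη i`, `db i` and the transport derivation `XX` (the formal generator of the
coupled flow).
-/

set_option autoImplicit false

open MvPolynomial

namespace Crest.Agent.R285.Inst

/-- Generators. -/
inductive Gen (N : Type) : Type
  | eps : Gen N
  | eta : N → Gen N
  | b : N → Gen N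
  | T : Multiset N → Gen N

/-- The formal ring. -/
abbrev A (N : Type) : Type := MvPolynomial (Gen N) ℝ

variable {N : Type}

noncomputable def ge : A N := X Gen.eps
noncomputable def gη (i : N) : A N := X (Gen.eta i)
noncomputable def gb (i : N) : A N := X (Gen.b i)
noncomputable def gT (m : Multiset N) : A N := X (Gen.T m)

section derivations

variable [DecidableEq N]

/-- Derivative in `eta i`. -/
noncomputable def dη (i : N) : Derivation ℝ (A N) (A N) :=
  mkDerivation ℝ fun g => match g with
    | .eps => 0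
    | .eta j => if j = i then 1 else 0
    | .b _ => 0
    | .T m => ge * gT (i ::ₘ m)

/-- Derivative in `b i`. -/
noncomputable def db (i : N) : Derivation ℝ (A N) (A N) :=
  mkDerivation ℝ fun g => match g with
    | .eps => 0
    | .eta _ => 0
    | .b j => if j = i then 1 else 0
    | .T _ => 0

@[simp] theorem dη_e (i : N) : dη i ge = 0 := mkDerivation_X _ _ _
@[simp] theorem dη_η (i j : N) : dη i (gη j) = if j = i then 1 else 0 := mkDerivation_X _ _ _
@[simp] theorem dη_b (i j : N) : dη i (gb j) = 0 := mkDerivation_X _ _ _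
@[simp] theorem dη_T (i : N) (m : Multiset N) : dη i (gT m) = ge * gT (i ::ₘ m) :=
  mkDerivation_X _ _ _
@[simp] theorem db_e (i : N) : db i ge = 0 := mkDerivation_X _ _ _
@[simp] theorem db_η (i j : N) : db i (gη j) = 0 := mkDerivation_X _ _ _
@[simp] theorem db_b (i j : N) : db i (gb j) = if j = i then 1 else 0 := mkDerivation_X _ _ _
@[simp] theorem db_T (i : N) (m : Multiset N) : db i (gT m) = 0 := mkDerivation_X _ _ _

omit [DecidableEq N] in
theorem der_ext {D₁ D₂ : Derivation ℝ (A N) (A N)} (he : D₁ ge = D₂ ge)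
    (hη : ∀ i, D₁ (gη i) = D₂ (gη i)) (hb : ∀ i, D₁ (gb i) = D₂ (gb i))
    (hT : ∀ m, D₁ (gT m) = D₂ (gT m)) : D₁ = D₂ := by
  refine MvPolynomial.derivation_ext fun g => ?_
  cases g with
  | eps => exact he
  | eta i => exact hη i
  | b i => exact hb i
  | T m => exact hT m

theorem dη_comm (i j : N) (f : A N) : dη i (dη j f) = dη j (dη i f) := by
  have h : ⁅dη i, dη j⁆ = (0 : Derivation ℝ (A N) (A N)) := by
    refine der_ext ?_ ?_ ?_ ?_
    · simp [Derivation.commutator_apply]
    · intro k
      simp only [Derivation.commutator_apply, dη_η]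
      split_ifs <;> simp
    · intro k
      simp [Derivation.commutator_apply]
    · intro m
      simp only [Derivation.commutator_apply, dη_T, Derivation.leibniz, dη_e, smul_zero, add_zero,
        Derivation.zero_apply, Multiset.cons_swap i j m, sub_self]
  have h2 := congrArg (fun D => D f) h
  simp only [Derivation.commutator_apply, Derivation.zero_apply] at h2
  exact sub_eq_zero.1 h2

theorem db_comm (i j : N) (f : A N) : db i (db j f) = db j (db i f) := by
  have h : ⁅db i, db j⁆ = (0 : Derivation ℝ (A N) (A N)) := by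
    refine der_ext ?_ ?_ ?_ ?_
    · simp [Derivation.commutator_apply]
    · intro k
      simp [Derivation.commutator_apply]
    · intro k
      simp only [Derivation.commutator_apply, db_b]
      split_ifs <;> simp
    · intro m
      simp [Derivation.commutator_apply]
  have h2 := congrArg (fun D => D f) h
  simp only [Derivation.commutator_apply, Derivation.zero_apply] at h2
  exact sub_eq_zero.1 h2

theorem dη_db_comm (i j : N) (f : A N) : dη i (db j f) = db j (dη i f) := by
  have h : ⁅dη i, db j⁆ = (0 : Derivation ℝ (A N) (A N)) := by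
    refine der_ext ?_ ?_ ?_ ?_
    · simp [Derivation.commutator_apply]
    · intro k
      simp only [Derivation.commutator_apply, db_η, dη_η]
      split_ifs <;> simp
    · intro k
      simp only [Derivation.commutator_apply, db_b, dη_b]
      split_ifs <;> simp
    · intro m
      simp [Derivation.commutator_apply]
  have h2 := congrArg (fun D => D f) h
  simp only [Derivation.commutator_apply, Derivation.zero_apply] at h2
  exact sub_eq_zero.1 h2

end derivations

section transport

variable [Fintype N]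

/-- The quadratic term of the Hamilton–Jacobi equation. -/
noncomputable def RR (m : Multiset N) : A N :=
  (m.antidiagonal.map fun p => ∑ l, gT (l ::ₘ p.1) * gT (l ::ₘ p.2)).sum

/-- The transport derivation. -/
noncomputable def XX (tau et : ℝ) : Derivation ℝ (A N) (A N) :=
  mkDerivation ℝ fun g => match g with
    | .eps => 1
    | .eta i => - (C tau * gT {i}) + C et * ∑ k, gb k * gT {k, i}
    | .b k => - (C et * ∑ l, ((gη l + C tau * ge * gT {l}) * gT {l, k} - ge * gT {l, l, k}))
    | .T m => ∑ l, (gη l - C tau * ge * gT {l}) * gT (l ::ₘ m) - ge * ∑ l, gT (l ::ₘ l ::ₘ m)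
        + C tau * ge * RR m + C et * ge * ∑ k, ∑ l, gb k * gT {k, l} * gT (l ::ₘ m)

variable (tau et : ℝ)

@[simp] theorem XX_e : XX tau et (ge : A N) = 1 := mkDerivation_X _ _ _
theorem XX_η (i : N) : XX tau et (gη i) = - (C tau * gT {i}) + C et * ∑ k, gb k * gT {k, i} :=
  mkDerivation_X _ _ _
theorem XX_b (k : N) : XX tau et (gb k) =
    - (C et * ∑ l, ((gη l + C tau * ge * gT {l}) * gT {l, k} - ge * gT {l, l, k})) :=
  mkDerivation_X _ _ _
theorem XX_T (m : Multiset N) : XX tau et (gT m) =
    ∑ l, (gη l - C tau * ge * gT {l}) * gT (l ::ₘ m) - ge * ∑ l, gT (l ::ₘ l ::ₘ m)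
        + C tau * ge * RR m + C et * ge * ∑ k, ∑ l, gb k * gT {k, l} * gT (l ::ₘ m) :=
  mkDerivation_X _ _ _

variable [DecidableEq N]

omit [Fintype N] in
theorem dη_C (i : N) (a : ℝ) : dη i (C a : A N) = 0 := by
  rw [show (C a : A N) = algebraMap ℝ (A N) a from rfl, Derivation.map_algebraMap]

omit [Fintype N] in
theorem db_C (i : N) (a : ℝ) : db i (C a : A N) = 0 := by
  rw [show (C a : A N) = algebraMap ℝ (A N) a from rfl, Derivation.map_algebraMap]

/-- The quadratic summand. -/
noncomputable def FF (p q : Multiset N) : A N := ∑ l, gT (l ::ₘ p) * gT (l ::ₘ q)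

omit [DecidableEq N] in
theorem RR_eq (m : Multiset N) : RR m = (m.antidiagonal.map fun p => FF p.1 p.2).sum := rfl

theorem dη_FF (i : N) (p q : Multiset N) :
    dη i (FF p q) = ge * FF p (i ::ₘ q) + ge * FF (i ::ₘ p) q := by
  simp only [FF, map_sum, Derivation.leibniz, dη_T, smul_eq_mul, Finset.mul_sum,
    ← Finset.sum_add_distrib]
  refine Finset.sum_congr rfl fun l _ => ?_
  rw [Multiset.cons_swap i l p, Multiset.cons_swap i l q]
  ring

theorem dη_RR (i : N) (m : Multiset N) : dη i (RR m) = ge * RR (i ::ₘ m) := by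
  rw [RR_eq, RR_eq, Multiset.antidiagonal_cons, Multiset.map_add, Multiset.sum_add,
    Multiset.map_map, Multiset.map_map, map_multiset_sum, Multiset.map_map, mul_add,
    ← Multiset.sum_map_mul_left, ← Multiset.sum_map_mul_left, ← Multiset.sum_map_add]
  congr 1
  refine Multiset.map_congr rfl fun p _ => ?_
  simp only [Function.comp_apply, Prod.map_fst, Prod.map_snd, id_eq]
  exact dη_FF i p.1 p.2

omit [Fintype N] [DecidableEq N] in
theorem der_sum_apply {ι : Type} (s : Finset ι) (D : ι → Derivation ℝ (A N) (A N)) (f : A N) :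
    (∑ j ∈ s, D j) f = ∑ j ∈ s, D j f := by
  classical
  induction s using Finset.induction_on with
  | empty => simp
  | insert j s hj ih => rw [Finset.sum_insert hj, Finset.sum_insert hj, Derivation.add_apply, ih]

omit [Fintype N] [DecidableEq N] in
theorem sw (i l : N) (m : Multiset N) : i ::ₘ l ::ₘ m = l ::ₘ i ::ₘ m := Multiset.cons_swap i l m

theorem dη_XX_T (i : N) (m : Multiset N) : dη i (XX tau et (gT m)) =
    gT (i ::ₘ m) + ge * XX tau et (gT (i ::ₘ m)) - C tau * ge ^ 2 * ∑ l, gT {l, i} * gT (l ::ₘ m)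
      + C et * ge ^ 2 * ∑ k, ∑ l, gb k * gT {i, k, l} * gT (l ::ₘ m) := by
  rw [XX_T, XX_T]
  have h1 : dη i (∑ l, (gη l - C tau * ge * gT {l}) * gT (l ::ₘ m)) =
      gT (i ::ₘ m) + ge * ∑ l, (gη l - C tau * ge * gT {l}) * gT (l ::ₘ i ::ₘ m)
        - C tau * ge ^ 2 * ∑ l, gT {l, i} * gT (l ::ₘ m) := by
    rw [map_sum]
    have e : ∀ l ∈ Finset.univ, dη i ((gη l - C tau * ge * gT {l}) * gT (l ::ₘ m)) =
        (if l = i then gT (l ::ₘ m) else 0) + (ge * ((gη l - C tau * ge * gT {l}) *
          gT (l ::ₘ i ::ₘ m)) - C tau * ge ^ 2 * (gT {l, i} * gT (l ::ₘ m))) := by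
      intro l _
      have e1 : (i ::ₘ ({l} : Multiset N)) = {l, i} := Multiset.cons_swap i l 0
      simp only [Derivation.leibniz, map_sub, dη_η, dη_C, dη_e, dη_T, smul_eq_mul, sw i l m, e1]
      split_ifs <;> ring
    rw [Finset.sum_congr rfl e, Finset.sum_add_distrib, Finset.sum_ite_eq', Finset.sum_sub_distrib,
      ← Finset.mul_sum, ← Finset.mul_sum]
    simp only [Finset.mem_univ, if_true]
    ring
  have h2 : dη i (ge * ∑ l, gT (l ::ₘ l ::ₘ m)) = ge * (ge * ∑ l, gT (l ::ₘ l ::ₘ i ::ₘ m)) := by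
    simp only [Derivation.leibniz, map_sum, dη_e, dη_T, smul_eq_mul, mul_zero, add_zero,
      Finset.mul_sum]
    refine Finset.sum_congr rfl fun l _ => ?_
    rw [sw i l, sw i l]
  have h3 : dη i (C tau * ge * RR m) = ge * (C tau * ge * RR (i ::ₘ m)) := by
    simp only [Derivation.leibniz, dη_RR, dη_C, dη_e, smul_eq_mul]
    ring
  have h4 : dη i (C et * ge * ∑ k, ∑ l, gb k * gT {k, l} * gT (l ::ₘ m)) =
      ge * (C et * ge * ∑ k, ∑ l, gb k * gT {k, l} * gT (l ::ₘ i ::ₘ m)) +
        C et * ge ^ 2 * ∑ k, ∑ l, gb k * gT {i, k, l} * gT (l ::ₘ m) := by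
    rw [Derivation.leibniz, Derivation.leibniz, dη_C, dη_e, smul_zero, smul_zero, add_zero,
      smul_zero, add_zero, map_sum, smul_eq_mul]
    have e : ∀ k ∈ Finset.univ, dη i (∑ l, gb k * gT {k, l} * gT (l ::ₘ m)) =
        ge * ∑ l, gb k * gT {k, l} * gT (l ::ₘ i ::ₘ m) +
        ge * ∑ l, gb k * gT {i, k, l} * gT (l ::ₘ m) := by
      intro k _
      rw [map_sum, Finset.mul_sum, Finset.mul_sum, ← Finset.sum_add_distrib]
      refine Finset.sum_congr rfl fun l _ => ?_
      simp only [Derivation.leibniz, dη_b, dη_T, smul_eq_mul, sw i l m]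
      have e1 : (i ::ₘ ({k, l} : Multiset N)) = {i, k, l} := rfl
      rw [e1]
      ring
    rw [Finset.sum_congr rfl e, Finset.sum_add_distrib, ← Finset.mul_sum, ← Finset.mul_sum]
    ring
  rw [map_add, map_add, map_sub, h1, h2, h3, h4]
  ring

theorem dη_XX_η (i j : N) : dη i (XX tau et (gη j)) =
    - (C tau * ge * gT {j, i}) + C et * ge * ∑ k, gb k * gT {i, k, j} := by
  have e1 : (i ::ₘ ({j} : Multiset N)) = {j, i} := Multiset.cons_swap i j 0
  have e2 : ∀ k, (i ::ₘ ({k, j} : Multiset N)) = {i, k, j} := fun _ => rfl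
  have h1 : dη i (C tau * gT {j}) = C tau * ge * gT {j, i} := by
    rw [Derivation.leibniz, dη_C, dη_T, e1, smul_zero, add_zero, smul_eq_mul, mul_assoc]
  have h2 : dη i (∑ k, gb k * gT {k, j}) = ge * ∑ k, gb k * gT {i, k, j} := by
    rw [map_sum, Finset.mul_sum]
    refine Finset.sum_congr rfl fun k _ => ?_
    rw [Derivation.leibniz, dη_b, dη_T, e2, smul_zero, add_zero, smul_eq_mul]
    ring
  rw [XX_η, map_add, map_neg, h1, Derivation.leibniz, dη_C, h2, smul_zero, add_zero, smul_eq_mul]
  ring

/-- `[X, ∂_{η_i}]`. -/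
theorem XX_dη (i : N) (f : A N) : XX tau et (dη i f) = dη i (XX tau et f)
    - ∑ j : N, dη i (XX tau et (gη j)) * dη j f - ∑ k : N, dη i (XX tau et (gb k)) * db k f := by
  have h : ⁅XX (N := N) tau et, dη i⁆ = - ∑ j : N, dη i (XX tau et (gη j)) • dη j
      - ∑ k : N, dη i (XX tau et (gb k)) • db k := by
    refine der_ext ?_ ?_ ?_ ?_
    · simp [Derivation.commutator_apply, der_sum_apply]
    · intro j
      simp only [Derivation.commutator_apply, dη_η, Derivation.sub_apply, Derivation.neg_apply,
        der_sum_apply, Derivation.smul_apply, smul_eq_mul, db_η, mul_zero,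
        Finset.sum_const_zero, sub_zero, mul_ite, mul_one]
      rw [Finset.sum_ite_eq]
      simp only [Finset.mem_univ, if_true]
      split_ifs <;> simp
    · intro j
      simp only [Derivation.commutator_apply, dη_b, db_b, Derivation.sub_apply, Derivation.neg_apply,
        der_sum_apply, Derivation.smul_apply, smul_eq_mul, mul_zero,
        Finset.sum_const_zero, mul_ite, mul_one, map_zero]
      rw [Finset.sum_ite_eq]
      simp
    · intro m
      simp only [Derivation.commutator_apply, Derivation.sub_apply, Derivation.neg_apply,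
        der_sum_apply, Derivation.smul_apply, smul_eq_mul, db_T, mul_zero,
        Finset.sum_const_zero, sub_zero, dη_T]
      rw [dη_XX_T, Derivation.leibniz, XX_e, smul_eq_mul, smul_eq_mul]
      have e : ∀ j ∈ Finset.univ, dη i (XX tau et (gη j)) * (ge * gT (j ::ₘ m)) =
          - (C tau * ge ^ 2 * (gT {j, i} * gT (j ::ₘ m))) +
            C et * ge ^ 2 * ∑ k, gb k * gT {i, k, j} * gT (j ::ₘ m) := by
        intro j _
        rw [dη_XX_η, ← Finset.sum_mul]
        ring
      rw [Finset.sum_congr rfl e, Finset.sum_add_distrib, Finset.sum_neg_distrib, ← Finset.mul_sum,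
        ← Finset.mul_sum, Finset.sum_comm]
      ring
  have h2 := congrArg (fun D => D f) h
  simp only [Derivation.commutator_apply, Derivation.sub_apply, Derivation.neg_apply,
        der_sum_apply, Derivation.smul_apply, smul_eq_mul] at h2
  linear_combination h2

omit [Fintype N] in
theorem dη_db (i j : N) (f : A N) : dη i (db j f) = db j (dη i f) := dη_db_comm i j f

theorem db_XX_η (i j : N) : db i (XX tau et (gη j)) = C et * gT {i, j} := by
  have h1 : db i (C tau * gT {j}) = 0 := by
    rw [Derivation.leibniz, db_C, db_T, smul_zero, smul_zero, add_zero]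
  have h2 : db i (∑ k, gb k * gT {k, j}) = gT {i, j} := by
    rw [map_sum]
    have e : ∀ k ∈ Finset.univ, db i (gb k * gT {k, j}) = if k = i then gT {k, j} else 0 := by
      intro k _
      rw [Derivation.leibniz, db_T, smul_zero, zero_add, db_b, smul_eq_mul]
      split_ifs <;> simp
    rw [Finset.sum_congr rfl e, Finset.sum_ite_eq']
    simp
  rw [XX_η, map_add, map_neg, h1, Derivation.leibniz, db_C, h2, smul_zero, add_zero, smul_eq_mul,
    neg_zero, zero_add]

theorem db_XX_b (i k : N) : db i (XX tau et (gb k)) = 0 := by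
  have h1 : ∀ l ∈ Finset.univ, db i ((gη l + C tau * ge * gT {l}) * gT {l, k} -
      ge * gT {l, l, k}) = 0 := by
    intro l _
    simp only [map_sub, map_add, Derivation.leibniz, db_T, db_η, db_C, db_e, smul_zero, add_zero,
      sub_zero]
  rw [XX_b, map_neg, Derivation.leibniz, db_C, map_sum, Finset.sum_congr rfl h1]
  simp

theorem db_RR (i : N) (m : Multiset N) : db i (RR m) = 0 := by
  rw [RR_eq, map_multiset_sum, Multiset.map_map]
  refine Multiset.sum_eq_zero fun x hx => ?_
  obtain ⟨p, _, rfl⟩ := Multiset.mem_map.1 hx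
  simp only [Function.comp_apply, FF, map_sum, Derivation.leibniz, db_T, smul_zero, add_zero,
    Finset.sum_const_zero]

theorem db_XX_T (i : N) (m : Multiset N) : db i (XX tau et (gT m)) =
    C et * ge * ∑ l, gT {i, l} * gT (l ::ₘ m) := by
  have h1 : ∀ l ∈ Finset.univ, db i ((gη l - C tau * ge * gT {l}) * gT (l ::ₘ m)) = 0 := by
    intro l _
    simp only [map_sub, Derivation.leibniz, db_T, db_η, db_C, db_e, smul_zero, add_zero,
      sub_zero]
  have h2 : db i (ge * ∑ l, gT (l ::ₘ l ::ₘ m)) = 0 := by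
    simp only [Derivation.leibniz, db_e, map_sum, db_T, Finset.sum_const_zero, smul_zero, add_zero]
  have h3 : db i (C tau * ge * RR m) = 0 := by
    simp only [Derivation.leibniz, db_RR, db_C, db_e, smul_zero, add_zero]
  have h4 : db i (∑ k, ∑ l, gb k * gT {k, l} * gT (l ::ₘ m)) = ∑ l, gT {i, l} * gT (l ::ₘ m) := by
    rw [map_sum]
    have e : ∀ k ∈ Finset.univ, db i (∑ l, gb k * gT {k, l} * gT (l ::ₘ m)) =
        if k = i then ∑ l, gT {k, l} * gT (l ::ₘ m) else 0 := by
      intro k _
      simp only [map_sum, Derivation.leibniz, db_T, db_b, smul_eq_mul]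
      split_ifs with h
      · refine Finset.sum_congr rfl fun l _ => ?_
        ring
      · simp
    rw [Finset.sum_congr rfl e, Finset.sum_ite_eq']
    simp
  rw [XX_T, map_add, map_add, map_sub, map_sum, Finset.sum_congr rfl h1, h2, h3,
    Derivation.leibniz, h4, Derivation.leibniz, db_C, db_e]
  simp

/-- `[X, ∂_{b_i}]`. -/
theorem XX_db (i : N) (f : A N) : XX tau et (db i f) = db i (XX tau et f)
    - C et * ∑ j : N, gT {i, j} * dη j f := by
  have h : ⁅XX (N := N) tau et, db i⁆ = - ∑ j : N, (C et * gT {i, j}) • dη j := by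
    refine der_ext ?_ ?_ ?_ ?_
    · simp [Derivation.commutator_apply, der_sum_apply]
    · intro j
      simp only [Derivation.commutator_apply, dη_η, Derivation.neg_apply, der_sum_apply,
        Derivation.smul_apply, smul_eq_mul, db_η, map_zero, zero_sub, db_XX_η, mul_ite, mul_one,
        mul_zero]
      rw [Finset.sum_ite_eq]
      simp
    · intro j
      simp only [Derivation.commutator_apply, dη_b, db_b, Derivation.neg_apply, der_sum_apply,
        Derivation.smul_apply, smul_eq_mul, mul_zero, Finset.sum_const_zero, db_XX_b]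
      split_ifs <;> simp
    · intro m
      simp only [Derivation.commutator_apply, Derivation.neg_apply, der_sum_apply,
        Derivation.smul_apply, smul_eq_mul, db_T, dη_T, db_XX_T, map_zero, zero_sub]
      rw [Finset.mul_sum]
      congr 1
      refine Finset.sum_congr rfl fun l _ => ?_
      ring
  have h2 := congrArg (fun D => D f) h
  simp only [Derivation.commutator_apply, Derivation.neg_apply, der_sum_apply,
    Derivation.smul_apply, smul_eq_mul] at h2
  rw [Finset.mul_sum]
  have h3 : ∀ j ∈ Finset.univ, C et * gT {i, j} * (dη j) f = C et * (gT {i, j} * dη j f) :=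
    fun j _ => mul_assoc _ _ _
  rw [Finset.sum_congr rfl h3] at h2
  linear_combination h2

end transport

/-! ### the shape of the abstract structure -/

section sett

variable [Fintype N] (tau et : ℝ)

/-- The score in `η`. -/
noncomputable def gw (i : N) : A N := gη i + tau • (ge * gT {i})

omit [Fintype N] in
theorem sum_antidiagonal {M ι : Type} [AddCommMonoid M] [DecidableEq ι] (J : ι → N)
    (F : Multiset N → Multiset N → M) (u : Finset ι) :
    (((u.val.map J).antidiagonal).map fun p => F p.1 p.2).sum =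
      ∑ s ∈ u.powerset, F (s.val.map J) ((u \ s).val.map J) := by
  classical
  induction u using Finset.induction_on generalizing F with
  | empty => simp
  | insert a u ha ih =>
    rw [Finset.sum_powerset_insert ha, Finset.insert_val_of_notMem ha, Multiset.map_cons,
      Multiset.antidiagonal_cons, Multiset.map_add, Multiset.sum_add, Multiset.map_map,
      Multiset.map_map]
    have h1 := ih (fun p q => F p (J a ::ₘ q))
    have h2 := ih (fun p q => F (J a ::ₘ p) q)
    have e1 : ((fun p : Multiset N × Multiset N => F p.1 p.2) ∘ Prod.map id (Multiset.cons (J a))) =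
        fun p => F p.1 (J a ::ₘ p.2) := rfl
    have e2 : ((fun p : Multiset N × Multiset N => F p.1 p.2) ∘ Prod.map (Multiset.cons (J a)) id) =
        fun p => F (J a ::ₘ p.1) p.2 := rfl
    rw [e1, e2, h1, h2]
    congr 1
    · refine Finset.sum_congr rfl fun s hs => ?_
      have hs' := Finset.mem_powerset.1 hs
      have hsa : a ∉ s := fun h => ha (hs' h)
      rw [Finset.insert_sdiff_of_notMem _ hsa, Finset.insert_val_of_notMem (by simp [ha]),
        Multiset.map_cons]
    · refine Finset.sum_congr rfl fun s hs => ?_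
      have hs' := Finset.mem_powerset.1 hs
      have hsa : a ∉ s := fun h => ha (hs' h)
      rw [Finset.insert_val_of_notMem hsa, Multiset.map_cons]
      congr 3
      ext x
      simp only [Finset.mem_sdiff, Finset.mem_insert]
      constructor
      · rintro ⟨h1, h2⟩
        exact ⟨Or.inr h1, fun h => h2 (h.resolve_left fun hxa => ha (hxa ▸ h1))⟩
      · rintro ⟨h1, h2⟩
        push Not at h2
        exact ⟨h1.resolve_left h2.1, h2.2⟩

theorem RR_powerset {ι : Type} [Fintype ι] [DecidableEq ι] [Nonempty ι] (J : ι → N) :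
    RR ((Finset.univ : Finset ι).val.map J) =
      2 * (∑ l, gT {l} * gT (l ::ₘ (Finset.univ : Finset ι).val.map J)) +
      ∑ s ∈ (Finset.univ : Finset ι).powerset with s.Nonempty ∧ sᶜ.Nonempty,
        ∑ l, gT (l ::ₘ s.val.map J) * gT (l ::ₘ sᶜ.val.map J) := by
  rw [RR_eq, sum_antidiagonal J FF]
  rw [← Finset.sum_filter_add_sum_filter_not (Finset.univ : Finset ι).powerset
    (fun s => s.Nonempty ∧ sᶜ.Nonempty)]
  rw [add_comm]
  congr 1
  · have hf : (Finset.univ : Finset ι).powerset.filter (fun s => ¬ (s.Nonempty ∧ sᶜ.Nonempty)) =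
        {∅, Finset.univ} := by
      ext s
      simp only [Finset.mem_filter, Finset.powerset_univ, Finset.mem_univ, true_and, not_and_or,
        Finset.not_nonempty_iff_eq_empty, Finset.compl_eq_empty_iff, Finset.mem_insert,
        Finset.mem_singleton]
    have hne : (∅ : Finset ι) ≠ Finset.univ := (Finset.univ_nonempty.ne_empty).symm
    rw [hf, Finset.sum_pair hne]
    simp only [FF, Finset.sdiff_empty, Finset.sdiff_self, Finset.empty_val, Multiset.map_zero,
      Multiset.cons_zero]
    rw [two_mul]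
    congr 1
    refine Finset.sum_congr rfl fun l _ => mul_comm _ _

variable [DecidableEq N]

omit [Fintype N] in
theorem dη_w (i j : N) : dη i (gw tau j) = (if i = j then 1 else 0) + tau • (ge * ge * gT {i, j}) := by
  have e1 : (i ::ₘ ({j} : Multiset N)) = {i, j} := rfl
  rw [gw, map_add, Derivation.map_smul, Derivation.leibniz, dη_e, dη_T, dη_η, smul_zero, add_zero,
    smul_eq_mul, e1, mul_assoc]
  congr 1
  simp only [eq_comm]

omit [Fintype N] in
theorem db_w (i j : N) : db i (gw tau j) = 0 := by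
  rw [gw, map_add, Derivation.map_smul, Derivation.leibniz, db_e, db_T, db_η, smul_zero, smul_zero,
    add_zero, smul_zero, add_zero]

/-- `X T_m` with the trivial splittings separated. -/
theorem XX_T' (m : Multiset N) : XX tau et (gT m) =
    (∑ l, (gw tau l * gT (l ::ₘ m) - dη l (gT (l ::ₘ m)))) +
      et • (ge * ∑ k, ∑ l, gb k * (gT {k, l} * gT (l ::ₘ m))) +
      tau • (ge * (RR m - 2 * ∑ l, gT {l} * gT (l ::ₘ m))) := by
  rw [XX_T, MvPolynomial.smul_eq_C_mul, MvPolynomial.smul_eq_C_mul, Finset.sum_sub_distrib]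
  have h1 : ∑ l, (gη l - C tau * ge * gT {l}) * gT (l ::ₘ m) =
      ∑ l, gw tau l * gT (l ::ₘ m) - 2 * (C tau * ge * ∑ l, gT {l} * gT (l ::ₘ m)) := by
    rw [Finset.mul_sum, Finset.mul_sum, ← Finset.sum_sub_distrib]
    refine Finset.sum_congr rfl fun l _ => ?_
    rw [gw, MvPolynomial.smul_eq_C_mul]
    ring
  have h2 : ∑ l, dη l (gT (l ::ₘ m)) = ge * ∑ l, gT (l ::ₘ l ::ₘ m) := by
    rw [Finset.mul_sum]
    exact Finset.sum_congr rfl fun l _ => dη_T _ _
  have h3 : ∑ k, ∑ l, gb k * gT {k, l} * gT (l ::ₘ m) =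
      ∑ k, ∑ l, gb k * (gT {k, l} * gT (l ::ₘ m)) :=
    Finset.sum_congr rfl fun k _ => Finset.sum_congr rfl fun l _ => mul_assoc _ _ _
  rw [h1, h2, h3]
  ring

theorem XX_T_powerset (ι : Type) [Fintype ι] [DecidableEq ι] [Nonempty ι] (J : ι → N) :
    XX tau et (gT ((Finset.univ : Finset ι).val.map J)) =
      (∑ l, (gw tau l * gT (l ::ₘ (Finset.univ : Finset ι).val.map J) -
        dη l (gT (l ::ₘ (Finset.univ : Finset ι).val.map J)))) +
      et • (ge * ∑ k, ∑ l, gb k * (gT {k, l} * gT (l ::ₘ (Finset.univ : Finset ι).val.map J))) +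
      tau • (ge * ∑ s ∈ (Finset.univ : Finset ι).powerset with s.Nonempty ∧ sᶜ.Nonempty,
        ∑ l, gT (l ::ₘ s.val.map J) * gT (l ::ₘ sᶜ.val.map J)) := by
  rw [XX_T', RR_powerset J, add_sub_cancel_left]

omit [DecidableEq N] in
theorem RR_singleton (i : N) : RR {i} = 2 * ∑ l, gT {l} * gT {l, i} := by
  have h := RR_powerset (N := N) (ι := Unit) (fun _ => i)
  have e1 : (Finset.univ : Finset Unit).val.map (fun _ => i) = {i} := rfl
  have e2 : ((Finset.univ : Finset Unit).powerset.filter fun s => s.Nonempty ∧ sᶜ.Nonempty) = ∅ := by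
    decide
  rw [e1, e2, Finset.sum_empty, add_zero] at h
  rw [h]
  rfl

theorem XX_w (i : N) : XX tau et (gw tau i) = et • ∑ k, gb k * gT {k, i} +
    tau • (ge * (∑ l, (gw tau l * gT {l, i} - dη l (gT {l, i})))) +
    (tau * et) • (ge * ge * ∑ k, ∑ l, gb k * (gT {k, l} * gT {l, i})) := by
  have h1 : XX tau et (gT {i}) = (∑ l, (gw tau l * gT {l, i} - dη l (gT {l, i}))) +
      et • (ge * ∑ k, ∑ l, gb k * (gT {k, l} * gT {l, i})) := by
    rw [XX_T', RR_singleton]
    have e : ∀ l, (l ::ₘ ({i} : Multiset N)) = {l, i} := fun _ => rfl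
    simp only [e, sub_self, mul_zero, smul_zero, add_zero]
  rw [gw, map_add, Derivation.map_smul, Derivation.leibniz, XX_e, XX_η, h1]
  simp only [smul_eq_mul, MvPolynomial.smul_eq_C_mul, C_mul]
  ring

theorem XX_b' (k : N) : XX tau et (gb k) =
    -(et • ∑ l, (gw tau l * gT {l, k} - dη l (gT {l, k}))) := by
  rw [XX_b, MvPolynomial.smul_eq_C_mul]
  congr 2
  refine Finset.sum_congr rfl fun l _ => ?_
  rw [dη_T, gw, MvPolynomial.smul_eq_C_mul]
  have e : (l ::ₘ ({l, k} : Multiset N)) = {l, l, k} := rfl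
  rw [e]
  ring

theorem XX_e' (k : N) (f : A N) : XX tau et (db k f) =
    db k (XX tau et f) - et • ∑ l, gT {k, l} * dη l f := by
  rw [XX_db, MvPolynomial.smul_eq_C_mul]

theorem dη_XX_b (i k : N) : dη i (XX tau et (gb k)) = - (C et * (gT {i, k} +
    C tau * ge ^ 2 * ∑ l, gT {i, l} * gT {l, k} + ge * ∑ l, (gw tau l * gT {i, l, k} -
      dη l (gT {i, l, k})))) := by
  have e1 : ∀ l, (i ::ₘ ({l, k} : Multiset N)) = {i, l, k} := fun _ => rfl
  have h : ∀ l ∈ Finset.univ, dη i (gw tau l * gT {l, k} - dη l (gT {l, k})) =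
      (if i = l then gT {l, k} else 0) + (C tau * ge ^ 2 * (gT {i, l} * gT {l, k}) +
        ge * (gw tau l * gT {i, l, k} - dη l (gT {i, l, k}))) := by
    intro l _
    rw [map_sub, Derivation.leibniz, dη_comm i l, dη_T, e1, Derivation.leibniz, dη_e, smul_zero,
      add_zero, dη_w, MvPolynomial.smul_eq_C_mul]
    simp only [smul_eq_mul]
    split_ifs <;> ring
  rw [XX_b', map_neg, Derivation.map_smul, map_sum, Finset.sum_congr rfl h, Finset.sum_add_distrib,
    Finset.sum_add_distrib, Finset.sum_ite_eq, ← Finset.mul_sum, ← Finset.mul_sum,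
    MvPolynomial.smul_eq_C_mul]
  simp only [Finset.mem_univ, if_true]
  ring

theorem auxA (i : N) (f : A N) : ∑ j : N, dη i (XX tau et (gη j)) * dη j f =
    - (C tau * ge * ∑ l, gT {i, l} * dη l f) + C et * ge * ∑ k, gb k * ∑ l, gT {i, k, l} * dη l f := by
  have h : ∀ j ∈ Finset.univ, dη i (XX tau et (gη j)) * dη j f =
      -(C tau * ge * (gT {i, j} * dη j f)) +
        C et * ge * ∑ k, gb k * (gT {i, k, j} * dη j f) := by
    intro j _
    have e1 : ({j, i} : Multiset N) = {i, j} := Multiset.cons_swap j i 0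
    have e2 : ∑ k, gb k * (gT {i, k, j} * dη j f) = (∑ k, gb k * gT {i, k, j}) * dη j f := by
      rw [Finset.sum_mul]
      exact Finset.sum_congr rfl fun k _ => (mul_assoc _ _ _).symm
    rw [dη_XX_η, e1, e2]
    ring
  rw [Finset.sum_congr rfl h, Finset.sum_add_distrib, Finset.sum_neg_distrib, ← Finset.mul_sum,
    ← Finset.mul_sum, Finset.sum_comm]
  simp only [Finset.mul_sum]

theorem auxB (i : N) (f : A N) : ∑ k : N, dη i (XX tau et (gb k)) * db k f =
    - (C et * ((∑ k, gT {i, k} * db k f) +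
      C tau * ge ^ 2 * (∑ l, ∑ k, gT {i, l} * (gT {l, k} * db k f)) +
      ge * ∑ l, ∑ k, (gw tau l * gT {i, l, k} - dη l (gT {i, l, k})) * db k f)) := by
  have h : ∀ k ∈ Finset.univ, dη i (XX tau et (gb k)) * db k f =
      - (C et * (gT {i, k} * db k f)) - C et * C tau * ge ^ 2 *
          (∑ l, gT {i, l} * (gT {l, k} * db k f)) - C et * ge *
        ∑ l, (gw tau l * gT {i, l, k} - dη l (gT {i, l, k})) * db k f := by
    intro k _
    rw [dη_XX_b]
    have e3 : ∑ l, gT {i, l} * (gT {l, k} * db k f) = (∑ l, gT {i, l} * gT {l, k}) * db k f := by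
      rw [Finset.sum_mul]
      exact Finset.sum_congr rfl fun l _ => (mul_assoc _ _ _).symm
    rw [e3, ← Finset.sum_mul]
    ring
  rw [Finset.sum_congr rfl h, Finset.sum_sub_distrib, Finset.sum_sub_distrib,
    Finset.sum_neg_distrib, ← Finset.mul_sum, ← Finset.mul_sum, ← Finset.mul_sum,
    Finset.sum_comm (f := fun k l => gT {i, l} * (gT {l, k} * db k f)),
    Finset.sum_comm (f := fun k l => (gw tau l * gT {i, l, k} - dη l (gT {i, l, k})) * db k f)]
  ring

omit [Fintype N] [DecidableEq N] in
theorem perm3 (i k l : N) : ({i, k, l} : Multiset N) = {i, l, k} := by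
  change i ::ₘ k ::ₘ l ::ₘ 0 = i ::ₘ l ::ₘ k ::ₘ 0
  rw [Multiset.cons_swap k l]

theorem auxC (i : N) (f : A N) : ∑ k, db k (∑ l, gT {i, k, l} * dη l f) =
    ∑ l, ∑ k, gT {i, l, k} * dη l (db k f) := by
  rw [Finset.sum_comm]
  have h : ∀ k ∈ Finset.univ, db k (∑ l, gT {i, k, l} * dη l f) =
      ∑ l, gT {i, l, k} * dη l (db k f) := by
    intro k _
    rw [map_sum]
    refine Finset.sum_congr rfl fun l _ => ?_
    rw [Derivation.leibniz, db_T, smul_zero, add_zero, smul_eq_mul, perm3, dη_db_comm]
  exact Finset.sum_congr rfl h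

theorem auxD (i : N) (f : A N) : ∑ l, dη l (∑ k, gT {i, l, k} * db k f) =
    ∑ l, ∑ k, dη l (gT {i, l, k}) * db k f + ∑ l, ∑ k, gT {i, l, k} * dη l (db k f) := by
  rw [← Finset.sum_add_distrib]
  refine Finset.sum_congr rfl fun l _ => ?_
  rw [map_sum, ← Finset.sum_add_distrib]
  refine Finset.sum_congr rfl fun k _ => ?_
  rw [Derivation.leibniz, smul_eq_mul, smul_eq_mul, add_comm, mul_comm (db k f)]

theorem auxE (i : N) (f : A N) :
    ∑ l, ∑ k, (gw tau l * gT {i, l, k} - dη l (gT {i, l, k})) * db k f =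
      ∑ l, gw tau l * (∑ k, gT {i, l, k} * db k f) - ∑ l, ∑ k, dη l (gT {i, l, k}) * db k f := by
  rw [← Finset.sum_sub_distrib]
  refine Finset.sum_congr rfl fun l _ => ?_
  rw [Finset.mul_sum, ← Finset.sum_sub_distrib]
  refine Finset.sum_congr rfl fun k _ => ?_
  rw [sub_mul, mul_assoc]

theorem XX_d' (i : N) (f : A N) : XX tau et (dη i f) = dη i (XX tau et f) +
    tau • (ge * ∑ l, gT {i, l} * dη l f) -
    et • (ge * ∑ k, (gb k * (∑ l, gT {i, k, l} * dη l f) - db k (∑ l, gT {i, k, l} * dη l f))) +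
    et • (ge * ∑ l, (gw tau l * (∑ k, gT {i, l, k} * db k f) - dη l (∑ k, gT {i, l, k} * db k f))) +
    et • (∑ k, gT {i, k} * db k f) +
    (tau * et) • (ge * ge * ∑ l, ∑ k, gT {i, l} * (gT {l, k} * db k f)) := by
  rw [XX_dη, auxA, auxB, auxE, Finset.sum_sub_distrib, Finset.sum_sub_distrib, auxC, auxD]
  simp only [MvPolynomial.smul_eq_C_mul, C_mul]
  generalize XX tau et f = x1
  generalize (∑ l, gT {i, l} * dη l f) = x2
  generalize (∑ k, gb k * ∑ l, gT {i, k, l} * dη l f) = x3
  generalize (∑ k, gT {i, k} * db k f) = x4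
  generalize (∑ l, ∑ k, gT {i, l} * (gT {l, k} * db k f)) = x5
  generalize (∑ l, gw tau l * (∑ k, gT {i, l, k} * db k f)) = x6
  generalize (∑ l, ∑ k, dη l (gT {i, l, k}) * db k f) = x7
  generalize (∑ l, ∑ k, gT {i, l, k} * dη l (db k f)) = x8
  ring

end sett

/-- **The algebraic half of the instance**: every evaluation of the formal ring and every functional
with the integration by parts property gives a configuration `Sett`. -/
noncomputable def mkSett (c : ℕ → ℝ) (N : Type) [Fintype N] [DecidableEq N] (K tau et : ℝ)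
    (hK : 1 ≤ K) (htau : |tau| ≤ 1) (het : |et| ≤ 1) (P : Type) (ev : P → A N →ₐ[ℝ] ℝ)
    (I : A N →ₗ[ℝ] ℝ) (I_nonneg : ∀ f, (∀ p, 0 ≤ ev p f) → 0 ≤ I f) (I_one : I 1 = 1)
    (hev : ∀ p, |ev p ge| ≤ 1)
    (I_d : ∀ i f g, I (dη i f * g) = I (f * (gw tau i * g - dη i g)))
    (I_e : ∀ i f g, I (db i f * g) = I (f * (gb i * g - db i g)))
    (AF : ∀ (p q : ℕ) (z : P) (x : (Fin (p + 1) → N) → ℝ),
      ∑ y : Fin (q + 1) → N, (∑ k : Fin (p + 1) → N,
        ev z (gT (Finset.univ.val.map k + Finset.univ.val.map y)) * x k) ^ 2 ≤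
        (c (p + q + 2) * K ^ (p + q + 2)) ^ 2 * ∑ k, x k ^ 2) : Sob.Sett c where
  N := N
  fN := inferInstance
  dN := inferInstance
  A := A N
  rA := inferInstance
  aA := inferInstance
  K := K
  one_le_K := hK
  tau := tau
  et := et
  abs_tau := htau
  abs_et := het
  eps := ge
  w := gw tau
  b := gb
  T := gT
  d := dη
  e := db
  X := XX tau et
  P := P
  ev := ev
  I := I
  I_nonneg := I_nonneg
  I_one := I_one
  abs_ev_eps := hev
  d_eps := dη_e
  e_eps := db_e
  d_w := dη_w tau
  e_w := db_w tau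
  d_b := dη_b
  e_b := fun i j => by rw [db_b]; simp only [eq_comm]
  d_T := fun i m _ => dη_T i m
  e_T := fun i m _ => db_T i m
  d_d := dη_comm
  d_e := dη_db_comm
  e_e := db_comm
  X_eps := XX_e tau et
  X_w := XX_w tau et
  X_b := XX_b' tau et
  X_T := fun ι _ _ _ J => XX_T_powerset tau et ι J
  X_e := XX_e' tau et
  X_d := XX_d' tau et
  I_d := I_d
  I_e := I_e
  AF := AF

end Crest.Agent.R285.Inst
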