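import Crest.Agent.R285.IBP

/-!
Row 285 (S0430): evaluation of formal polynomials in functions (analytic half of the instance of
`Sob.Sett`): polynomial growth, continuity, derivatives, and the functional `I`.
-/

set_option autoImplicit false
set_option linter.unusedSectionVars false

open MeasureTheory ProbabilityTheory Set Filter Topology
open scoped ENNReal NNReal

noncomputable section

namespace Crest.Agent.R285.PolyEv

open Crest.Agent.R285.IBP

variable {Gen : Type} {X : Type*}

/-- Evaluation at a point `x` of a polynomial in the functions `val g`. -/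
def evp (val : Gen → X → ℝ) (x : X) : MvPolynomial Gen ℝ →ₐ[ℝ] ℝ :=
  MvPolynomial.aeval (fun g => val g x)

@[simp] theorem evp_X (val : Gen → X → ℝ) (x : X) (g : Gen) :
    evp val x (MvPolynomial.X g) = val g x := by simp [evp]

@[simp] theorem evp_C (val : Gen → X → ℝ) (x : X) (r : ℝ) :
    evp val x (MvPolynomial.C r) = r := by simp [evp]

theorem PB_evp [NormedAddCommGroup X] {val : Gen → X → ℝ} (hval : ∀ g, PB (val g))
    (f : MvPolynomial Gen ℝ) : PB (fun x => evp val x f) := by
  induction f using MvPolynomial.induction_on with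
  | C r => simpa using (PB.const r : PB (fun _ : X => r))
  | add p q hp hq => simpa only [map_add] using hp.add hq
  | mul_X p g hp => simpa only [map_mul, evp_X] using hp.mul (hval g)

theorem continuous_evp [TopologicalSpace X] {val : Gen → X → ℝ} (hval : ∀ g, Continuous (val g))
    (f : MvPolynomial Gen ℝ) : Continuous (fun x => evp val x f) := by
  induction f using MvPolynomial.induction_on with
  | C r => simpa using continuous_const
  | add p q hp hq => simp only [map_add]; exact hp.add hq
  | mul_X p g hp => simp only [map_mul, evp_X]; exact hp.mul (hval g)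

/-- Derivatives along a curve. -/
theorem hasDerivAt_evp {val : Gen → X → ℝ} {D : Derivation ℝ (MvPolynomial Gen ℝ)
    (MvPolynomial Gen ℝ)} {γ : ℝ → X} {t : ℝ}
    (h : ∀ g, HasDerivAt (fun s => val g (γ s)) (evp val (γ t) (D (MvPolynomial.X g))) t)
    (f : MvPolynomial Gen ℝ) :
    HasDerivAt (fun s => evp val (γ s) f) (evp val (γ t) (D f)) t := by
  induction f using MvPolynomial.induction_on with
  | C r =>
    have : D (MvPolynomial.C r) = 0 := D.map_algebraMap r
    simpa [this] using hasDerivAt_const t r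
  | add p q hp hq => simp only [map_add]; exact hp.add hq
  | mul_X p g hp =>
    have h1 := hp.mul (h g)
    simp only [map_mul, evp_X]
    refine h1.congr_deriv ?_
    rw [D.leibniz]
    simp only [map_add, smul_eq_mul, map_mul, evp_X]
    ring

/-- Line derivatives. -/
theorem hasLineDerivAt_evp [AddCommGroup X] [Module ℝ X] {val : Gen → X → ℝ}
    {D : Derivation ℝ (MvPolynomial Gen ℝ) (MvPolynomial Gen ℝ)} {v x : X}
    (h : ∀ g, HasLineDerivAt ℝ (val g) (evp val x (D (MvPolynomial.X g))) x v)
    (f : MvPolynomial Gen ℝ) :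
    HasLineDerivAt ℝ (fun x => evp val x f) (evp val x (D f)) x v := by
  have h0 : ∀ g, HasDerivAt (fun s : ℝ => val g (x + s • v))
      (evp val (x + (0 : ℝ) • v) (D (MvPolynomial.X g))) 0 := fun g => by
    have := h g
    simpa [HasLineDerivAt] using this
  have := hasDerivAt_evp (D := D) (γ := fun s : ℝ => x + s • v) (t := 0) h0 f
  simpa [HasLineDerivAt] using this

/-! ### The functional -/

section functional

variable {E : Type*} [NormedAddCommGroup E] [InnerProductSpace ℝ E] [FiniteDimensional ℝ E]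
  [MeasurableSpace E] [BorelSpace E]

theorem isFiniteMeasure_gd {ψ : E → ℝ} (hψ : Continuous ψ) {C : ℝ} (hC : ∀ x, -C ≤ ψ x) :
    IsFiniteMeasure (dens volume (gd ψ)) :=
  have : Fact (RD (gd ψ)) := ⟨RD.gd hψ hC⟩
  isFiniteMeasure_dens

/-- The total mass of the (unnormalised) law. -/
def mass (ψ : E → ℝ) : ℝ := ∫ x, gd ψ x

theorem mass_pos {ψ : E → ℝ} (hψ : Continuous ψ) {C : ℝ} (hC : ∀ x, -C ≤ ψ x) : 0 < mass ψ := by
  unfold mass gd
  exact integral_exp_pos ((RD.gd hψ hC).integrable (μ := volume))

theorem M2_univ {ψ : E → ℝ} (hψ : Continuous ψ) {C : ℝ} (hC : ∀ x, -C ≤ ψ x) :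
    (M2 ψ).real univ = mass ψ := by
  have := isFiniteMeasure_gd hψ hC
  unfold M2
  rw [← univ_prod_univ, measureReal_prod_prod]
  simp only [measureReal_def, measure_univ, ENNReal.toReal_one, mul_one]
  unfold dens mass
  rw [withDensity_apply _ MeasurableSet.univ, Measure.restrict_univ,
    ← integral_toReal (RD.gd hψ hC).cont.measurable.ennreal_ofReal.aemeasurable
      (ae_of_all _ fun x => ENNReal.ofReal_lt_top)]
  exact integral_congr_ae (ae_of_all _ fun x => by
    simp only [ENNReal.toReal_ofReal ((RD.gd hψ hC).nonneg x)])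

/-- The hypotheses on the values of the generators at a fixed time. -/
structure Vals (Gen : Type) (ι : Type) (e : ι → E) (val : Gen → E × E → ℝ) (ψ : E → ℝ)
    (w b : ι → MvPolynomial Gen ℝ)
    (d dd : ι → Derivation ℝ (MvPolynomial Gen ℝ) (MvPolynomial Gen ℝ)) :
    Prop where
  cψ : Continuous ψ
  lψ : ∃ C : ℝ, ∀ x, -C ≤ ψ x
  pb : ∀ g, PB (val g)
  cont : ∀ g, Continuous (val g)
  val_w : ∀ i x, HasLineDerivAt ℝ ψ (evp val x (w i) - inner ℝ x.1 (e i)) x.1 (e i)
  val_b : ∀ i x, evp val x (b i) = inner ℝ x.2 (e i)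
  der_d : ∀ i g x, HasLineDerivAt ℝ (val g) (evp val x (d i (MvPolynomial.X g))) x (e i, 0)
  der_e : ∀ i g x, HasLineDerivAt ℝ (val g) (evp val x (dd i (MvPolynomial.X g))) x (0, e i)

/-- The normalised functional. -/
def If {Gen : Type} (val : Gen → E × E → ℝ) (ψ : E → ℝ)
    (hI : ∀ f, Integrable (fun x => evp val x f) (M2 ψ)) : MvPolynomial Gen ℝ →ₗ[ℝ] ℝ where
  toFun f := (mass ψ)⁻¹ * ∫ x, evp val x f ∂(M2 ψ)
  map_add' f g := by
    simp only [map_add]
    rw [integral_add (hI f) (hI g)]; ring
  map_smul' r f := by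
    simp only [map_smul, smul_eq_mul, RingHom.id_apply]
    rw [integral_const_mul]; ring

variable {Gen ι : Type} {e : ι → E} {val : Gen → E × E → ℝ} {ψ : E → ℝ}
  {w b : ι → MvPolynomial Gen ℝ}
  {d dd : ι → Derivation ℝ (MvPolynomial Gen ℝ) (MvPolynomial Gen ℝ)}

theorem Vals.integrable (h : Vals Gen ι e val ψ w b d dd) (f : MvPolynomial Gen ℝ) :
    Integrable (fun x => evp val x f) (M2 ψ) := by
  obtain ⟨C, hC⟩ := h.lψ
  exact M2_integrable h.cψ hC (PB_evp h.pb f) (continuous_evp h.cont f)

theorem Vals.I_nonneg (h : Vals Gen ι e val ψ w b d dd) (f : MvPolynomial Gen ℝ)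
    (hf : ∀ x, 0 ≤ evp val x f) : 0 ≤ If val ψ h.integrable f := by
  obtain ⟨C, hC⟩ := h.lψ
  exact mul_nonneg (inv_nonneg.mpr (mass_pos h.cψ hC).le) (integral_nonneg hf)

theorem Vals.I_one (h : Vals Gen ι e val ψ w b d dd) : If val ψ h.integrable 1 = 1 := by
  obtain ⟨C, hC⟩ := h.lψ
  have h1 := M2_univ h.cψ hC
  have h2 := mass_pos h.cψ hC
  simp only [If, LinearMap.coe_mk, AddHom.coe_mk, map_one, integral_const, smul_eq_mul, mul_one]
  rw [h1, inv_mul_cancel₀ h2.ne']

theorem Vals.I_d (h : Vals Gen ι e val ψ w b d dd) (i : ι) (f g : MvPolynomial Gen ℝ) :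
    If val ψ h.integrable (d i f * g) =
      If val ψ h.integrable (f * (w i * g - d i g)) := by
  obtain ⟨C, hC⟩ := h.lψ
  simp only [If, LinearMap.coe_mk, AddHom.coe_mk, map_mul, map_sub]
  congr 1
  -- the score does not depend on `b`
  have hw : ∀ x : E × E, evp val x (w i) = inner ℝ x.1 (e i) + (evp val (x.1, 0) (w i)
      - inner ℝ x.1 (e i)) := by
    intro x
    have h1 := h.val_w i x
    have h2 := h.val_w i (x.1, 0)
    have h3 := h1.lineDeriv.symm.trans h2.lineDeriv
    simp only at h3
    linarith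
  have key := M2_ibp_fst (ψ := ψ) (ψ' := fun y => evp val (y, 0) (w i) - inner ℝ y (e i)) h.cψ hC
    (v := e i) (fun y => h.val_w i (y, 0)) ?_ ?_
    (F := fun x => evp val x f) (F' := fun x => evp val x (d i f))
    (G := fun x => evp val x g) (G' := fun x => evp val x (d i g))
    (fun x => hasLineDerivAt_evp (fun g => h.der_d i g x) f)
    (fun x => hasLineDerivAt_evp (fun g => h.der_d i g x) g)
    (PB_evp h.pb f) (PB_evp h.pb _) (PB_evp h.pb g) (PB_evp h.pb _)
    (continuous_evp h.cont f) (continuous_evp h.cont _) (continuous_evp h.cont g)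
    (continuous_evp h.cont _)
  · rw [key]
    refine integral_congr_ae (ae_of_all _ fun x => ?_)
    simp only
    rw [← hw x]
  · refine PB.sub ?_ (PB.id.inner (PB.const (e i)))
    exact (PB_evp h.pb (w i)).comp (φ := fun y : E => (y, (0 : E)))
      (PB.id.mono fun y => by simp [Prod.norm_def])
  · exact ((continuous_evp h.cont (w i)).comp (by fun_prop)).sub (by fun_prop)

theorem Vals.I_e (h : Vals Gen ι e val ψ w b d dd) (i : ι) (f g : MvPolynomial Gen ℝ) :
    If val ψ h.integrable (dd i f * g) =
      If val ψ h.integrable (f * (b i * g - dd i g)) := by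
  obtain ⟨C, hC⟩ := h.lψ
  simp only [If, LinearMap.coe_mk, AddHom.coe_mk, map_mul, map_sub]
  congr 1
  have key := M2_ibp_snd (ψ := ψ) h.cψ hC (v := e i)
    (F := fun x => evp val x f) (F' := fun x => evp val x (dd i f))
    (G := fun x => evp val x g) (G' := fun x => evp val x (dd i g))
    (fun x => hasLineDerivAt_evp (fun g => h.der_e i g x) f)
    (fun x => hasLineDerivAt_evp (fun g => h.der_e i g x) g)
    (PB_evp h.pb f) (PB_evp h.pb _) (PB_evp h.pb g) (PB_evp h.pb _)
    (continuous_evp h.cont f) (continuous_evp h.cont _) (continuous_evp h.cont g)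
    (continuous_evp h.cont _)
  rw [key]
  refine integral_congr_ae (ae_of_all _ fun x => ?_)
  simp only
  rw [h.val_b]

end functional

end Crest.Agent.R285.PolyEv
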