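import Crest.Agent.R285.FixVals
import Crest.Agent.R285.InstAlg

/-!
Row 285 (S0430): the instance of `Sob.Sett` at a fixed time `ε`, centre `a`, scale `κ`.
-/

set_option autoImplicit false
set_option linter.unusedSectionVars false

open MeasureTheory ProbabilityTheory Set Filter Topology
open Crest.OracleSampling (E)
open Crest.Agent.R285.IBP Crest.Agent.R285.AF Crest.Agent.R285.PolyEv Crest.Agent.R285.FixVals
open Crest.Agent.R285.Inst (Gen A ge gη gb gT dη db)
open scoped RealInnerProductSpace ContDiff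

noncomputable section

namespace Crest.Agent.R285.InstFix

variable {d : ℕ}

/-- Values of the generators at the fixed time. -/
def gval (f : E d → ℝ) (κ : ℝ) (a : E d) (ε τ : ℝ) : Gen (Fin d) → E d × E d → ℝ
  | .eps, _ => ε
  | .eta i, x => x.1 i
  | .b i, x => x.2 i
  | .T m, x => vT f κ a ε τ m x

/-- The potential of the law at the fixed time. -/
def psi (f : E d → ℝ) (κ : ℝ) (a : E d) (ε : ℝ) (η : E d) : ℝ := Ub f κ (a + ε • η)

section

variable {f : E d → ℝ} {h κ : ℝ} (hf : PotP h f) (hκ : 0 < κ) (a : E d) (ε τ : ℝ)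

@[simp] theorem evp_ge (x : E d × E d) : evp (gval f κ a ε τ) x ge = ε := by
  unfold ge; rw [evp_X]; rfl
@[simp] theorem evp_gη (x : E d × E d) (i : Fin d) : evp (gval f κ a ε τ) x (gη i) = x.1 i := by
  unfold gη; rw [evp_X]; rfl
@[simp] theorem evp_gb (x : E d × E d) (i : Fin d) : evp (gval f κ a ε τ) x (gb i) = x.2 i := by
  unfold gb; rw [evp_X]; rfl
@[simp] theorem evp_gT (x : E d × E d) (m : Multiset (Fin d)) :
    evp (gval f κ a ε τ) x (gT m) = vT f κ a ε τ m x := by
  unfold gT; rw [evp_X]; rfl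

/-- The hypotheses of `PolyEv.Vals` hold. -/
theorem vals (hf : PotP h f) (hκ : 0 < κ) (a : E d) (ε : ℝ) {τ : ℝ} (hτ : τ ≠ 0)
    (hB : ∀ m : Multiset (Fin d), 2 ≤ Multiset.card m → ∃ C, ∀ y, |pdm m (Ub f κ) y| ≤ C) :
    Vals (Gen (Fin d)) (Fin d) (ev (d := d)) (gval f κ a ε τ) (psi f κ a ε) (Inst.gw τ) gb dη db where
  cψ := psi_cont hf hκ a ε
  lψ := ⟨0, psi_lower hf hκ a ε⟩
  pb := by
    intro g
    cases g with
    | eps => exact PB.const ε
    | eta i => exact PB_eta i
    | b i => exact PB_b i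
    | T m => exact vT_PB hf hκ a ε τ hB m
  cont := by
    intro g
    cases g with
    | eps => exact continuous_const
    | eta i => exact (by fun_prop : Continuous fun x : E d × E d => x.1 i)
    | b i => exact (by fun_prop : Continuous fun x : E d × E d => x.2 i)
    | T m => exact vT_cont hf hκ a ε τ m
  val_w := by
    intro i x
    have h1 := psi_line hf hκ a ε τ i x.1 hτ
    refine HasDerivAt.congr_deriv h1 ?_
    rw [inner_ev]
    unfold Inst.gw
    simp only [map_add, map_smul, map_mul, evp_gη, evp_ge, evp_gT, smul_eq_mul]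
    unfold vT
    ring
  val_b := by
    intro i x
    rw [inner_ev, evp_gb]
  der_d := by
    intro i g x
    cases g with
    | eps =>
      have : dη i (MvPolynomial.X (Gen.eps : Gen (Fin d))) = 0 := Inst.dη_e i
      rw [this, map_zero]
      exact (hasDerivAt_const (0 : ℝ) ε : HasDerivAt (fun _ : ℝ => ε) 0 0)
    | eta j =>
      have : dη i (MvPolynomial.X (Gen.eta j : Gen (Fin d))) = if j = i then 1 else 0 :=
        Inst.dη_η i j
      rw [this]
      have h1 := line_eta_fst (d := d) i j x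
      refine HasDerivAt.congr_deriv h1 ?_
      by_cases hij : i = j
      · subst hij; simp
      · rw [if_neg hij, if_neg (Ne.symm hij), map_zero]
    | b j =>
      have : dη i (MvPolynomial.X (Gen.b j : Gen (Fin d))) = 0 := Inst.dη_b i j
      rw [this, map_zero]
      exact line_b_fst i j x
    | T m =>
      have : dη i (MvPolynomial.X (Gen.T m : Gen (Fin d))) = ge * gT (i ::ₘ m) := Inst.dη_T i m
      rw [this]
      have h1 := vT_fst hf hκ a ε τ m i x
      refine HasDerivAt.congr_deriv h1 ?_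
      rw [map_mul, evp_ge, evp_gT]
  der_e := by
    intro i g x
    cases g with
    | eps =>
      have : db i (MvPolynomial.X (Gen.eps : Gen (Fin d))) = 0 := Inst.db_e i
      rw [this, map_zero]
      exact (hasDerivAt_const (0 : ℝ) ε : HasDerivAt (fun _ : ℝ => ε) 0 0)
    | eta j =>
      have : db i (MvPolynomial.X (Gen.eta j : Gen (Fin d))) = 0 := Inst.db_η i j
      rw [this, map_zero]
      exact line_eta_snd i j x
    | b j =>
      have : db i (MvPolynomial.X (Gen.b j : Gen (Fin d))) = if j = i then 1 else 0 :=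
        Inst.db_b i j
      rw [this]
      have h1 := line_b_snd (d := d) i j x
      refine HasDerivAt.congr_deriv h1 ?_
      by_cases hij : i = j
      · subst hij; simp
      · rw [if_neg hij, if_neg (Ne.symm hij), map_zero]
    | T m =>
      have : db i (MvPolynomial.X (Gen.T m : Gen (Fin d))) = 0 := Inst.db_T i m
      rw [this, map_zero]
      exact vT_snd hf hκ a ε τ m i x

/-- Boundedness of single entries from the flattening bound in operator form. -/
theorem bdd_of_AF {κ : ℝ} {τ : ℝ} (hτ : τ ≠ 0) {c : ℕ → ℝ} {K : ℝ}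
    (AF : ∀ (p q : ℕ) (y : E d) (x : (Fin (p + 1) → Fin d) → ℝ),
      ∑ j : Fin (q + 1) → Fin d, (∑ k : Fin (p + 1) → Fin d,
        (τ⁻¹ * pdm (Finset.univ.val.map k + Finset.univ.val.map j) (Ub f κ) y) * x k) ^ 2 ≤
        (c (p + q + 2) * K ^ (p + q + 2)) ^ 2 * ∑ k, x k ^ 2)
    (m : Multiset (Fin d)) (hm : 2 ≤ Multiset.card m) :
    ∃ C, ∀ y, |pdm m (Ub f κ) y| ≤ C := by
  classical
  obtain ⟨n, hn⟩ : ∃ n, Multiset.card m = n + 2 := ⟨Multiset.card m - 2, by omega⟩
  -- write m = i ::ₘ m'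
  obtain ⟨i, m', rfl⟩ : ∃ i m', m = i ::ₘ m' := by
    have : m ≠ 0 := by rintro rfl; simp at hm
    obtain ⟨i, hi⟩ := Multiset.exists_mem_of_ne_zero this
    obtain ⟨m', rfl⟩ := Multiset.exists_cons_of_mem hi
    exact ⟨i, m', rfl⟩
  have hm' : Multiset.card m' = n + 1 := by
    rw [Multiset.card_cons] at hn; omega
  -- a tuple with multiset of values m'
  obtain ⟨J, hJ⟩ : ∃ J : Fin (n + 1) → Fin d, Finset.univ.val.map J = m' := by
    obtain ⟨L, rfl⟩ := Quot.exists_rep m'
    have hL : L.length = n + 1 := by simpa using hm'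
    refine ⟨fun k => L.get (Fin.cast hL.symm k), ?_⟩
    rw [Fin.univ_val_map]
    have : List.ofFn (fun k : Fin (n + 1) => L.get (Fin.cast hL.symm k)) = L := by
      apply List.ext_get
      · simp [hL]
      · intro k h1 h2
        simp only [List.get_eq_getElem, List.getElem_ofFn, Fin.val_cast]
    rw [this]
    rfl
  refine ⟨|τ| * |c (n + 2) * K ^ (n + 2)|, fun y => ?_⟩
  have h1 := AF 0 n y (fun k => if k = (fun _ => i) then 1 else 0)
  have e1 : ∑ k : Fin (0 + 1) → Fin d, (if k = (fun _ => i) then (1 : ℝ) else 0) ^ 2 = 1 := by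
    simp
  rw [e1, mul_one] at h1
  have h2 : (∑ k : Fin (0 + 1) → Fin d,
        (τ⁻¹ * pdm (Finset.univ.val.map k + Finset.univ.val.map J) (Ub f κ) y) *
          (if k = (fun _ => i) then (1 : ℝ) else 0)) ^ 2 ≤
        (c (0 + n + 2) * K ^ (0 + n + 2)) ^ 2 :=
    (Finset.single_le_sum (f := fun j : Fin (n + 1) → Fin d => (∑ k : Fin (0 + 1) → Fin d,
        (τ⁻¹ * pdm (Finset.univ.val.map k + Finset.univ.val.map j) (Ub f κ) y) *
          (if k = (fun _ => i) then (1 : ℝ) else 0)) ^ 2) (fun j _ => sq_nonneg _)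
      (Finset.mem_univ J)).trans h1
  have e2 : (∑ k : Fin (0 + 1) → Fin d,
        (τ⁻¹ * pdm (Finset.univ.val.map k + Finset.univ.val.map J) (Ub f κ) y) *
          (if k = (fun _ => i) then (1 : ℝ) else 0)) = τ⁻¹ * pdm (i ::ₘ m') (Ub f κ) y := by
    rw [Finset.sum_eq_single (fun _ => i)]
    · rw [if_pos rfl, mul_one, hJ]
      congr 2
    · intro k _ hk; rw [if_neg hk, mul_zero]
    · intro hk; exact absurd (Finset.mem_univ _) hk
  rw [e2] at h2
  have h3 := sq_le_sq.mp h2
  rw [abs_mul, zero_add] at h3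
  rw [abs_inv] at h3
  have h4 : 0 < |τ| := abs_pos.mpr hτ
  rw [inv_mul_le_iff₀ h4] at h3
  exact h3

/-- **The instance.** -/
def fixSett (c : ℕ → ℝ) (K et : ℝ) (hK : 1 ≤ K) (het : |et| ≤ 1) (hf : PotP h f) (hκ : 0 < κ)
    (a : E d) (ε : ℝ) (hε : |ε| ≤ 1) {τ : ℝ} (hτ : τ ≠ 0) (hτ1 : |τ| ≤ 1)
    (AF : ∀ (p q : ℕ) (y : E d) (x : (Fin (p + 1) → Fin d) → ℝ),
      ∑ j : Fin (q + 1) → Fin d, (∑ k : Fin (p + 1) → Fin d,
        (τ⁻¹ * pdm (Finset.univ.val.map k + Finset.univ.val.map j) (Ub f κ) y) * x k) ^ 2 ≤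
        (c (p + q + 2) * K ^ (p + q + 2)) ^ 2 * ∑ k, x k ^ 2) : Sob.Sett c :=
  Inst.mkSett c (Fin d) K τ et hK hτ1 het (E d × E d) (evp (gval f κ a ε τ))
    (If (gval f κ a ε τ) (psi f κ a ε) (vals hf hκ a ε hτ (bdd_of_AF hτ AF)).integrable)
    (fun p hp => (vals hf hκ a ε hτ (bdd_of_AF hτ AF)).I_nonneg p hp)
    (vals hf hκ a ε hτ (bdd_of_AF hτ AF)).I_one
    (fun x => by rw [evp_ge]; exact hε)
    (vals hf hκ a ε hτ (bdd_of_AF hτ AF)).I_d
    (vals hf hκ a ε hτ (bdd_of_AF hτ AF)).I_e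
    (by
      intro p q z x
      have h1 := AF p q (a + ε • z.1) x
      simpa only [evp_gT, vT] using h1)

end

end Crest.Agent.R285.InstFix
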