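import Crest.Agent.R285.Curve

/-!
Row 285: polynomial expressions in smooth functions along a field: if the total derivative `Dv v` of every
generator is the value of `D (X g)` for a derivation `D` of `MvPolynomial Gen ℝ`, then `Dv v` of (the value of)
every polynomial `f` is the value of `D f`; iterates; vector valued functions given by coordinates.
-/

set_option autoImplicit false
set_option linter.unusedSectionVars false

open Set Filter Topology MeasureTheory

noncomputable section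

namespace Crest.Agent.R285.PolyDv

open Crest.Agent.R285

variable {Gen : Type} {W : Type} [NormedAddCommGroup W] [NormedSpace ℝ W]

/-- Evaluation of polynomials at the point `(t, x)`. -/
def evp (val : Gen → ℝ → W → ℝ) (t : ℝ) (x : W) : MvPolynomial Gen ℝ →ₐ[ℝ] ℝ :=
  MvPolynomial.aeval (fun g => val g t x)

@[simp] theorem evp_X (val : Gen → ℝ → W → ℝ) (t : ℝ) (x : W) (g : Gen) :
    evp val t x (MvPolynomial.X g) = val g t x := by
  simp [evp]

@[simp] theorem evp_C (val : Gen → ℝ → W → ℝ) (t : ℝ) (x : W) (a : ℝ) :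
    evp val t x (MvPolynomial.C a) = a := by
  simp [evp]

variable {val : Gen → ℝ → W → ℝ} {J : Set ℝ} {v : ℝ → W → W}

theorem smOn_evp (hval : ∀ g, SmOn (val g) J) (f : MvPolynomial Gen ℝ) :
    SmOn (fun t x => evp val t x f) J := by
  induction f using MvPolynomial.induction_on with
  | C a => simpa using (contDiffOn_const (c := a) :
      ContDiffOn ℝ ((⊤ : ℕ∞) : WithTop ℕ∞) (fun _ : ℝ × W => a) (J ×ˢ univ))
  | add p q hp hq =>
    simp only [map_add]
    exact ContDiffOn.add hp hq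
  | mul_X p g hp =>
    simp only [map_mul, evp_X]
    exact ContDiffOn.mul hp (hval g)

theorem Dv_evp (hJ : IsOpen J) (hval : ∀ g, SmOn (val g) J)
    (D : Derivation ℝ (MvPolynomial Gen ℝ) (MvPolynomial Gen ℝ))
    (hD : ∀ g, ∀ t ∈ J, ∀ x, Dv v (val g) t x = evp val t x (D (MvPolynomial.X g)))
    (f : MvPolynomial Gen ℝ) :
    ∀ t ∈ J, ∀ x, Dv v (fun t x => evp val t x f) t x = evp val t x (D f) := by
  intro t ht x
  induction f using MvPolynomial.induction_on with
  | C a =>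
    have : D (MvPolynomial.C a) = 0 := by
      rw [← MvPolynomial.algebraMap_eq]; exact D.map_algebraMap a
    rw [this, map_zero]
    simp [Dv]
  | add p q hp hq =>
    rw [map_add, map_add, ← hp, ← hq]
    simp only [Dv, map_add]
    rw [fderiv_fun_add ((smOn_evp hval p).differentiableAt hJ ht x)
      ((smOn_evp hval q).differentiableAt hJ ht x)]
    rfl
  | mul_X p g hp =>
    rw [Derivation.leibniz, map_add, smul_eq_mul, smul_eq_mul, map_mul, map_mul, ← hp, ← hD g t ht x]
    simp only [Dv, map_mul, evp_X]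
    rw [fderiv_fun_mul ((smOn_evp hval p).differentiableAt hJ ht x)
      ((hval g).differentiableAt hJ ht x)]
    simp

variable {F : Type*} [NormedAddCommGroup F] [NormedSpace ℝ F]

/-- `Dv` only depends on the values on `J × W`, `J` open. -/
theorem Dv_congr (hJ : IsOpen J) {f g : ℝ → W → F} (h : ∀ t ∈ J, ∀ x, f t x = g t x) :
    ∀ t ∈ J, ∀ x, Dv v f t x = Dv v g t x := by
  intro t ht x
  have e : (fun p : ℝ × W => f p.1 p.2) =ᶠ[𝓝 (t, x)] fun p : ℝ × W => g p.1 p.2 := by
    filter_upwards [(hJ.prod isOpen_univ).mem_nhds (show (t, x) ∈ J ×ˢ (univ : Set W) from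
      ⟨ht, mem_univ _⟩)] with p hp using h p.1 hp.1 p.2
  simp only [Dv]
  rw [e.fderiv_eq]

theorem iterate_Dv_congr (hJ : IsOpen J) {f g : ℝ → W → F} (h : ∀ t ∈ J, ∀ x, f t x = g t x)
    (n : ℕ) : ∀ t ∈ J, ∀ x, (Dv v)^[n] f t x = (Dv v)^[n] g t x := by
  induction n with
  | zero => exact h
  | succ n ih =>
    rw [Function.iterate_succ_apply', Function.iterate_succ_apply']
    exact Dv_congr hJ ih

theorem iterate_Dv_evp (hJ : IsOpen J) (hval : ∀ g, SmOn (val g) J)
    (D : Derivation ℝ (MvPolynomial Gen ℝ) (MvPolynomial Gen ℝ))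
    (hD : ∀ g, ∀ t ∈ J, ∀ x, Dv v (val g) t x = evp val t x (D (MvPolynomial.X g)))
    (n : ℕ) (f : MvPolynomial Gen ℝ) :
    ∀ t ∈ J, ∀ x, (Dv v)^[n] (fun t x => evp val t x f) t x = evp val t x (D^[n] f) := by
  induction n with
  | zero => intro t _ x; rfl
  | succ n ih =>
    intro t ht x
    rw [Function.iterate_succ_apply', Function.iterate_succ_apply']
    rw [Dv_congr hJ ih t ht x]
    exact Dv_evp hJ hval D hD _ t ht x

/-- `Dv` commutes with continuous linear maps. -/
theorem Dv_clm {F' : Type*} [NormedAddCommGroup F'] [NormedSpace ℝ F'] (L : F →L[ℝ] F')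
    {f : ℝ → W → F} {t : ℝ} {x : W}
    (hf : DifferentiableAt ℝ (fun p : ℝ × W => f p.1 p.2) (t, x)) :
    Dv v (fun t x => L (f t x)) t x = L (Dv v f t x) := by
  have h := (L.hasFDerivAt.comp (t, x) hf.hasFDerivAt).fderiv
  simp only [Dv]
  have e : (fun p : ℝ × W => L (f p.1 p.2)) = L ∘ fun p : ℝ × W => f p.1 p.2 := rfl
  rw [e, h]
  rfl

theorem iterate_Dv_clm {F' : Type*} [NormedAddCommGroup F'] [NormedSpace ℝ F'] (L : F →L[ℝ] F')
    (hJ : IsOpen J) {f : ℝ → W → F} (hf : SmOn f J) (hv : SmOn v J) (n : ℕ) :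
    ∀ t ∈ J, ∀ x, (Dv v)^[n] (fun t x => L (f t x)) t x = L ((Dv v)^[n] f t x) := by
  induction n with
  | zero => intro t _ x; rfl
  | succ n ih =>
    intro t ht x
    rw [Function.iterate_succ_apply', Function.iterate_succ_apply']
    rw [Dv_congr hJ ih t ht x]
    exact Dv_clm L ((hf.iterate_Dv hJ hv n).differentiableAt hJ ht x)

/-- Squared norm of the iterated total derivative of a vector valued function with polynomial
coordinates. -/
theorem norm_sq_iterate_Dv {d : ℕ} (hJ : IsOpen J) (hval : ∀ g, SmOn (val g) J) (hv : SmOn v J)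
    (D : Derivation ℝ (MvPolynomial Gen ℝ) (MvPolynomial Gen ℝ))
    (hD : ∀ g, ∀ t ∈ J, ∀ x, Dv v (val g) t x = evp val t x (D (MvPolynomial.X g)))
    {f : ℝ → W → EuclideanSpace ℝ (Fin d)} (hf : SmOn f J) (φ : Fin d → MvPolynomial Gen ℝ)
    (hφ : ∀ t ∈ J, ∀ x, ∀ i, f t x i = evp val t x (φ i)) (n : ℕ) :
    ∀ t ∈ J, ∀ x, ‖(Dv v)^[n] f t x‖ ^ 2 = ∑ i, (evp val t x (D^[n] (φ i))) ^ 2 := by
  intro t ht x
  rw [EuclideanSpace.norm_sq_eq]
  refine Finset.sum_congr rfl fun i _ => ?_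
  rw [Real.norm_eq_abs, sq_abs]
  have h1 := iterate_Dv_clm (EuclideanSpace.proj (𝕜 := ℝ) i : EuclideanSpace ℝ (Fin d) →L[ℝ] ℝ)
    hJ hf hv n t ht x
  have h2 : ∀ t ∈ J, ∀ x, (EuclideanSpace.proj (𝕜 := ℝ) i : EuclideanSpace ℝ (Fin d) →L[ℝ] ℝ)
      (f t x) = evp val t x (φ i) := fun t ht x => hφ t ht x i
  have h3 := iterate_Dv_congr (v := v) hJ h2 n t ht x
  have h4 := iterate_Dv_evp (v := v) hJ hval D hD n (φ i) t ht x
  have h5 : (EuclideanSpace.proj (𝕜 := ℝ) i : EuclideanSpace ℝ (Fin d) →L[ℝ] ℝ)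
      ((Dv v)^[n] f t x) = ((Dv v)^[n] f t x) i := rfl
  rw [← h5, ← h1, h3, h4]

end Crest.Agent.R285.PolyDv
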