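import Crest.Agent.R285.InstEv
import Crest.Agent.R285.InstFix
import Crest.Agent.R285.AFPot
import Crest.Agent.R285.PolyDv

/-!
Row 285 (S0430): the concrete potential `uT f s = Ub f √s` in the formal ring: joint smoothness of the
values of the generators at `(t, (η, b))`, and the derivative of the values of `T m` along curves.
-/

set_option autoImplicit false
set_option linter.unusedSectionVars false

open Set Filter Topology
open Crest.OracleSampling (E)
open Crest.Agent.R285.AF (uT pdm joint_uT hj_uT HJr)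
open Crest.Agent.R285.InstFix (gval)
open scoped ContDiff

noncomputable section

namespace Crest.Agent.R285.Inst

variable {d : ℕ}

/-- Evaluation with arbitrary coordinates of the quadratic identity: the formal derivative of `T m`. -/
theorem evt_XX_T {W : Type} [NormedAddCommGroup W] [NormedSpace ℝ W] {tau et : ℝ}
    {u : ℝ → E d → ℝ} {a : E d} {H B : ℝ → W → E d} (htau : tau ≠ 0) (t : ℝ) (x : W)
    (m : Multiset (Fin d)) :
    evt tau u a H B t x (XX tau et (gT m)) = tau⁻¹ *
      (-(2 * t) * AF.HJr (u (1 - t ^ 2)) m (a + t • H t x) +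
        ∑ l, (H t x l + t * evt tau u a H B t x (XX tau et (gη l))) *
          AF.pdm (l ::ₘ m) (u (1 - t ^ 2)) (a + t • H t x)) := by
  set s := 1 - t ^ 2 with hs
  set y := a + t • H t x with hy
  rw [XX_T]
  simp only [map_add, map_sub, map_mul, map_sum, evt_RR, evt_e, evt_η, evt_b, evt_T, evt_C]
  have e4 : ∀ l, H t x l + t * evt tau u a H B t x (XX tau et (gη l)) =
      H t x l - t * AF.pdm {l} (u s) y +
      t * (et * ∑ k, B t x k * (tau⁻¹ * AF.pdm {k, l} (u s) y)) := by
    intro l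
    rw [XX_η]
    simp only [map_add, map_neg, map_mul, map_sum, evt_b, evt_T, evt_C]
    rw [← hs, ← hy]
    field_simp
    ring
  simp only [e4]
  rw [← hs, ← hy, AF.HJr]
  set D : Multiset (Fin d) → ℝ := fun m => AF.pdm m (u s) y with hD
  have eD : ∀ m, AF.pdm m (u s) y = D m := fun _ => rfl
  have f1 : ∑ l, (H t x l - t * D {l} + t * (et * ∑ k, B t x k * (tau⁻¹ * D {k, l}))) *
      D (l ::ₘ m) = (∑ l, H t x l * D (l ::ₘ m)) - t * (∑ l, D {l} * D (l ::ₘ m)) +
        t * et * (∑ k, ∑ l, B t x k * (tau⁻¹ * D {k, l}) * D (l ::ₘ m)) := by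
    rw [Finset.sum_comm (s := Finset.univ) (t := Finset.univ)
      (f := fun k l => B t x k * (tau⁻¹ * D {k, l}) * D (l ::ₘ m)), Finset.mul_sum,
      Finset.mul_sum, ← Finset.sum_sub_distrib, ← Finset.sum_add_distrib]
    refine Finset.sum_congr rfl fun l _ => ?_
    rw [← Finset.sum_mul]
    ring
  have f2 : ∑ l, (H t x l - tau * t * (tau⁻¹ * D {l})) * (tau⁻¹ * D (l ::ₘ m)) =
      tau⁻¹ * ((∑ l, H t x l * D (l ::ₘ m)) - t * (∑ l, D {l} * D (l ::ₘ m))) := by
    rw [Finset.mul_sum, ← Finset.sum_sub_distrib, Finset.mul_sum]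
    refine Finset.sum_congr rfl fun l _ => ?_
    field_simp
  have f3 : ∑ k, ∑ l, B t x k * (tau⁻¹ * D {k, l}) * (tau⁻¹ * D (l ::ₘ m)) =
      tau⁻¹ * ∑ k, ∑ l, B t x k * (tau⁻¹ * D {k, l}) * D (l ::ₘ m) := by
    rw [Finset.mul_sum]
    refine Finset.sum_congr rfl fun k _ => ?_
    rw [Finset.mul_sum]
    refine Finset.sum_congr rfl fun l _ => ?_
    ring
  simp only [eD]
  rw [f1, f2, f3, ← Finset.mul_sum]
  field_simp
  ring

/-- At a fixed time the evaluation is the one of `InstFix`. -/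
theorem evt_eq_evp (tau : ℝ) (f : E d → ℝ) (a : E d) (t : ℝ) (x : E d × E d) :
    evt tau (uT f) a (fun _ x => x.1) (fun _ x => x.2) t x =
      PolyEv.evp (gval f √(1 - t ^ 2) a t tau) x := by
  refine MvPolynomial.algHom_ext fun g => ?_
  rw [PolyEv.evp_X, PolyEv.evp_X]
  cases g <;> rfl

/-- With general coordinates. -/
theorem evt_eq_evp' {W : Type} [NormedAddCommGroup W] [NormedSpace ℝ W] (tau : ℝ) (f : E d → ℝ)
    (a : E d) (H B : ℝ → W → E d) (t : ℝ) (x : W) :
    evt tau (uT f) a H B t x = PolyEv.evp (gval f √(1 - t ^ 2) a t tau) (H t x, B t x) := by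
  refine MvPolynomial.algHom_ext fun g => ?_
  rw [PolyEv.evp_X, PolyEv.evp_X]
  cases g <;> rfl

variable {f : E d → ℝ} {h : ℝ}

/-- (e1) joint smoothness of the values of the generators. -/
theorem smOn_gval (hf : PotP h f) (a : E d) (tau : ℝ) (g : Gen (Fin d)) :
    SmOn (fun t (x : E d × E d) => gval f √(1 - t ^ 2) a t tau g x) (Ioo (-1 : ℝ) 1) := by
  have h1 := smOn_val (tau := tau) (u := uT f) (a := a) (H := fun _ (x : E d × E d) => x.1)
    (B := fun _ x => x.2) (joint_uT hf) subset_rfl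
    (contDiff_fst.comp contDiff_snd).contDiffOn (contDiff_snd.comp contDiff_snd).contDiffOn g
  refine h1.congr fun p _ => ?_
  cases g <;> rfl

/-- (e2-T) derivative of the values of `T m` along a curve. -/
theorem hasDerivAt_gT (hf : PotP h f) (a : E d) {tau et : ℝ} (htau : tau ≠ 0) {t : ℝ}
    (ht : t ∈ Ioo (-1 : ℝ) 1) {η : ℝ → E d} {η' b : E d} (hη : HasDerivAt η η' t)
    (hη' : ∀ i, η' i = PolyEv.evp (gval f √(1 - t ^ 2) a t tau) (η t, b) (XX tau et (gη i)))
    (m : Multiset (Fin d)) :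
    HasDerivAt (fun s => tau⁻¹ * pdm m (Ub f √(1 - s ^ 2)) (a + s • η s))
      (PolyEv.evp (gval f √(1 - t ^ 2) a t tau) (η t, b) (XX tau et (gT m))) t := by
  have ht0 : (1 - t ^ 2) ∈ Ioi (0 : ℝ) := by
    simp only [mem_Ioi]
    nlinarith [ht.1, ht.2]
  have hj := AF.joint_pdm isOpen_Ioi (joint_uT hf) m
  have hd : DifferentiableAt ℝ (fun p : ℝ × E d => AF.pdm m (uT f p.1) p.2)
      (1 - t ^ 2, a + t • η t) :=
    AF.joint_diffAt (u := fun s => AF.pdm m (uT f s)) isOpen_Ioi hj ht0 _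
  have h1 : HasDerivAt (fun s : ℝ => 1 - s ^ 2) (-(2 * t)) t := by
    simpa using ((hasDerivAt_id t).pow 2).const_sub 1
  have h2 : HasDerivAt (fun s : ℝ => a + s • η s) (η t + t • η') t := by
    have := ((hasDerivAt_id t).smul hη).const_add a
    simpa [add_comm] using this
  have h3 := hd.hasFDerivAt.comp_hasDerivAt t (h1.prodMk h2)
  rw [fderiv_pdm isOpen_Ioi (joint_uT hf) (hj_uT hf) ht0 m] at h3
  have h4 := h3.const_mul tau⁻¹
  refine HasDerivAt.congr_deriv (f := fun s => tau⁻¹ * pdm m (Ub f √(1 - s ^ 2)) (a + s • η s)) h4 ?_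
  rw [← evt_eq_evp, evt_XX_T htau]
  congr 2
  refine Finset.sum_congr rfl fun l _ => ?_
  rw [evt_eq_evp]
  have e5 : (η t + t • η') l = η t l + t * η' l := rfl
  rw [e5, hη' l]

end Crest.Agent.R285.Inst
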