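import Crest.Agent.R285.LawQ
import Crest.Agent.R285.GlueQ

/-!
Row 285, module CHANNEL, part 6 (helper582): the exact law `Rec.PX` of the visible data of the
Q-system, from the product law of the coupled flow.
-/

set_option autoImplicit false
set_option linter.unusedSectionVars false

open MeasureTheory ProbabilityTheory Real Set
open Crest.OracleSampling (E Admissible)
open scoped RealInnerProductSpace ENNReal

noncomputable section

namespace Crest.Agent.R285

variable {d : ℕ}

open Chan

/-- **Law of the visible data.** `hl` is the product law of the coupled flow at time `√(1-κ²)`. -/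
theorem law_PX {h : ℝ} {V : E d → ℝ} (hV : PotP h V) (c : E d) {s κ : ℝ} (hs : 0 < s)
    (hκ : 0 < κ) (hκ1 : κ < 1) (σb : ℝ) {ηT bT : E d × E d → E d} (hη : Measurable ηT)
    (hb : Measurable bT)
    (hl : ((stdGaussian (E d)).prod (stdGaussian (E d))).map (fun w => (ηT w, bT w)) =
      ((stdGaussian (E d)).map (evol (vY V c s) (Ioo (-1 : ℝ) 1) 0 √(1 - κ ^ 2))).prod
        (stdGaussian (E d))) :
    (gam3 (E d)).map (fun ω => (![c + (s * √(1 - κ ^ 2)) • ηT ω.1,
        G V (s * κ) (c + (s * √(1 - κ ^ 2)) • ηT ω.1) + σb • bT ω.1, ω.2] : Fin 3 → E d)) =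
      Rec.PX (TY s κ) (fun V => G V (s * κ)) σb V c := by
  have h1 : 0 < 1 - κ ^ 2 := by nlinarith
  have h2 : 0 < √(1 - κ ^ 2) := Real.sqrt_pos.2 h1
  have h4 : √(1 - κ ^ 2) < 1 := by
    rw [Real.sqrt_lt' one_pos]; nlinarith
  have hme := measurable_evol_vY hV c hs (t := √(1 - κ ^ 2)) ⟨by linarith, h4⟩
  have hP : IsProbabilityMeasure
      ((stdGaussian (E d)).map (evol (vY V c s) (Ioo (-1 : ℝ) 1) 0 √(1 - κ ^ 2))) :=
    Measure.isProbabilityMeasure_map hme.aemeasurable
  have hG : Measurable (G V (s * κ)) := ((contDiff_gr hV).continuous.comp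
    (f := fun x : E d => ((s * κ, x) : ℝ × E d)) (by fun_prop)).measurable
  have hT : Measurable (fun z : E d × (E d × E d) =>
      (![z.1, G V (s * κ) z.1 + σb • z.2.1, z.2.2] : Fin 3 → E d)) :=
    Rec.measurable_vec3 measurable_fst
      ((hG.comp measurable_fst).add ((measurable_fst.comp measurable_snd).const_smul σb))
      (measurable_snd.comp measurable_snd)
  have hΦ : Measurable (fun η : E d => c + (s * √(1 - κ ^ 2)) • η) :=
    measurable_aff c (s * √(1 - κ ^ 2))
  have key := law_vis_of hη hb hl hΦ hT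
  have e1 : ((stdGaussian (E d)).map (evol (vY V c s) (Ioo (-1 : ℝ) 1) 0 √(1 - κ ^ 2))).map
      (fun η : E d => c + (s * √(1 - κ ^ 2)) • η) = TY s κ V c := by
    rw [Measure.map_map hΦ hme]
    exact evol_TY hV c hs hκ hκ1
  rw [e1] at key
  exact key

end Crest.Agent.R285
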