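import Crest.Agent.R285.Flow1
import Crest.Agent.R285.PolyEv

/-!
Row 285: rescaling `U ↦ f = U (s •)`, `c ↦ a = s⁻¹ c` to the unit scale, and the law of the flow (1) at
time `t` in terms of the reference measure `M2`.
-/

set_option autoImplicit false
set_option linter.unusedSectionVars false

open MeasureTheory ProbabilityTheory Real Filter Topology Set
open scoped RealInnerProductSpace ENNReal

noncomputable section

namespace Crest.Agent.R285.Scale

open Crest.Agent.R285 Crest.Agent.R285.IBP Crest.Agent.R285.PolyEv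

variable {V : Type} [NormedAddCommGroup V] [InnerProductSpace ℝ V] [FiniteDimensional ℝ V]
  [MeasurableSpace V] [BorelSpace V]

/-- The rescaled potential. -/
def fs (U : V → ℝ) (s : ℝ) (w : V) : ℝ := U (s • w)

variable {U : V → ℝ} {h s : ℝ}

theorem gradient_fs (hU : Differentiable ℝ U) (s : ℝ) (w : V) :
    gradient (fs U s) w = s • gradient U (s • w) := by
  refine ext_inner_right ℝ fun v => ?_
  rw [inner_gradient, inner_smul_left, inner_gradient]
  have h1 : HasFDerivAt (fun w : V => s • w) (s • ContinuousLinearMap.id ℝ V) w :=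
    (hasFDerivAt_id w).const_smul s
  have h2 : HasFDerivAt (fs U s) _ w := (hU (s • w)).hasFDerivAt.comp w h1
  rw [h2.fderiv]
  simp

theorem potP_fs (hU : PotP h U) (s : ℝ) : PotP (h * s ^ 2) (fs U s) := by
  have hd : Differentiable ℝ U := hU.cd.differentiable (by norm_num)
  have hcd : ContDiff ℝ 2 (fs U s) := hU.cd.comp (contDiff_const_smul s)
  have h2 : ∀ x v, iteratedFDeriv ℝ 2 (fs U s) x ![v, v] =
      s ^ 2 * iteratedFDeriv ℝ 2 U (s • x) ![v, v] := by
    intro x v
    have e : fs U s = U ∘ (s • ContinuousLinearMap.id ℝ V : V →L[ℝ] V) := by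
      funext w; simp [fs]
    rw [e, ContinuousLinearMap.iteratedFDeriv_comp_right _ hU.cd _ (by norm_num)]
    simp only [ContinuousMultilinearMap.compContinuousLinearMap_apply]
    have e2 : (fun i : Fin 2 => (s • ContinuousLinearMap.id ℝ V) ((![v, v] : Fin 2 → V) i)) =
        fun i => s • (![v, v] : Fin 2 → V) i := by
      funext i; simp
    rw [e2, ContinuousMultilinearMap.map_smul_univ]
    simp [sq]
  refine ⟨⟨hcd, ?_, ?_, fun x v => ?_, fun x v => ?_⟩, ?_⟩
  · simpa [fs] using hU.zero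
  · rw [gradient_fs hd, smul_zero, hU.grad0, smul_zero]
  · rw [h2]
    exact mul_nonneg (sq_nonneg _) (hU.lo _ _)
  · rw [h2]
    have := mul_le_mul_of_nonneg_left (hU.hi (s • x) v) (sq_nonneg s)
    nlinarith
  · exact mul_nonneg hU.hh (sq_nonneg _)

theorem Ub_fs (U : V → ℝ) (s κ : ℝ) (y : V) : Ub (fs U s) κ y = Ub U (s * κ) (s • y) := by
  unfold Ub fs
  congr 2
  refine integral_congr_ae (ae_of_all _ fun g => ?_)
  simp only [smul_add, smul_smul]

theorem G_fs (hU : PotP h U) (s κ : ℝ) (y : V) :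
    G (fs U s) κ y = s • G U (s * κ) (s • y) := by
  have e : Ub (fs U s) κ = fs (Ub U (s * κ)) s := by
    funext y; exact Ub_fs U s κ y
  unfold G
  rw [e, gradient_fs]
  intro x
  exact (hasFDerivAt_ub_x hU (s * κ) x).differentiableAt

theorem vY_fs (hU : PotP h U) (hs : s ≠ 0) (c : V) (t : ℝ) (η : V) :
    vY U c s t η = vY (fs U s) (s⁻¹ • c) 1 t η := by
  unfold vY
  rw [one_smul, one_mul, one_mul, G_fs hU]
  congr 3
  rw [smul_add, smul_smul, mul_inv_cancel₀ hs, one_smul, smul_smul]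

theorem vY_fs' (hU : PotP h U) (hs : s ≠ 0) (c : V) :
    vY U c s = vY (fs U s) (s⁻¹ • c) 1 := by
  funext t η; exact vY_fs hU hs c t η

variable {f : V → ℝ}

/-- The potential of the law at time `t` (unit scale, centre `a`). -/
def psi (f : V → ℝ) (a : V) (t : ℝ) (η : V) : ℝ := Ub f (√(1 - t ^ 2)) (a + t • η)

theorem continuous_psi (hf : PotP h f) (a : V) (t : ℝ) : Continuous (psi f a t) := by
  unfold psi
  exact (contDiff_ub hf).continuous.comp (f := fun η : V => (√(1 - t ^ 2), a + t • η)) (by fun_prop)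

theorem Ub_nonneg (hf : PotP h f) (σ : ℝ) (x : V) : 0 ≤ Ub f σ x := by
  unfold Ub
  rw [neg_nonneg]
  refine Real.log_nonpos (integral_nonneg fun g => (exp_pos _).le) ?_
  calc ∫ g, rexp (-f (x + σ • g)) ∂(stdGaussian V) ≤ ∫ _, (1 : ℝ) ∂(stdGaussian V) := by
        refine integral_mono_of_nonneg (ae_of_all _ fun g => (exp_pos _).le) (integrable_const _)
          (ae_of_all _ fun g => ?_)
        simpa using pot_nonneg hf (x + σ • g)
    _ = 1 := by simp

theorem psi_nonneg (hf : PotP h f) (a : V) (t : ℝ) (η : V) : 0 ≤ psi f a t η := Ub_nonneg hf _ _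

/-- The law of the flow (1) at time `t`. -/
def law1 (f : V → ℝ) (a : V) (t : ℝ) : Measure V :=
  (stdGaussian V).withDensity fun η => ENNReal.ofReal (rexp (Ub f 1 a - psi f a t η))

theorem law1_eq (f : V → ℝ) (a : V) (t : ℝ) : law1 f a t =
    (stdGaussian V).withDensity fun η => ENNReal.ofReal
        (rexp (Ub f 1 a - Ub f (√(1 - t ^ 2)) (a + t • η))) := rfl

theorem map_evol_law1 (hf : PotP h f) (a : V) {t : ℝ} (ht : t ∈ Ioo (-1 : ℝ) 1) :
    (stdGaussian V).map (evol (vY f a 1) (Ioo (-1 : ℝ) 1) 0 t) = law1 f a t := by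
  rw [map_evol_vY hf a one_pos ht, law1_eq]
  simp only [one_mul]

theorem isProb_law1 (hf : PotP h f) (a : V) {t : ℝ} (ht : t ∈ Ioo (-1 : ℝ) 1) :
    IsProbabilityMeasure (law1 f a t) := by
  rw [← map_evol_law1 hf a ht]
  exact Measure.isProbabilityMeasure_map
    ((goodOn_vY hf a one_pos).continuous_evol ⟨by norm_num, by norm_num⟩ ht).measurable.aemeasurable

theorem law1_smul (hf : PotP h f) (a : V) (t : ℝ) : law1 f a t =
    ENNReal.ofReal ((2 * π) ^ (-(Module.finrank ℝ V : ℝ) / 2) * rexp (Ub f 1 a)) •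
      dens volume (gd (psi f a t)) := by
  unfold law1 dens
  rw [stdGaussian_eq_withDensity, ← withDensity_mul _ continuous_gdens.measurable.ennreal_ofReal,
    ← withDensity_smul']
  · congr 1
    funext x
    rw [Pi.mul_apply, Pi.smul_apply, smul_eq_mul, ← ENNReal.ofReal_mul (gdens_pos x).le,
      ← ENNReal.ofReal_mul (by positivity)]
    congr 1
    unfold gdens gd
    rw [exp_sub, exp_sub, show -(‖x‖ ^ 2 / 2) = -‖x‖ ^ 2 / 2 by ring]
    ring
  · exact ENNReal.ofReal_ne_top
  · refine Measurable.ennreal_ofReal (Continuous.measurable ?_)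
    exact Real.continuous_exp.comp (continuous_const.sub (continuous_psi hf a t))

theorem law1_mass (hf : PotP h f) (a : V) {t : ℝ} (ht : t ∈ Ioo (-1 : ℝ) 1) : law1 f a t =
    ENNReal.ofReal (mass (psi f a t))⁻¹ • dens volume (gd (psi f a t)) := by
  have h1 := law1_smul hf a t
  set C : ℝ := (2 * π) ^ (-(Module.finrank ℝ V : ℝ) / 2) * rexp (Ub f 1 a) with hC
  have hC0 : 0 < C := by positivity
  have hl : ∀ x, -(0 : ℝ) ≤ psi f a t x := fun x => by simpa using psi_nonneg hf a t x
  have hc := continuous_psi hf a t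
  have hm := mass_pos hc hl
  have hp := isProb_law1 hf a ht
  have h2 : (dens volume (gd (psi f a t))) univ = ENNReal.ofReal (mass (psi f a t)) := by
    unfold dens mass
    rw [withDensity_apply _ MeasurableSet.univ, Measure.restrict_univ,
      ofReal_integral_eq_lintegral_ofReal ((RD.gd hc hl).integrable (μ := volume))
        (ae_of_all _ (RD.gd hc hl).nonneg)]
  have h3 : ENNReal.ofReal C * ENNReal.ofReal (mass (psi f a t)) = 1 := by
    have h4 : (law1 f a t) univ = 1 := measure_univ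
    rw [h1, Measure.smul_apply, smul_eq_mul, h2] at h4
    exact h4
  rw [← ENNReal.ofReal_mul hC0.le] at h3
  have h5 : C * mass (psi f a t) = 1 := by
    have := congrArg ENNReal.toReal h3
    rwa [ENNReal.toReal_ofReal (by positivity), ENNReal.toReal_one] at this
  rw [h1, eq_inv_of_mul_eq_one_left h5]

theorem law1_prod (hf : PotP h f) (a : V) {t : ℝ} (ht : t ∈ Ioo (-1 : ℝ) 1) :
    (law1 f a t).prod (stdGaussian V) =
      ENNReal.ofReal (mass (psi f a t))⁻¹ • M2 (psi f a t) := by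
  rw [law1_mass hf a ht, M2]
  exact Measure.prod_smul_left _

/-- `L²` norm (against the normalised `M2`) of a function whose squared norm is a sum of squares of
values of polynomials. -/
theorem eLpNorm_M2_le {Gen ι κ : Type} [Fintype κ] {e : ι → V} {val : Gen → V × V → ℝ} {ψ : V → ℝ}
    {w b : ι → MvPolynomial Gen ℝ} {d dd : ι → Derivation ℝ (MvPolynomial Gen ℝ) (MvPolynomial Gen ℝ)}
    (h : Vals Gen ι e val ψ w b d dd) {H : Type*} [NormedAddCommGroup H] {F : V × V → H}
    (φ : κ → MvPolynomial Gen ℝ)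
    (hφ : ∀ x, ‖F x‖ ^ 2 = ∑ i, (evp val x (φ i)) ^ 2) {B : ℝ} (hB0 : 0 ≤ B)
    (hB : ∑ i, If val ψ h.integrable (φ i * φ i) ≤ B ^ 2) :
    eLpNorm F 2 (ENNReal.ofReal (mass ψ)⁻¹ • M2 ψ) ≤ ENNReal.ofReal B := by
  obtain ⟨C, hC⟩ := h.lψ
  have hm := mass_pos h.cψ hC
  rw [eLpNorm_eq_lintegral_rpow_enorm_toReal (by norm_num) (by norm_num)]
  simp only [ENNReal.toReal_ofNat, ENNReal.rpow_ofNat, one_div]
  have e1 : ∀ x, ‖F x‖ₑ ^ 2 = ENNReal.ofReal (∑ i, evp val x (φ i * φ i)) := by
    intro x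
    rw [← ofReal_norm, ← ENNReal.ofReal_pow (norm_nonneg _), hφ]
    congr 1
    refine Finset.sum_congr rfl fun i _ => ?_
    rw [map_mul]; ring
  simp only [e1]
  rw [lintegral_smul_measure, ← ofReal_integral_eq_lintegral_ofReal
    (integrable_finsetSum _ fun i _ => h.integrable (φ i * φ i))
    (ae_of_all _ fun x => Finset.sum_nonneg fun i _ => by
      rw [map_mul]; exact mul_self_nonneg _), smul_eq_mul, ← ENNReal.ofReal_mul (inv_nonneg.2 hm.le),
    integral_finsetSum _ fun i _ => h.integrable (φ i * φ i), Finset.mul_sum]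
  have e2 : ∑ i, (mass ψ)⁻¹ * ∫ x, evp val x (φ i * φ i) ∂(M2 ψ) ≤ B ^ 2 := hB
  calc (ENNReal.ofReal (∑ i, (mass ψ)⁻¹ * ∫ x, evp val x (φ i * φ i) ∂(M2 ψ))) ^ (2 : ℝ)⁻¹
      ≤ (ENNReal.ofReal (B ^ 2)) ^ (2 : ℝ)⁻¹ := by gcongr
    _ = ENNReal.ofReal B := by
        rw [ENNReal.ofReal_rpow_of_nonneg (by positivity) (by norm_num),
          show (2 : ℝ)⁻¹ = 1 / 2 by norm_num, ← Real.sqrt_eq_rpow, Real.sqrt_sq hB0]

end Crest.Agent.R285.Scale
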