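import Crest.Agent.R285.Flow3
import Crest.Agent.R285.LawPX
import Crest.Agent.R285.Scale

/-!
Row 285, module CHANNEL, part 8 (helper582): the joint laws of the Q-system for the coupled flow
`cpl` of `Flow3.lean`, on `(V × V) × V` with `γ × γ × γ`, `ω = ((ξ, b₀), q)`.

* `hl_cpl`        : `(η_t, b_t) ∼ (law of the single flow) × γ`;
* `frozLaw_cpl`   : helper41's `FrozLaw`, original units; `frozLaw_cpl_one` : unit scale;
* `law_PX_cpl`    : the visible data has exactly the law `Rec.PX`;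
* `cpl_fs`, `cplB_fs` : rescaling to the unit scale `f = U (s •)`, centre `s⁻¹ c`.
-/

set_option autoImplicit false
set_option linter.unusedSectionVars false

open MeasureTheory ProbabilityTheory Real Set
open Crest.OracleSampling (E Admissible)
open scoped RealInnerProductSpace ENNReal

noncomputable section

namespace Crest.Agent.R285

variable {V : Type} [NormedAddCommGroup V] [InnerProductSpace ℝ V] [FiniteDimensional ℝ V]
  [MeasurableSpace V] [BorelSpace V] {h : ℝ} {U : V → ℝ}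

open Scale (fs)

theorem measurable_cpl_fst (hU : PotP h U) (c : V) {s : ℝ} (hs : 0 < s) (ρ : ℝ) {t : ℝ}
    (ht : t ∈ Ioo (-1 : ℝ) 1) : Measurable fun w => (cpl U c s ρ t w).1 :=
  (continuous_cpl hU c hs ρ ht).fst.measurable

theorem measurable_cplB (hU : PotP h U) (c : V) {s : ℝ} (hs : 0 < s) (ρ : ℝ) {t : ℝ}
    (ht : t ∈ Ioo (-1 : ℝ) 1) : Measurable (cplB U c s ρ t) :=
  (continuous_cplB hU c hs ρ ht).measurable

/-- Product law of the coupled flow. -/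
theorem hl_cpl (hU : PotP h U) (c : V) {s : ℝ} (hs : 0 < s) {ρ : ℝ} (hρ : 0 < ρ) {t : ℝ}
    (ht : t ∈ Ioo (-1 : ℝ) 1) :
    ((stdGaussian V).prod (stdGaussian V)).map (fun w => ((cpl U c s ρ t w).1, cplB U c s ρ t w)) =
      ((stdGaussian V).map (evol (vY U c s) (Ioo (-1 : ℝ) 1) 0 t)).prod (stdGaussian V) := by
  rw [map_evol_vY' hU c hs ht]
  exact map_cpl_b hU c hs hρ ht

/-- `FrozLaw` for the coupled flow. -/
theorem frozLaw_cpl (hU : PotP h U) (c : V) {s : ℝ} (hs : 0 < s) {ρ : ℝ} (hρ : 0 < ρ) {t : ℝ}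
    (ht : t ∈ Ioo (-1 : ℝ) 1) {Φ : V → V} (hΦ : Measurable Φ) :
    FrozLaw (gam3 V) (fun ω => Φ (cpl U c s ρ t ω.1).1) (fun ω => cplB U c s ρ t ω.1)
      (fun ω => ω.2) := by
  have := isProb_muY hU c hs ht
  exact frozLaw_of (measurable_cpl_fst hU c hs ρ ht) (measurable_cplB hU c hs ρ ht)
    (map_cpl_b hU c hs hρ ht) hΦ

/-- `FrozLaw` at the unit scale with centre `a`. -/
theorem frozLaw_cpl_one (hU : PotP h U) (a : V) {ρ : ℝ} (hρ : 0 < ρ) {t : ℝ}
    (ht : t ∈ Ioo (-1 : ℝ) 1) :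
    FrozLaw (gam3 V) (fun ω => a + t • (cpl U a 1 ρ t ω.1).1) (fun ω => cplB U a 1 ρ t ω.1)
      (fun ω => ω.2) :=
  frozLaw_cpl hU a one_pos hρ ht (Φ := fun η => a + t • η) (measurable_aff a t)

/-! ### rescaling -/

theorem DGr_fs (hU : PotP h U) (s κ : ℝ) (y : V) :
    DGr (fs U s) (κ, y) = s ^ 2 • DGr U (s * κ, s • y) := by
  have h1 := hasFDerivAt_gr_x (Scale.potP_fs hU s) κ y
  have e : G (fs U s) κ = fun y => s • G U (s * κ) (s • y) := funext fun y => Scale.G_fs hU s κ y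
  have h2 : HasFDerivAt (fun y : V => s • y) (s • ContinuousLinearMap.id ℝ V) y :=
    (hasFDerivAt_id y).const_smul s
  have h3 : HasFDerivAt (fun y : V => s • G U (s * κ) (s • y)) _ y :=
    ((hasFDerivAt_gr_x hU (s * κ) (s • y)).comp y h2).const_smul s
  rw [e] at h1
  rw [h1.unique h3]
  ext v
  simp [smul_smul, sq]

theorem gS_fs (hU : PotP h U) {s : ℝ} (hs : s ≠ 0) (c : V) (t : ℝ) (η : V) :
    gS U c s t η = gS (fs U s) (s⁻¹ • c) 1 t η := by
  have h1 := Scale.vY_fs hU hs c t η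
  have e1 : gS U c s t η = -vY U c s t η := by rw [vY, neg_neg]; rfl
  have e2 : gS (fs U s) (s⁻¹ • c) 1 t η = -vY (fs U s) (s⁻¹ • c) 1 t η := by
    rw [vY, neg_neg]; rfl
  rw [e1, e2, h1]

theorem opA_fs (hU : PotP h U) {s : ℝ} (hs : s ≠ 0) (c : V) (t : ℝ) (η : V) :
    opA U c s t η = opA (fs U s) (s⁻¹ • c) 1 t η := by
  unfold opA
  rw [one_mul, one_mul, one_pow, one_smul, DGr_fs hU, smul_add, smul_smul, mul_inv_cancel₀ hs,
    one_smul, smul_smul]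

theorem vQ_fs (hU : PotP h U) {s : ℝ} (hs : s ≠ 0) (c : V) (ρ : ℝ) :
    vQ U c s ρ = vQ (fs U s) (s⁻¹ • c) 1 ρ := by
  funext t x
  unfold vQ
  rw [← gS_fs hU hs, ← opA_fs hU hs]

theorem cpl_fs (hU : PotP h U) {s : ℝ} (hs : s ≠ 0) (c : V) (ρ t : ℝ) (w : V × V) :
    cpl U c s ρ t w = cpl (fs U s) (s⁻¹ • c) 1 ρ t w := by
  unfold cpl
  rw [vQ_fs hU hs, Scale.G_fs hU, one_smul, mul_one, smul_smul s s⁻¹ c, mul_inv_cancel₀ hs,
    one_smul]

theorem cplB_fs (hU : PotP h U) {s : ℝ} (hs : s ≠ 0) (c : V) (ρ t : ℝ) (w : V × V) :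
    cplB U c s ρ t w = cplB (fs U s) (s⁻¹ • c) 1 ρ t w := by
  unfold cplB
  rw [cpl_fs hU hs, ← gS_fs hU hs]

/-! ### the visible data -/

section vis

variable {d : ℕ}

/-- **Law of the visible data**, original units, `ρ = s σ_b`. -/
theorem law_PX_cpl {V : E d → ℝ} (hV : PotP h V) (c : E d) {s κ σb ρ : ℝ} (hs : 0 < s)
    (hκ : 0 < κ) (hκ1 : κ < 1) (hρ : 0 < ρ) :
    (gam3 (E d)).map (fun ω => (![c + (s * √(1 - κ ^ 2)) • (cpl V c s ρ √(1 - κ ^ 2) ω.1).1,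
        G V (s * κ) (c + (s * √(1 - κ ^ 2)) • (cpl V c s ρ √(1 - κ ^ 2) ω.1).1) +
          σb • cplB V c s ρ √(1 - κ ^ 2) ω.1, ω.2] : Fin 3 → E d)) =
      Rec.PX (TY s κ) (fun V => G V (s * κ)) σb V c := by
  have h1 : 0 < 1 - κ ^ 2 := by nlinarith
  have h2 : 0 < √(1 - κ ^ 2) := Real.sqrt_pos.2 h1
  have h4 : √(1 - κ ^ 2) < 1 := by
    rw [Real.sqrt_lt' one_pos]; nlinarith
  have ht : √(1 - κ ^ 2) ∈ Ioo (-1 : ℝ) 1 := ⟨by linarith, h4⟩
  exact law_PX hV c hs hκ hκ1 σb (measurable_cpl_fst hV c hs ρ ht) (measurable_cplB hV c hs ρ ht)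
    (hl_cpl hV c hs hρ ht)

/-- The visible gradient value in terms of the second coordinate of the flow: `X_t / s`. -/
theorem X1_eq (U : V → ℝ) (c : V) {s σb : ℝ} (hs : 0 < s) (hσ : 0 < σb) (t : ℝ) (w : V × V) :
    G U (s * √(1 - t ^ 2)) (c + (s * t) • (cpl U c s (s * σb) t w).1) +
      σb • cplB U c s (s * σb) t w = s⁻¹ • (cpl U c s (s * σb) t w).2 := by
  rw [cpl_snd_eq U c s (mul_pos hs hσ), smul_add, gS, smul_smul, smul_smul,
    inv_mul_cancel₀ hs.ne', one_smul, ← mul_assoc, inv_mul_cancel₀ hs.ne', one_mul]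

end vis

end Crest.Agent.R285
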