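import Crest.Agent.R285.TopTilt
import Crest.Agent.R285.Defs

/-!
Row 285 (S0430), module TOP: elementary facts on admissible potentials.
-/

set_option autoImplicit false

open MeasureTheory Crest.OracleSampling Set Filter Topology
open scoped ENNReal RealInnerProductSpace

noncomputable section

namespace Crest.Agent.R285.Top

variable {d : ℕ} {V : E d → ℝ}

theorem adm_hasDeriv (hV : Admissible d V) (x h : E d) (t : ℝ) :
    HasDerivAt (fun t : ℝ => V (x + t • h)) (fderiv ℝ V (x + t • h) h) t := by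
  have h1 : HasFDerivAt V (fderiv ℝ V (x + t • h)) (x + t • h) :=
    (hV.1.differentiable (by norm_num) _).hasFDerivAt
  have h2 : HasDerivAt (fun t : ℝ => x + t • h) h t := by
    simpa using ((hasDerivAt_id t).smul_const h).const_add x
  exact h1.comp_hasDerivAt t h2

theorem adm_hasDeriv2 (hV : Admissible d V) (x h : E d) (t : ℝ) :
    HasDerivAt (fun t : ℝ => fderiv ℝ V (x + t • h) h)
      (iteratedFDeriv ℝ 2 V (x + t • h) ![h, h]) t := by
  have hc : ContDiff ℝ 1 (fderiv ℝ V) := hV.1.fderiv_right (by norm_num)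
  have h1 : HasFDerivAt (fderiv ℝ V) (fderiv ℝ (fderiv ℝ V) (x + t • h)) (x + t • h) :=
    (hc.differentiable (by norm_num) _).hasFDerivAt
  have h2 : HasDerivAt (fun t : ℝ => x + t • h) h t := by
    simpa using ((hasDerivAt_id t).smul_const h).const_add x
  have h3 : HasDerivAt (fun t : ℝ => fderiv ℝ V (x + t • h))
      (fderiv ℝ (fderiv ℝ V) (x + t • h) h) t := h1.comp_hasDerivAt t h2
  have h4 := ((ContinuousLinearMap.apply ℝ ℝ h).hasFDerivAt
    (x := fderiv ℝ V (x + t • h))).comp_hasDerivAt t h3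
  rw [iteratedFDeriv_two_apply]
  exact h4

/-- Second order bounds, on a ray. -/
theorem adm_ray (hV : Admissible d V) (x h : E d) :
    V x + fderiv ℝ V x h + ‖h‖ ^ 2 / 2 ≤ V (x + h) ∧
      V (x + h) ≤ V x + fderiv ℝ V x h + ‖h‖ ^ 2 := by
  have key : ∀ (c : ℝ) (σ : ℝ), (∀ t : ℝ, 0 ≤ σ * (iteratedFDeriv ℝ 2 V (x + t • h) ![h, h] - c)) →
      0 ≤ σ * (V (x + h) - V x - fderiv ℝ V x h - c / 2) := by
    intro c σ hc
    have m1 : Monotone fun t : ℝ => σ * (fderiv ℝ V (x + t • h) h - fderiv ℝ V x h - t * c) := by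
      refine monotone_of_deriv_nonneg (fun t => ?_) (fun t => ?_)
      · exact ((((adm_hasDeriv2 hV x h t).sub_const _).sub
          ((hasDerivAt_id t).mul_const c)).const_mul σ).differentiableAt
      · have h1 := ((((adm_hasDeriv2 hV x h t).sub_const (fderiv ℝ V x h)).sub
          ((hasDerivAt_id t).mul_const c)).const_mul σ).deriv
        have h2 : deriv (fun t : ℝ => σ * (fderiv ℝ V (x + t • h) h - fderiv ℝ V x h - t * c)) t =
          σ * (iteratedFDeriv ℝ 2 V (x + t • h) ![h, h] - 1 * c) := h1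
        rw [h2, one_mul]
        exact hc t
    have m2 : MonotoneOn (fun t : ℝ => σ * (V (x + t • h) - V x - t * fderiv ℝ V x h -
        t ^ 2 * (c / 2))) (Ici 0) := by
      have hd : ∀ t : ℝ, HasDerivAt (fun t : ℝ => σ * (V (x + t • h) - V x - t * fderiv ℝ V x h -
        t ^ 2 * (c / 2))) (σ * (fderiv ℝ V (x + t • h) h - fderiv ℝ V x h - t * c)) t := by
        intro t
        have h1 := ((((adm_hasDeriv hV x h t).sub_const (V x)).sub
          ((hasDerivAt_id t).mul_const (fderiv ℝ V x h))).sub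
            ((hasDerivAt_pow 2 t).mul_const (c / 2))).const_mul σ
        refine h1.congr_deriv ?_
        push_cast
        ring
      refine monotoneOn_of_deriv_nonneg (convex_Ici 0) (fun t _ => (hd t).continuousAt.continuousWithinAt)
        (fun t _ => (hd t).differentiableAt.differentiableWithinAt) (fun t ht => ?_)
      rw [(hd t).deriv]
      rw [interior_Ici, mem_Ioi] at ht
      have := m1 ht.le
      simpa using this
    have := m2 (mem_Ici.mpr le_rfl) (mem_Ici.mpr zero_le_one) zero_le_one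
    simp only [zero_smul, add_zero, sub_self, zero_mul, one_smul, one_mul, one_pow, ne_eq,
      OfNat.ofNat_ne_zero, not_false_eq_true, zero_pow, mul_zero] at this
    exact this
  constructor
  · have := key (‖h‖ ^ 2) 1 (fun t => by
      have := (hV.2.2.2 (x + t • h) h).1
      linarith)
    linarith
  · have := key (2 * ‖h‖ ^ 2) (-1) (fun t => by
      have := (hV.2.2.2 (x + t • h) h).2
      linarith)
    linarith

theorem adm_cont (hV : Admissible d V) : Continuous V := hV.1.continuous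

theorem fderiv_eq_inner (V : E d → ℝ) (x h : E d) :
    fderiv ℝ V x h = ⟪gradient V x, h⟫ := by
  rw [gradient, InnerProductSpace.toDual_symm_apply]

theorem adm_lower (hV : Admissible d V) (x h : E d) :
    V x + ⟪gradient V x, h⟫ + ‖h‖ ^ 2 / 2 ≤ V (x + h) := by
  rw [← fderiv_eq_inner V]; exact (adm_ray hV x h).1

theorem adm_upper (hV : Admissible d V) (x h : E d) :
    V (x + h) ≤ V x + ⟪gradient V x, h⟫ + ‖h‖ ^ 2 := by
  rw [← fderiv_eq_inner V]; exact (adm_ray hV x h).2

theorem adm_ge (hV : Admissible d V) (x : E d) : ‖x‖ ^ 2 / 2 ≤ V x := by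
  have := adm_lower hV 0 x
  rw [hV.2.1, hV.2.2.1, inner_zero_left, zero_add] at this
  simpa using this

theorem adm_le (hV : Admissible d V) (x : E d) : V x ≤ ‖x‖ ^ 2 := by
  have := adm_upper hV 0 x
  rw [hV.2.1, hV.2.2.1, inner_zero_left, zero_add] at this
  simpa using this

theorem adm_inner_ge (hV : Admissible d V) (x : E d) : ‖x‖ ^ 2 ≤ ⟪gradient V x, x⟫ := by
  have h1 := adm_lower hV x (-x)
  rw [add_neg_cancel, hV.2.1, inner_neg_right, norm_neg] at h1
  have h2 := adm_ge hV x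
  linarith

theorem adm_grad_le (hV : Admissible d V) (x : E d) : ‖gradient V x‖ ≤ 3 * ‖x‖ := by
  rcases eq_or_ne (gradient V x) 0 with hg | hg
  · rw [hg, norm_zero]; positivity
  rcases eq_or_ne x 0 with hx | hx
  · subst hx; rw [hV.2.2.1]; simp
  have hgp : 0 < ‖gradient V x‖ := norm_pos_iff.mpr hg
  have hxp : 0 < ‖x‖ := norm_pos_iff.mpr hx
  set u : E d := (‖x‖ / ‖gradient V x‖) • gradient V x with hu
  have hun : ‖u‖ = ‖x‖ := by
    rw [hu, norm_smul, norm_div, norm_norm, norm_norm]; field_simp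
  have h1 := adm_lower hV x u
  have h2 := adm_le hV (x + u)
  have h3 := adm_ge hV x
  have h4 : ⟪gradient V x, u⟫ = ‖x‖ * ‖gradient V x‖ := by
    rw [hu, inner_smul_right, real_inner_self_eq_norm_sq]; field_simp
  have h5 : ‖x + u‖ ^ 2 ≤ (‖x‖ + ‖x‖) ^ 2 := by
    have := norm_add_le x u
    rw [hun] at this
    gcongr
  rw [h4, hun] at h1
  have h6 : ‖x‖ * ‖gradient V x‖ ≤ ‖x‖ * (3 * ‖x‖) := by nlinarith
  exact le_of_mul_le_mul_left h6 hxp

theorem adm_mid (hV : Admissible d V) (x y : E d) :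
    V ((1 / 2 : ℝ) • x + (1 / 2 : ℝ) • y) + 1 / 8 * ‖x - y‖ ^ 2 ≤ (V x + V y) / 2 := by
  set m : E d := (1 / 2 : ℝ) • x + (1 / 2 : ℝ) • y with hm
  set u : E d := (1 / 2 : ℝ) • (x - y) with hu
  have e1 : m + u = x := by rw [hm, hu]; module
  have e2 : m + -u = y := by rw [hm, hu]; module
  have h1 := adm_lower hV m u
  have h2 := adm_lower hV m (-u)
  rw [e1] at h1
  rw [e2, inner_neg_right, norm_neg] at h2
  have h3 : ‖u‖ ^ 2 = ‖x - y‖ ^ 2 / 4 := by
    rw [hu, norm_smul, mul_pow]; norm_num; ring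
  rw [h3] at h1 h2
  linarith

theorem adm_sconv (hV : Admissible d V) : SConv 1 V where
  cont := adm_cont hV
  lb := ⟨1 / 2, by norm_num, 0, fun x => by have := adm_ge hV x; linarith⟩
  mpos := one_pos
  mid := adm_mid hV

/-- The potential of the posterior. -/
def pp (V : E d → ℝ) (c : E d) (s : ℝ) : E d → ℝ := fun z => V z + ‖z - c‖ ^ 2 / (2 * s ^ 2)

theorem post_eq (V : E d → ℝ) (c : E d) (s : ℝ) : post V c s = gibbs (pp V c s) := rfl

theorem adm_sconv_pp (hV : Admissible d V) (c : E d) {s : ℝ} (hs : 0 < s) :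
    SConv (1 + 1 / s ^ 2) (pp V c s) where
  cont := (adm_cont hV).add (((continuous_id.sub continuous_const).norm.pow 2).div_const _)
  lb := ⟨1 / 2, by norm_num, 0, fun x => by
    have h1 := adm_ge hV x
    have h2 : 0 ≤ ‖x - c‖ ^ 2 / (2 * s ^ 2) := by positivity
    unfold pp; linarith⟩
  mpos := by positivity
  mid := fun x y => by
    have h1 := adm_mid hV x y
    unfold pp
    have e : (1 / 2 : ℝ) • x + (1 / 2 : ℝ) • y - c =
        (1 / 2 : ℝ) • (x - c) + (1 / 2 : ℝ) • (y - c) := by module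
    have e3 : x - y = (x - c) - (y - c) := by abel
    have h2 : ‖(1 / 2 : ℝ) • (x - c) + (1 / 2 : ℝ) • (y - c)‖ ^ 2 + 1 / 4 * ‖x - y‖ ^ 2 =
        (‖x - c‖ ^ 2 + ‖y - c‖ ^ 2) / 2 := by
      have h5 := parallelogram_law_with_norm ℝ (x - c) (y - c)
      rw [← e3] at h5
      rw [← smul_add, norm_smul, mul_pow]
      norm_num
      nlinarith
    rw [e]
    have h3 : (‖x - c‖ ^ 2 + ‖y - c‖ ^ 2) / 2 / (2 * s ^ 2) =
        ‖(1 / 2 : ℝ) • (x - c) + (1 / 2 : ℝ) • (y - c)‖ ^ 2 / (2 * s ^ 2) +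
          (1 / s ^ 2) / 8 * ‖x - y‖ ^ 2 := by
      rw [← h2]; field_simp; ring
    have h4 : (V x + ‖x - c‖ ^ 2 / (2 * s ^ 2) + (V y + ‖y - c‖ ^ 2 / (2 * s ^ 2))) / 2 =
        (V x + V y) / 2 + (‖x - c‖ ^ 2 + ‖y - c‖ ^ 2) / 2 / (2 * s ^ 2) := by ring
    rw [h4, h3]
    linarith

theorem pp_tilt (V : E d → ℝ) (c c' : E d) {s : ℝ} (hs : 0 < s) :
    ∃ k : ℝ, ∀ z, tilt (pp V c s) ((1 / s ^ 2) • (c' - c)) z + k = pp V c' s z := by
  refine ⟨(‖c'‖ ^ 2 - ‖c‖ ^ 2) / (2 * s ^ 2), fun z => ?_⟩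
  unfold tilt pp
  rw [inner_smul_right, inner_sub_right]
  have h1 := norm_sub_sq_real z c
  have h2 := norm_sub_sq_real z c'
  rw [h1, h2]
  field_simp
  ring

/-- **(T2)** the posterior kernel contracts averages of Lipschitz functions. -/
theorem post_contract (hV : Admissible d V) {s : ℝ} (hs : 0 < s) {L : ℝ} (hL : 0 ≤ L)
    {f : E d → ℝ} (hf : Lip L f) (c c' : E d) :
    |∫ x, f x ∂(post V c' s) - ∫ x, f x ∂(post V c s)| ≤ L / (1 + s ^ 2) * ‖c' - c‖ := by
  have h1 := adm_sconv_pp hV c hs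
  obtain ⟨k, hk⟩ := pp_tilt V c c' hs
  have e : gibbs (pp V c' s) = gibbs (tilt (pp V c s) ((1 / s ^ 2) • (c' - c))) := by
    rw [← gibbs_add_const _ (h1.tilt _).toQG k]
    congr 1
    funext z
    exact (hk z).symm
  rw [post_eq, post_eq, e]
  refine (h1.tilt_le hL hf _).trans (le_of_eq ?_)
  rw [norm_smul, Real.norm_eq_abs, abs_of_pos (by positivity)]
  field_simp
  ring

end Crest.Agent.R285.Top
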