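import Crest.Agent.R285.Rec
import Crest.Agent.R285.TopPot

/-!
Row 285 (S0430): from the hidden-centre contract for the posterior to the visible-centre procedure
used by the outer chain.
-/

set_option autoImplicit false

open MeasureTheory ProbabilityTheory Filter Topology
open Crest.OracleSampling (E Admissible)
open scoped NNReal

noncomputable section

namespace Crest.Agent.R285.Link

variable {d : ℕ}

theorem lip_norm : Top.Lip (d := d) 1 (fun x => ‖x‖) := fun x y => by
  have := abs_norm_sub_norm_le x y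
  rw [one_mul]; exact this

theorem visible_of_con {s : ℝ} (hs : 0 < s) {N q : ℕ} {L : ℝ≥0} {D : ℝ}
    (h : Con (d := d) (s / 4) N q L (fun V c => post V c s) D) :
    ∃ (Ω : Type) (_ : MeasurableSpace Ω) (μ : Measure Ω) (_ : IsProbabilityMeasure μ)
      (f : (E d → ℝ) → E d × Ω → E d), IsQ q f ∧ ∀ V, Admissible d V →
        ∀ c, DLip (μ.map fun ω => f V (c, ω)) (post V c s) (D * (√(d : ℝ) + ‖c‖)) := by
  obtain ⟨Ω, mΩ, μ, hμ, f, hf, H⟩ := h
  refine ⟨(Fin N → E d) × Ω, inferInstance,
    (Measure.pi fun _ : Fin N => stdGaussian (E d)).prod μ, inferInstance,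
    fun V p => f V (fun i => p.1 + (s / 4) • p.2.1 i, p.2.2), ?_, ?_⟩
  · refine hf.comap (g := fun p : E d × ((Fin N → E d) × Ω) =>
      ((fun i => p.1 + (s / 4) • p.2.1 i : Fin N → E d), p.2.2)) ?_
    refine Measurable.prodMk ?_ (by fun_prop)
    refine measurable_pi_lambda _ fun i => ?_
    fun_prop
  · intro V hV c
    have hm : Measurable (f V) := hf.measurable (Comp.measurable_oracle hV)
    have h1 := (H V hV).2 c
    have e1 : (((Measure.pi fun _ : Fin N => stdGaussian (E d)).prod μ).map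
        fun ω => f V (fun i => c + (s / 4) • ω.1 i, ω.2)) =
        (((Measure.pi fun _ : Fin N => gN c (s / 4)).prod μ).map (f V)) := by
      have e2 : (Measure.pi fun _ : Fin N => gN c (s / 4)) =
          (Measure.pi fun _ : Fin N => stdGaussian (E d)).map
            (fun x i => c + (s / 4) • x i) := by
        rw [Measure.pi_map_pi (f := fun (_ : Fin N) (x : E d) => c + (s / 4) • x)
          (fun i => by fun_prop)]
        rfl
      have hm2 : Measurable (fun (x : Fin N → E d) (i : Fin N) => c + (s / 4) • x i) :=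
        measurable_pi_lambda _ fun i => by fun_prop
      have e3 : (((Measure.pi fun _ : Fin N => stdGaussian (E d)).map
            (fun x i => c + (s / 4) • x i)).prod μ) =
          ((Measure.pi fun _ : Fin N => stdGaussian (E d)).prod μ).map
            (Prod.map (fun (x : Fin N → E d) (i : Fin N) => c + (s / 4) • x i) id) := by
        rw [← Measure.map_prod_map _ _ hm2 measurable_id, Measure.map_id]
      rw [e2, e3, Measure.map_map hm (hm2.prodMap measurable_id)]
      rfl
    rw [e1]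
    have hsc := Top.adm_sconv_pp hV c hs
    have hP : IsProbabilityMeasure (post V c s) := hsc.toQG.isProb
    have hP2 : IsProbabilityMeasure
        (((Measure.pi fun _ : Fin N => gN c (s / 4)).prod μ).map (f V)) :=
      Measure.isProbabilityMeasure_map hm.aemeasurable
    exact h1.toDLip (hsc.integrable_lip lip_norm)

/-- The hypothesis of the outer chain: visible-centre posterior samplers with error
`d ^ (-A) (√d + ‖c‖)` and `d ^ e` queries, at the scale `s ^ 2 = d ^ (-x)`. -/
def HS : Prop := ∀ x : ℝ, 0 < x → ∀ A e : ℝ, 0 < e → ∃ C : ℝ, 0 < C ∧ ∀ᶠ d : ℕ in atTop,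
  ∃ (q : ℕ) (Ω : Type) (_ : MeasurableSpace Ω) (μ : Measure Ω) (_ : IsProbabilityMeasure μ)
    (f : (E d → ℝ) → E d × Ω → E d), (q : ℝ) ≤ C * (d : ℝ) ^ e ∧ IsQ q f ∧
      ∀ V, Admissible d V → ∀ c, DLip (μ.map fun ω => f V (c, ω))
        (post V c (√((d : ℝ) ^ (-x)))) (C * (d : ℝ) ^ (-A) * (√(d : ℝ) + ‖c‖))

theorem HS_of_SP (h : ∀ x : ℝ, 0 < x → ∀ A g : ℝ, 0 < g → SP x g 1 A) : HS := by
  intro x hx A e he
  obtain ⟨C, hC, hS⟩ := h x hx (A / x) (e / x) (by positivity)
  refine ⟨C, hC, ?_⟩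
  filter_upwards [hS, eventually_gt_atTop 0] with d hd hd0
  have hdR : (0 : ℝ) < d := by exact_mod_cast hd0
  have hb : (0 : ℝ) < (d : ℝ) ^ (-x) := Real.rpow_pos_of_pos hdR _
  have hs : 0 < √((d : ℝ) ^ (-x)) := Real.sqrt_pos.2 hb
  have h1 := hd (√((d : ℝ) ^ (-x))) hs (by rw [Real.sq_sqrt hb.le, Real.rpow_one]; rfl)
  obtain ⟨Ω, mΩ, μ, hμ, f, hf, H⟩ := visible_of_con hs h1
  have e1 : bt x d ^ (-(e / x)) = (d : ℝ) ^ e := by
    unfold bt
    rw [← Real.rpow_mul hdR.le]
    congr 1; field_simp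
  have e2 : bt x d ^ (A / x) = (d : ℝ) ^ (-A) := by
    unfold bt
    rw [← Real.rpow_mul hdR.le]
    congr 1; field_simp
  rw [e1] at hf
  rw [e2] at H
  refine ⟨_, Ω, mΩ, μ, hμ, f, ?_, hf, H⟩
  exact Nat.floor_le (by positivity)

end Crest.Agent.R285.Link
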