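import Mathlib
import Crest.Agent.R285.Flat
import Crest.Agent.R285.YSysCore

/-!
# R285.YSys : the Y-system as a flat system (original units)

`y_i = ε_i Z₀ + (1-ε_i) c - s² ε_i ∑ V_{il} G_{s κ_l}(y_l)`, output
`c + ρ (y_e - c)`, `ρ = (ε₁/e)²`.  One visible vector `Z₀ = c + s ξ`.
-/

set_option autoImplicit false
set_option linter.unusedSectionVars false

open Set Finset MeasureTheory
open scoped ENNReal

namespace Crest.Agent.R285.YSys

open Crest.Agent.R285 Crest.Agent.R285.Num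

noncomputable section

/-- `κ(t) = √(1-t²)` -/
def kap (t : ℝ) : ℝ := √(1 - t ^ 2)

/-- the Y-system -/
def fsys (n M : ℕ) (e ρ s : ℝ) : FlatSys (Fin 1) (Idx n M) where
  r := fun i => s * kap (qnode n M 0 e i)
  pt := fun i => (1 - qnode n M 0 e i) • LF.hid + qnode n M 0 e i • LF.vis 0 -
    ∑ l, (s ^ 2 * qnode n M 0 e i * qW n M 0 e i l) • LF.call l
  out := (1 - ρ * e) • LF.hid + (ρ * e) • LF.vis 0 -
    ∑ l, (s ^ 2 * (ρ * e) * qw n M 0 e l) • LF.call l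

lemma l1_pt_le {n M : ℕ} {e ρ s : ℝ} (he0 : 0 < e) (he1 : e ≤ 1) {w : Idx n M → ℝ} {W : ℝ}
    (hw0 : ∀ i, 0 ≤ w i) (hw : ∀ i, w i ≤ W) (i : Idx n M) :
    LF.l1 w ((fsys n M e ρ s).pt i) ≤ s ^ 2 * CY n * W := by
  have hW : 0 ≤ W := (hw0 i).trans (hw i)
  have hq := abs_qnode_le (n := n) (M := M) he0 he1 i
  have h1 : LF.l1 w ((fsys n M e ρ s).pt i) ≤
      0 + ∑ l, |s ^ 2 * qnode n M 0 e i * qW n M 0 e i l| * w l := by
    unfold fsys
    refine (LF.l1_sub_le hw0 _ _).trans (add_le_add ?_ ?_)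
    · refine (LF.l1_add_le hw0 _ _).trans ?_
      rw [LF.l1_smul, LF.l1_smul, LF.l1_hid, LF.l1_vis]; simp
    · refine (LF.l1_sum_le hw0 _ _).trans (Finset.sum_le_sum fun l _ => ?_)
      rw [LF.l1_smul, LF.l1_call]
  refine h1.trans ?_
  rw [zero_add]
  calc ∑ l, |s ^ 2 * qnode n M 0 e i * qW n M 0 e i l| * w l ≤
        ∑ l, s ^ 2 * (|qW n M 0 e i l| * W) := by
        refine Finset.sum_le_sum fun l _ => ?_
        rw [abs_mul, abs_mul, abs_of_nonneg (sq_nonneg s)]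
        have h2 : s ^ 2 * |qnode n M 0 e i| * |qW n M 0 e i l| * w l =
            s ^ 2 * (|qnode n M 0 e i| * (|qW n M 0 e i l| * w l)) := by ring
        rw [h2]
        refine mul_le_mul_of_nonneg_left ?_ (sq_nonneg s)
        calc |qnode n M 0 e i| * (|qW n M 0 e i l| * w l) ≤ 1 * (|qW n M 0 e i l| * W) :=
              mul_le_mul hq (mul_le_mul_of_nonneg_left (hw l) (abs_nonneg _))
                (mul_nonneg (abs_nonneg _) (hw0 l)) zero_le_one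
          _ = _ := one_mul _
    _ = s ^ 2 * ((∑ l, |qW n M 0 e i l|) * W) := by rw [Finset.sum_mul, Finset.mul_sum]
    _ ≤ s ^ 2 * (CY n * W) := by
        refine mul_le_mul_of_nonneg_left (mul_le_mul_of_nonneg_right ?_ hW) (sq_nonneg s)
        exact sum_abs_qW_le he0.le he1 i
    _ = s ^ 2 * CY n * W := by ring

lemma l1_out_le {n M : ℕ} (hM : 0 < M) {e ρ s : ℝ} (he0 : 0 < e) (he1 : e ≤ 1) (hρ0 : 0 ≤ ρ)
    (hρ1 : ρ ≤ 1) {w : Idx n M → ℝ} {W : ℝ} (hw0 : ∀ i, 0 ≤ w i) (hw : ∀ i, w i ≤ W)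
    (hW : 0 ≤ W) :
    LF.l1 w (fsys n M e ρ s).out ≤ s ^ 2 * CY n * W := by
  have hρe0 : 0 ≤ ρ * e := mul_nonneg hρ0 he0.le
  have hρe1 : ρ * e ≤ 1 := mul_le_one₀ hρ1 he0.le he1
  have h1 : LF.l1 w (fsys n M e ρ s).out ≤
      0 + ∑ l, |s ^ 2 * (ρ * e) * qw n M 0 e l| * w l := by
    unfold fsys
    refine (LF.l1_sub_le hw0 _ _).trans (add_le_add ?_ ?_)
    · refine (LF.l1_add_le hw0 _ _).trans ?_
      rw [LF.l1_smul, LF.l1_smul, LF.l1_hid, LF.l1_vis]; simp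
    · refine (LF.l1_sum_le hw0 _ _).trans (Finset.sum_le_sum fun l _ => ?_)
      rw [LF.l1_smul, LF.l1_call]
  refine h1.trans ?_
  rw [zero_add]
  calc ∑ l, |s ^ 2 * (ρ * e) * qw n M 0 e l| * w l ≤
        ∑ l, s ^ 2 * (|qw n M 0 e l| * W) := by
        refine Finset.sum_le_sum fun l _ => ?_
        rw [abs_mul, abs_mul, abs_of_nonneg (sq_nonneg s), abs_of_nonneg hρe0]
        have h2 : s ^ 2 * (ρ * e) * |qw n M 0 e l| * w l =
            s ^ 2 * ((ρ * e) * (|qw n M 0 e l| * w l)) := by ring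
        rw [h2]
        refine mul_le_mul_of_nonneg_left ?_ (sq_nonneg s)
        calc (ρ * e) * (|qw n M 0 e l| * w l) ≤ 1 * (|qw n M 0 e l| * W) :=
              mul_le_mul hρe1 (mul_le_mul_of_nonneg_left (hw l) (abs_nonneg _))
                (mul_nonneg (abs_nonneg _) (hw0 l)) zero_le_one
          _ = _ := one_mul _
    _ = s ^ 2 * ((∑ l, |qw n M 0 e l|) * W) := by rw [Finset.sum_mul, Finset.mul_sum]
    _ ≤ s ^ 2 * (CY n * W) := by
        refine mul_le_mul_of_nonneg_left (mul_le_mul_of_nonneg_right ?_ hW) (sq_nonneg s)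
        exact sum_abs_qw_le hM he0.le he1
    _ = s ^ 2 * CY n * W := by ring

/-- the Y-system contracts with constant `Λ s² C` -/
theorem contr {n M : ℕ} {e ρ s Λ : ℝ} (he0 : 0 < e) (he1 : e ≤ 1) (hΛ : 0 ≤ Λ) :
    (fsys n M e ρ s).Contr Λ (fun _ => 1) (Λ * (s ^ 2 * CY n)) where
  pos := fun _ => zero_le_one
  le := fun i => by
    have := l1_pt_le (ρ := ρ) (s := s) he0 he1 (w := fun _ : Idx n M => (1 : ℝ)) (W := 1)
      (fun _ => zero_le_one) (fun _ => le_rfl) i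
    rw [mul_one] at this ⊢
    exact mul_le_mul_of_nonneg_left this hΛ

lemma qnode_bounds {n M : ℕ} {e : ℝ} (he0 : 0 < e) (he1 : e ≤ 1) (i : Idx n M) :
    0 < qnode n M 0 e i ∧ qnode n M 0 e i < 1 := by
  have := qnode_mem (n := n) (M := M) he0 i
  exact ⟨this.1, this.2.trans_le he1⟩

lemma fst_pt {n M : ℕ} {e ρ s : ℝ} (i : Idx n M) :
    ((fsys n M e ρ s).pt i).1 = 1 - qnode n M 0 e i := by
  have h : ∀ (t : Finset (Idx n M)) (f : Idx n M → LF (Fin 1) (Idx n M)),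
      (∑ l ∈ t, f l).1 = ∑ l ∈ t, (f l).1 := fun t f => Prod.fst_sum
  simp only [fsys, Prod.fst_sub, Prod.fst_add, Prod.smul_fst, h]
  simp [LF.hid, LF.vis, LF.call]

lemma fst_out {n M : ℕ} {e ρ s : ℝ} :
    ((fsys n M e ρ s).out).1 = 1 - ρ * e := by
  have h : ∀ (t : Finset (Idx n M)) (f : Idx n M → LF (Fin 1) (Idx n M)),
      (∑ l ∈ t, f l).1 = ∑ l ∈ t, (f l).1 := fun t f => Prod.fst_sum
  simp only [fsys, Prod.fst_sub, Prod.fst_add, Prod.smul_fst, h]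
  simp [LF.hid, LF.vis, LF.call]

/-- **Noise of the points**: hidden centre with noise `rc`, calls with noise `≤ σ`. -/
theorem nz_pt_le {n M : ℕ} {e ρ s rc σ : ℝ} (he0 : 0 < e) (he1 : e ≤ 1) (hrc : 0 ≤ rc)
    {σv : Idx n M → ℝ} (hσ0 : ∀ i, 0 ≤ σv i) (hσ : ∀ i, σv i ≤ σ) (i : Idx n M) :
    LF.nz rc σv ((fsys n M e ρ s).pt i) ≤ (1 - qnode n M 0 e i) * rc + s ^ 2 * CY n * σ := by
  have hq := qnode_bounds (n := n) (M := M) he0 he1 i
  refine (LF.nz_le_l1 rc hσ0 _).trans (add_le_add ?_ (l1_pt_le he0 he1 hσ0 hσ i))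
  rw [fst_pt, abs_mul, abs_of_nonneg hrc, abs_of_nonneg (by linarith [hq.2])]

theorem nz_out_le {n M : ℕ} (hM : 0 < M) {e ρ s rc σ : ℝ} (he0 : 0 < e) (he1 : e ≤ 1)
    (hρ0 : 0 ≤ ρ) (hρ1 : ρ ≤ 1) (hrc : 0 ≤ rc) (hσ' : 0 ≤ σ)
    {σv : Idx n M → ℝ} (hσ0 : ∀ i, 0 ≤ σv i) (hσ : ∀ i, σv i ≤ σ) :
    LF.nz rc σv (fsys n M e ρ s).out ≤ (1 - ρ * e) * rc + s ^ 2 * CY n * σ := by
  have hρe1 : ρ * e ≤ 1 := mul_le_one₀ hρ1 he0.le he1
  refine (LF.nz_le_l1 rc hσ0 _).trans (add_le_add ?_ (l1_out_le hM he0 he1 hρ0 hρ1 hσ0 hσ hσ'))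
  rw [fst_out, abs_mul, abs_of_nonneg hrc, abs_of_nonneg (by linarith)]

lemma one_sub_le_kap {t : ℝ} (h0 : 0 ≤ t) (h1 : t ≤ 1) : 1 - t ≤ kap t := by
  unfold kap
  refine Real.le_sqrt_of_sq_le ?_
  nlinarith

lemma kap_anti {t t' : ℝ} (h0 : 0 ≤ t) (h : t ≤ t') : kap t' ≤ kap t := by
  unfold kap
  exact Real.sqrt_le_sqrt (by nlinarith)

/-- The noise of every point is at most half of `s κ_i / 4`, plus the noise of the calls: with
`rc = s/8` and `s² C σ ≤ s κ(e) / 8` the point `i` is known with noise `≤ s κ_i / 4`. -/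
theorem nz_pt_le_quarter {n M : ℕ} {e ρ s σ : ℝ} (he0 : 0 < e) (he1 : e ≤ 1) (hs : 0 ≤ s)
    {σv : Idx n M → ℝ} (hσ0 : ∀ i, 0 ≤ σv i) (hσ : ∀ i, σv i ≤ σ)
    (hmar : s ^ 2 * CY n * σ ≤ s * kap e / 8) (i : Idx n M) :
    LF.nz (s / 8) σv ((fsys n M e ρ s).pt i) ≤ (fsys n M e ρ s).r i / 4 := by
  have hq := qnode_bounds (n := n) (M := M) he0 he1 i
  have hqe := (qnode_mem (n := n) (M := M) he0 i).2.le
  have h1 := one_sub_le_kap hq.1.le hq.2.le
  have h2 := kap_anti hq.1.le hqe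
  refine (nz_pt_le (ρ := ρ) he0 he1 (by positivity) hσ0 hσ i).trans ?_
  have h3 : (fsys n M e ρ s).r i = s * kap (qnode n M 0 e i) := rfl
  rw [h3]
  have h4 : (1 - qnode n M 0 e i) * (s / 8) ≤ s * kap (qnode n M 0 e i) / 8 := by
    nlinarith
  have h5 : s * kap e / 8 ≤ s * kap (qnode n M 0 e i) / 8 := by
    have := mul_le_mul_of_nonneg_left h2 hs
    linarith
  linarith

/-! ### Error against the exact path -/

variable {X : Type} [NormedAddCommGroup X] [NormedSpace ℝ X]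

/-- Exact path: `η' = -s G_{sκ}(c + s t η)`, `η(0) = ξ`, with its derivative tower. -/
structure YPath (n : ℕ) (e s : ℝ) (G : ℝ → X → X) (c ξ : X) (η : ℝ → X) (F : ℕ → ℝ → X) :
    Prop where
  tower : Tower (n + 1) F 0 e
  integ : ∀ t ∈ Icc 0 e, η t = ξ - ∫ u in (0 : ℝ)..t, F 0 u
  val : ∀ t ∈ Icc 0 e, F 0 t = s • G (s * kap t) (c + (s * t) • η t)

theorem YPath.out_error [CompleteSpace X] {n M : ℕ} (hM : 0 < M) {e ρ s Λ : ℝ} (he0 : 0 < e)
    (he1 : e ≤ 1) (hρ0 : 0 ≤ ρ) (hρ1 : ρ ≤ 1) (hs : 0 ≤ s) (hΛ : 0 ≤ Λ)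
    {G : ℝ → X → X} (hG : ∀ σ x y, ‖G σ x - G σ y‖ ≤ Λ * ‖x - y‖)
    (hL : Λ * (s ^ 2 * CY n) ≤ 1 / 2) {c ξ : X} {η : ℝ → X} {F : ℕ → ℝ → X}
    (h : YPath n e s G c ξ η F) (K : ℕ) :
    ‖(fsys n M e ρ s).outv G c (fun _ => c + s • ξ) (K + 1) - (c + (s * (ρ * e)) • η e)‖ ≤
      s * ((Λ * (s ^ 2 * CY n)) ^ (K + 1) * (∫ t in (0 : ℝ)..e, ‖F 0 t‖) + 2 * rem n M e F) := by
  set S := fsys n M e ρ s with hS
  set L : ℝ := Λ * (s ^ 2 * CY n) with hLdef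
  have hL0 : 0 ≤ L := mul_nonneg hΛ (mul_nonneg (sq_nonneg s) (CY_nonneg n))
  set A : ℝ := ∫ t in (0 : ℝ)..e, ‖F 0 t‖ with hA
  have hA0 : 0 ≤ A := intervalIntegral.integral_nonneg he0.le (fun _ _ => norm_nonneg _)
  have hR0 : 0 ≤ rem n M e F := by
    unfold rem
    have := intC_nonneg (n + 1)
    have h3 : 0 ≤ ∫ t in (0 : ℝ)..e, ‖F (n + 1) t‖ :=
      intervalIntegral.integral_nonneg he0.le (fun _ _ => norm_nonneg _)
    positivity
  have h0mem : (0 : ℝ) ∈ Icc 0 e := ⟨le_rfl, he0.le⟩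
  have hemem : e ∈ Icc 0 e := ⟨he0.le, le_rfl⟩
  have hρe0 : 0 ≤ ρ * e := mul_nonneg hρ0 he0.le
  have hρe1 : ρ * e ≤ 1 := mul_le_one₀ hρ1 he0.le he1
  -- the exact points
  set x : Idx n M → X := fun i => c + (s * qnode n M 0 e i) • η (qnode n M 0 e i) with hx
  have hmem : ∀ i : Idx n M, qnode n M 0 e i ∈ Icc 0 e := fun i =>
    ⟨(qnode_mem he0 i).1.le, (qnode_mem he0 i).2.le⟩
  have hgx : ∀ i, G (S.r i) (x i) = G (s * kap (qnode n M 0 e i))
      (c + (s * qnode n M 0 e i) • η (qnode n M 0 e i)) := fun i => rfl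
  have hsgx : ∀ i, s • G (S.r i) (x i) = F 0 (qnode n M 0 e i) := fun i => by
    rw [hgx, h.val _ (hmem i)]
  -- defect
  have hdef : ∀ i, ‖x i - S.evalAt G c (fun _ => c + s • ξ) x (S.pt i)‖ ≤
      (s * rem n M e F) * (1 : ℝ) := by
    intro i
    have hev : S.evalAt G c (fun _ => c + s • ξ) x (S.pt i) =
        (1 - qnode n M 0 e i) • c + qnode n M 0 e i • (c + s • ξ) -
          ∑ l, (s ^ 2 * qnode n M 0 e i * qW n M 0 e i l) • G (S.r l) (x l) := by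
      unfold FlatSys.evalAt
      rw [hS]
      simp only [fsys, map_sub, map_add, map_smul, map_sum, LF.eval_hid, LF.eval_vis,
        LF.eval_call]
    have hsum : ∑ l, (s ^ 2 * qnode n M 0 e i * qW n M 0 e i l) • G (S.r l) (x l) =
        (s * qnode n M 0 e i) • ∑ l, qW n M 0 e i l • F 0 (qnode n M 0 e l) := by
      rw [Finset.smul_sum]
      refine Finset.sum_congr rfl fun l _ => ?_
      rw [← hsgx, smul_smul, smul_smul]
      congr 1; ring
    have e1 : x i - S.evalAt G c (fun _ => c + s • ξ) x (S.pt i) =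
        -((s * qnode n M 0 e i) • ((∫ u in (0 : ℝ)..(qnode n M 0 e i), F 0 u) -
          ∑ l, qW n M 0 e i l • F 0 (qnode n M 0 e l))) := by
      rw [hev, hsum, hx]
      simp only
      rw [h.integ _ (hmem i)]
      module
    rw [e1, norm_neg, norm_smul, Real.norm_eq_abs, mul_one]
    have h2 := quad_partial n F he0.le h.tower i
    rw [sub_zero] at h2
    have h3 : |s * qnode n M 0 e i| ≤ s := by
      rw [abs_mul, abs_of_nonneg hs]
      have := abs_qnode_le (n := n) (M := M) he0 he1 i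
      nlinarith
    exact mul_le_mul h3 h2 (norm_nonneg _) hs
  -- start
  have h0 : ∀ i, ‖S.point G c (fun _ => c + s • ξ) 0 i - x i‖ ≤ (s * A) * (1 : ℝ) := by
    intro i
    have hp0 : S.point G c (fun _ => c + s • ξ) 0 i =
        (1 - qnode n M 0 e i) • c + qnode n M 0 e i • (c + s • ξ) := by
      rw [FlatSys.point_zero, hS]
      simp only [fsys, map_sub, map_add, map_smul, map_sum, LF.eval_hid, LF.eval_vis,
        LF.eval_call, Pi.zero_apply, smul_zero, Finset.sum_const_zero, sub_zero]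
    have e1 : S.point G c (fun _ => c + s • ξ) 0 i - x i =
        (s * qnode n M 0 e i) • ∫ u in (0 : ℝ)..(qnode n M 0 e i), F 0 u := by
      rw [hp0, hx]
      simp only
      rw [h.integ _ (hmem i)]
      module
    rw [e1, norm_smul, Real.norm_eq_abs, mul_one]
    have h2 : ‖∫ u in (0 : ℝ)..(qnode n M 0 e i), F 0 u‖ ≤ A := by
      refine (intervalIntegral.norm_integral_le_integral_norm (hmem i).1).trans ?_
      refine intervalIntegral.integral_mono_interval le_rfl (hmem i).1 (hmem i).2 ?_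
        (h.tower.intervalIntegrable_norm (Nat.zero_le _) h0mem hemem)
      exact Filter.Eventually.of_forall (fun t => norm_nonneg _)
    have h3 : |s * qnode n M 0 e i| ≤ s := by
      rw [abs_mul, abs_of_nonneg hs]
      have := abs_qnode_le (n := n) (M := M) he0 he1 i
      nlinarith
    exact mul_le_mul h3 h2 (norm_nonneg _) hs
  have hmain := S.out_sub_le (contr he0 he1 hΛ) hL0 hL (fun i x y => hG (S.r i) x y) hΛ c
    (fun _ => c + s • ξ) x (mul_nonneg hs hR0) (mul_nonneg hs hA0) hdef h0 K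
  -- the exact output
  have hout : ‖S.evalAt G c (fun _ => c + s • ξ) x S.out - (c + (s * (ρ * e)) • η e)‖ ≤
      s * rem n M e F := by
    have hev : S.evalAt G c (fun _ => c + s • ξ) x S.out =
        (1 - ρ * e) • c + (ρ * e) • (c + s • ξ) -
          ∑ l, (s ^ 2 * (ρ * e) * qw n M 0 e l) • G (S.r l) (x l) := by
      unfold FlatSys.evalAt
      rw [hS]
      simp only [fsys, map_sub, map_add, map_smul, map_sum, LF.eval_hid, LF.eval_vis,
        LF.eval_call]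
    have hsum : ∑ l, (s ^ 2 * (ρ * e) * qw n M 0 e l) • G (S.r l) (x l) =
        (s * (ρ * e)) • ∑ l, qw n M 0 e l • F 0 (qnode n M 0 e l) := by
      rw [Finset.smul_sum]
      refine Finset.sum_congr rfl fun l _ => ?_
      rw [← hsgx, smul_smul, smul_smul]
      congr 1; ring
    have e1 : S.evalAt G c (fun _ => c + s • ξ) x S.out - (c + (s * (ρ * e)) • η e) =
        (s * (ρ * e)) • ((∫ u in (0 : ℝ)..e, F 0 u) -
          ∑ l, qw n M 0 e l • F 0 (qnode n M 0 e l)) := by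
      rw [hev, hsum, h.integ _ hemem]
      module
    rw [e1, norm_smul, Real.norm_eq_abs]
    have h2 := quad_total n F hM he0.le h.tower
    rw [sub_zero] at h2
    have h3 : |s * (ρ * e)| ≤ s := by
      rw [abs_of_nonneg (by positivity)]
      nlinarith
    exact mul_le_mul h3 h2 (norm_nonneg _) hs
  have hl1 : Λ * LF.l1 (fun _ => (1 : ℝ)) S.out ≤ L := by
    have := l1_out_le (n := n) (s := s) hM he0 he1 hρ0 hρ1 (w := fun _ : Idx n M => (1 : ℝ)) (W := 1)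
      (fun _ => zero_le_one) (fun _ => le_rfl) zero_le_one
    rw [mul_one] at this
    exact mul_le_mul_of_nonneg_left this hΛ
  calc ‖S.outv G c (fun _ => c + s • ξ) (K + 1) - (c + (s * (ρ * e)) • η e)‖
      ≤ ‖S.outv G c (fun _ => c + s • ξ) (K + 1) - S.evalAt G c (fun _ => c + s • ξ) x S.out‖ +
        ‖S.evalAt G c (fun _ => c + s • ξ) x S.out - (c + (s * (ρ * e)) • η e)‖ :=
        norm_sub_le_norm_sub_add_norm_sub _ _ _
    _ ≤ Λ * LF.l1 (fun _ => (1 : ℝ)) S.out * (L ^ K * (s * A) + 2 * (s * rem n M e F)) +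
        s * rem n M e F := add_le_add hmain hout
    _ ≤ L * (L ^ K * (s * A) + 2 * (s * rem n M e F)) + s * rem n M e F := by
        gcongr
    _ = s * (L ^ (K + 1) * A + (1 + 2 * L) * rem n M e F) := by ring
    _ ≤ s * (L ^ (K + 1) * A + 2 * rem n M e F) := by
        gcongr
        linarith

/-! ### Mean error -/

variable {Ω : Type*} [MeasurableSpace Ω] {P : Measure Ω}

/-- **Mean error of the Y-system** (original units). -/
theorem ypath_error_mean [CompleteSpace X] [SFinite P] {n M : ℕ} (hM : 0 < M) {e ρ s Λ : ℝ}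
    (he0 : 0 < e) (he1 : e ≤ 1) (hρ0 : 0 ≤ ρ) (hρ1 : ρ ≤ 1) (hs : 0 ≤ s) (hΛ : 0 ≤ Λ)
    {G : ℝ → X → X} (hG : ∀ σ x y, ‖G σ x - G σ y‖ ≤ Λ * ‖x - y‖)
    (hL : Λ * (s ^ 2 * CY n) ≤ 1 / 2) {c : X} {ξ : Ω → X} {η : Ω → ℝ → X} {F : ℕ → ℝ → Ω → X}
    (h : ∀ ω, YPath n e s G c (ξ ω) (η ω) (fun k t => F k t ω))
    (hm0 : Measurable (fun p : ℝ × Ω => ‖F 0 p.1 p.2‖ₑ))
    (hmn : Measurable (fun p : ℝ × Ω => ‖F (n + 1) p.1 p.2‖ₑ)) {B₀ Bn : ℝ≥0∞}
    (hB₀ : ∀ t ∈ Ioc 0 e, ∫⁻ ω, ‖F 0 t ω‖ₑ ∂P ≤ B₀)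
    (hBn : ∀ t ∈ Ioc 0 e, ∫⁻ ω, ‖F (n + 1) t ω‖ₑ ∂P ≤ Bn) (K : ℕ) :
    ∫⁻ ω, ‖(fsys n M e ρ s).outv G c (fun _ => c + s • ξ ω) (K + 1) -
        (c + (s * (ρ * e)) • η ω e)‖ₑ ∂P ≤
      ENNReal.ofReal s * (ENNReal.ofReal ((Λ * (s ^ 2 * CY n)) ^ (K + 1)) * B₀ +
        ENNReal.ofReal (2 * (1 + intC (n + 1)) * (e / M) ^ (n + 1)) * Bn) := by
  have hL0 : 0 ≤ Λ * (s ^ 2 * CY n) := mul_nonneg hΛ (mul_nonneg (sq_nonneg s) (CY_nonneg n))
  have hC := intC_nonneg (n + 1)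
  have hM' : (0 : ℝ) < M := by exact_mod_cast hM
  set c₁ : ℝ := 2 * (1 + intC (n + 1)) * (e / M) ^ (n + 1) with hc₁
  have hc₁0 : 0 ≤ c₁ := by positivity
  have h0mem : (0 : ℝ) ∈ Icc 0 e := ⟨le_rfl, he0.le⟩
  have hemem : e ∈ Icc 0 e := ⟨he0.le, le_rfl⟩
  have key : ∀ ω, ‖(fsys n M e ρ s).outv G c (fun _ => c + s • ξ ω) (K + 1) -
        (c + (s * (ρ * e)) • η ω e)‖ₑ ≤
      ENNReal.ofReal s * (ENNReal.ofReal ((Λ * (s ^ 2 * CY n)) ^ (K + 1)) *
        (∫⁻ t in Ioc 0 e, ‖F 0 t ω‖ₑ) +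
      ENNReal.ofReal c₁ * (∫⁻ t in Ioc 0 e, ‖F (n + 1) t ω‖ₑ)) := by
    intro ω
    have h1 := (h ω).out_error hM he0 he1 hρ0 hρ1 hs hΛ hG hL K
    have e3 : 2 * rem n M e (fun k t => F k t ω) = c₁ * ∫ t in (0 : ℝ)..e, ‖F (n + 1) t ω‖ := by
      unfold rem; rw [hc₁]; ring
    rw [e3] at h1
    have i0 : 0 ≤ ∫ t in (0 : ℝ)..e, ‖F 0 t ω‖ :=
      intervalIntegral.integral_nonneg he0.le (fun _ _ => norm_nonneg _)
    have i1 : 0 ≤ ∫ t in (0 : ℝ)..e, ‖F (n + 1) t ω‖ :=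
      intervalIntegral.integral_nonneg he0.le (fun _ _ => norm_nonneg _)
    rw [← ofReal_norm]
    refine (ENNReal.ofReal_le_ofReal h1).trans ?_
    rw [ENNReal.ofReal_mul hs, ENNReal.ofReal_add (mul_nonneg (pow_nonneg hL0 _) i0)
      (mul_nonneg hc₁0 i1), ENNReal.ofReal_mul (pow_nonneg hL0 _), ENNReal.ofReal_mul hc₁0,
      ofReal_time_integral he0.le
      ((h ω).tower.intervalIntegrable (Nat.zero_le _) h0mem hemem),
      ofReal_time_integral he0.le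
      ((h ω).tower.intervalIntegrable le_rfl h0mem hemem)]
  have hmA : ∀ k, Measurable (fun p : ℝ × Ω => ‖F k p.1 p.2‖ₑ) →
      Measurable (fun ω => ∫⁻ t in Ioc 0 e, ‖F k t ω‖ₑ) := by
    intro k hk
    have hm2 : Measurable (fun p : Ω × ℝ => ‖F k p.2 p.1‖ₑ) := hk.comp measurable_swap
    exact hm2.lintegral_prod_right' (ν := volume.restrict (Ioc 0 e))
  refine (lintegral_mono key).trans ?_
  have hsum : Measurable (fun ω => ENNReal.ofReal ((Λ * (s ^ 2 * CY n)) ^ (K + 1)) *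
      (∫⁻ t in Ioc 0 e, ‖F 0 t ω‖ₑ) + ENNReal.ofReal c₁ * (∫⁻ t in Ioc 0 e, ‖F (n + 1) t ω‖ₑ)) :=
    ((hmA 0 hm0).const_mul _).add ((hmA (n + 1) hmn).const_mul _)
  rw [lintegral_const_mul _ hsum,
    lintegral_add_left ((hmA 0 hm0).const_mul _), lintegral_const_mul _ (hmA 0 hm0),
    lintegral_const_mul _ (hmA (n + 1) hmn)]
  have hle1 : ENNReal.ofReal (e - 0) ≤ 1 := by
    rw [sub_zero]; exact ENNReal.ofReal_le_one.mpr he1
  refine mul_le_mul_right (add_le_add ?_ ?_) _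
  · refine mul_le_mul_right ((lintegral_time_le hm0 hB₀).trans ?_) _
    calc ENNReal.ofReal (e - 0) * B₀ ≤ 1 * B₀ := mul_le_mul_left hle1 _
      _ = B₀ := one_mul _
  · refine mul_le_mul_right ((lintegral_time_le hmn hBn).trans ?_) _
    calc ENNReal.ofReal (e - 0) * Bn ≤ 1 * Bn := mul_le_mul_left hle1 _
      _ = Bn := one_mul _

end

end Crest.Agent.R285.YSys
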