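import Crest.Agent.R285.Rec
import Crest.Agent.R285.YSys

/-!
Row 285 (S0430): the statement SEM_Y (interface between the analysis and STEP Y).
-/

set_option autoImplicit false

open MeasureTheory ProbabilityTheory
open Crest.OracleSampling (E Admissible)

noncomputable section

namespace Crest.Agent.R285

/-- **SEM_Y**: the output of the Y-system (`M` blocks of order `n`, `K + 1` sweeps) is close, in mean,
to a variable which after masking has exactly the law `TY s κ V c`. -/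
def SEMY : Prop :=
  ∀ n : ℕ, ∃ C P : ℝ, 0 < C ∧ 0 < P ∧ ∀ (d : ℕ) (V : E d → ℝ), Admissible d V →
    ∀ (s κ : ℝ), 0 < s → s ≤ 1 → C * s ^ 2 ≤ 1 → 0 < κ → κ ≤ 1 / 2 → ∀ (c : E d) (M : ℕ), 0 < M →
    ∀ K : ℕ, ∃ Y : E d → E d, Measurable Y ∧
      ((stdGaussian (E d)).prod (stdGaussian (E d))).map (fun w => Y w.1 +
        (s * √((1 - κ ^ 2) * (1 - (1 - κ ^ 2) / (1 - κ ^ 2 / 4)))) • w.2) = TY s κ V c ∧
      Integrable (fun ξ => ‖(YSys.fsys n M (√(1 - κ ^ 2 / 4)) ((1 - κ ^ 2) / (1 - κ ^ 2 / 4))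
        s).outv (G V) c (fun _ => c + s • ξ) (K + 1) - Y ξ‖) (stdGaussian (E d)) ∧
      ∫ ξ, ‖(YSys.fsys n M (√(1 - κ ^ 2 / 4)) ((1 - κ ^ 2) / (1 - κ ^ 2 / 4))
        s).outv (G V) c (fun _ => c + s • ξ) (K + 1) - Y ξ‖ ∂(stdGaussian (E d)) ≤
      s * (C * s ^ 2) ^ (K + 1) * (√(d : ℝ) + ‖c‖) +
        s * C * (κ ^ P)⁻¹ * (M : ℝ)⁻¹ ^ (n + 1) * √(d : ℝ)

end Crest.Agent.R285
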