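import Crest.Agent.R285.YSys
import Crest.Agent.R285.Curve
import Crest.Agent.R285.Flow1
import Crest.Agent.R285.ChanEta
import Crest.Agent.R285.SemYDef

/-!
# R285.YSem : the Y-system against the exact flow (semantic theorem SEM_Y)

* `vY V c s t x = -(s G_{sκ(t)}(c + s t x))` (Flow1) : velocity of the flow (1);
* `muY V s c t` : law of `t w + κ(t) g`, `w = (z-c)/s`, `z ∼ post V c s`;
* `flow_law` : it is the law of the flow started from the standard Gaussian;
* `muY_mask` : going back up in noise, `muY` at `e` gives `TY`;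
* `sem_core` : the error of the Y-system;
* `SM1Y` : the smoothness input; `semY_of_sm1 : SM1Y → SEMY`.
-/

set_option autoImplicit false
set_option linter.unusedSectionVars false

open Set Filter Topology MeasureTheory ProbabilityTheory
open Crest.OracleSampling (E Admissible)
open scoped ENNReal NNReal

noncomputable section

namespace Crest.Agent.R285.YSys

open Crest.Agent.R285 Crest.Agent.R285.Num

variable {d : ℕ}

/-- law of `t w + κ(t) g`, `w = (z - c)/s`, `z ∼ post V c s` -/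
def muY (V : E d → ℝ) (s : ℝ) (c : E d) (t : ℝ) : Measure (E d) :=
  ((post V c s).prod (stdGaussian (E d))).map (fun p => (t / s) • (p.1 - c) + kap t • p.2)

/-- two independent Gaussian noises add up -/
theorem two_noises (a b σ : ℝ) (hσ : 0 ≤ σ) (h : a ^ 2 + b ^ 2 = σ ^ 2) :
    ((stdGaussian (E d)).prod (stdGaussian (E d))).map (fun q => a • q.1 + b • q.2)
      = (stdGaussian (E d)).map (fun g => σ • g) := by
  have h1 := gN_lin2 (0 : E d) (0 : E d) 1 1 a b
  rw [gN_one] at h1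
  rw [h1]
  simp only [smul_zero, add_zero, mul_one, gN, zero_add]
  rw [h, Real.sqrt_sq hσ]

/-- Going back up in noise. -/
theorem muY_mask {V : E d → ℝ} {s κ : ℝ} {c : E d} [IsProbabilityMeasure (post V c s)]
    (hs : 0 < s) (hκ : 0 < κ) (hκ1 : κ ≤ 1 / 2) :
    ((muY V s c (√(1 - κ ^ 2 / 4))).prod (stdGaussian (E d))).map
      (fun w => (c + (s * ((1 - κ ^ 2) / (1 - κ ^ 2 / 4) * √(1 - κ ^ 2 / 4))) • w.1) +
        (s * √((1 - κ ^ 2) * (1 - (1 - κ ^ 2) / (1 - κ ^ 2 / 4)))) • w.2) =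
      ((post V c s).prod (stdGaussian (E d))).map
        (fun p => κ ^ 2 • c + (1 - κ ^ 2) • p.1 + (s * κ * √(1 - κ ^ 2)) • p.2) := by
  have hκ2 : κ ^ 2 ≤ 1 / 4 := by nlinarith
  have hκ0 : 0 < κ ^ 2 := by positivity
  set e : ℝ := √(1 - κ ^ 2 / 4) with he
  set ρ : ℝ := (1 - κ ^ 2) / (1 - κ ^ 2 / 4) with hρ
  have he2 : e ^ 2 = 1 - κ ^ 2 / 4 := Real.sq_sqrt (by linarith)
  have hden : 0 < 1 - κ ^ 2 / 4 := by linarith
  have hρe : ρ * e ^ 2 = 1 - κ ^ 2 := by rw [he2, hρ, div_mul_cancel₀ _ hden.ne']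
  have hρ1 : ρ ≤ 1 := by rw [hρ, div_le_one hden]; linarith
  have hρ0 : 0 ≤ ρ := by rw [hρ]; exact div_nonneg (by linarith) hden.le
  have hke : kap e ^ 2 = κ ^ 2 / 4 := by
    unfold kap
    rw [Real.sq_sqrt (by rw [he2]; linarith), he2]; ring
  set a : ℝ := s * (ρ * e) * kap e with ha
  set b : ℝ := s * √((1 - κ ^ 2) * (1 - ρ)) with hb
  set σ : ℝ := s * κ * √(1 - κ ^ 2) with hσ
  have hσ0 : 0 ≤ σ := by positivity
  have hab : a ^ 2 + b ^ 2 = σ ^ 2 := by
    have h1 : b ^ 2 = s ^ 2 * ((1 - κ ^ 2) * (1 - ρ)) := by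
      rw [hb, mul_pow, Real.sq_sqrt (mul_nonneg (by linarith) (by linarith))]
    have h2 : σ ^ 2 = s ^ 2 * κ ^ 2 * (1 - κ ^ 2) := by
      rw [hσ, mul_pow, mul_pow, Real.sq_sqrt (by linarith)]
    have h3 : a ^ 2 = s ^ 2 * ρ * (ρ * e ^ 2) * kap e ^ 2 := by rw [ha]; ring
    rw [h1, h2, h3, hke, hρe]
    have h4 : ρ * (1 - κ ^ 2 / 4) = 1 - κ ^ 2 := by rw [← he2]; exact hρe
    linear_combination (-(s ^ 2 * (1 - κ ^ 2))) * h4
  unfold muY
  -- push everything to the product of three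
  have hm1 : Measurable (fun p : E d × E d => (e / s) • (p.1 - c) + kap e • p.2) := by fun_prop
  have hprod : (((post V c s).prod (stdGaussian (E d))).map
      (fun p => (e / s) • (p.1 - c) + kap e • p.2)).prod (stdGaussian (E d)) =
      (((post V c s).prod (stdGaussian (E d))).prod (stdGaussian (E d))).map
        (Prod.map (fun p => (e / s) • (p.1 - c) + kap e • p.2) id) := by
    have := Measure.map_prod_map ((post V c s).prod (stdGaussian (E d))) (stdGaussian (E d)) hm1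
      measurable_id
    rw [Measure.map_id] at this
    exact this
  have hm2 : Measurable (fun w : E d × E d => (c + (s * (ρ * e)) • w.1) + b • w.2) := by fun_prop
  rw [hprod, Measure.map_map hm2 (by fun_prop)]
  -- reassociate
  have hassoc : ((post V c s).prod (stdGaussian (E d))).prod (stdGaussian (E d)) =
      ((post V c s).prod ((stdGaussian (E d)).prod (stdGaussian (E d)))).map
        (MeasurableEquiv.prodAssoc.symm) := by
    rw [← Measure.prodAssoc_prod, Measure.map_map (by fun_prop) (by fun_prop)]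
    simp
  rw [hassoc, Measure.map_map (by fun_prop) (by fun_prop)]
  -- the target
  have htar : ((post V c s).prod (stdGaussian (E d))).map
      (fun p => κ ^ 2 • c + (1 - κ ^ 2) • p.1 + σ • p.2) =
      ((post V c s).prod ((stdGaussian (E d)).map (fun g => σ • g))).map
        (fun p => κ ^ 2 • c + (1 - κ ^ 2) • p.1 + p.2) := by
    have h1 := Measure.map_prod_map (post V c s) (stdGaussian (E d)) (f := id)
      (g := fun g => σ • g) measurable_id (by fun_prop)
    rw [Measure.map_id] at h1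
    rw [h1, Measure.map_map (by fun_prop) (by fun_prop)]
    rfl
  rw [htar, ← two_noises (d := d) a b σ hσ0 hab]
  have h2 := Measure.map_prod_map (post V c s) ((stdGaussian (E d)).prod (stdGaussian (E d)))
    (f := id) (g := fun q : E d × E d => a • q.1 + b • q.2) measurable_id (by fun_prop)
  rw [Measure.map_id] at h2
  rw [h2, Measure.map_map (by fun_prop) (by fun_prop)]
  congr 1
  funext p
  simp only [Function.comp_apply, Prod.map_fst, Prod.map_snd, Prod.map_apply, id_eq,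
    MeasurableEquiv.prodAssoc,
    MeasurableEquiv.symm_mk, MeasurableEquiv.coe_mk, Equiv.prodAssoc_symm_apply]
  have h5 : s * (ρ * e) * (e / s) = 1 - κ ^ 2 := by
    rw [← hρe]; field_simp
  rw [smul_add, smul_smul, smul_smul, h5, ← ha]
  module

/-! ### continuity of flat systems -/

section cont

variable {P ι : Type} [Fintype P] [Fintype ι] {X : Type} [NormedAddCommGroup X] [NormedSpace ℝ X]
  {Y : Type} [TopologicalSpace Y]

theorem continuous_eval {c : X} {p : Y → P → X} {g : Y → ι → X} (hp : ∀ k, Continuous fun y => p y k)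
    (hg : ∀ i, Continuous fun y => g y i) (f : LF P ι) :
    Continuous fun y => LF.eval c (p y) (g y) f := by
  simp only [LF.eval_apply]
  exact (continuous_const.add (continuous_finsetSum _ fun k _ => (hp k).const_smul _)).add
    (continuous_finsetSum _ fun i _ => (hg i).const_smul _)

theorem continuous_gval (S : FlatSys P ι) {G : ℝ → X → X} (hG : ∀ σ, Continuous (G σ)) {c : X}
    {p : Y → P → X} (hp : ∀ k, Continuous fun y => p y k) (k : ℕ) (i : ι) :
    Continuous fun y => S.gval G c (p y) k i := by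
  induction k generalizing i with
  | zero => exact continuous_const
  | succ k ih => exact (hG _).comp (continuous_eval hp ih _)

theorem continuous_outv (S : FlatSys P ι) {G : ℝ → X → X} (hG : ∀ σ, Continuous (G σ)) {c : X}
    {p : Y → P → X} (hp : ∀ k, Continuous fun y => p y k) (k : ℕ) :
    Continuous fun y => S.outv G c (p y) k :=
  continuous_eval hp (continuous_gval S hG hp k) _

end cont

/-! ### law and moments of the flow -/

theorem kap_pos {t : ℝ} (ht : t ∈ Ioo (-1 : ℝ) 1) : 0 < kap t :=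
  Real.sqrt_pos.2 (one_sub_sq_pos ht)

theorem kap_sq {t : ℝ} (ht : t ∈ Ioo (-1 : ℝ) 1) : kap t ^ 2 = 1 - t ^ 2 :=
  Real.sq_sqrt (one_sub_sq_pos ht).le

theorem kap_le_one (t : ℝ) : kap t ≤ 1 := by
  unfold kap
  exact Real.sqrt_le_one.mpr (by nlinarith [sq_nonneg t])

/-- the law of the flow (1) at time `t` -/
theorem flow_law {V : E d → ℝ} (hV : Admissible d V) (c : E d) {s : ℝ} (hs : 0 < s) {t : ℝ}
    (ht : t ∈ Ico (0 : ℝ) 1) :
    (stdGaussian (E d)).map (evol (vY V c s) (Ioo (-1) 1) 0 t) = muY V s c t :=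
  evol_eta_law (PotP.of_admissible hV) c hs ht.1 ht.2

theorem integrable_muY_pt {V : E d → ℝ} (hV : Admissible d V) (c : E d) {s : ℝ} (hs : 0 < s)
    (hs2 : s ≤ 1 / 2) {t : ℝ} (ht : t ∈ Ico (0 : ℝ) 1) :
    Integrable (fun x => ‖c + (s * t) • x‖) (muY V s c t) ∧
      ∫ x, ‖c + (s * t) • x‖ ∂(muY V s c t) ≤ 3 * (√(d : ℝ) + ‖c‖) := by
  have htJ : t ∈ Ioo (-1 : ℝ) 1 := ⟨by linarith [ht.1], ht.2⟩
  have hk := kap_pos htJ
  have hk2 := kap_sq htJ
  have hst : 1 - kap t ^ 2 = t ^ 2 := by rw [hk2]; ring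
  obtain ⟨h1, h2⟩ := adm_channel_moment hV c (κ := kap t) hs hs2 hk.le (kap_le_one t)
  have hm : Measurable (fun p : E d × E d => (t / s) • (p.1 - c) + kap t • p.2) := by fun_prop
  have e1 : ((post V c s).prod (stdGaussian (E d))).map
      (fun p => kap t ^ 2 • c + (1 - kap t ^ 2) • p.1 + (s * kap t * √(1 - kap t ^ 2)) • p.2) =
      (muY V s c t).map (fun x => c + (s * t) • x) := by
    rw [muY, Measure.map_map (by fun_prop) hm]
    congr 1
    funext p
    simp only [Function.comp_apply]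
    rw [hst, Real.sqrt_sq ht.1, hk2, smul_add, smul_smul, smul_smul]
    have e3 : s * t * (t / s) = t ^ 2 := by field_simp
    rw [e3]
    module
  rw [e1] at h1 h2
  have hm2 : Measurable (fun x : E d => c + (s * t) • x) := by fun_prop
  rw [integrable_map_measure (by fun_prop) hm2.aemeasurable] at h1
  rw [integral_map hm2.aemeasurable (by fun_prop)] at h2
  exact ⟨h1, h2⟩

/-- first moment of the velocity -/
theorem lintegral_vY_le {V : E d → ℝ} (hV : Admissible d V) (c : E d) {s : ℝ} (hs : 0 < s)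
    (hs2 : s ≤ 1 / 2) {t : ℝ} (ht : t ∈ Ico (0 : ℝ) 1) :
    ∫⁻ x, ‖vY V c s t x‖ₑ ∂(muY V s c t) ≤ ENNReal.ofReal (16 * s * (√(d : ℝ) + ‖c‖)) := by
  have htJ : t ∈ Ioo (-1 : ℝ) 1 := ⟨by linarith [ht.1], ht.2⟩
  have hk := kap_pos htJ
  have hk1 := kap_le_one t
  have hP : IsProbabilityMeasure (muY V s c t) := by
    have := adm_isProb_post hV c hs
    exact Measure.isProbabilityMeasure_map (by fun_prop)
  obtain ⟨h1, h2⟩ := integrable_muY_pt hV c hs hs2 ht
  have hsk : s * kap t ≤ 1 / 2 := by nlinarith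
  have hb : ∀ x, ‖vY V c s t x‖ ≤ s * (4 * (√(d : ℝ) + ‖c + (s * t) • x‖)) := by
    intro x
    unfold vY
    rw [norm_neg, norm_smul, Real.norm_of_nonneg hs.le]
    exact mul_le_mul_of_nonneg_left (adm_norm_G hV _ (by positivity) hsk) hs.le
  have h3 : Integrable (fun x => s * (4 * (√(d : ℝ) + ‖c + (s * t) • x‖))) (muY V s c t) :=
    (((integrable_const _).add h1).const_mul 4).const_mul s
  calc ∫⁻ x, ‖vY V c s t x‖ₑ ∂(muY V s c t)
      ≤ ∫⁻ x, ENNReal.ofReal (s * (4 * (√(d : ℝ) + ‖c + (s * t) • x‖))) ∂(muY V s c t) := by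
        refine lintegral_mono fun x => ?_
        rw [← ofReal_norm]
        exact ENNReal.ofReal_le_ofReal (hb x)
    _ = ENNReal.ofReal (∫ x, s * (4 * (√(d : ℝ) + ‖c + (s * t) • x‖)) ∂(muY V s c t)) :=
        (ofReal_integral_eq_lintegral_ofReal h3 (ae_of_all _ fun x => by positivity)).symm
    _ ≤ ENNReal.ofReal (16 * s * (√(d : ℝ) + ‖c‖)) := by
        refine ENNReal.ofReal_le_ofReal ?_
        rw [integral_const_mul, integral_const_mul, integral_add (integrable_const _) h1,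
          integral_const, probReal_univ, one_smul]
        have h4 : 0 ≤ √(d : ℝ) := Real.sqrt_nonneg _
        have h5 : 0 ≤ ‖c‖ := norm_nonneg _
        nlinarith

/-! ### the exact path -/

theorem neg_dv {v f : ℝ → E d → E d} :
    Dv v (fun t x => -(f t x)) = fun t x => -(Dv v f t x) := by
  funext t x
  unfold Dv
  have : (fun p : ℝ × E d => -(f p.1 p.2)) = -(fun p : ℝ × E d => f p.1 p.2) := rfl
  rw [this, fderiv_neg]
  rfl

theorem neg_iterate_dv {v f : ℝ → E d → E d} (k : ℕ) :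
    (Dv v)^[k] (fun t x => -(f t x)) = fun t x => -((Dv v)^[k] f t x) := by
  induction k with
  | zero => rfl
  | succ k ih => rw [Function.iterate_succ_apply', ih, neg_dv, Function.iterate_succ_apply']

/-- the exact path of the flow (1) -/
theorem path {V : E d → ℝ} (hV : Admissible d V) (c : E d) {s : ℝ} (hs : 0 < s) {e : ℝ}
    (he0 : 0 < e) (he1 : e < 1) (n : ℕ) (ξ : E d) :
    YPath n e s (G V) c ξ (fun t => evol (vY V c s) (Ioo (-1) 1) 0 t ξ)
      (fun k t => curveF (vY V c s) (fun t x => -(vY V c s t x)) (Ioo (-1) 1) 0 0 e k t ξ) := by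
  have hU := PotP.of_admissible hV
  have hgood := goodOn_vY hU c hs
  have hsmooth := smOn_vY hU c hs
  have hsub : Icc 0 e ⊆ Ioo (-1 : ℝ) 1 := fun t ht => ⟨by linarith [ht.1], by linarith [ht.2]⟩
  have h0 : (0 : ℝ) ∈ Ioo (-1 : ℝ) 1 := by constructor <;> norm_num
  have hf : SmOn (fun t x => -(vY V c s t x)) (Ioo (-1) 1) := hsmooth.neg
  have hval : ∀ t ∈ Icc 0 e, curveF (vY V c s) (fun t x => -(vY V c s t x)) (Ioo (-1) 1) 0 0 e 0 t ξ =
      -(vY V c s t (evol (vY V c s) (Ioo (-1) 1) 0 t ξ)) := fun t ht => by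
    rw [curveF_of_mem ht]; rfl
  refine ⟨tower_curveF hgood hf hsmooth h0 hsub (n + 1) ξ, fun t ht => ?_, fun t ht => ?_⟩
  · have hst : Icc 0 t ⊆ Icc 0 e := Icc_subset_Icc le_rfl ht.2
    have hF : ∀ u ∈ uIcc 0 t, HasDerivAt (fun t => evol (vY V c s) (Ioo (-1) 1) 0 t ξ)
        (vY V c s u (evol (vY V c s) (Ioo (-1) 1) 0 u ξ)) u := fun u hu => by
      rw [uIcc_of_le ht.1] at hu
      exact hgood.hasDerivAt_evol h0 (hsub (hst hu)) ξ
    have hcont : ContinuousOn (fun u => vY V c s u (evol (vY V c s) (Ioo (-1) 1) 0 u ξ))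
        (uIcc 0 t) := by
      intro u hu
      rw [uIcc_of_le ht.1] at hu
      have hu' := hsub (hst hu)
      have h1 : ContinuousAt (fun p : ℝ × E d => vY V c s p.1 p.2)
          (u, evol (vY V c s) (Ioo (-1) 1) 0 u ξ) :=
        (hsmooth.differentiableAt hgood.isOpen hu' _).continuousAt
      have h2 : ContinuousAt (fun t => evol (vY V c s) (Ioo (-1) 1) 0 t ξ) u :=
        (hgood.hasDerivAt_evol h0 hu' ξ).continuousAt
      exact (h1.comp (f := fun t => (t, evol (vY V c s) (Ioo (-1) 1) 0 t ξ))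
        (continuousAt_id.prodMk h2)).continuousWithinAt
    have h3 := intervalIntegral.integral_eq_sub_of_hasDerivAt hF hcont.intervalIntegrable
    rw [hgood.evol_self h0] at h3
    have h4 : ∫ u in (0 : ℝ)..t,
        curveF (vY V c s) (fun t x => -(vY V c s t x)) (Ioo (-1) 1) 0 0 e 0 u ξ =
        -∫ u in (0 : ℝ)..t, vY V c s u (evol (vY V c s) (Ioo (-1) 1) 0 u ξ) := by
      rw [← intervalIntegral.integral_neg]
      refine intervalIntegral.integral_congr fun u hu => ?_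
      rw [uIcc_of_le ht.1] at hu
      exact hval u (hst hu)
    rw [h4, h3]
    abel
  · rw [hval t ht]
    simp [vY, kap]

/-! ### The semantic theorem -/

/-- **SEM_Y, one configuration.** -/
theorem sem_core {V : E d → ℝ} (hV : Admissible d V) (c : E d) {s : ℝ} (hs : 0 < s)
    (hs2 : s ≤ 1 / 2)
    {n M : ℕ} (hM : 0 < M) {e ρ : ℝ} (he0 : 0 < e) (he1 : e < 1) (hρ0 : 0 ≤ ρ) (hρ1 : ρ ≤ 1)
    (hL : 2 * (s ^ 2 * CY n) ≤ 1 / 2) {Bn : ℝ} (hBn : 0 ≤ Bn)
    (hn : ∀ t ∈ Icc 0 e, eLpNorm (((Dv (vY V c s))^[n + 1] (vY V c s)) t) 2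
      (muY V s c t) ≤ ENNReal.ofReal Bn) (K : ℕ) :
    Integrable (fun ξ => ‖(fsys n M e ρ s).outv (G V) c (fun _ => c + s • ξ) (K + 1) -
        (c + (s * (ρ * e)) • evol (vY V c s) (Ioo (-1) 1) 0 e ξ)‖) (stdGaussian (E d)) ∧
    ∫ ξ, ‖(fsys n M e ρ s).outv (G V) c (fun _ => c + s • ξ) (K + 1) -
        (c + (s * (ρ * e)) • evol (vY V c s) (Ioo (-1) 1) 0 e ξ)‖ ∂(stdGaussian (E d)) ≤
      s * ((2 * (s ^ 2 * CY n)) ^ (K + 1) * (16 * s * (√(d : ℝ) + ‖c‖)) +
        2 * (1 + intC (n + 1)) * (e / M) ^ (n + 1) * Bn) := by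
  have hU := PotP.of_admissible hV
  have hgood := goodOn_vY hU c hs
  have hsmooth := smOn_vY hU c hs
  have hlip : ∀ σ x y, ‖G V σ x - G V σ y‖ ≤ 2 * ‖x - y‖ := gr_lip hU
  have hsub : Icc 0 e ⊆ Ioo (-1 : ℝ) 1 := fun t ht => ⟨by linarith [ht.1], by linarith [ht.2]⟩
  have h0J : (0 : ℝ) ∈ Ioo (-1 : ℝ) 1 := by constructor <;> norm_num
  have heJ : e ∈ Ioo (-1 : ℝ) 1 := ⟨by linarith, he1⟩
  have hf : SmOn (fun t x => -(vY V c s t x)) (Ioo (-1) 1) := hsmooth.neg
  have hlaw : ∀ t ∈ Icc 0 e,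
      (stdGaussian (E d)).map (evol (vY V c s) (Ioo (-1) 1) 0 t) = muY V s c t :=
    fun t ht => flow_law hV c hs ⟨ht.1, lt_of_le_of_lt ht.2 he1⟩
  have hmeas : ∀ k, Measurable (fun p : ℝ × E d => ‖curveF (vY V c s)
      (fun t x => -(vY V c s t x)) (Ioo (-1) 1) 0 0 e k p.1 p.2‖ₑ) := fun k =>
    (measurable_curveF hgood hf hsmooth h0J hsub k).enorm
  have hB0' : ∀ t ∈ Ioc 0 e, ∫⁻ ξ, ‖curveF (vY V c s) (fun t x => -(vY V c s t x)) (Ioo (-1) 1)
      0 0 e 0 t ξ‖ₑ ∂(stdGaussian (E d)) ≤ ENNReal.ofReal (16 * s * (√(d : ℝ) + ‖c‖)) := by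
    intro t ht
    have ht' : t ∈ Icc 0 e := ⟨ht.1.le, ht.2⟩
    refine le_trans (le_of_eq ?_) (lintegral_vY_le hV c hs hs2 ⟨ht.1.le, lt_of_le_of_lt ht.2 he1⟩)
    have hc : Continuous (fun x => vY V c s t x) := by
      rw [← continuousOn_univ]
      exact hsmooth.continuousOn.comp (f := fun x : E d => (t, x)) (by fun_prop)
        (fun x _ => ⟨hsub ht', mem_univ _⟩)
    rw [← hlaw t ht', lintegral_map hc.measurable.enorm
      (hgood.continuous_evol h0J (hsub ht')).measurable]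
    refine lintegral_congr fun ξ => ?_
    rw [curveF_of_mem ht']
    simp
  have hBn' : ∀ t ∈ Ioc 0 e, ∫⁻ ξ, ‖curveF (vY V c s) (fun t x => -(vY V c s t x)) (Ioo (-1) 1)
      0 0 e (n + 1) t ξ‖ₑ ∂(stdGaussian (E d)) ≤ ENNReal.ofReal Bn := by
    intro t ht
    have ht' : t ∈ Icc 0 e := ⟨ht.1.le, ht.2⟩
    refine le_trans ?_ (hn t ht')
    have e0 : eLpNorm (((Dv (vY V c s))^[n + 1] (vY V c s)) t) 2 (muY V s c t) =
        eLpNorm (((Dv (vY V c s))^[n + 1] (fun t x => -(vY V c s t x))) t) 2 (muY V s c t) := by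
      rw [neg_iterate_dv]
      exact (eLpNorm_neg _ _ _).symm
    rw [e0, ← eLpNorm_curveF hgood hf hsmooth h0J hsub ht' (hlaw t ht') (n + 1)]
    have hm : AEStronglyMeasurable (curveF (vY V c s) (fun t x => -(vY V c s t x)) (Ioo (-1) 1)
        0 0 e (n + 1) t) (stdGaussian (E d)) :=
      ((measurable_curveF hgood hf hsmooth h0J hsub (n + 1)).comp
        (measurable_const.prodMk measurable_id)).aestronglyMeasurable
    rw [← eLpNorm_one_eq_lintegral_enorm]
    exact eLpNorm_le_eLpNorm_of_exponent_le (by norm_num) hm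
  have key := ypath_error_mean (P := stdGaussian (E d)) (n := n) hM he0 he1.le hρ0 hρ1 hs.le
    (zero_le_two) hlip hL (c := c) (ξ := fun ξ => ξ)
    (η := fun ξ t => evol (vY V c s) (Ioo (-1) 1) 0 t ξ)
    (F := fun k t ξ => curveF (vY V c s) (fun t x => -(vY V c s t x)) (Ioo (-1) 1) 0 0 e k t ξ)
    (fun ξ => path hV c hs he0 he1 n ξ) (hmeas 0) (hmeas (n + 1)) hB0' hBn' K
  have hC := intC_nonneg (n + 1)
  have hCY := CY_nonneg n
  have hM' : (0 : ℝ) < M := by exact_mod_cast hM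
  have hR : 0 ≤ s * ((2 * (s ^ 2 * CY n)) ^ (K + 1) * (16 * s * (√(d : ℝ) + ‖c‖)) +
        2 * (1 + intC (n + 1)) * (e / M) ^ (n + 1) * Bn) := by positivity
  have key2 : ∫⁻ ξ, ‖(fsys n M e ρ s).outv (G V) c (fun _ => c + s • ξ) (K + 1) -
        (c + (s * (ρ * e)) • evol (vY V c s) (Ioo (-1) 1) 0 e ξ)‖ₑ ∂(stdGaussian (E d)) ≤
      ENNReal.ofReal (s * ((2 * (s ^ 2 * CY n)) ^ (K + 1) * (16 * s * (√(d : ℝ) + ‖c‖)) +
        2 * (1 + intC (n + 1)) * (e / M) ^ (n + 1) * Bn)) := by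
    refine key.trans (le_of_eq ?_)
    rw [← ENNReal.ofReal_mul (by positivity), ← ENNReal.ofReal_mul (by positivity),
      ← ENNReal.ofReal_add (by positivity) (by positivity), ← ENNReal.ofReal_mul hs.le]
  have hcont : Continuous (fun ξ => (fsys n M e ρ s).outv (G V) c (fun _ => c + s • ξ) (K + 1) -
        (c + (s * (ρ * e)) • evol (vY V c s) (Ioo (-1) 1) 0 e ξ)) := by
    have hev := hgood.continuous_evol h0J heJ
    have hce : Continuous (fun ξ => (s * (ρ * e)) • evol (vY V c s) (Ioo (-1) 1) 0 e ξ) := by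
      fun_prop
    refine Continuous.sub ?_ (continuous_const.add hce)
    refine continuous_outv _ (fun σ => ?_) (fun k => by fun_prop) _
    exact (LipschitzWith.of_dist_le_mul (K := 2) fun x y => by
      rw [dist_eq_norm, dist_eq_norm]; exact_mod_cast hlip σ x y).continuous
  have hint : Integrable (fun ξ => (fsys n M e ρ s).outv (G V) c (fun _ => c + s • ξ) (K + 1) -
        (c + (s * (ρ * e)) • evol (vY V c s) (Ioo (-1) 1) 0 e ξ)) (stdGaussian (E d)) :=
    ⟨hcont.aestronglyMeasurable, lt_of_le_of_lt key2 ENNReal.ofReal_lt_top⟩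
  refine ⟨hint.norm, ?_⟩
  rw [integral_norm_eq_lintegral_enorm hcont.aestronglyMeasurable]
  exact ENNReal.toReal_le_of_le_ofReal hR key2

/-- The smoothness input (SM1 for the uncoupled flow). -/
def SM1Y : Prop := ∀ n : ℕ, ∃ C P : ℝ, 0 < C ∧ 0 < P ∧ ∀ (d : ℕ) (V : E d → ℝ), Admissible d V →
  ∀ s : ℝ, 0 < s → s ≤ 1 / 2 → ∀ (c : E d) (t : ℝ), t ∈ Ico (0 : ℝ) 1 →
    eLpNorm (((Dv (vY V c s))^[n + 1] (vY V c s)) t) 2 (muY V s c t) ≤
      ENNReal.ofReal (C * (kap t ^ P)⁻¹ * √(d : ℝ))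

/-- **The semantic theorem of the Y-system**, from the smoothness of the flow. -/
theorem semY_of_sm1 (h : SM1Y) : SEMY := by
  intro n
  obtain ⟨C₁, P, hC₁, hP, hsm⟩ := h n
  have hC := intC_nonneg (n + 1)
  have hCY := CY_nonneg n
  set C : ℝ := 4 + 32 * CY n + 2 * (1 + intC (n + 1)) * C₁ * 2 ^ P with hCdef
  have h2P : 0 < (2 : ℝ) ^ P := Real.rpow_pos_of_pos two_pos P
  have hCpos : 0 < C := by positivity
  refine ⟨C, P, hCpos, hP, fun d V hV s κ hs _ hCs hκ hκ1 c M hM K => ?_⟩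
  set e : ℝ := √(1 - κ ^ 2 / 4) with hedef
  set ρ : ℝ := (1 - κ ^ 2) / (1 - κ ^ 2 / 4) with hρdef
  have hκ2 : κ ^ 2 ≤ 1 / 4 := by nlinarith
  have hκ0 : 0 < κ ^ 2 := by positivity
  have hden : 0 < 1 - κ ^ 2 / 4 := by linarith
  have he2 : e ^ 2 = 1 - κ ^ 2 / 4 := Real.sq_sqrt (by linarith)
  have he0 : 0 < e := Real.sqrt_pos.2 hden
  have he1 : e < 1 := by nlinarith
  have hρ1 : ρ ≤ 1 := by
    rw [hρdef, div_le_one hden]; linarith
  have hρ0 : 0 ≤ ρ := div_nonneg (by linarith) hden.le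
  have hs4 : 4 * s ^ 2 ≤ 1 := by
    refine le_trans (mul_le_mul_of_nonneg_right ?_ (sq_nonneg s)) hCs
    have : 0 ≤ 32 * CY n + 2 * (1 + intC (n + 1)) * C₁ * 2 ^ P := by positivity
    linarith
  have hs2 : s ≤ 1 / 2 := by nlinarith
  have hL : 2 * (s ^ 2 * CY n) ≤ 1 / 2 := by
    have h1 : (32 * CY n) * s ^ 2 ≤ C * s ^ 2 := by
      refine mul_le_mul_of_nonneg_right ?_ (sq_nonneg s)
      have : 0 ≤ 4 + 2 * (1 + intC (n + 1)) * C₁ * 2 ^ P := by positivity
      linarith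
    nlinarith
  have hkape : kap e = κ / 2 := by
    unfold kap
    rw [he2, show 1 - (1 - κ ^ 2 / 4) = (κ / 2) ^ 2 by ring, Real.sqrt_sq (by positivity)]
  -- bound of the smoothness term
  set Bn : ℝ := C₁ * ((κ / 2) ^ P)⁻¹ * √(d : ℝ) with hBn
  have hBn0 : 0 ≤ Bn := by positivity
  have hn : ∀ t ∈ Icc 0 e, eLpNorm (((Dv (vY V c s))^[n + 1] (vY V c s)) t) 2
      (muY V s c t) ≤ ENNReal.ofReal Bn := by
    intro t ht
    refine (hsm d V hV s hs hs2 c t ⟨ht.1, lt_of_le_of_lt ht.2 he1⟩).trans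
      (ENNReal.ofReal_le_ofReal ?_)
    have h1 : κ / 2 ≤ kap t := by rw [← hkape]; exact kap_anti ht.1 ht.2
    rw [hBn]
    gcongr
  obtain ⟨hi, hb⟩ := sem_core hV c hs hs2 (n := n) hM he0 he1 hρ0 hρ1 hL hBn0 hn K
  have hU := PotP.of_admissible hV
  have h0J : (0 : ℝ) ∈ Ioo (-1 : ℝ) 1 := by constructor <;> norm_num
  have heJ : e ∈ Ioo (-1 : ℝ) 1 := ⟨by linarith, he1⟩
  have hev := (goodOn_vY hU c hs).continuous_evol h0J heJ
  have hevm := hev.measurable
  refine ⟨fun ξ => c + (s * (ρ * e)) • evol (vY V c s) (Ioo (-1) 1) 0 e ξ, by fun_prop, ?_, hi,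
    hb.trans ?_⟩
  · have := adm_isProb_post hV c hs
    have h1 := muY_mask (V := V) (c := c) hs hκ hκ1
    rw [← flow_law hV c hs ⟨he0.le, he1⟩] at h1
    have h2 := Measure.map_prod_map (stdGaussian (E d)) (stdGaussian (E d)) hevm measurable_id
    rw [Measure.map_id] at h2
    rw [h2, Measure.map_map (by fun_prop) (by fun_prop)] at h1
    exact h1
  · -- constants
    have hM' : (0 : ℝ) < M := by exact_mod_cast hM
    have hd0 : 0 ≤ √(d : ℝ) := Real.sqrt_nonneg _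
    have hc0 : 0 ≤ ‖c‖ := norm_nonneg c
    have t1 : (2 * (s ^ 2 * CY n)) ^ (K + 1) * (16 * s * (√(d : ℝ) + ‖c‖)) ≤
        (C * s ^ 2) ^ (K + 1) * (√(d : ℝ) + ‖c‖) := by
      have h3 : (2 * (s ^ 2 * CY n)) ^ (K + 1) * 16 ≤ (32 * CY n * s ^ 2) ^ (K + 1) := by
        have e16 : (32 * CY n * s ^ 2) = (2 * (s ^ 2 * CY n)) * 16 := by ring
        have h16 : (16 : ℝ) ≤ 16 ^ (K + 1) := by
          calc (16 : ℝ) = 16 ^ 1 := (pow_one _).symm
            _ ≤ 16 ^ (K + 1) := pow_le_pow_right₀ (by norm_num) (by omega)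
        have hX : 0 ≤ (2 * (s ^ 2 * CY n)) ^ (K + 1) := by positivity
        rw [e16, mul_pow (2 * (s ^ 2 * CY n)) 16]
        exact mul_le_mul_of_nonneg_left h16 hX
      have h4 : (32 * CY n * s ^ 2) ^ (K + 1) ≤ (C * s ^ 2) ^ (K + 1) := by
        refine pow_le_pow_left₀ (by positivity) (mul_le_mul_of_nonneg_right ?_ (sq_nonneg s)) _
        have : 0 ≤ 4 + 2 * (1 + intC (n + 1)) * C₁ * 2 ^ P := by positivity
        linarith
      have h5 : 0 ≤ (2 * (s ^ 2 * CY n)) ^ (K + 1) * 16 := by positivity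
      calc (2 * (s ^ 2 * CY n)) ^ (K + 1) * (16 * s * (√(d : ℝ) + ‖c‖)) =
            ((2 * (s ^ 2 * CY n)) ^ (K + 1) * 16) * s * (√(d : ℝ) + ‖c‖) := by ring
        _ ≤ ((2 * (s ^ 2 * CY n)) ^ (K + 1) * 16) * 1 * (√(d : ℝ) + ‖c‖) := by
            gcongr
        _ ≤ (C * s ^ 2) ^ (K + 1) * (√(d : ℝ) + ‖c‖) := by
            rw [mul_one]
            exact mul_le_mul_of_nonneg_right (h3.trans h4) (by positivity)
    have t2 : 2 * (1 + intC (n + 1)) * (e / M) ^ (n + 1) * Bn ≤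
        C * (κ ^ P)⁻¹ * (M : ℝ)⁻¹ ^ (n + 1) * √(d : ℝ) := by
      have h6 : ((κ / 2) ^ P)⁻¹ = 2 ^ P * (κ ^ P)⁻¹ := by
        rw [Real.div_rpow hκ.le two_pos.le, inv_div, div_eq_mul_inv]
      have h7 : (e / M) ^ (n + 1) ≤ (M : ℝ)⁻¹ ^ (n + 1) := by
        refine pow_le_pow_left₀ (by positivity) ?_ _
        rw [div_eq_mul_inv]
        have : 0 < (M : ℝ)⁻¹ := by positivity
        nlinarith
      rw [hBn, h6]
      calc 2 * (1 + intC (n + 1)) * (e / M) ^ (n + 1) * (C₁ * (2 ^ P * (κ ^ P)⁻¹) * √(d : ℝ)) ≤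
            2 * (1 + intC (n + 1)) * (M : ℝ)⁻¹ ^ (n + 1) *
              (C₁ * (2 ^ P * (κ ^ P)⁻¹) * √(d : ℝ)) := by gcongr
        _ = (2 * (1 + intC (n + 1)) * C₁ * 2 ^ P) * (κ ^ P)⁻¹ * (M : ℝ)⁻¹ ^ (n + 1) *
              √(d : ℝ) := by ring
        _ ≤ C * (κ ^ P)⁻¹ * (M : ℝ)⁻¹ ^ (n + 1) * √(d : ℝ) := by
            gcongr
            have : 0 ≤ 4 + 32 * CY n := by positivity
            linarith
    calc s * ((2 * (s ^ 2 * CY n)) ^ (K + 1) * (16 * s * (√(d : ℝ) + ‖c‖)) +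
          2 * (1 + intC (n + 1)) * (e / M) ^ (n + 1) * Bn) ≤
          s * ((C * s ^ 2) ^ (K + 1) * (√(d : ℝ) + ‖c‖) +
            C * (κ ^ P)⁻¹ * (M : ℝ)⁻¹ ^ (n + 1) * √(d : ℝ)) := by gcongr
      _ = _ := by ring

end Crest.Agent.R285.YSys
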