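import Crest.Agent.R285.SMInner
import Crest.Agent.R285.YSem

/-!
Row 285 (S0430): the smoothness input `SM1Y` of the Y-system, from the flattening bounds
`SM.AFall c`.
-/

set_option autoImplicit false
set_option linter.unusedSectionVars false

open MeasureTheory ProbabilityTheory Real Filter Topology Set
open Crest.OracleSampling (E Admissible)
open scoped RealInnerProductSpace ENNReal ContDiff

noncomputable section

namespace Crest.Agent.R285.SM

open Crest.Agent.R285 Crest.Agent.R285.YSys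

/-- **SM1Y** from the flattening bounds. -/
theorem sm1Y {c : ℕ → ℝ} (hAF : AFall c) : SM1Y := by
  intro n
  obtain ⟨C, P, hC, H⟩ := exists_vY hAF n
  refine ⟨C + 1, (P : ℝ) + 1, by linarith, by positivity,
    fun d V hV s hs hs2 y t ht => ?_⟩
  have hP := PotP.of_admissible hV
  have ht' : t ∈ Ioo (-1 : ℝ) 1 := ⟨by linarith [ht.1], ht.2⟩
  have h2 : (2 : ℝ) * s ^ 2 ≤ 1 := by nlinarith
  have h1 := H hP two_pos hs h2 y ht'
  rw [← flow_law hV y hs ht]
  have hc0 : Continuous ((Dv (vY V y s))^[n + 1] (vY V y s) t) := by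
    rw [← continuousOn_univ]
    exact ((smOn_vY hP y hs).iterate_Dv isOpen_Ioo (smOn_vY hP y hs) (n + 1)).continuousOn.comp
      (f := fun x : E d => (t, x)) (by fun_prop) (fun x _ => ⟨ht', mem_univ _⟩)
  have hm : Measurable (evol (vY V y s) (Ioo (-1 : ℝ) 1) 0 t) :=
    ((goodOn_vY hP y hs).continuous_evol ⟨by norm_num, by norm_num⟩ ht').measurable
  rw [eLpNorm_map_measure hc0.aestronglyMeasurable hm.aemeasurable]
  refine le_trans h1 (ENNReal.ofReal_le_ofReal ?_)
  refine mul_le_mul_of_nonneg_right ?_ (Real.sqrt_nonneg _)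
  have hκ := kap_pos ht'
  have hκ1 := kap_le_one t
  have e1 : (√(1 - t ^ 2))⁻¹ ^ P ≤ (kap t ^ ((P : ℝ) + 1))⁻¹ := by
    have : (√(1 - t ^ 2))⁻¹ ^ P = (kap t ^ (P : ℝ))⁻¹ := by
      rw [Real.rpow_natCast, inv_pow]
      rfl
    rw [this]
    refine inv_anti₀ (Real.rpow_pos_of_pos hκ _) ?_
    exact Real.rpow_le_rpow_of_exponent_ge hκ hκ1 (by linarith)
  have e2 : 0 ≤ (√(1 - t ^ 2))⁻¹ ^ P := by positivity
  calc 2 * s ^ 2 * (C * (√(1 - t ^ 2))⁻¹ ^ P)
      ≤ 1 * (C * (√(1 - t ^ 2))⁻¹ ^ P) := mul_le_mul_of_nonneg_right h2 (by positivity)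
    _ = C * (√(1 - t ^ 2))⁻¹ ^ P := one_mul _
    _ ≤ (C + 1) * (kap t ^ ((P : ℝ) + 1))⁻¹ :=
        mul_le_mul (by linarith) e1 e2 (by linarith)

/-- The semantic theorem of the Y-system, from the flattening bounds. -/
theorem semY {c : ℕ → ℝ} (hAF : AFall c) : SEMY := semY_of_sm1 (sm1Y hAF)

end Crest.Agent.R285.SM
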