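import Crest.Agent.R285.BaseSteps

/-!
Row 285 (S0430): the sampler step (composition at a visible centre).
-/

set_option autoImplicit false
set_option linter.unusedSectionVars false

open MeasureTheory ProbabilityTheory Filter Topology
open Crest.OracleSampling (E Admissible oracle)
open scoped NNReal

noncomputable section

namespace Crest.Agent.R285.Rec

open Crest.Agent.R285

theorem floor_add_le (C C' y : ℝ) (hC : 0 ≤ C) (hC' : 0 ≤ C') (hy : 0 ≤ y) :
    ⌊C * y⌋₊ + ⌊C' * y⌋₊ ≤ ⌊(C + C') * y⌋₊ := by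
  have h1 : 0 ≤ C * y := mul_nonneg hC hy
  have h2 : 0 ≤ C' * y := mul_nonneg hC' hy
  rw [add_mul]
  refine Nat.le_floor ?_
  push_cast
  exact add_le_add (Nat.floor_le h1) (Nat.floor_le h2)

theorem floor_mono {C C' y : ℝ} (h : C ≤ C') (hy : 0 ≤ y) : ⌊C * y⌋₊ ≤ ⌊C' * y⌋₊ :=
  Nat.floor_le_floor (mul_le_mul_of_nonneg_right h hy)

theorem bt_rpow_lt_one {x k : ℝ} (hx : 0 < x) (hk : 0 < k) {d : ℕ} (hd : 2 ≤ d) :
    bt x d ^ k < 1 := by
  have h1 : bt x d < 1 :=
    Real.rpow_lt_one_of_one_lt_of_neg (by exact_mod_cast hd) (by linarith)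
  exact Real.rpow_lt_one (bt_pos (by omega)).le h1 hk

theorem TY_eq {d : ℕ} (s κ : ℝ) (V : E d → ℝ) (c : E d) : TY s κ V c =
    ((post V c s).prod (stdGaussian (E d))).map
      (fun p => κ ^ 2 • c + (1 - κ ^ 2) • p.1 + (s * κ * √(1 - κ ^ 2)) • p.2) := rfl

/-- The facts on the law of the visible point needed in compositions. -/
theorem TY_facts {d : ℕ} {V : E d → ℝ} (hV : Admissible d V) (c : E d) {s κ : ℝ} (hs : 0 < s)
    (hs2 : s ≤ 1 / 2) (hκ : 0 ≤ κ) (hκ1 : κ ≤ 1) :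
    IsProbabilityMeasure (TY s κ V c) ∧ Integrable (fun y => ‖y‖) (TY s κ V c) ∧
      ∫ y, ‖y‖ ∂(TY s κ V c) ≤ 3 * (√(d : ℝ) + ‖c‖) := by
  have := adm_isProb_post hV c hs
  have h := adm_channel_moment hV c hs hs2 hκ hκ1
  refine ⟨?_, h.1, h.2⟩
  exact Measure.isProbabilityMeasure_map (by fun_prop)

/-- Integrability of `y ↦ ∫ φ d(post V y t)`. -/
theorem integrable_test_post {d : ℕ} {V : E d → ℝ} (hV : Admissible d V) {t : ℝ} (ht : 0 < t)
    {φ : E d → ℝ} (hφ : LipschitzWith 1 φ) (hb : ∃ M, ∀ y, |φ y| ≤ M) (P : Measure (E d))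
    [IsProbabilityMeasure P] : Integrable (fun y => ∫ z, φ z ∂(post V y t)) P := by
  obtain ⟨M, hM⟩ := hb
  have hN := adm_nice hV
  have h1 : StronglyMeasurable fun y => ∫ z, φ z ∂((postK V hN t ht) y) :=
    StronglyMeasurable.integral_kernel (κ := postK V hN t ht) hφ.continuous.stronglyMeasurable
  refine Integrable.mono' (integrable_const M) h1.aestronglyMeasurable
    (Eventually.of_forall fun y => ?_)
  have := adm_isProb_post hV y ht
  simpa using abs_integral_test_le (μ := post V y t) (ψ := φ) hM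

/-- **Sampler step.** -/
theorem stepS {x : ℝ} (hx : 0 < x) : ∀ A g k : ℝ, 0 < A → 0 < g → 0 < k → YP x g k A →
    ∀ a : ℝ, 1 ≤ a → SP x g (a + 2 * k) A → SP x g a A := by
  intro A g k hA hg hk hY a ha hS
  obtain ⟨C₁, hC₁, h₁⟩ := hY
  obtain ⟨C₂, hC₂, h₂⟩ := hS
  refine ⟨C₁ + C₂ + C₁ * C₂ + 4 * C₂, by positivity, ?_⟩
  filter_upwards [h₁, h₂, eventually_ge_atTop 2,
    eventually_bt_le hx (show (0:ℝ) < 1 / 4 by norm_num)] with d H₁ H₂ hd hb s hs hsa
  have hd1 : 1 ≤ d := by omega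
  have hs2 := le_half_of_sq_le hx.le ha hs.le hd1 hb hsa
  have hβ : 0 < bt x d := bt_pos hd1
  have hκ0 : 0 < bt x d ^ k := bt_rpow_pos hd1 k
  have hκ1 : bt x d ^ k < 1 := bt_rpow_lt_one hx hk hd
  have hs1 : s ^ 2 ≤ bt x d := hsa.trans (by simpa using bt_rpow_anti hx.le hd1 ha)
  have hsκ : (s * bt x d ^ k) ^ 2 ≤ bt x d ^ (a + 2 * k) := by
    rw [mul_pow, Real.rpow_add hβ]
    have : (bt x d ^ k) ^ 2 = bt x d ^ (2 * k) := by
      rw [← Real.rpow_natCast (bt x d ^ k), ← Real.rpow_mul hβ.le]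
      congr 1
      push_cast
      ring
    rw [this]
    gcongr
  have hc₁ := H₁ s hs hs1
  have hc₂ := H₂ (s * bt x d ^ k) (by positivity) hsκ
  have hg0 : 0 ≤ bt x d ^ (-g) := (bt_rpow_pos hd1 _).le
  have hA0 : 0 ≤ bt x d ^ A := (bt_rpow_pos hd1 _).le
  have key := Con.visible (K := 3) (T := fun V c => post V c s) hc₁ hc₂ (by positivity)
    (fun V hV c => TY_facts hV c hs hs2 hκ0.le hκ1.le)
    (fun V hV c φ hφ hb => by
      have hp := (TY_facts hV c hs hs2 hκ0.le hκ1.le).1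
      refine ⟨integrable_test_post hV (by positivity) hφ hb _, ?_⟩
      obtain ⟨M, hM⟩ := hb
      have hp2 := adm_isProb_post hV c hs
      have hi : Integrable φ (post V c s) :=
        integrable_test measurable_id hφ hM
      exact (post_channel_integral (adm_nice hV) c hs hκ0 hκ1 hi).symm)
  refine Con.weaken key ?_ ?_ ?_ ?_
  · refine floor_mono ?_ hg0
    nlinarith [mul_pos hC₁ hC₂]
  · refine (floor_add_le _ _ _ hC₁.le hC₂.le hg0).trans (floor_mono ?_ hg0)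
    nlinarith [mul_pos hC₁ hC₂]
  · rw [← Real.toNNReal_mul hC₂.le]
    refine Real.toNNReal_le_toNNReal ?_
    nlinarith [mul_pos hC₁ hC₂]
  · rw [Real.coe_toNNReal _ hC₂.le]
    have h3 : C₂ * (C₁ * bt x d ^ A * s) ≤ C₂ * (C₁ * bt x d ^ A * 1) := by
      gcongr
      linarith
    nlinarith [mul_nonneg hC₁.le hA0, mul_nonneg hC₂.le hA0]

end Crest.Agent.R285.Rec
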