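import Crest.Agent.R285.StepYFix
import Crest.Agent.R285.BtNum
import Crest.Agent.R285.Glue2

/-!
Row 285 (S0430), module STEP Y: the asymptotic form used by the recursion.
-/

set_option autoImplicit false
set_option linter.unusedSectionVars false

open MeasureTheory ProbabilityTheory Set Filter
open Crest.OracleSampling (E Admissible)
open scoped NNReal ENNReal

noncomputable section

namespace Crest.Agent.R285.StepY

open Crest.Agent.R285 Crest.Agent.R285.YSys Crest.Agent.R285.Num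

theorem num_pow {u C₁ : ℝ} (hu : 1 ≤ u) (hC : 0 ≤ C₁) {N' M n : ℕ} (K : ℕ)
    (hN : (N' : ℝ) ≤ C₁ * u) (hM : (M : ℝ) ≤ 2 * u) :
    (((N' : ℝ) * (1 + M * (n + 1))) ^ (K + 1)) ≤ (C₁ * (2 * n + 3)) ^ (K + 1) * u ^ (2 * K + 2) := by
  have hn : (0 : ℝ) ≤ n := Nat.cast_nonneg n
  have a : (1 : ℝ) + M * (n + 1) ≤ (2 * n + 3) * u := by nlinarith
  have b : (N' : ℝ) * (1 + M * (n + 1)) ≤ C₁ * (2 * n + 3) * u ^ 2 := by
    calc (N' : ℝ) * (1 + M * (n + 1)) ≤ (C₁ * u) * ((2 * n + 3) * u) :=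
          mul_le_mul hN a (by positivity) (by positivity)
      _ = _ := by ring
  calc (((N' : ℝ) * (1 + M * (n + 1))) ^ (K + 1)) ≤ (C₁ * (2 * n + 3) * u ^ 2) ^ (K + 1) :=
        pow_le_pow_left₀ (by positivity) b _
    _ = _ := by rw [mul_pow, ← pow_mul]; congr 2

theorem num_N {u C₁ : ℝ} (hu : 1 ≤ u) (hC : 0 ≤ C₁) {N' M n : ℕ} (K : ℕ)
    (hN : (N' : ℝ) ≤ C₁ * u) (hM : (M : ℝ) ≤ 2 * u) :
    ((1 + (1 + M * (n + 1) * (N' * (1 + M * (n + 1))) ^ (K + 1)) * 4 : ℕ) : ℝ) ≤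
      (5 + 8 * (n + 1) * (C₁ * (2 * n + 3)) ^ (K + 1)) * u ^ (2 * K + 4) := by
  have hn : (0 : ℝ) ≤ n := Nat.cast_nonneg n
  have h1 := num_pow (n := n) hu hC K hN hM
  have h2 : (M : ℝ) * (n + 1) * (((N' : ℝ) * (1 + M * (n + 1))) ^ (K + 1)) ≤
      (2 * u * (n + 1)) * ((C₁ * (2 * n + 3)) ^ (K + 1) * u ^ (2 * K + 2)) :=
    mul_le_mul (mul_le_mul_of_nonneg_right hM (by positivity)) h1 (by positivity) (by positivity)
  have h3 : (2 * u * (n + 1)) * ((C₁ * (2 * n + 3)) ^ (K + 1) * u ^ (2 * K + 2)) =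
      2 * (n + 1) * (C₁ * (2 * n + 3)) ^ (K + 1) * u ^ (2 * K + 3) := by ring
  have h4 : u ^ (2 * K + 3) ≤ u ^ (2 * K + 4) := pow_le_pow_right₀ hu (by omega)
  have h5 : 1 ≤ u ^ (2 * K + 4) := one_le_pow₀ hu
  have h6 : 2 * (n + 1) * (C₁ * (2 * n + 3)) ^ (K + 1) * u ^ (2 * K + 3) ≤
      2 * (n + 1) * (C₁ * (2 * n + 3)) ^ (K + 1) * u ^ (2 * K + 4) :=
    mul_le_mul_of_nonneg_left h4 (by positivity)
  push_cast
  rw [h3] at h2
  nlinarith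

theorem num_q {u C₁ : ℝ} (hu : 1 ≤ u) (hC : 0 ≤ C₁) {N' M n : ℕ} (K : ℕ)
    (hN : (N' : ℝ) ≤ C₁ * u) (hM : (M : ℝ) ≤ 2 * u) :
    ((M * (n + 1) * (N' * (N' * (1 + M * (n + 1))) ^ (K + 1)) : ℕ) : ℝ) ≤
      (2 * (n + 1) * C₁ * (C₁ * (2 * n + 3)) ^ (K + 1)) * u ^ (2 * K + 4) := by
  have hn : (0 : ℝ) ≤ n := Nat.cast_nonneg n
  have h1 := num_pow (n := n) hu hC K hN hM
  push_cast
  calc (M : ℝ) * (n + 1) * (N' * ((N' : ℝ) * (1 + M * (n + 1))) ^ (K + 1))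
      ≤ (2 * u * (n + 1)) * ((C₁ * u) * ((C₁ * (2 * n + 3)) ^ (K + 1) * u ^ (2 * K + 2))) :=
        mul_le_mul (mul_le_mul_of_nonneg_right hM (by positivity))
          (mul_le_mul hN h1 (by positivity) (by positivity)) (by positivity) (by positivity)
    _ = _ := by ring

/-- the error terms -/
theorem num_err {b u C₁ Cn X s D' CYn cK : ℝ} {N' : ℕ} {K : ℕ} (hu : 1 ≤ u) (hC : 0 ≤ C₁)
    (hN : (N' : ℝ) ≤ C₁ * u) (hs : 0 < s) (hsb : s ^ 2 ≤ b) (hub : u ^ (K + 1) * b ≤ 1)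
    (hD : 0 ≤ D') (hsD : s ^ 2 * D' ≤ C₁ * X) (hX : 0 ≤ X) (hCY : 0 ≤ CYn) (hcK : 0 ≤ cK)
    {T3 T4 : ℝ} (h3 : T3 ≤ Cn ^ (K + 1) * X) (h4 : T4 ≤ Cn * X) :
    2 * (s ^ 2 * CYn * (N' * C₁ * (s ^ 2 * CYn * (D' * QQ 4 2 C₁.toNNReal N' ^ K)) + D' * cK)) +
      (T3 + T4) ≤
      (2 * CYn ^ 2 * C₁ ^ 3 * (32 * C₁ * (C₁ + 1)) ^ K + 2 * CYn * cK * C₁ + Cn ^ (K + 1) + Cn) * X := by
  have hL : ((C₁.toNNReal : ℝ≥0) : ℝ) = C₁ := Real.coe_toNNReal _ hC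
  have hQ : QQ 4 2 C₁.toNNReal N' ≤ 32 * C₁ * (C₁ + 1) * u := by
    unfold QQ
    rw [hL]
    push_cast
    nlinarith [mul_nonneg (by norm_num : (0 : ℝ) ≤ 32) (by linarith : 0 ≤ C₁ + 1)]
  have hQ0 : 0 ≤ QQ 4 2 C₁.toNNReal N' := by unfold QQ; positivity
  have hQK : QQ 4 2 C₁.toNNReal N' ^ K ≤ (32 * C₁ * (C₁ + 1)) ^ K * u ^ K := by
    rw [← mul_pow]; exact pow_le_pow_left₀ hQ0 hQ K
  have hb0 : 0 ≤ b := (sq_nonneg s).trans hsb
  -- first term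
  have e1 : (N' : ℝ) * QQ 4 2 C₁.toNNReal N' ^ K * s ^ 2 ≤
      C₁ * (32 * C₁ * (C₁ + 1)) ^ K := by
    calc (N' : ℝ) * QQ 4 2 C₁.toNNReal N' ^ K * s ^ 2
        ≤ (C₁ * u) * ((32 * C₁ * (C₁ + 1)) ^ K * u ^ K) * b :=
          mul_le_mul (mul_le_mul hN hQK (by positivity) (by positivity)) hsb (by positivity)
            (by positivity)
      _ = C₁ * (32 * C₁ * (C₁ + 1)) ^ K * (u ^ (K + 1) * b) := by ring
      _ ≤ C₁ * (32 * C₁ * (C₁ + 1)) ^ K * 1 :=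
          mul_le_mul_of_nonneg_left hub (by positivity)
      _ = _ := by ring
  have e2 : 2 * (s ^ 2 * CYn * (N' * C₁ * (s ^ 2 * CYn * (D' * QQ 4 2 C₁.toNNReal N' ^ K)))) ≤
      2 * CYn ^ 2 * C₁ ^ 3 * (32 * C₁ * (C₁ + 1)) ^ K * X := by
    calc 2 * (s ^ 2 * CYn * (N' * C₁ * (s ^ 2 * CYn * (D' * QQ 4 2 C₁.toNNReal N' ^ K))))
        = 2 * CYn ^ 2 * C₁ * ((N' : ℝ) * QQ 4 2 C₁.toNNReal N' ^ K * s ^ 2) * (s ^ 2 * D') := by ring
      _ ≤ 2 * CYn ^ 2 * C₁ * (C₁ * (32 * C₁ * (C₁ + 1)) ^ K) * (C₁ * X) := by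
          refine mul_le_mul (mul_le_mul_of_nonneg_left e1 (by positivity)) hsD (by positivity)
            (by positivity)
      _ = _ := by ring
  have e3 : 2 * (s ^ 2 * CYn * (D' * cK)) ≤ 2 * CYn * cK * C₁ * X := by
    calc 2 * (s ^ 2 * CYn * (D' * cK)) = 2 * CYn * cK * (s ^ 2 * D') := by ring
      _ ≤ 2 * CYn * cK * (C₁ * X) := mul_le_mul_of_nonneg_left hsD (by positivity)
      _ = _ := by ring
  have e4 : 2 * (s ^ 2 * CYn * (N' * C₁ * (s ^ 2 * CYn * (D' * QQ 4 2 C₁.toNNReal N' ^ K)) +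
      D' * cK)) = 2 * (s ^ 2 * CYn * (N' * C₁ * (s ^ 2 * CYn * (D' * QQ 4 2 C₁.toNNReal N' ^ K)))) +
      2 * (s ^ 2 * CYn * (D' * cK)) := by ring
  rw [e4]
  linarith

/-- **STEP Y** (the hypothesis `stepY` of `recursion_concrete`), from `SEMY`. -/
theorem stepY_of_SEMY (hS : SEMY) {x : ℝ} (hx : 0 < x) :
    ∀ γ A g : ℝ, 0 < γ → γ ≤ 1 / 64 → 0 < A → 0 < g →
      ∃ k₀ : ℝ, 0 < k₀ ∧ ∀ k : ℝ, 0 < k → k ≤ k₀ → ∀ A' : ℝ, A' ≤ A →
        (∀ g', 0 < g' → QP x g' (1 - γ) A') → YP x g k A' := by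
  intro γ A g hγ hγ1 hA hg
  -- number of sweeps, cost exponent, order
  set K : ℕ := ⌈A⌉₊ with hK
  have hKA : A ≤ (K : ℝ) + 1 := (Nat.le_ceil A).trans (by linarith)
  set g' : ℝ := min g 1 / (2 * K + 4) with hg'
  have hK0 : (0 : ℝ) ≤ K := Nat.cast_nonneg K
  have hmin : 0 < min g 1 := lt_min hg one_pos
  have hg'0 : 0 < g' := by positivity
  have hg'g : g' * (2 * K + 4) ≤ g := by
    rw [hg', div_mul_cancel₀ _ (by positivity)]; exact min_le_left _ _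
  have hg'1 : g' * (K + 1) ≤ 1 := by
    have : g' * (2 * K + 4) ≤ 1 := by
      rw [hg', div_mul_cancel₀ _ (by positivity)]; exact min_le_right _ _
    nlinarith
  set n : ℕ := ⌈(A + 1) / g'⌉₊ with hn
  have hnA : A + 1 ≤ g' * (n + 1) := by
    have h1 : (A + 1) / g' ≤ n := Nat.le_ceil _
    rw [div_le_iff₀ hg'0] at h1
    nlinarith
  obtain ⟨Cn, Pn, hCn, hPn, hsem⟩ := hS n
  refine ⟨min (γ / 2) (1 / Pn), lt_min (by linarith) (by positivity), ?_⟩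
  intro k hk hkk A' hA' hQ
  have hkγ : k < γ := lt_of_le_of_lt (hkk.trans (min_le_left _ _)) (by linarith)
  have hkP : k * Pn ≤ 1 := by
    have := hkk.trans (min_le_right _ _)
    rwa [le_div_iff₀ hPn] at this
  obtain ⟨C₁, hC₁, hQ1⟩ := hQ g' hg'0
  have hCYn := CY_nonneg n
  set CY' : ℝ := CY n + 1 with hCY'
  have hCY'0 : 1 ≤ CY' := by rw [hCY']; linarith
  set cK : ℝ := 2 * 2 * (2 * 4 * 2) ^ K with hcK
  -- the constants
  set CN : ℝ := 5 + 8 * (n + 1) * (C₁ * (2 * n + 3)) ^ (K + 1) with hCN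
  set Cq : ℝ := 2 * (n + 1) * C₁ * (C₁ * (2 * n + 3)) ^ (K + 1) with hCq
  set CL : ℝ := 2 * (1 + (2 * (C₁ + 1) * 2) ^ (K + 1)) with hCL
  set CE : ℝ := 2 * CY n ^ 2 * C₁ ^ 3 * (32 * C₁ * (C₁ + 1)) ^ K + 2 * CY n * cK * C₁ +
    Cn ^ (K + 1) + Cn with hCE
  have hn0 : (0 : ℝ) ≤ n := Nat.cast_nonneg n
  have hCN0 : 0 ≤ CN := by positivity
  have hCq0 : 0 ≤ Cq := by positivity
  have hCL0 : 0 ≤ CL := by positivity
  have hCE0 : 0 ≤ CE := by positivity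
  refine ⟨CN + Cq + CL + CE + 1, by positivity, ?_⟩
  filter_upwards [hQ1, BtNum.ev_pos x, BtNum.ev_le_one hx.le,
    BtNum.ev_small hx (a := 1) one_pos 4 one_pos,
    BtNum.ev_small hx (a := 1) one_pos (CY n) one_pos,
    BtNum.ev_small hx (a := 1) one_pos Cn one_pos,
    BtNum.ev_small hx hk 2 one_pos,
    BtNum.ev_small hx (a := γ - k) (by linarith) (32 * CY') one_pos,
    BtNum.ev_small hx hg'0 1 hC₁] with d hQd hb0 hb1 hb4 hbCY hbCn hbk hbγ hbg s hs hsb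
  set b : ℝ := bt x d with hb
  rw [Real.rpow_one] at hb4 hbCY hbCn
  set κ : ℝ := b ^ k with hκ
  have hκ0 : 0 < κ := Real.rpow_pos_of_pos hb0 _
  have hκ1 : κ ≤ 1 / 2 := by linarith
  set u : ℝ := b ^ (-g') with hu
  have hu1 : 1 ≤ u := Real.one_le_rpow_of_pos_of_le_one_of_nonpos hb0 hb1 (by linarith)
  have hu0 : 0 < u := by linarith
  set M : ℕ := ⌈u⌉₊ with hM
  have hMu : (M : ℝ) ≤ 2 * u := by
    have := (Nat.ceil_lt_add_one hu0.le).le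
    linarith
  have huM : u ≤ M := Nat.le_ceil u
  have hM0 : 0 < M := Nat.ceil_pos.mpr hu0
  set N' : ℕ := ⌊C₁ * b ^ (-g')⌋₊ with hN'
  have hN'u : (N' : ℝ) ≤ C₁ * u := Nat.floor_le (by positivity)
  have hug : b ^ g' * u = 1 := by
    rw [hu, ← Real.rpow_add hb0, add_neg_cancel, Real.rpow_zero]
  have hN'1 : 1 ≤ N' := by
    refine Nat.le_floor ?_
    rw [Nat.cast_one]
    have : 1 ≤ C₁ * u := by
      calc 1 = b ^ g' * u := hug.symm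
        _ ≤ C₁ * u := mul_le_mul_of_nonneg_right (by linarith) hu0.le
    exact this
  have hs2 : s ≤ 1 / 2 := by
    have : s ^ 2 ≤ (1 / 2) ^ 2 := by linarith
    exact le_of_sq_le_sq this (by norm_num)
  set σ : ℝ := κ / (16 * CY' * s) with hσ
  have hσ0 : 0 < σ := by positivity
  have hmar : s ^ 2 * CY n * σ ≤ s * κ / 16 := by
    have e : s ^ 2 * CY' * σ = s * κ / 16 := by rw [hσ]; field_simp
    rw [← e]
    exact mul_le_mul_of_nonneg_right (mul_le_mul_of_nonneg_left (by linarith) (sq_nonneg s)) hσ0.le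
  have hsσ : 2 * s ≤ σ * b ^ (1 - γ) := by
    have e1 : b * b ^ (γ - k) * (κ * b ^ (1 - γ)) = b * (κ * b ^ (1 - k)) := by
      have : b ^ (γ - k) * b ^ (1 - γ) = b ^ (1 - k) := by
        rw [← Real.rpow_add hb0]; congr 1; ring
      calc b * b ^ (γ - k) * (κ * b ^ (1 - γ)) = b * (κ * (b ^ (γ - k) * b ^ (1 - γ))) := by ring
        _ = _ := by rw [this]
    have e2 : κ * b ^ (1 - γ) = b * b ^ (k - γ) := by
      rw [hκ, ← Real.rpow_add hb0]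
      have : b * b ^ (k - γ) = b ^ (1 : ℝ) * b ^ (k - γ) := by rw [Real.rpow_one]
      rw [this, ← Real.rpow_add hb0]; congr 1; ring
    have e3 : b ^ (γ - k) * b ^ (k - γ) = 1 := by
      rw [← Real.rpow_add hb0]; simp
    have e4 : 32 * CY' ≤ b ^ (k - γ) := by
      have h1 : 0 < b ^ (k - γ) := Real.rpow_pos_of_pos hb0 _
      calc 32 * CY' = 32 * CY' * b ^ (γ - k) * b ^ (k - γ) := by rw [mul_assoc, e3, mul_one]
        _ ≤ 1 * b ^ (k - γ) := mul_le_mul_of_nonneg_right hbγ h1.le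
        _ = _ := one_mul _
    rw [hσ, div_mul_eq_mul_div, le_div_iff₀ (by positivity), e2]
    calc 2 * s * (16 * CY' * s) = s ^ 2 * (32 * CY') := by ring
      _ ≤ b * b ^ (k - γ) := mul_le_mul hsb e4 (by positivity) hb0.le
  have hD'0 : 0 ≤ C₁ * b ^ A' * σ := by positivity
  -- the contract in this dimension
  have hfix := fixed (d := d) (n := n) (M := M) (s := s) (κ := κ) (Cn := Cn) (Pn := Pn)
    (N' := N') (q' := N') (L' := C₁.toNNReal) (D' := C₁ * b ^ A' * σ) (σ := σ) K hM0 hs hs2 hκ0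
    hκ1 (by nlinarith) hσ0.le hmar hN'1 hD'0 (by nlinarith)
    (fun V hV c => hsem d V hV s κ hs (by linarith) (by nlinarith) hκ0 hκ1 c M hM0 K) hCn
    (fun r hr hrs => hQd r σ hr hσ0 ((pow_le_pow_left₀ hr.le hrs 2).trans hsb)
      ((mul_le_mul_of_nonneg_left hrs zero_le_two).trans hsσ))
  -- powers of u
  have hupow : u ^ (2 * K + 4) ≤ b ^ (-g) := by
    rw [hu, ← Real.rpow_natCast, ← Real.rpow_mul hb0.le]
    refine BtNum.rpow_anti hb0 hb1 ?_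
    push_cast
    linarith
  have hub : u ^ (K + 1) * b ≤ 1 := by
    have e : u ^ (K + 1) * b = b ^ (1 - g' * (K + 1)) := by
      rw [hu, ← Real.rpow_natCast, ← Real.rpow_mul hb0.le]
      have : b ^ (-g' * ((K + 1 : ℕ) : ℝ)) * b = b ^ (-g' * ((K + 1 : ℕ) : ℝ)) * b ^ (1 : ℝ) := by
        rw [Real.rpow_one]
      rw [this, ← Real.rpow_add hb0]; congr 1; push_cast; ring
    rw [e]
    exact Real.rpow_le_one hb0.le hb1 (by linarith)
  have hbg0 : 0 ≤ b ^ (-g) := Real.rpow_nonneg hb0.le _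
  have hbA : b ^ A ≤ b ^ A' := BtNum.rpow_anti hb0 hb1 hA'
  have hbA0 : 0 < b ^ A' := Real.rpow_pos_of_pos hb0 _
  refine Rec.Con.weaken hfix ?_ ?_ ?_ ?_
  · refine Nat.le_floor ?_
    refine (num_N (n := n) hu1 hC₁.le K hN'u hMu).trans ?_
    calc CN * u ^ (2 * K + 4) ≤ CN * b ^ (-g) := mul_le_mul_of_nonneg_left hupow hCN0
      _ ≤ (CN + Cq + CL + CE + 1) * b ^ (-g) := mul_le_mul_of_nonneg_right (by linarith) hbg0
  · refine Nat.le_floor ?_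
    refine (num_q (n := n) hu1 hC₁.le K hN'u hMu).trans ?_
    calc Cq * u ^ (2 * K + 4) ≤ Cq * b ^ (-g) := mul_le_mul_of_nonneg_left hupow hCq0
      _ ≤ (CN + Cq + CL + CE + 1) * b ^ (-g) := mul_le_mul_of_nonneg_right (by linarith) hbg0
  · rw [← NNReal.coe_le_coe, Real.coe_toNNReal _ (by positivity)]
    push_cast
    rw [Real.coe_toNNReal _ hC₁.le]
    linarith
  · have hX : 0 ≤ b ^ A' * s := by positivity
    have hL : ((C₁.toNNReal : ℝ≥0) : ℝ) = C₁ := Real.coe_toNNReal _ hC₁.le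
    have hsD : s ^ 2 * (C₁ * b ^ A' * σ) ≤ C₁ * (b ^ A' * s) := by
      have e : s ^ 2 * (C₁ * b ^ A' * σ) = (C₁ * (b ^ A' * s)) * (κ / (16 * CY')) := by
        rw [hσ]; field_simp
      rw [e]
      refine mul_le_of_le_one_right (by positivity) ?_
      rw [div_le_one (by positivity)]
      linarith
    have h3 : s * (Cn * s ^ 2) ^ (K + 1) ≤ Cn ^ (K + 1) * (b ^ A' * s) := by
      have e1 : (s ^ 2) ^ (K + 1) ≤ b ^ A' := by
        calc (s ^ 2) ^ (K + 1) ≤ b ^ (K + 1) := pow_le_pow_left₀ (sq_nonneg s) hsb _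
          _ = b ^ (((K + 1 : ℕ) : ℝ)) := (Real.rpow_natCast _ _).symm
          _ ≤ b ^ A := BtNum.rpow_anti hb0 hb1 (by push_cast; exact hKA)
          _ ≤ b ^ A' := hbA
      calc s * (Cn * s ^ 2) ^ (K + 1) = Cn ^ (K + 1) * ((s ^ 2) ^ (K + 1) * s) := by
            rw [mul_pow]; ring
        _ ≤ Cn ^ (K + 1) * (b ^ A' * s) :=
            mul_le_mul_of_nonneg_left (mul_le_mul_of_nonneg_right e1 hs.le) (by positivity)
    have h4 : s * Cn * (κ ^ Pn)⁻¹ * (M : ℝ)⁻¹ ^ (n + 1) ≤ Cn * (b ^ A' * s) := by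
      have e1 : (M : ℝ)⁻¹ ^ (n + 1) ≤ b ^ (g' * (n + 1)) := by
        have h5 : (M : ℝ)⁻¹ ≤ b ^ g' := by
          have : (M : ℝ)⁻¹ ≤ u⁻¹ := inv_anti₀ hu0 huM
          refine this.trans (le_of_eq ?_)
          rw [hu, Real.rpow_neg hb0.le, inv_inv]
        calc (M : ℝ)⁻¹ ^ (n + 1) ≤ (b ^ g') ^ (n + 1) :=
              pow_le_pow_left₀ (by positivity) h5 _
          _ = b ^ (g' * (n + 1)) := by
              rw [← Real.rpow_natCast, ← Real.rpow_mul hb0.le]; push_cast; rfl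
      have e2 : (κ ^ Pn)⁻¹ = b ^ (-(k * Pn)) := by
        rw [hκ, ← Real.rpow_mul hb0.le, Real.rpow_neg hb0.le]
      have e3 : (κ ^ Pn)⁻¹ * (M : ℝ)⁻¹ ^ (n + 1) ≤ b ^ A' := by
        calc (κ ^ Pn)⁻¹ * (M : ℝ)⁻¹ ^ (n + 1) ≤ b ^ (-(k * Pn)) * b ^ (g' * (n + 1)) := by
              rw [e2]; exact mul_le_mul_of_nonneg_left e1 (Real.rpow_nonneg hb0.le _)
          _ = b ^ (g' * (n + 1) - k * Pn) := by rw [← Real.rpow_add hb0]; congr 1; ring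
          _ ≤ b ^ A := BtNum.rpow_anti hb0 hb1 (by linarith)
          _ ≤ b ^ A' := hbA
      calc s * Cn * (κ ^ Pn)⁻¹ * (M : ℝ)⁻¹ ^ (n + 1)
          = Cn * (((κ ^ Pn)⁻¹ * (M : ℝ)⁻¹ ^ (n + 1)) * s) := by ring
        _ ≤ Cn * (b ^ A' * s) :=
            mul_le_mul_of_nonneg_left (mul_le_mul_of_nonneg_right e3 hs.le) hCn.le
    rw [hL]
    refine (num_err (b := b) (u := u) (C₁ := C₁) (Cn := Cn) (X := b ^ A' * s) hu1 hC₁.le hN'u hs
      hsb hub hD'0 hsD hX hCYn (by positivity : 0 ≤ cK) h3 h4).trans ?_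
    have : CE * (b ^ A' * s) ≤ (CN + Cq + CL + CE + 1) * (b ^ A' * s) :=
      mul_le_mul_of_nonneg_right (by linarith) hX
    refine this.trans (le_of_eq (by ring))

end Crest.Agent.R285.StepY
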