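import Crest.Agent.R285.Final
import Crest.Agent.R285.StepS
import Crest.Agent.R285.StepY
import Crest.Agent.R285.SM1Y
import Crest.Agent.R285.AFAll

/-!
Row 285 (S0430): the final chain, with the remaining inputs as hypotheses.

* `StepQ x`                            (the noisy-gradient step; 204/317/518/214/41/...).

`S0430_of_StepQ` is the statement of S0430 from it.  (`AF`, `SM1Y`, `SEMY`, `StepY`, `StepS`, the base
steps and `TOP` are closed.)
-/

set_option autoImplicit false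

open MeasureTheory ProbabilityTheory Filter Topology
open Crest.OracleSampling (E Admissible)
open scoped NNReal

noncomputable section

namespace Crest.Agent.R285.Plug

open Crest.Agent.R285

/-- The last hypothesis of `recursion_concrete`, verbatim. -/
def StepQ (x : ℝ) : Prop :=
  ∀ ψ γ A g : ℝ, 0 < ψ → ψ ≤ 1 / 4 → 0 < γ → γ ≤ ψ / 16 → 0 < A → 0 < g →
    ∃ k₀ : ℝ, 0 < k₀ ∧ ∀ k : ℝ, 0 < k → k ≤ k₀ → ∀ e : ℝ, 1 / 4 ≤ e → e < A →
      (∀ g', 0 < g' → QP x g' ((1 + ψ) * e - γ) A) →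
      (∀ g', 0 < g' → QP x g' (min ((1 - ψ) * e) 1 - γ) (A - (1 + ψ) * e + γ)) →
      YP x g (2 * k) (A - e + γ) →
      QP x g (e + k) A → QP x g e A

/-- All posterior samplers from `SEM_Y` and the `Q`-step. -/
theorem SP_of_SEMY_StepQ (hY : SEMY) {x : ℝ} (hx : 0 < x) (hQ : StepQ x) :
    ∀ A g : ℝ, 0 < g → SP x g 1 A :=
  recursion_concrete (Rec.baseQ hx) (Rec.baseS hx) (StepY.stepY_of_SEMY hY hx) (Rec.stepS hx) hQ

/-- The statement of S0430 from `SEM_Y` and the `Q`-step. -/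
theorem S0430_of_SEMY_StepQ (hY : SEMY) (hQ : ∀ x : ℝ, 0 < x → StepQ x) :
    ∀ ε : ℝ, 0 < ε → ∃ C : ℝ, ∀ d : ℕ, 2 ≤ d →
      ∃ (q : ℕ) (A : Crest.OracleSampling.QueryAlg d q), (q : ℝ) ≤ C * (d : ℝ) ^ ε ∧
        ∀ V : Crest.OracleSampling.E d → ℝ, Crest.OracleSampling.Admissible d V →
          Crest.OracleSampling.Succeeds A V :=
  Link.S0430_of_SP fun x hx => SP_of_SEMY_StepQ hY hx (hQ x hx)

/-- The statement of S0430 from the `Q`-step. -/
theorem S0430_of_StepQ (hQ : ∀ x : ℝ, 0 < x → StepQ x) :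
    ∀ ε : ℝ, 0 < ε → ∃ C : ℝ, ∀ d : ℕ, 2 ≤ d →
      ∃ (q : ℕ) (A : Crest.OracleSampling.QueryAlg d q), (q : ℝ) ≤ C * (d : ℝ) ^ ε ∧
        ∀ V : Crest.OracleSampling.E d → ℝ, Crest.OracleSampling.Admissible d V →
          Crest.OracleSampling.Succeeds A V :=
  S0430_of_SEMY_StepQ (SM.semY AF.AFall_afc) hQ

end Crest.Agent.R285.Plug
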