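import Crest.Agent.R285.BtNum

/-!
Row 285 (S0430), STEP Q: the choice of the numbers and all inequalities (pure real numbers).

`b = β ∈ (0, 1]`; `1/4 ≤ e < A`, `0 < ψ ≤ 1/4`, `0 < γ ≤ ψ/16`, `0 < δ ≤ γ/8`, `0 < k ≤ γ/16`;
`κ = b^(2k)`, `t₀ = b^δ`, `a₀ = b^(-ψ e)`, `σb = r = σ/√2`, `m = min ((1-ψ)e) 1`;
`σin = κ/(16 cN (s + a₀/(σb κ)))`, `bo = (cO+1)/(a₀ t₀ κ)`, `σo = r/bo`.
-/

set_option autoImplicit false

open Filter Topology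

noncomputable section

namespace Crest.Agent.R285.QNum

open Crest.Agent.R285.BtNum

/-- admissible exponents -/
structure Ex (ψ γ A e δ k : ℝ) : Prop where
  ψ0 : 0 < ψ
  ψ1 : ψ ≤ 1 / 4
  γ0 : 0 < γ
  γ1 : γ ≤ ψ / 16
  e0 : 1 / 4 ≤ e
  e1 : e < A
  δ0 : 0 < δ
  δ1 : δ ≤ γ / 8
  k0 : 0 < k
  k1 : k ≤ γ / 16

/-- the numbers `s, σ` -/
structure Sc (b e s σ : ℝ) : Prop where
  b0 : 0 < b
  b1 : b ≤ 1
  s0 : 0 < s
  σ0 : 0 < σ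
  sb : s ^ 2 ≤ b
  sσ : 2 * s ≤ σ * b ^ e

variable {ψ γ A e δ k b s σ : ℝ}

theorem anti (hb0 : 0 < b) (hb1 : b ≤ 1) {u v : ℝ} (h : v ≤ u) : b ^ u ≤ b ^ v :=
  Real.rpow_le_rpow_of_exponent_ge hb0 hb1 h

theorem pos (hb0 : 0 < b) (u : ℝ) : 0 < b ^ u := Real.rpow_pos_of_pos hb0 u

theorem le_one (hb0 : 0 < b) (hb1 : b ≤ 1) {u : ℝ} (h : 0 ≤ u) : b ^ u ≤ 1 :=
  Real.rpow_le_one hb0.le hb1 h

namespace Sc

variable (h : Sc b e s σ)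
include h

theorem s1 : s ≤ 1 := by
  have h1 := h.sb
  have h2 := h.b1
  have h3 := h.s0
  nlinarith

theorem σb0 : 0 < σ / √2 := div_pos h.σ0 (by positivity)

theorem sσb : s / (σ / √2) ≤ b ^ e := by
  have h1 := h.sσ
  have h2 := h.σb0
  have h3 : 0 < b ^ e := pos h.b0 e
  have h4 : √2 ≤ 2 := by
    rw [Real.sqrt_le_left (by norm_num)]; norm_num
  have h5 : 0 < √2 := by positivity
  rw [div_le_iff₀ h2, ← mul_div_assoc, le_div_iff₀ h5]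
  calc s * √2 ≤ s * 2 := mul_le_mul_of_nonneg_left h4 h.s0.le
    _ ≤ b ^ e * σ := by linarith

end Sc

/-- `m - 2k ≥ 1/8` -/
theorem Ex.m_ge (h : Ex ψ γ A e δ k) : 1 / 8 ≤ min ((1 - ψ) * e) 1 - 2 * k := by
  have h1 := h.ψ0
  have h2 := h.ψ1
  have h3 := h.γ1
  have h4 := h.e0
  have h5 := h.k1
  have h6 : 3 / 16 ≤ (1 - ψ) * e := by nlinarith
  have h7 : 3 / 16 ≤ min ((1 - ψ) * e) 1 := le_min h6 (by norm_num)
  linarith

/-- `a₀ s/(σb κ) ≤ b^((1-ψ)e - 2k)` -/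
theorem a0s_le (h : Sc b e s σ) (ψ k : ℝ) :
    b ^ (-(ψ * e)) * s / (σ / √2 * b ^ (2 * k)) ≤ b ^ ((1 - ψ) * e - 2 * k) := by
  have h0 := h.b0
  have h1 := h.sσb
  have h2 := h.σb0
  have h3 : 0 < b ^ (2 * k) := pos h0 _
  have h4 : 0 < b ^ (-(ψ * e)) := pos h0 _
  have e1 : b ^ ((1 - ψ) * e - 2 * k) = b ^ (-(ψ * e)) * b ^ e * (b ^ (2 * k))⁻¹ := by
    rw [← Real.rpow_neg h0.le, ← Real.rpow_add h0, ← Real.rpow_add h0]; congr 1; ring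
  rw [e1]
  calc b ^ (-(ψ * e)) * s / (σ / √2 * b ^ (2 * k))
      = b ^ (-(ψ * e)) * (s / (σ / √2)) * (b ^ (2 * k))⁻¹ := by
        field_simp
    _ ≤ b ^ (-(ψ * e)) * b ^ e * (b ^ (2 * k))⁻¹ := by gcongr

/-- `s² + a₀ s/(σb κ) ≤ 2 b^(m - 2k)` -/
theorem eta_le (h : Sc b e s σ) (hk : 0 ≤ k) :
    s ^ 2 + b ^ (-(ψ * e)) * s / (σ / √2 * b ^ (2 * k))
      ≤ 2 * b ^ (min ((1 - ψ) * e) 1 - 2 * k) := by
  have h1 := a0s_le h ψ k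
  have h2 : b ^ ((1 - ψ) * e - 2 * k) ≤ b ^ (min ((1 - ψ) * e) 1 - 2 * k) :=
    anti h.b0 h.b1 (by linarith [min_le_left ((1 - ψ) * e) 1])
  have h3 : s ^ 2 ≤ b ^ (min ((1 - ψ) * e) 1 - 2 * k) := by
    refine h.sb.trans ?_
    calc b = b ^ (1 : ℝ) := (Real.rpow_one b).symm
      _ ≤ _ := anti h.b0 h.b1 (by linarith [min_le_right ((1 - ψ) * e) 1])
  linarith

theorem eta_pos (h : Sc b e s σ) :
    0 < s ^ 2 + b ^ (-(ψ * e)) * s / (σ / √2 * b ^ (2 * k)) := by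
  have := h.b0
  have := h.s0
  have := h.σb0
  have : 0 < b ^ (2 * k) := pos h.b0 _
  have : 0 < b ^ (-(ψ * e)) := pos h.b0 _
  positivity

/-- `C (s² + a₀ s/(σb κ)) ≤ 1` if `2 C b^(1/8) ≤ 1`. -/
theorem eta_small (hE : Ex ψ γ A e δ k) (h : Sc b e s σ) {C : ℝ} (hC : 0 ≤ C)
    (hb : 2 * C * b ^ (1 / 8 : ℝ) ≤ 1) :
    C * (s ^ 2 + b ^ (-(ψ * e)) * s / (σ / √2 * b ^ (2 * k))) ≤ 1 := by
  have h1 := eta_le (ψ := ψ) h hE.k0.le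
  have h2 : b ^ (min ((1 - ψ) * e) 1 - 2 * k) ≤ b ^ (1 / 8 : ℝ) := anti h.b0 h.b1 hE.m_ge
  calc C * _ ≤ C * (2 * b ^ (1 / 8 : ℝ)) := mul_le_mul_of_nonneg_left (by linarith) hC
    _ = 2 * C * b ^ (1 / 8 : ℝ) := by ring
    _ ≤ 1 := hb

/-! ### the inner calls -/

/-- output noise of the inner calls -/
def sin (cN b ψ e k s σ : ℝ) : ℝ :=
  b ^ (2 * k) / (16 * (cN * (s + b ^ (-(ψ * e)) / (σ / √2 * b ^ (2 * k)))))

theorem sden_pos (h : Sc b e s σ) : 0 < s + b ^ (-(ψ * e)) / (σ / √2 * b ^ (2 * k)) := by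
  have := h.b0
  have := h.s0
  have := h.σb0
  have : 0 < b ^ (2 * k) := pos h.b0 _
  have : 0 < b ^ (-(ψ * e)) := pos h.b0 _
  positivity

theorem sin_pos (h : Sc b e s σ) {cN : ℝ} (hc : 0 < cN) : 0 < sin cN b ψ e k s σ := by
  have h1 := sden_pos (ψ := ψ) (k := k) h
  have : 0 < b ^ (2 * k) := pos h.b0 _
  unfold sin
  positivity

/-- the mask inequality -/
theorem sin_mask (h : Sc b e s σ) {cN : ℝ} (hc : 0 < cN) :
    sin cN b ψ e k s σ * (cN * (s + b ^ (-(ψ * e)) / (σ / √2 * b ^ (2 * k))))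
      ≤ b ^ (2 * k) / 16 := by
  have h1 := sden_pos (ψ := ψ) (k := k) h
  refine le_of_eq ?_
  unfold sin
  generalize s + b ^ (-(ψ * e)) / (σ / √2 * b ^ (2 * k)) = D at h1 ⊢
  field_simp

/-- `cN (s² + a₀ s/(σb κ)) σin = s κ/16` -/
theorem eta_sin (h : Sc b e s σ) {cN : ℝ} (hc : 0 < cN) :
    cN * (s ^ 2 + b ^ (-(ψ * e)) * s / (σ / √2 * b ^ (2 * k))) * sin cN b ψ e k s σ
      = s * b ^ (2 * k) / 16 := by
  have h1 := sden_pos (ψ := ψ) (k := k) h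
  have h2 : cN * (s ^ 2 + b ^ (-(ψ * e)) * s / (σ / √2 * b ^ (2 * k)))
      = s * (cN * (s + b ^ (-(ψ * e)) / (σ / √2 * b ^ (2 * k)))) := by ring
  rw [h2]
  unfold sin
  generalize s + b ^ (-(ψ * e)) / (σ / √2 * b ^ (2 * k)) = D at h1 ⊢
  field_simp

/-- the inner calls are admissible for `QP x g' (m - γ) _` -/
theorem inner_ok (hE : Ex ψ γ A e δ k) (h : Sc b e s σ) {cN : ℝ} (hc : 0 < cN)
    (hb : 64 * cN * b ^ (γ / 2) ≤ 1) :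
    2 * s ≤ sin cN b ψ e k s σ * b ^ (min ((1 - ψ) * e) 1 - γ) := by
  have h0 := h.b0
  have h1 := sden_pos (ψ := ψ) (k := k) h
  have h2 := eta_le (ψ := ψ) h hE.k0.le
  have hk := hE.k1
  set D := s + b ^ (-(ψ * e)) / (σ / √2 * b ^ (2 * k)) with hD
  have h3 : s * D ≤ 2 * b ^ (min ((1 - ψ) * e) 1 - 2 * k) := by
    refine le_trans (le_of_eq ?_) h2
    rw [hD]; ring
  have e1 : b ^ (min ((1 - ψ) * e) 1 - 2 * k)
      = b ^ (γ - 4 * k) * (b ^ (2 * k) * b ^ (min ((1 - ψ) * e) 1 - γ)) := by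
    rw [← Real.rpow_add h0, ← Real.rpow_add h0]; congr 1; ring
  have e2 : b ^ (γ - 4 * k) ≤ b ^ (γ / 2) := anti h0 h.b1 (by linarith [hE.γ0])
  have hX : 0 < b ^ (2 * k) * b ^ (min ((1 - ψ) * e) 1 - γ) := mul_pos (pos h0 _) (pos h0 _)
  unfold sin
  rw [← hD, div_mul_eq_mul_div, le_div_iff₀ (by positivity)]
  calc 2 * s * (16 * (cN * D)) = 32 * cN * (s * D) := by ring
    _ ≤ 32 * cN * (2 * b ^ (min ((1 - ψ) * e) 1 - 2 * k)) := by gcongr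
    _ = (64 * cN * b ^ (γ - 4 * k)) * (b ^ (2 * k) * b ^ (min ((1 - ψ) * e) 1 - γ)) := by
        rw [e1]; ring
    _ ≤ (64 * cN * b ^ (γ / 2)) * (b ^ (2 * k) * b ^ (min ((1 - ψ) * e) 1 - γ)) := by gcongr
    _ ≤ 1 * (b ^ (2 * k) * b ^ (min ((1 - ψ) * e) 1 - γ)) :=
        mul_le_mul_of_nonneg_right hb hX.le
    _ = _ := one_mul _

/-! ### the outer calls -/

/-- bound of the call coefficients of the output -/
def bo (cO b ψ e δ k : ℝ) : ℝ := (cO + 1) / (b ^ (-(ψ * e)) * b ^ δ * b ^ (2 * k))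

/-- output noise of the outer calls -/
def so (cO b ψ e δ k σ : ℝ) : ℝ := (σ / √2) / bo cO b ψ e δ k

theorem bo_pos (hb : 0 < b) {cO : ℝ} (hc : 0 ≤ cO) : 0 < bo cO b ψ e δ k := by
  have := pos hb (-(ψ * e))
  have := pos hb δ
  have := pos hb (2 * k)
  unfold bo
  positivity

theorem bo_eq (hb : 0 < b) (cO : ℝ) : bo cO b ψ e δ k = (cO + 1) * b ^ (ψ * e - δ - 2 * k) := by
  unfold bo
  rw [← Real.rpow_add hb, ← Real.rpow_add hb, div_eq_mul_inv, ← Real.rpow_neg hb.le]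
  congr 2
  ring

theorem cO_le_bo (hb : 0 < b) {cO : ℝ} :
    cO / (b ^ (-(ψ * e)) * b ^ δ * b ^ (2 * k)) ≤ bo cO b ψ e δ k := by
  have := pos hb (-(ψ * e))
  have := pos hb δ
  have := pos hb (2 * k)
  unfold bo
  gcongr
  linarith

theorem so_pos (h : Sc b e s σ) {cO : ℝ} (hc : 0 ≤ cO) : 0 < so cO b ψ e δ k σ := by
  have := bo_pos (ψ := ψ) (e := e) (δ := δ) (k := k) h.b0 hc
  have := h.σb0
  unfold so
  positivity

theorem bo_so (h : Sc b e s σ) {cO : ℝ} (hc : 0 ≤ cO) :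
    bo cO b ψ e δ k * so cO b ψ e δ k σ = σ / √2 := by
  have := bo_pos (ψ := ψ) (e := e) (δ := δ) (k := k) h.b0 hc
  unfold so
  field_simp

theorem so_mask (h : Sc b e s σ) {cO : ℝ} (hc : 0 ≤ cO) :
    cO / (b ^ (-(ψ * e)) * b ^ δ * b ^ (2 * k)) * so cO b ψ e δ k σ ≤ σ / √2 := by
  rw [← bo_so (ψ := ψ) (δ := δ) (k := k) h hc]
  exact mul_le_mul_of_nonneg_right (cO_le_bo h.b0) (so_pos h hc).le

theorem Ex.gap (h : Ex ψ γ A e δ k) : γ / 2 ≤ ψ * e - δ - 2 * k := by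
  have h1 := h.ψ0
  have h3 := h.γ1
  have h4 := h.e0
  have h5 := h.k1
  have h6 := h.δ1
  have h7 := h.γ0
  have h8 : ψ / 4 ≤ ψ * e := by nlinarith
  linarith

theorem bo_le_one (hE : Ex ψ γ A e δ k) (hb0 : 0 < b) (hb1 : b ≤ 1) {cO : ℝ} (hc : 0 ≤ cO)
    (hb : (cO + 1) * b ^ (γ / 2) ≤ 1) : bo cO b ψ e δ k ≤ 1 := by
  rw [bo_eq hb0]
  refine le_trans ?_ hb
  gcongr ?_ * ?_
  exact anti hb0 hb1 hE.gap

/-- the outer calls are admissible for `QP x g' ((1+ψ)e - γ) A` -/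
theorem outer_ok (hE : Ex ψ γ A e δ k) (h : Sc b e s σ) {cO : ℝ} (hc : 0 ≤ cO)
    (hb : 2 * (cO + 1) * b ^ (γ / 2) ≤ 1) :
    2 * s ≤ so cO b ψ e δ k σ * b ^ ((1 + ψ) * e - γ) := by
  have h0 := h.b0
  have hk := hE.k1
  have hd := hE.δ1
  have h5 : 0 < √2 := by positivity
  have h4 : √2 ≤ 2 := by
    rw [Real.sqrt_le_left (by norm_num)]; norm_num
  refine h.sσ.trans ?_
  unfold so
  rw [bo_eq h0, div_mul_eq_mul_div, le_div_iff₀ (mul_pos (by linarith) (pos h0 _)),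
    div_mul_eq_mul_div, le_div_iff₀ h5]
  have e1 : b ^ e * b ^ (ψ * e - δ - 2 * k) = b ^ (γ - δ - 2 * k) * b ^ ((1 + ψ) * e - γ) := by
    rw [← Real.rpow_add h0, ← Real.rpow_add h0]; congr 1; ring
  have e2 : b ^ (γ - δ - 2 * k) ≤ b ^ (γ / 2) := anti h0 h.b1 (by linarith [hE.γ0])
  have hX : 0 < b ^ ((1 + ψ) * e - γ) := pos h0 _
  calc σ * b ^ e * ((cO + 1) * b ^ (ψ * e - δ - 2 * k)) * √2
      = σ * ((√2 * (cO + 1)) * (b ^ e * b ^ (ψ * e - δ - 2 * k))) := by ring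
    _ = σ * ((√2 * (cO + 1)) * b ^ (γ - δ - 2 * k) * b ^ ((1 + ψ) * e - γ)) := by
        rw [e1]; ring
    _ ≤ σ * ((2 * (cO + 1)) * b ^ (γ / 2) * b ^ ((1 + ψ) * e - γ)) := by
        have := h.σ0
        gcongr
    _ ≤ σ * (1 * b ^ ((1 + ψ) * e - γ)) := by
        have := h.σ0
        gcongr
    _ = _ := by ring

/-! ### the call of `X₁` -/

theorem x1_ok (h : Sc b e s σ) (hb : 2 * b ^ k ≤ 1) :
    2 * (s * b ^ (2 * k)) ≤ σ / √2 * b ^ (e + k) := by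
  have h0 := h.b0
  have h5 : 0 < √2 := by positivity
  have h4 : √2 ≤ 2 := by
    rw [Real.sqrt_le_left (by norm_num)]; norm_num
  rw [div_mul_eq_mul_div, le_div_iff₀ h5]
  have e1 : b ^ e * b ^ (2 * k) = b ^ k * b ^ (e + k) := by
    rw [← Real.rpow_add h0, ← Real.rpow_add h0]; congr 1; ring
  have hX : 0 < b ^ (e + k) := pos h0 _
  calc 2 * (s * b ^ (2 * k)) * √2 = (2 * s) * b ^ (2 * k) * √2 := by ring
    _ ≤ (σ * b ^ e) * b ^ (2 * k) * 2 := by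
        have := h.sσ
        have := pos h0 (2 * k)
        have := mul_pos h.σ0 (pos h0 e)
        gcongr
    _ = σ * ((2 * b ^ k) * b ^ (e + k)) := by
        calc (σ * b ^ e) * b ^ (2 * k) * 2 = σ * (2 * (b ^ e * b ^ (2 * k))) := by ring
          _ = _ := by rw [e1]; ring
    _ ≤ σ * (1 * b ^ (e + k)) := by
        have := h.σ0
        gcongr
    _ = _ := by ring

/-! ### the errors -/

/-- **Inner error.** `N' QQ^K ≤ C b^(-(K+1) δ)` is `hN`. -/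
theorem inner_err (h : Sc b e s σ) {cN cO C₁ L N QK CN : ℝ} {K : ℕ}
    (hcN : 0 < cN) (hcO : 0 ≤ cO) (hC₁ : 0 ≤ C₁) (hL : 0 ≤ L) (hN0 : 0 ≤ N) (hQ0 : 0 ≤ QK)
    (hCN : 0 ≤ CN) (hN : N * QK ≤ CN * b ^ (-((K + 1) * δ)))
    (hδ : (K + 2) * δ ≤ γ) :
    bo cO b ψ e δ k * (N * L * (cN * (s ^ 2 + b ^ (-(ψ * e)) * s / (σ / √2 * b ^ (2 * k)))
      * ((C₁ * b ^ (A - (1 + ψ) * e + γ) * sin cN b ψ e k s σ) * QK)))
      ≤ ((cO + 1) * L * C₁ * CN) * b ^ A * σ := by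
  have h0 := h.b0
  have hbo := bo_pos (ψ := ψ) (e := e) (δ := δ) (k := k) h0 hcO
  have e0 := eta_sin (ψ := ψ) (k := k) h hcN
  have hX : 0 < b ^ (A - (1 + ψ) * e + γ) := pos h0 _
  have hσ := h.σ0
  have hs := h.s0
  have e1 : bo cO b ψ e δ k * (N * L * (cN * (s ^ 2 + b ^ (-(ψ * e)) * s /
      (σ / √2 * b ^ (2 * k))) * ((C₁ * b ^ (A - (1 + ψ) * e + γ) * sin cN b ψ e k s σ) * QK)))
      = bo cO b ψ e δ k * L * C₁ * b ^ (A - (1 + ψ) * e + γ) * (s * b ^ (2 * k) / 16)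
        * (N * QK) := by
    rw [← e0]; ring
  rw [e1]
  have hsσ : s ≤ σ * b ^ e := by have := h.sσ; linarith
  have hk2 : 0 < b ^ (2 * k) := pos h0 _
  have h16 : s * b ^ (2 * k) / 16 ≤ σ * b ^ e * b ^ (2 * k) := by
    have : s * b ^ (2 * k) ≤ σ * b ^ e * b ^ (2 * k) := by gcongr
    have : 0 ≤ s * b ^ (2 * k) := by positivity
    linarith
  calc bo cO b ψ e δ k * L * C₁ * b ^ (A - (1 + ψ) * e + γ) * (s * b ^ (2 * k) / 16) * (N * QK)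
      ≤ bo cO b ψ e δ k * L * C₁ * b ^ (A - (1 + ψ) * e + γ) * (σ * b ^ e * b ^ (2 * k))
        * (CN * b ^ (-((K + 1) * δ))) := by
        gcongr
    _ = ((cO + 1) * L * C₁ * CN) * (b ^ (ψ * e - δ - 2 * k) * b ^ (A - (1 + ψ) * e + γ) * b ^ e
        * b ^ (2 * k) * b ^ (-((K + 1) * δ))) * σ := by
        rw [bo_eq h0]; ring
    _ = ((cO + 1) * L * C₁ * CN) * b ^ (A + (γ - (K + 2) * δ)) * σ := by
        rw [← Real.rpow_add h0, ← Real.rpow_add h0, ← Real.rpow_add h0, ← Real.rpow_add h0]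
        congr 3
        ring
    _ ≤ ((cO + 1) * L * C₁ * CN) * b ^ A * σ := by
        gcongr ?_ * ?_ * σ
        exact anti h0 h.b1 (by linarith)

/-- **Outer error.** -/
theorem outer_err (h : Sc b e s σ) {cO C₂ W : ℝ} (hcO : 0 ≤ cO) (hC₂ : 0 ≤ C₂) (hW : 0 ≤ W) :
    bo cO b ψ e δ k * ((C₂ * b ^ A * so cO b ψ e δ k σ) * W) ≤ (C₂ * W) * b ^ A * σ := by
  have e0 := bo_so (ψ := ψ) (δ := δ) (k := k) h hcO
  have h5 : 1 ≤ √2 := by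
    rw [Real.one_le_sqrt]; norm_num
  have h1 : σ / √2 ≤ σ := div_le_self h.σ0.le h5
  calc bo cO b ψ e δ k * ((C₂ * b ^ A * so cO b ψ e δ k σ) * W)
      = (C₂ * W) * b ^ A * (bo cO b ψ e δ k * so cO b ψ e δ k σ) := by ring
    _ = (C₂ * W) * b ^ A * (σ / √2) := by rw [e0]
    _ ≤ _ := by
        have := pos h.b0 A
        gcongr

/-- **Error of `y₁`.** -/
theorem y_err (hE : Ex ψ γ A e δ k) (h : Sc b e s σ) {C : ℝ} (hC : 0 ≤ C) :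
    C * b ^ (A - e + γ) * s ≤ C * b ^ A * σ := by
  have h0 := h.b0
  have hsσ : s ≤ σ * b ^ e := by have := h.sσ; have := h.s0; linarith
  have := pos h0 (A - e + γ)
  have hσ := h.σ0
  calc C * b ^ (A - e + γ) * s ≤ C * b ^ (A - e + γ) * (σ * b ^ e) := by gcongr
    _ = C * (b ^ (A - e + γ) * b ^ e) * σ := by ring
    _ = C * b ^ (A + γ) * σ := by
        rw [← Real.rpow_add h0]; congr 3; ring
    _ ≤ C * b ^ A * σ := by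
        gcongr ?_ * ?_ * σ
        exact anti h0 h.b1 (by linarith [hE.γ0])

/-- **Semantic error.** -/
theorem sem_err (hE : Ex ψ γ A e δ k) (h : Sc b e s σ) (hδ1 : δ ≤ 1) {C M : ℝ} {K n P : ℕ}
    (hC : 0 ≤ C) (hkP : 2 * k * P ≤ 1 / 2)
    (hM0 : b ^ (-δ) ≤ M) (hM : M ≤ 2 * b ^ (-δ)) (hK : 10 * A + 16 ≤ K)
    (hn : 5 / 4 * A + 2 ≤ δ * (n + 1)) :
    σ / √2 * (C * b ^ (-(ψ * e)) * M * ((b ^ (2 * k)) ^ P)⁻¹ *
      ((C * (s ^ 2 + b ^ (-(ψ * e)) * s / (σ / √2 * b ^ (2 * k)))) ^ K + M⁻¹ ^ (n + 1) +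
        (b ^ δ) ^ (n + 1) + (b ^ (-(ψ * e)) * s / (σ / √2)) ^ (n + 1)))
      ≤ (2 * C * ((2 * C) ^ K + 3)) * b ^ A * σ := by
  have h0 := h.b0
  have hσb := h.σb0
  have hσ := h.σ0
  have hs := h.s0
  have h5 : 1 ≤ √2 := by
    rw [Real.one_le_sqrt]; norm_num
  have h1 : σ / √2 ≤ σ := div_le_self h.σ0.le h5
  have hMpos : 0 < M := (pos h0 _).trans_le hM0
  -- the prefactor
  have hpre : C * b ^ (-(ψ * e)) * M * ((b ^ (2 * k)) ^ P)⁻¹ ≤ 2 * C * b ^ (-(5 / 4 * A + 2) + A) := by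
    have e1 : ((b ^ (2 * k)) ^ P)⁻¹ = b ^ (-(2 * k * P)) := by
      rw [← Real.rpow_natCast, ← Real.rpow_mul h0.le, ← Real.rpow_neg h0.le]
    rw [e1]
    have h2 := pos h0 (-(ψ * e))
    have h3 := pos h0 (-(2 * k * P))
    calc C * b ^ (-(ψ * e)) * M * b ^ (-(2 * k * P))
        ≤ C * b ^ (-(ψ * e)) * (2 * b ^ (-δ)) * b ^ (-(2 * k * P)) := by gcongr
      _ = 2 * C * (b ^ (-(ψ * e)) * b ^ (-δ) * b ^ (-(2 * k * P))) := by ring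
      _ = 2 * C * b ^ (-(ψ * e) + -δ + -(2 * k * P)) := by
          rw [← Real.rpow_add h0, ← Real.rpow_add h0]
      _ ≤ 2 * C * b ^ (-(5 / 4 * A + 2) + A) := by
          gcongr ?_ * ?_
          refine anti h0 h.b1 ?_
          have h6 := hE.ψ1
          have h7 := hE.e1
          have h8 := hE.e0
          have h9 : ψ * e ≤ 1 / 4 * A := by
            have := hE.ψ0
            nlinarith
          linarith
  -- the four terms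
  have hη0 := eta_pos (ψ := ψ) (k := k) h
  have t1 : (C * (s ^ 2 + b ^ (-(ψ * e)) * s / (σ / √2 * b ^ (2 * k)))) ^ K
      ≤ (2 * C) ^ K * b ^ (5 / 4 * A + 2) := by
    have h2 := eta_le (ψ := ψ) h hE.k0.le
    have h3 : b ^ (min ((1 - ψ) * e) 1 - 2 * k) ≤ b ^ (1 / 8 : ℝ) := anti h0 h.b1 hE.m_ge
    have h4 : C * (s ^ 2 + b ^ (-(ψ * e)) * s / (σ / √2 * b ^ (2 * k)))
        ≤ 2 * C * b ^ (1 / 8 : ℝ) := by
      calc C * _ ≤ C * (2 * b ^ (1 / 8 : ℝ)) := mul_le_mul_of_nonneg_left (by linarith) hC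
        _ = _ := by ring
    calc _ ≤ (2 * C * b ^ (1 / 8 : ℝ)) ^ K := pow_le_pow_left₀ (by positivity) h4 K
      _ = (2 * C) ^ K * b ^ ((1 / 8 : ℝ) * K) := by
          rw [mul_pow, Real.rpow_mul h0.le, Real.rpow_natCast]
      _ ≤ (2 * C) ^ K * b ^ (5 / 4 * A + 2) := by
          gcongr ?_ * ?_
          exact anti h0 h.b1 (by linarith)
  have tn : b ^ (δ * ((n : ℝ) + 1)) ≤ b ^ (5 / 4 * A + 2) := anti h0 h.b1 hn
  have epow : ∀ u : ℝ, (b ^ u) ^ (n + 1) = b ^ (u * ((n : ℝ) + 1)) := fun u => by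
    rw [Real.rpow_mul h0.le]
    exact_mod_cast (Real.rpow_natCast (b ^ u) (n + 1)).symm
  have t2 : M⁻¹ ^ (n + 1) ≤ b ^ (5 / 4 * A + 2) := by
    refine le_trans ?_ tn
    rw [← epow]
    refine pow_le_pow_left₀ (by positivity) ?_ _
    rw [Real.rpow_neg h0.le] at hM0
    exact inv_le_of_inv_le₀ (pos h0 _) hM0
  have t3 : (b ^ δ) ^ (n + 1) ≤ b ^ (5 / 4 * A + 2) := by rw [epow]; exact tn
  have t4 : (b ^ (-(ψ * e)) * s / (σ / √2)) ^ (n + 1) ≤ b ^ (5 / 4 * A + 2) := by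
    refine le_trans ?_ tn
    rw [← epow]
    refine pow_le_pow_left₀ (by have := pos h0 (-(ψ * e)); positivity) ?_ _
    calc b ^ (-(ψ * e)) * s / (σ / √2) = b ^ (-(ψ * e)) * (s / (σ / √2)) := by ring
      _ ≤ b ^ (-(ψ * e)) * b ^ e := by
          have := pos h0 (-(ψ * e))
          have := h.sσb
          gcongr
      _ = b ^ (-(ψ * e) + e) := by rw [← Real.rpow_add h0]
      _ ≤ b ^ δ := by
          refine anti h0 h.b1 ?_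
          have h6 := hE.ψ1
          have h8 := hE.e0
          have h9 := hE.δ1
          have h10 := hE.γ1
          nlinarith
  have hsum : (C * (s ^ 2 + b ^ (-(ψ * e)) * s / (σ / √2 * b ^ (2 * k)))) ^ K + M⁻¹ ^ (n + 1) +
        (b ^ δ) ^ (n + 1) + (b ^ (-(ψ * e)) * s / (σ / √2)) ^ (n + 1)
      ≤ ((2 * C) ^ K + 3) * b ^ (5 / 4 * A + 2) := by
    have : ((2 * C) ^ K + 3) * b ^ (5 / 4 * A + 2) = (2 * C) ^ K * b ^ (5 / 4 * A + 2)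
      + b ^ (5 / 4 * A + 2) + b ^ (5 / 4 * A + 2) + b ^ (5 / 4 * A + 2) := by ring
    rw [this]
    linarith
  have hsum0 : 0 ≤ (C * (s ^ 2 + b ^ (-(ψ * e)) * s / (σ / √2 * b ^ (2 * k)))) ^ K + M⁻¹ ^ (n + 1) +
        (b ^ δ) ^ (n + 1) + (b ^ (-(ψ * e)) * s / (σ / √2)) ^ (n + 1) := by
    have := pos h0 (-(ψ * e))
    have := pos h0 δ
    positivity
  have hb' := pos h0 (-(5 / 4 * A + 2) + A)
  calc σ / √2 * (C * b ^ (-(ψ * e)) * M * ((b ^ (2 * k)) ^ P)⁻¹ * _)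
      ≤ σ * ((2 * C * b ^ (-(5 / 4 * A + 2) + A)) * (((2 * C) ^ K + 3) * b ^ (5 / 4 * A + 2))) := by
        refine mul_le_mul h1 (mul_le_mul hpre hsum hsum0 (by positivity)) ?_ hσ.le
        refine mul_nonneg ?_ hsum0
        have := pos h0 (-(ψ * e))
        have := pos h0 (2 * k)
        positivity
    _ = (2 * C * ((2 * C) ^ K + 3)) * (b ^ (-(5 / 4 * A + 2) + A) * b ^ (5 / 4 * A + 2)) * σ := by
        ring
    _ = (2 * C * ((2 * C) ^ K + 3)) * b ^ A * σ := by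
        rw [← Real.rpow_add h0]; congr 3; ring

/-! ### the counts -/

/-- growth factor of the errors: `N' (4 Λ T N' (L'+1))^K ≤ C b^(-(K+1) δ)`. -/
theorem NQ_le (hb : 0 < b) {N C₁ w : ℝ} (hN0 : 0 ≤ N) (hN : N ≤ C₁ * b ^ (-δ)) (hw : 0 ≤ w)
    (K : ℕ) :
    N * (w * N) ^ K ≤ (C₁ ^ (K + 1) * w ^ K) * b ^ (-((K + 1) * δ)) := by
  have h1 := pos hb (-δ)
  calc N * (w * N) ^ K = w ^ K * N ^ (K + 1) := by rw [mul_pow, pow_succ]; ring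
    _ ≤ w ^ K * (C₁ * b ^ (-δ)) ^ (K + 1) := by gcongr
    _ = (C₁ ^ (K + 1) * w ^ K) * b ^ (-((K + 1) * δ)) := by
        rw [mul_pow]
        have : (b ^ (-δ)) ^ (K + 1) = b ^ (-((K + 1) * δ)) := by
          have h2 : (-((K + 1 : ℝ) * δ)) = (-δ) * ((K : ℝ) + 1) := by ring
          rw [h2, Real.rpow_mul hb.le]
          exact_mod_cast (Real.rpow_natCast (b ^ (-δ)) (K + 1)).symm
        rw [this]; ring

/-- **Number of blocks.** `M = ⌈b^(-δ)⌉`, `B = 1 + (K+1) (M (n+1) (1 + (2n+5)(n+2)))`. -/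
theorem M_bounds (hb0 : 0 < b) (hb1 : b ≤ 1) (hδ : 0 ≤ δ) :
    b ^ (-δ) ≤ (⌈b ^ (-δ)⌉₊ : ℝ) ∧ (⌈b ^ (-δ)⌉₊ : ℝ) ≤ 2 * b ^ (-δ) ∧ 0 < ⌈b ^ (-δ)⌉₊ := by
  have h1 : 1 ≤ b ^ (-δ) := Real.one_le_rpow_of_pos_of_le_one_of_nonpos hb0 hb1 (by linarith)
  refine ⟨Nat.le_ceil _, ?_, Nat.ceil_pos.mpr (by linarith)⟩
  have := (Nat.ceil_lt_add_one (a := b ^ (-δ)) (by linarith)).le
  linarith

theorem B_le (hb0 : 0 < b) (hb1 : b ≤ 1) (hδ : 0 ≤ δ) (K c : ℕ) :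
    ((1 + (K + 1) * (⌈b ^ (-δ)⌉₊ * c) : ℕ) : ℝ) ≤ (1 + 2 * (K + 1) * c) * b ^ (-δ) := by
  have h1 : 1 ≤ b ^ (-δ) := Real.one_le_rpow_of_pos_of_le_one_of_nonpos hb0 hb1 (by linarith)
  have h2 := (M_bounds hb0 hb1 hδ).2.1
  push_cast
  have h3 : ((K : ℝ) + 1) * (⌈b ^ (-δ)⌉₊ * c) ≤ ((K : ℝ) + 1) * ((2 * b ^ (-δ)) * c) := by gcongr
  calc (1 : ℝ) + ((K : ℝ) + 1) * (⌈b ^ (-δ)⌉₊ * c)
      ≤ b ^ (-δ) + ((K : ℝ) + 1) * ((2 * b ^ (-δ)) * c) := add_le_add h1 h3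
    _ = _ := by ring

/-- **Number of draws and queries.** -/
theorem count_le (hb0 : 0 < b) (hb1 : b ≤ 1) {g : ℝ} {q N B C₁ cB : ℝ} (hq0 : 0 ≤ q)
    (hN0 : 0 ≤ N) (hB0 : 0 ≤ B) (hC₁ : 0 ≤ C₁) (hcB : 0 ≤ cB) (hq : q ≤ C₁ * b ^ (-δ))
    (hN : N ≤ C₁ * b ^ (-δ)) (hB : B ≤ cB * b ^ (-δ)) (K : ℕ) (hg : (2 * K + 4) * δ ≤ g) :
    B * (q * (N * B) ^ (K + 1)) ≤ (cB ^ (K + 2) * C₁ ^ (K + 2)) * b ^ (-g) := by
  have h1 := pos hb0 (-δ)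
  have e1 : b ^ (-δ) * (b ^ (-δ) * (b ^ (-δ) * b ^ (-δ)) ^ (K + 1)) = b ^ (-((2 * K + 4) * δ)) := by
    have h2 : b ^ (-δ) * (b ^ (-δ) * (b ^ (-δ) * b ^ (-δ)) ^ (K + 1)) = (b ^ (-δ)) ^ (2 * K + 4) := by
      ring
    rw [h2]
    have h3 : (-((2 * (K : ℝ) + 4) * δ)) = (-δ) * (2 * (K : ℝ) + 4) := by ring
    rw [h3, Real.rpow_mul hb0.le]
    exact_mod_cast (Real.rpow_natCast (b ^ (-δ)) (2 * K + 4)).symm
  calc B * (q * (N * B) ^ (K + 1))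
      ≤ (cB * b ^ (-δ)) * ((C₁ * b ^ (-δ)) * ((C₁ * b ^ (-δ)) * (cB * b ^ (-δ))) ^ (K + 1)) := by
        gcongr
    _ = (cB ^ (K + 2) * C₁ ^ (K + 2)) * (b ^ (-δ) * (b ^ (-δ) * (b ^ (-δ) * b ^ (-δ)) ^ (K + 1))) := by
        ring
    _ = (cB ^ (K + 2) * C₁ ^ (K + 2)) * b ^ (-((2 * K + 4) * δ)) := by rw [e1]
    _ ≤ (cB ^ (K + 2) * C₁ ^ (K + 2)) * b ^ (-g) := by
        gcongr ?_ * ?_
        exact anti hb0 hb1 (by linarith)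

/-! ### the choice of the parameters -/

/-- `K`, `δ`, `n` depend only on `γ, A, g`. -/
theorem choose_params {γ A g : ℝ} (hγ : 0 < γ) (hA : 0 < A) (hg : 0 < g) :
    ∃ (K : ℕ) (δ : ℝ) (n : ℕ), 10 * A + 16 ≤ K ∧ 0 < δ ∧ δ ≤ γ / 8 ∧ (K + 2) * δ ≤ γ ∧
      (2 * K + 4) * δ ≤ g ∧ 5 / 4 * A + 2 ≤ δ * (n + 1) := by
  obtain ⟨K, hK⟩ := exists_nat_ge (10 * A + 16)
  have hm : 0 < min γ g := lt_min hγ hg
  have hK16 : (16 : ℝ) ≤ K := by linarith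
  set δ : ℝ := min γ g / (2 * K + 4) with hδ
  have hδ0 : 0 < δ := by positivity
  have h1 : (2 * K + 4) * δ = min γ g := by rw [hδ]; field_simp
  obtain ⟨n, hn⟩ := exists_nat_ge ((5 / 4 * A + 2) / δ)
  refine ⟨K, δ, n, hK, hδ0, ?_, ?_, ?_, ?_⟩
  · have : min γ g ≤ γ := min_le_left _ _
    nlinarith
  · have : min γ g ≤ γ := min_le_left _ _
    nlinarith
  · rw [h1]; exact min_le_right _ _
  · rw [div_le_iff₀ hδ0] at hn
    nlinarith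

/-- `k₀` -/
theorem choose_k {γ : ℝ} (hγ : 0 < γ) (P : ℕ) :
    ∃ k₀ : ℝ, 0 < k₀ ∧ k₀ ≤ γ / 16 ∧ ∀ k : ℝ, k ≤ k₀ → 2 * k * P ≤ 1 / 2 := by
  refine ⟨min (γ / 16) (1 / (4 * (P + 1))), lt_min (by positivity) (by positivity),
    min_le_left _ _, fun k hk => ?_⟩
  have h1 : k ≤ 1 / (4 * ((P : ℝ) + 1)) := hk.trans (min_le_right _ _)
  rw [le_div_iff₀ (by positivity)] at h1
  have hP : (0 : ℝ) ≤ P := Nat.cast_nonneg P
  by_cases h0 : 0 ≤ k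
  · nlinarith
  · push Not at h0
    nlinarith

theorem Sc.of_bt {x : ℝ} (hx : 0 < x) {d : ℕ} (hd : 1 ≤ d) {e s σ : ℝ} (hs : 0 < s) (hσ : 0 < σ)
    (h1 : s ^ 2 ≤ bt x d) (h2 : 2 * s ≤ σ * bt x d ^ e) : Sc (bt x d) e s σ :=
  ⟨bt_pos x (by omega), bt_le_one hx.le (by omega), hs, hσ, h1, h2⟩

end Crest.Agent.R285.QNum
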