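import Crest.Agent.R285.StepQSem
import Crest.Agent.R285.QNum
import Crest.Agent.R285.Glue2

/-!
Row 285 (S0430), module STEP Q: the asymptotic form used by the recursion.
-/

set_option autoImplicit false
set_option linter.unusedSectionVars false

open MeasureTheory ProbabilityTheory Set Filter
open Crest.OracleSampling (E Admissible)
open scoped NNReal ENNReal

noncomputable section

namespace Crest.Agent.R285.StepQ

open Crest.Agent.R285 Crest.Agent.R285.Num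

/-- `1 ≤ a₀ t₀` -/
theorem one_le_at {ψ γ A e δ k b : ℝ} (hE : QNum.Ex ψ γ A e δ k) (hb0 : 0 < b) (hb1 : b ≤ 1) :
    1 ≤ b ^ (-(ψ * e)) * b ^ δ := by
  rw [← Real.rpow_add hb0]
  refine Real.one_le_rpow_of_pos_of_le_one_of_nonpos hb0 hb1 ?_
  have h1 := hE.gap
  have h2 := hE.γ0
  have h3 := hE.k0
  linarith

/-- the error, all terms together -/
theorem num_err {ψ γ A e δ k b s σ : ℝ} (hE : QNum.Ex ψ γ A e δ k) (h : QNum.Sc b e s σ)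
    {C₁ CY CX Cn LO mx M : ℝ} {L' : ℝ≥0} {N' K n P m : ℕ} (hC₁ : 0 ≤ C₁) (hCY : 0 ≤ CY)
    (hCX : 0 ≤ CX) (hCn : 0 ≤ Cn) (hLO : 0 ≤ LO) (hmx : 0 ≤ mx)
    (hN : (N' : ℝ) ≤ C₁ * b ^ (-δ)) (hδK : (K + 2) * δ ≤ γ) (hδ1 : δ ≤ 1)
    (hkP : 2 * k * P ≤ 1 / 2) (hM0 : b ^ (-δ) ≤ M) (hM : M ≤ 2 * b ^ (-δ))
    (hK : 10 * A + 16 ≤ K) (hn : 5 / 4 * A + 2 ≤ δ * (n + 1)) :
    LO * mx * (CY * b ^ (A - e + γ) * s)
        + LO * (CX * b ^ A * (σ / √2)) * 4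
        + 22 * (QNum.bo (QPar.cO m) b ψ e δ k * (N' * L' *
            (QPar.cN m * (s ^ 2 + b ^ (-(ψ * e)) * s / (σ / √2 * b ^ (2 * k))) *
              ((C₁ * b ^ (A - (1 + ψ) * e + γ) * QNum.sin (QPar.cN m) b ψ e k s σ) *
                QQ 4 4 L' N' ^ K))
          + (C₁ * b ^ A * QNum.so (QPar.cO m) b ψ e δ k σ) * (2 * 4 * (2 * 4 * 4) ^ K)))
        + σ / √2 * (Cn * b ^ (-(ψ * e)) * M * ((b ^ (2 * k)) ^ P)⁻¹ *
          ((Cn * (s ^ 2 + b ^ (-(ψ * e)) * s / (σ / √2 * b ^ (2 * k)))) ^ K + M⁻¹ ^ (n + 1) +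
            (b ^ δ) ^ (n + 1) + (b ^ (-(ψ * e)) * s / (σ / √2)) ^ (n + 1)))
      ≤ (LO * mx * CY + LO * CX * 4
        + 22 * ((QPar.cO m + 1) * L' * C₁ * (C₁ ^ (K + 1) * (64 * (L' + 1)) ^ K)
          + C₁ * (2 * 4 * (2 * 4 * 4) ^ K))
        + 2 * Cn * ((2 * Cn) ^ K + 3)) * b ^ A * σ := by
  have h0 := h.b0
  have hcN := QPar.cN_pos m
  have hcO := QPar.cO_nonneg m
  have hσ := h.σ0
  have hbA : 0 < b ^ A := QNum.pos h0 A
  have h5 : 1 ≤ √2 := by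
    rw [Real.one_le_sqrt]; norm_num
  have hσb : σ / √2 ≤ σ := div_le_self h.σ0.le h5
  have hQQ : QQ 4 4 L' N' = (64 * (L' + 1)) * N' := by
    unfold QQ
    push_cast
    ring
  have hNQ : (N' : ℝ) * QQ 4 4 L' N' ^ K ≤
      (C₁ ^ (K + 1) * (64 * ((L' : ℝ) + 1)) ^ K) * b ^ (-((K + 1) * δ)) := by
    rw [hQQ]
    exact QNum.NQ_le h0 (Nat.cast_nonneg _) hN (by positivity) K
  have hQ0 : 0 ≤ QQ 4 4 L' N' ^ K := by rw [hQQ]; positivity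
  have e1 : LO * mx * (CY * b ^ (A - e + γ) * s) ≤ LO * mx * CY * b ^ A * σ := by
    calc LO * mx * (CY * b ^ (A - e + γ) * s) ≤ LO * mx * (CY * b ^ A * σ) :=
          mul_le_mul_of_nonneg_left (QNum.y_err hE h hCY) (by positivity)
      _ = _ := by ring
  have e2 : LO * (CX * b ^ A * (σ / √2)) * 4 ≤ LO * CX * 4 * b ^ A * σ := by
    calc LO * (CX * b ^ A * (σ / √2)) * 4 ≤ LO * (CX * b ^ A * σ) * 4 := by gcongr
      _ = _ := by ring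
  have e3 := QNum.inner_err (ψ := ψ) (γ := γ) (A := A) (k := k) h hcN hcO hC₁ L'.coe_nonneg
    (Nat.cast_nonneg N') hQ0 (by positivity : 0 ≤ C₁ ^ (K + 1) * (64 * ((L' : ℝ) + 1)) ^ K) hNQ hδK
  have e4 := QNum.outer_err (ψ := ψ) (A := A) (δ := δ) (k := k) h hcO hC₁
    (by positivity : (0 : ℝ) ≤ 2 * 4 * (2 * 4 * 4) ^ K)
  have e5 := QNum.sem_err (P := P) hE h hδ1 hCn hkP hM0 hM hK hn
  have e6 : 22 * (QNum.bo (QPar.cO m) b ψ e δ k * (N' * L' *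
            (QPar.cN m * (s ^ 2 + b ^ (-(ψ * e)) * s / (σ / √2 * b ^ (2 * k))) *
              ((C₁ * b ^ (A - (1 + ψ) * e + γ) * QNum.sin (QPar.cN m) b ψ e k s σ) *
                QQ 4 4 L' N' ^ K))
          + (C₁ * b ^ A * QNum.so (QPar.cO m) b ψ e δ k σ) * (2 * 4 * (2 * 4 * 4) ^ K)))
      = 22 * (QNum.bo (QPar.cO m) b ψ e δ k * (N' * L' *
            (QPar.cN m * (s ^ 2 + b ^ (-(ψ * e)) * s / (σ / √2 * b ^ (2 * k))) *
              ((C₁ * b ^ (A - (1 + ψ) * e + γ) * QNum.sin (QPar.cN m) b ψ e k s σ) *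
                QQ 4 4 L' N' ^ K))))
        + 22 * (QNum.bo (QPar.cO m) b ψ e δ k * ((C₁ * b ^ A * QNum.so (QPar.cO m) b ψ e δ k σ)
          * (2 * 4 * (2 * 4 * 4) ^ K))) := by ring
  rw [e6]
  have e7 : (LO * mx * CY + LO * CX * 4
        + 22 * ((QPar.cO m + 1) * L' * C₁ * (C₁ ^ (K + 1) * (64 * (L' + 1)) ^ K)
          + C₁ * (2 * 4 * (2 * 4 * 4) ^ K))
        + 2 * Cn * ((2 * Cn) ^ K + 3)) * b ^ A * σ
      = LO * mx * CY * b ^ A * σ + LO * CX * 4 * b ^ A * σ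
        + (22 * (((QPar.cO m + 1) * L' * C₁ * (C₁ ^ (K + 1) * (64 * ((L' : ℝ) + 1)) ^ K))
            * b ^ A * σ)
          + 22 * ((C₁ * (2 * 4 * (2 * 4 * 4) ^ K)) * b ^ A * σ))
        + (2 * Cn * ((2 * Cn) ^ K + 3)) * b ^ A * σ := by ring
  rw [e7]
  gcongr

set_option maxHeartbeats 1600000 in
/-- **STEP Q** (the hypothesis `stepQ` of `recursion_concrete`), from `SEMQ`. -/
theorem stepQ_of_SEMQ (hS : SEMQ) {x : ℝ} (hx : 0 < x) :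
    ∀ ψ γ A g : ℝ, 0 < ψ → ψ ≤ 1 / 4 → 0 < γ → γ ≤ ψ / 16 → 0 < A → 0 < g →
      ∃ k₀ : ℝ, 0 < k₀ ∧ ∀ k : ℝ, 0 < k → k ≤ k₀ → ∀ e : ℝ, 1 / 4 ≤ e → e < A →
        (∀ g', 0 < g' → QP x g' ((1 + ψ) * e - γ) A) →
        (∀ g', 0 < g' → QP x g' (min ((1 - ψ) * e) 1 - γ) (A - (1 + ψ) * e + γ)) →
        YP x g (2 * k) (A - e + γ) →
        QP x g (e + k) A → QP x g e A := by
  intro ψ γ A g hψ hψ1 hγ hγψ hA hg
  -- the parameters
  obtain ⟨K, δ, n, hKA, hδ0, hδγ, hδK, hδg, hnA⟩ := QNum.choose_params hγ hA hg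
  have hδ1 : δ ≤ 1 := by linarith
  obtain ⟨Cn, P, hCn, hsem⟩ := semq_iff.1 hS n
  obtain ⟨k₀, hk₀, hk₀γ, hk₀P⟩ := QNum.choose_k hγ P
  refine ⟨k₀, hk₀, ?_⟩
  intro k hk hkk e he heA hout hin hY hX
  have hE : QNum.Ex ψ γ A e δ k := ⟨hψ, hψ1, hγ, hγψ, he, heA, hδ0, hδγ, hk, hkk.trans hk₀γ⟩
  have hkP := hk₀P k hkk
  obtain ⟨Ci, hCi, hQi⟩ := hin δ hδ0
  obtain ⟨Co, hCo, hQo⟩ := hout δ hδ0
  obtain ⟨CY, hCY, hQY⟩ := hY
  obtain ⟨CX, hCX, hQX⟩ := hX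
  -- common constant of the inner and outer calls
  set C₁ : ℝ := max Ci Co with hC₁
  have hC₁0 : 0 < C₁ := lt_max_of_lt_left hCi
  have hCiC₁ : Ci ≤ C₁ := le_max_left _ _
  have hCoC₁ : Co ≤ C₁ := le_max_right _ _
  have hcN := QPar.cN_pos n
  have hcO := QPar.cO_nonneg n
  -- the constants
  set L' : ℝ≥0 := C₁.toNNReal with hL'
  set c : ℕ := (n + 1) * (1 + (2 * n + 5) * (n + 2)) with hc
  set cB : ℝ := 1 + 2 * (K + 1) * c with hcB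
  set CC : ℝ := cB ^ (K + 2) * C₁ ^ (K + 2) with hCC
  set LL : ℝ≥0 := 2 * (1 + (2 * (L' + 1) * 4) ^ (K + 1)) *
    max 1 (max CY.toNNReal (CX.toNNReal * CY.toNNReal)) with hLL
  set LO : ℝ := 2 * (1 + (2 * ((L' : ℝ) + 1) * 4) ^ (K + 1)) with hLO
  set mx : ℝ := ((max 1 CX.toNNReal : ℝ≥0) : ℝ) with hmx
  set CE : ℝ := LO * mx * CY + LO * CX * 4
        + 22 * ((QPar.cO n + 1) * L' * C₁ * (C₁ ^ (K + 1) * (64 * (L' + 1)) ^ K)
          + C₁ * (2 * 4 * (2 * 4 * 4) ^ K))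
        + 2 * Cn * ((2 * Cn) ^ K + 3) with hCE
  have hcB0 : 0 ≤ cB := by positivity
  have hCC0 : 0 ≤ CC := by positivity
  have hLO0 : 0 ≤ LO := by positivity
  have hmx0 : 0 ≤ mx := NNReal.coe_nonneg _
  have hCn0 : 0 ≤ Cn := by linarith
  have hCE0 : 0 ≤ CE := by positivity
  have hLL0 : (0 : ℝ) ≤ LL := NNReal.coe_nonneg _
  refine ⟨CY + CX + 4 * CC + LL + CE + 1, by positivity, ?_⟩
  filter_upwards [hQi, hQo, hQY, hQX, BtNum.ev_pos x, BtNum.ev_le_one hx.le,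
    BtNum.ev_small hx (a := 1) one_pos 4 one_pos,
    BtNum.ev_small hx (a := 2 * k) (by linarith) 2 one_pos,
    BtNum.ev_small hx (a := k) hk 2 one_pos,
    BtNum.ev_small hx (a := δ) hδ0 2 one_pos,
    BtNum.ev_small hx (a := 1 / 8) (by norm_num) (2 * QPar.cN n) one_pos,
    BtNum.ev_small hx (a := 1 / 8) (by norm_num) (2 * Cn) one_pos,
    BtNum.ev_small hx (a := γ / 2) (by linarith) (64 * QPar.cN n) one_pos,
    BtNum.ev_small hx (a := γ / 2) (by linarith) (2 * (QPar.cO n + 1)) one_pos,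
    BtNum.ev_small hx hδ0 1 hC₁0] with d hdi hdo hdY hdX hb0 hb1 hb4 hbκ hbk hbδ hbN hbn hbi hbo
      hbC s σ hs hσ hsb hsσ
  set b : ℝ := bt x d with hb
  rw [Real.rpow_one] at hb4
  have hSc : QNum.Sc b e s σ := ⟨hb0, hb1, hs, hσ, hsb, hsσ⟩
  have hs2 : s ≤ 1 / 2 := by
    have : s ^ 2 ≤ (1 / 2) ^ 2 := by linarith
    exact le_of_sq_le_sq this (by norm_num)
  have hσb0 : 0 < σ / √2 := hSc.σb0
  have hσσ : (σ / √2) ^ 2 + (σ / √2) ^ 2 = σ ^ 2 := by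
    rw [div_pow, Real.sq_sqrt (by norm_num)]; ring
  have hκ0 : 0 < b ^ (2 * k) := QNum.pos hb0 _
  have hκ1 : b ^ (2 * k) ≤ 1 / 2 := by linarith
  have ht0 : 0 < b ^ δ := QNum.pos hb0 _
  have ht1 : b ^ δ ≤ 1 / 2 := by linarith
  have hat := one_le_at hE hb0 hb1
  obtain ⟨hM1, hM2, hM0⟩ := QNum.M_bounds hb0 hb1 hδ0.le
  set M : ℕ := ⌈b ^ (-δ)⌉₊ with hM
  have hu0 : 0 < b ^ (-δ) := QNum.pos hb0 _
  set N' : ℕ := ⌊C₁ * b ^ (-δ)⌋₊ with hN'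
  have hN'u : (N' : ℝ) ≤ C₁ * b ^ (-δ) := Nat.floor_le (by positivity)
  have hN'1 : 1 ≤ N' := by
    refine Nat.le_floor ?_
    rw [Nat.cast_one]
    have h1 : b ^ δ * b ^ (-δ) = 1 := by
      rw [← Real.rpow_add hb0, add_neg_cancel, Real.rpow_zero]
    calc 1 = b ^ δ * b ^ (-δ) := h1.symm
      _ ≤ C₁ * b ^ (-δ) := mul_le_mul_of_nonneg_right (by linarith) hu0.le
  have hbnd1 : QPar.cN n * (s ^ 2 + b ^ (-(ψ * e)) * s / (σ / √2 * b ^ (2 * k))) ≤ 1 :=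
    QNum.eta_small hE hSc hcN.le hbN
  have hbnd2 : Cn * (s ^ 2 + b ^ (-(ψ * e)) * s / (σ / √2 * b ^ (2 * k))) ≤ 1 :=
    QNum.eta_small hE hSc hCn0 hbn
  have hsin0 := QNum.sin_pos (ψ := ψ) (k := k) hSc hcN
  have hso0 := QNum.so_pos (ψ := ψ) (δ := δ) (k := k) hSc hcO
  have hbo1 : QNum.bo (QPar.cO n) b ψ e δ k ≤ 1 := by
    refine QNum.bo_le_one hE hb0 hb1 hcO ?_
    have h1 : 0 < b ^ (γ / 2) := QNum.pos hb0 _
    have h2 : 0 ≤ (QPar.cO n + 1) * b ^ (γ / 2) := by positivity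
    have h3 : 2 * (QPar.cO n + 1) * b ^ (γ / 2) = 2 * ((QPar.cO n + 1) * b ^ (γ / 2)) := by ring
    linarith
  have hbA : 0 < b ^ A := QNum.pos hb0 _
  have hbg : 0 < b ^ (-g) := QNum.pos hb0 _
  have hbD : 0 < b ^ (A - (1 + ψ) * e + γ) := QNum.pos hb0 _
  -- the inner and the outer contracts
  have conin : ∀ r, 3 / 4 * b ^ (2 * k) * s ≤ r → r ≤ s →
      Con (d := d) (r / 4) N' N' L' (fun V c => gN (G V r c) (QNum.sin (QPar.cN n) b ψ e k s σ))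
        (C₁ * b ^ (A - (1 + ψ) * e + γ) * QNum.sin (QPar.cN n) b ψ e k s σ) := by
    intro r hr hrs
    have hr0 : 0 < r := lt_of_lt_of_le (by positivity) hr
    have h1 := hdi r (QNum.sin (QPar.cN n) b ψ e k s σ) hr0 hsin0
      ((pow_le_pow_left₀ hr0.le hrs 2).trans hsb)
      ((mul_le_mul_of_nonneg_left hrs zero_le_two).trans (QNum.inner_ok hE hSc hcN hbi))
    have h2 : ⌊Ci * b ^ (-δ)⌋₊ ≤ N' := Nat.floor_le_floor (by gcongr)
    exact Rec.Con.weaken h1 h2 h2 (Real.toNNReal_le_toNNReal hCiC₁) (by gcongr)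
  have conout : ∀ r, 3 / 4 * b ^ (2 * k) * s ≤ r → r ≤ s →
      Con (d := d) (r / 4) N' N' L' (fun V c => gN (G V r c) (QNum.so (QPar.cO n) b ψ e δ k σ))
        (C₁ * b ^ A * QNum.so (QPar.cO n) b ψ e δ k σ) := by
    intro r hr hrs
    have hr0 : 0 < r := lt_of_lt_of_le (by positivity) hr
    have h1 := hdo r (QNum.so (QPar.cO n) b ψ e δ k σ) hr0 hso0
      ((pow_le_pow_left₀ hr0.le hrs 2).trans hsb)
      ((mul_le_mul_of_nonneg_left hrs zero_le_two).trans (QNum.outer_ok hE hSc hcO hbo))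
    have h2 : ⌊Co * b ^ (-δ)⌋₊ ≤ N' := Nat.floor_le_floor (by gcongr)
    exact Rec.Con.weaken h1 h2 h2 (Real.toNNReal_le_toNNReal hCoC₁) (by gcongr)
  have conY := hdY s hs hsb
  have hsκ : s * b ^ (2 * k) ≤ s := mul_le_of_le_one_right hs.le (by linarith)
  have conX := hdX (s * b ^ (2 * k)) (σ / √2) (by positivity) hσb0
    ((pow_le_pow_left₀ (by positivity) hsκ 2).trans hsb) (QNum.x1_ok hSc hbk)
  -- the contract in this dimension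
  have hfix := fixed_sem (d := d) (K := K) (B := 1 + (K + 1) * (M * c)) hsem (M := M) (s := s)
    (σ := σ) (σb := σ / √2) (κ := b ^ (2 * k)) (t0 := b ^ δ) (a0 := b ^ (-(ψ * e)))
    (bo := QNum.bo (QPar.cO n) b ψ e δ k) (To := 2)
    hs hs2 hσb0 hσ.le hσσ hκ0 hκ1 hM0 ht0 ht1 hat hbnd1 hbnd2 hsin0.le
    (QNum.sin_mask (ψ := ψ) (k := k) hSc hcN) hso0.le
    (QNum.so_mask (ψ := ψ) (δ := δ) (k := k) hSc hcO) hN'1
    (by positivity) (by positivity) (by positivity) conin conout conY conX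
    (le_of_eq (by rw [hc]; ring)) (QNum.cO_le_bo hb0) (by
      have : ((2 : ℝ≥0) : ℝ) = 2 := by norm_num
      rw [this]; linarith)
  -- counts
  have hB : ((1 + (K + 1) * (M * c) : ℕ) : ℝ) ≤ cB * b ^ (-δ) := QNum.B_le hb0 hb1 hδ0.le K c
  set B : ℕ := 1 + (K + 1) * (M * c) with hBdef
  have hcount : (B : ℝ) * (N' * ((N' : ℝ) * B) ^ (K + 1)) ≤ CC * b ^ (-g) :=
    QNum.count_le hb0 hb1 (Nat.cast_nonneg _) (Nat.cast_nonneg _) (Nat.cast_nonneg _) hC₁0.le hcB0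
      hN'u hN'u hB K hδg
  have hcount1 : (B : ℝ) * ((N' : ℝ) * B) ^ (K + 1) ≤ CC * b ^ (-g) := by
    refine le_trans ?_ hcount
    have h1 : (1 : ℝ) ≤ N' := by exact_mod_cast hN'1
    have h2 : (0 : ℝ) ≤ ((N' : ℝ) * B) ^ (K + 1) := by positivity
    exact mul_le_mul_of_nonneg_left (le_mul_of_one_le_left h2 h1) (Nat.cast_nonneg _)
  have hNY : ((⌊CY * b ^ (-g)⌋₊ : ℕ) : ℝ) ≤ CY * b ^ (-g) := Nat.floor_le (by positivity)
  have hNX : ((⌊CX * b ^ (-g)⌋₊ : ℕ) : ℝ) ≤ CX * b ^ (-g) := Nat.floor_le (by positivity)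
  refine Rec.Con.weaken hfix ?_ ?_ ?_ ?_
  · refine Nat.le_floor ?_
    push_cast
    have hx1 : 0 ≤ CX * b ^ (-g) := by positivity
    have hx2 : 0 ≤ ((LL : ℝ) + CE + 1) * b ^ (-g) := by positivity
    have e1 : (CY + CX + 4 * CC + LL + CE + 1) * b ^ (-g)
        = CY * b ^ (-g) + CX * b ^ (-g) + 4 * (CC * b ^ (-g)) + ((LL : ℝ) + CE + 1) * b ^ (-g) := by
      ring
    rw [e1]
    linarith
  · refine Nat.le_floor ?_
    push_cast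
    have hx1 : 0 ≤ CC * b ^ (-g) := by positivity
    have hx2 : 0 ≤ ((LL : ℝ) + CE + 1) * b ^ (-g) := by positivity
    have e1 : (CY + CX + 4 * CC + LL + CE + 1) * b ^ (-g)
        = CY * b ^ (-g) + CX * b ^ (-g) + 4 * (CC * b ^ (-g)) + ((LL : ℝ) + CE + 1) * b ^ (-g) := by
      ring
    rw [e1]
    linarith
  · refine NNReal.le_toNNReal_of_coe_le ?_
    have e1 : (2 * (1 + (2 * (L' + 1) * 4) ^ (K + 1)) *
      max 1 (max CY.toNNReal (CX.toNNReal * CY.toNNReal)) : ℝ≥0) = LL := rfl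
    rw [e1]
    linarith
  · refine (num_err (m := n) (P := P) (Cn := Cn) (LO := LO) (mx := mx) (M := (M : ℝ)) (L' := L')
      (N' := N') (K := K) (n := n) hE hSc hC₁0.le hCY.le hCX.le hCn0 hLO0 hmx0 hN'u hδK hδ1 hkP hM1
      hM2 hKA hnA).trans ?_
    have h1 : CE ≤ CY + CX + 4 * CC + LL + CE + 1 := by linarith
    exact mul_le_mul_of_nonneg_right (mul_le_mul_of_nonneg_right h1 hbA.le) hσ.le

end Crest.Agent.R285.StepQ
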