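import Crest.Agent.R285.Plug
import Crest.Agent.R285.StepQ

/-!
Row 285 (S0430): the final chain from the single remaining input `SEMQ`.
-/

set_option autoImplicit false

open MeasureTheory ProbabilityTheory Filter Topology
open Crest.OracleSampling (E Admissible)

noncomputable section

namespace Crest.Agent.R285.Plug

open Crest.Agent.R285

/-- The statement of S0430 from `SEMQ`. -/
theorem S0430_of_SEMQ (hS : SEMQ) :
    ∀ ε : ℝ, 0 < ε → ∃ C : ℝ, ∀ d : ℕ, 2 ≤ d →
      ∃ (q : ℕ) (A : Crest.OracleSampling.QueryAlg d q), (q : ℝ) ≤ C * (d : ℝ) ^ ε ∧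
        ∀ V : Crest.OracleSampling.E d → ℝ, Crest.OracleSampling.Admissible d V →
          Crest.OracleSampling.Succeeds A V :=
  S0430_of_StepQ fun _ hx => StepQ.stepQ_of_SEMQ hS hx

end Crest.Agent.R285.Plug
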