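import Crest.Agent.R285.Defs
import Crest.Agent.R285.Gauss
import Crest.Agent.Lib.PrekopaLeindler

/-!
Row 285 (S0430): Prekopa's theorem.

* `PL_volume`, `PL.withDensity`, `PL_stdGaussian` : the Prekopa-Leindler property;
* `prekopa` : if `F` is jointly convex then `p ↦ -log ∫ exp (-F p x) dμ x` is convex;
* `Ub_convexOn` : the coarse potential of a convex potential is convex;
* `convexOn_of_hess`, `hess_nonneg_of_convexOn` : convexity and the second derivative.
-/

set_option autoImplicit false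
set_option linter.unusedSectionVars false

open MeasureTheory ProbabilityTheory Set Filter Topology
open Crest.Agent.Lib.PrekopaLeindler (PL PL_euclidean)
open scoped ENNReal NNReal

noncomputable section

namespace Crest.Agent.R285.Prek

variable {V : Type*} [NormedAddCommGroup V] [InnerProductSpace ℝ V] [FiniteDimensional ℝ V]
  [MeasurableSpace V] [BorelSpace V]

/-- Prekopa-Leindler for the Lebesgue measure of a Euclidean space. -/
theorem PL_volume : PL V (volume : Measure V) := by
  refine PL.of_measurePreserving (E := EuclideanSpace ℝ (Fin (Module.finrank ℝ V)))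
    (stdOrthonormalBasis ℝ V).repr.symm
    ((stdOrthonormalBasis ℝ V).repr.symm.measurePreserving) ?_ (PL_euclidean _)
  intro a b x y
  simp

/-- Prekopa-Leindler for a log-concave density. -/
theorem PL_withDensity {E : Type*} [AddCommGroup E] [Module ℝ E] [MeasurableSpace E]
    {μ : Measure E} (h : PL E μ) {ρ : E → ℝ≥0∞} (hρ : Measurable ρ)
    (hlc : ∀ t : ℝ, 0 < t → t < 1 → ∀ x y, ρ x ^ (1 - t) * ρ y ^ t ≤ ρ ((1 - t) • x + t • y)) :
    PL E (μ.withDensity ρ) := by
  intro t ht0 ht1 f g k hf hg hk H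
  rw [lintegral_withDensity_eq_lintegral_mul _ hρ hf,
    lintegral_withDensity_eq_lintegral_mul _ hρ hg,
    lintegral_withDensity_eq_lintegral_mul _ hρ hk]
  refine h t ht0 ht1 _ _ _ (hρ.mul hf) (hρ.mul hg) (hρ.mul hk) fun x y => ?_
  simp only [Pi.mul_apply]
  have ht1' : 0 ≤ 1 - t := by linarith
  rw [ENNReal.mul_rpow_of_nonneg _ _ ht1', ENNReal.mul_rpow_of_nonneg _ _ ht0.le]
  calc ρ x ^ (1 - t) * f x ^ (1 - t) * (ρ y ^ t * g y ^ t)
      = (ρ x ^ (1 - t) * ρ y ^ t) * (f x ^ (1 - t) * g y ^ t) := by ring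
    _ ≤ _ := mul_le_mul' (hlc t ht0 ht1 x y) (H x y)

/-- Prekopa-Leindler for the standard Gaussian. -/
theorem PL_stdGaussian : PL V (stdGaussian V) := by
  rw [stdGaussian_eq_withDensity]
  refine PL_withDensity PL_volume continuous_gdens.measurable.ennreal_ofReal ?_
  intro t ht0 ht1 x y
  have ht1' : 0 ≤ 1 - t := by linarith
  rw [ENNReal.ofReal_rpow_of_pos (gdens_pos _), ENNReal.ofReal_rpow_of_pos (gdens_pos _),
    ← ENNReal.ofReal_mul (by have := gdens_pos x; positivity)]
  apply ENNReal.ofReal_le_ofReal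
  unfold gdens
  set c := ((2 : ℝ) * Real.pi) ^ (-(Module.finrank ℝ V : ℝ) / 2) with hc
  have hc0 : 0 < c := by positivity
  rw [Real.mul_rpow hc0.le (Real.exp_pos _).le, Real.mul_rpow hc0.le (Real.exp_pos _).le,
    ← Real.exp_mul, ← Real.exp_mul]
  have e1 : c ^ (1 - t) * c ^ t = c := by
    rw [← Real.rpow_add hc0]; simp
  calc c ^ (1 - t) * Real.exp (-‖x‖ ^ 2 / 2 * (1 - t)) * (c ^ t * Real.exp (-‖y‖ ^ 2 / 2 * t))
      = (c ^ (1 - t) * c ^ t) *
        (Real.exp (-‖x‖ ^ 2 / 2 * (1 - t)) * Real.exp (-‖y‖ ^ 2 / 2 * t)) := by ring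
    _ = c * Real.exp (-‖x‖ ^ 2 / 2 * (1 - t) + -‖y‖ ^ 2 / 2 * t) := by rw [e1, Real.exp_add]
    _ ≤ c * Real.exp (-‖(1 - t) • x + t • y‖ ^ 2 / 2) := by
        gcongr
        have h1 : ‖(1 - t) • x + t • y‖ ^ 2
            = (1 - t) * ‖x‖ ^ 2 + t * ‖y‖ ^ 2 - t * (1 - t) * ‖x - y‖ ^ 2 := by
          rw [← real_inner_self_eq_norm_sq, ← real_inner_self_eq_norm_sq,
            ← real_inner_self_eq_norm_sq, ← real_inner_self_eq_norm_sq]
          simp only [inner_add_left, inner_add_right, inner_sub_left, inner_sub_right,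
            real_inner_smul_left, real_inner_smul_right]
          rw [real_inner_comm x y]
          ring
        have h2 : 0 ≤ t * (1 - t) * ‖x - y‖ ^ 2 := by positivity
        rw [h1]
        linarith

/-- **Prekopa's theorem**, general form. -/
theorem prekopa {E P : Type*} [AddCommGroup E] [Module ℝ E] [MeasurableSpace E]
    [AddCommGroup P] [Module ℝ P] {μ : Measure E} [NeZero μ] (hPL : PL E μ) {F : P → E → ℝ}
    (hF : ∀ (p q : P) (x y : E) (a b : ℝ), 0 < a → 0 < b → a + b = 1 →
      F (a • p + b • q) (a • x + b • y) ≤ a * F p x + b * F q y)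
    (hm : ∀ p, Measurable (F p)) (hint : ∀ p, Integrable (fun x => Real.exp (-F p x)) μ) :
    ConvexOn ℝ univ (fun p => -Real.log (∫ x, Real.exp (-F p x) ∂μ)) := by
  rw [convexOn_iff_forall_pos]
  refine ⟨convex_univ, fun p _ q _ a b ha hb hab => ?_⟩
  have ha' : a = 1 - b := by linarith
  have hb1 : b < 1 := by linarith
  have h := hPL b hb hb1 (fun x => ENNReal.ofReal (Real.exp (-F p x)))
    (fun x => ENNReal.ofReal (Real.exp (-F q x)))
    (fun x => ENNReal.ofReal (Real.exp (-F (a • p + b • q) x)))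
    ((hm p).neg.exp.ennreal_ofReal) ((hm q).neg.exp.ennreal_ofReal)
    ((hm _).neg.exp.ennreal_ofReal) ?_
  · rw [← ha'] at h
    rw [← ofReal_integral_eq_lintegral_ofReal (hint p) (ae_of_all _ fun x => (Real.exp_pos _).le),
      ← ofReal_integral_eq_lintegral_ofReal (hint q) (ae_of_all _ fun x => (Real.exp_pos _).le),
      ← ofReal_integral_eq_lintegral_ofReal (hint _) (ae_of_all _ fun x => (Real.exp_pos _).le)]
      at h
    have hp : 0 < ∫ x, Real.exp (-F p x) ∂μ := integral_exp_pos (hint p)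
    have hq : 0 < ∫ x, Real.exp (-F q x) ∂μ := integral_exp_pos (hint q)
    have hr : 0 < ∫ x, Real.exp (-F (a • p + b • q) x) ∂μ := integral_exp_pos (hint _)
    rw [ENNReal.ofReal_rpow_of_pos hp, ENNReal.ofReal_rpow_of_pos hq,
      ← ENNReal.ofReal_mul (by positivity), ENNReal.ofReal_le_ofReal_iff hr.le] at h
    have h2 := Real.log_le_log (by positivity) h
    rw [Real.log_mul (by positivity) (by positivity), Real.log_rpow hp, Real.log_rpow hq] at h2
    simp only [smul_eq_mul]
    linarith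
  · intro x y
    rw [← ha', ENNReal.ofReal_rpow_of_pos (Real.exp_pos _),
      ENNReal.ofReal_rpow_of_pos (Real.exp_pos _), ← ENNReal.ofReal_mul (by positivity)]
    apply ENNReal.ofReal_le_ofReal
    rw [← Real.exp_mul, ← Real.exp_mul, ← Real.exp_add]
    apply Real.exp_le_exp.mpr
    have := hF p q x y a b ha hb hab
    linarith

/-- A convex `C²` function from a nonnegative second derivative. -/
theorem convexOn_of_hess {W : Type*} [NormedAddCommGroup W] [NormedSpace ℝ W] {f : W → ℝ}
    (hf : ContDiff ℝ 2 f)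
    (h : ∀ x v, 0 ≤ iteratedFDeriv ℝ 2 f x ![v, v]) : ConvexOn ℝ univ f := by
  refine ⟨convex_univ, fun x _ y _ a b ha hb hab => ?_⟩
  -- restrict to the line
  set φ : ℝ → ℝ := fun t => f (x + t • (y - x)) with hφ
  have hl : ∀ t, HasDerivAt (fun t : ℝ => x + t • (y - x)) (y - x) t := fun t => by
    have := ((hasDerivAt_id t).smul_const (y - x)).const_add x
    simpa using this
  have hf1 : Differentiable ℝ f := hf.differentiable (by norm_num)
  have hf2 : ContDiff ℝ 1 (fderiv ℝ f) := hf.fderiv_right (by norm_num)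
  have hf3 : Differentiable ℝ (fderiv ℝ f) := hf2.differentiable (by norm_num)
  have hd1 : ∀ t, HasDerivAt φ (fderiv ℝ f (x + t • (y - x)) (y - x)) t := fun t =>
    ((hf1 _).hasFDerivAt).comp_hasDerivAt t (hl t)
  have hd2 : ∀ t, HasDerivAt (fun t => fderiv ℝ f (x + t • (y - x)) (y - x))
      (fderiv ℝ (fderiv ℝ f) (x + t • (y - x)) (y - x) (y - x)) t := fun t => by
    have h1 : HasDerivAt (fun t => fderiv ℝ f (x + t • (y - x))) _ t :=
      ((hf3 _).hasFDerivAt).comp_hasDerivAt t (hl t)
    simpa using h1.clm_apply (hasDerivAt_const t (y - x))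
  have hnn : ∀ t : ℝ, 0 ≤ fderiv ℝ (fderiv ℝ f) (x + t • (y - x)) (y - x) (y - x) := fun t => by
    have := h (x + t • (y - x)) (y - x)
    rw [iteratedFDeriv_two_apply] at this
    simpa using this
  have hconv : ConvexOn ℝ univ φ := by
    refine convexOn_of_deriv2_nonneg convex_univ ?_ ?_ ?_ ?_
    · exact (continuous_iff_continuousAt.mpr fun t => (hd1 t).continuousAt).continuousOn
    · exact fun t _ => (hd1 t).differentiableAt.differentiableWithinAt
    · have : deriv φ = fun t => fderiv ℝ f (x + t • (y - x)) (y - x) := by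
        funext t; exact (hd1 t).deriv
      rw [this]
      exact fun t _ => (hd2 t).differentiableAt.differentiableWithinAt
    · intro t _
      have : deriv φ = fun t => fderiv ℝ f (x + t • (y - x)) (y - x) := by
        funext t; exact (hd1 t).deriv
      simp only [Function.iterate_succ, Function.iterate_zero, Function.comp, id]
      rw [this, (hd2 t).deriv]
      exact hnn t
  have h1 := hconv.2 (mem_univ 0) (mem_univ 1) ha hb hab
  simp only [hφ, smul_eq_mul, mul_zero, mul_one, zero_add, zero_smul, add_zero, one_smul,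
    add_sub_cancel] at h1
  have e : a • x + b • y = x + b • (y - x) := by
    have : a = 1 - b := by linarith
    rw [this]; module
  rw [e]
  exact h1

/-- The second derivative of a convex `C²` function is nonnegative. -/
theorem hess_nonneg_of_convexOn {W : Type*} [NormedAddCommGroup W] [NormedSpace ℝ W] {f : W → ℝ}
    (hf : ContDiff ℝ 2 f) (hc : ConvexOn ℝ univ f) (x v : W) :
    0 ≤ iteratedFDeriv ℝ 2 f x ![v, v] := by
  set φ : ℝ → ℝ := fun t => f (x + t • v) with hφ
  have hl : ∀ t, HasDerivAt (fun t : ℝ => x + t • v) v t := fun t => by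
    have := ((hasDerivAt_id t).smul_const v).const_add x
    simpa using this
  have hf1 : Differentiable ℝ f := hf.differentiable (by norm_num)
  have hf2 : ContDiff ℝ 1 (fderiv ℝ f) := hf.fderiv_right (by norm_num)
  have hf3 : Differentiable ℝ (fderiv ℝ f) := hf2.differentiable (by norm_num)
  have hd1 : ∀ t, HasDerivAt φ (fderiv ℝ f (x + t • v) v) t := fun t =>
    ((hf1 _).hasFDerivAt).comp_hasDerivAt t (hl t)
  have hd2 : HasDerivAt (fun t : ℝ => fderiv ℝ f (x + t • v) v)
      (fderiv ℝ (fderiv ℝ f) (x + (0 : ℝ) • v) v v) 0 := by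
    have h1 : HasDerivAt (fun t : ℝ => fderiv ℝ f (x + t • v)) _ 0 :=
      ((hf3 (x + (0 : ℝ) • v)).hasFDerivAt).comp_hasDerivAt (0 : ℝ) (hl 0)
    simpa using h1.clm_apply (hasDerivAt_const (0 : ℝ) v)
  have hcφ : ConvexOn ℝ univ φ := by
    have := hc.comp_affineMap (AffineMap.lineMap x (x + v) : ℝ →ᵃ[ℝ] W)
    refine this.congr ?_ |>.subset (subset_univ _) convex_univ
    intro t _
    simp [hφ, AffineMap.lineMap_apply, add_comm]
  have hmono : Monotone (deriv φ) := by
    have := hcφ.monotoneOn_deriv (fun t _ => (hd1 t).differentiableAt)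
    exact monotoneOn_univ.mp this
  have e : deriv φ = fun t => fderiv ℝ f (x + t • v) v := by
    funext t; exact (hd1 t).deriv
  rw [e] at hmono
  have h3 : 0 ≤ fderiv ℝ (fderiv ℝ f) (x + (0 : ℝ) • v) v v := by
    rw [← hd2.deriv]
    exact hmono.deriv_nonneg
  rw [iteratedFDeriv_two_apply]
  simpa using h3

/-- The tangent inequality. -/
theorem tangent_le {W : Type*} [NormedAddCommGroup W] [NormedSpace ℝ W] {f : W → ℝ}
    (hc : ConvexOn ℝ univ f) {x : W} {f' : W →L[ℝ] ℝ} (hf : HasFDerivAt f f' x) (y : W) :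
    f x + f' (y - x) ≤ f y := by
  have hl : HasDerivAt (fun t : ℝ => x + t • (y - x)) (y - x) 0 := by
    have := ((hasDerivAt_id (0 : ℝ)).smul_const (y - x)).const_add x
    simpa using this
  have hf' : HasFDerivAt f f' (x + (0 : ℝ) • (y - x)) := by simpa using hf
  have hd : HasDerivAt (fun t : ℝ => f (x + t • (y - x))) (f' (y - x)) 0 :=
    hf'.comp_hasDerivAt (0 : ℝ) hl
  have h1 := (hasDerivAt_iff_tendsto_slope.mp hd).mono_left
    (nhdsWithin_mono 0 (fun t (ht : 0 < t) => (ne_of_gt ht : t ≠ 0)) : 𝓝[>] (0 : ℝ) ≤ 𝓝[≠] 0)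
  have h2 : ∀ᶠ t in 𝓝[>] (0 : ℝ), slope (fun t : ℝ => f (x + t • (y - x))) 0 t ≤ f y - f x := by
    filter_upwards [Ioc_mem_nhdsGT (zero_lt_one' ℝ)] with t ht
    have h3 := hc.2 (mem_univ x) (mem_univ y) (by linarith [ht.2] : 0 ≤ 1 - t) ht.1.le (by ring)
    have e : (1 - t) • x + t • y = x + t • (y - x) := by module
    rw [e] at h3
    simp only [slope_def_field, zero_smul, add_zero, sub_zero, smul_eq_mul] at h3 ⊢
    rw [div_le_iff₀ ht.1]
    linarith
  have h3 := le_of_tendsto h1 h2
  linarith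

/-- The coarse potential of a convex potential is convex. -/
theorem Ub_convexOn {V : Type} [NormedAddCommGroup V] [InnerProductSpace ℝ V]
    [FiniteDimensional ℝ V] [MeasurableSpace V] [BorelSpace V] {U : V → ℝ}
    (hU : ConvexOn ℝ univ U) (hUm : Measurable U) {σ : ℝ}
    (hint : ∀ x, Integrable (fun g => Real.exp (-U (x + σ • g))) (stdGaussian V)) :
    ConvexOn ℝ univ (Ub U σ) := by
  have h := prekopa (P := V) (μ := stdGaussian V) PL_stdGaussian
    (F := fun x g => U (x + σ • g)) ?_ ?_ hint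
  · exact h
  · intro p q x y a b ha hb hab
    have := hU.2 (mem_univ (p + σ • x)) (mem_univ (q + σ • y)) ha.le hb.le hab
    simp only [smul_eq_mul] at this
    have e : a • p + b • q + σ • (a • x + b • y) = a • (p + σ • x) + b • (q + σ • y) := by module
    rw [e]
    exact this
  · intro p
    exact hUm.comp (by fun_prop)

/-- Potentials of the class `Pot` are convex. -/
theorem Pot_convexOn {V : Type} [NormedAddCommGroup V] [InnerProductSpace ℝ V]
    [FiniteDimensional ℝ V] [MeasurableSpace V] [BorelSpace V] {h : ℝ} {U : V → ℝ}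
    (hU : Pot h U) : ConvexOn ℝ univ U :=
  convexOn_of_hess hU.cd hU.lo

/-- Potentials of the class `Pot` are nonnegative. -/
theorem Pot_nonneg {V : Type} [NormedAddCommGroup V] [InnerProductSpace ℝ V]
    [FiniteDimensional ℝ V] [MeasurableSpace V] [BorelSpace V] {h : ℝ} {U : V → ℝ}
    (hU : Pot h U) (x : V) : 0 ≤ U x := by
  have hc := Pot_convexOn hU
  have hd : HasFDerivAt U (0 : V →L[ℝ] ℝ) 0 := by
    have h1 := (hU.cd.differentiable (by norm_num) 0).hasGradientAt
    rw [hU.grad0] at h1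
    have h2 := h1.hasFDerivAt
    simpa using h2
  have h3 := tangent_le hc hd x
  simpa [hU.zero] using h3

section pot

variable {V : Type} [NormedAddCommGroup V] [InnerProductSpace ℝ V] [FiniteDimensional ℝ V]
  [MeasurableSpace V] [BorelSpace V] {h σ : ℝ} {U : V → ℝ}

theorem Pot_exp_le_one (hU : Pot h U) (x : V) : Real.exp (-U x) ≤ 1 := by
  rw [Real.exp_le_one_iff]; linarith [Pot_nonneg hU x]

theorem Pot_integrable (hU : Pot h U) (σ : ℝ) (x : V) :
    Integrable (fun g => Real.exp (-U (x + σ • g))) (stdGaussian V) := by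
  have hc : Continuous U := hU.cd.continuous
  refine Integrable.of_bound (by fun_prop) 1 (ae_of_all _ fun g => ?_)
  rw [Real.norm_of_nonneg (Real.exp_pos _).le]
  exact Pot_exp_le_one hU _

/-- The coarse potential of `U` in `Pot` is convex. -/
theorem Pot_Ub_convexOn (hU : Pot h U) (σ : ℝ) : ConvexOn ℝ univ (Ub U σ) :=
  Ub_convexOn (Pot_convexOn hU) hU.cd.continuous.measurable (Pot_integrable hU σ)

/-- The coarse Hessian is nonnegative. -/
theorem Pot_hess_Ub_nonneg (hU : Pot h U) (hc : ContDiff ℝ 2 (Ub U σ)) (x v : V) :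
    0 ≤ iteratedFDeriv ℝ 2 (Ub U σ) x ![v, v] :=
  hess_nonneg_of_convexOn hc (Pot_Ub_convexOn hU σ) x v

/-- The coarse gradient is monotone. -/
theorem Pot_G_mono (hU : Pot h U) (hd : Differentiable ℝ (Ub U σ)) (x y : V) :
    0 ≤ inner ℝ (G U σ x - G U σ y) (x - y) := by
  have hc := Pot_Ub_convexOn hU σ
  have hx := (hd x).hasGradientAt.hasFDerivAt
  have hy := (hd y).hasGradientAt.hasFDerivAt
  have h1 := tangent_le hc hx y
  have h2 := tangent_le hc hy x
  rw [InnerProductSpace.toDual_apply_apply] at h1 h2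
  have e : inner ℝ (G U σ x - G U σ y) (x - y)
      = -(inner ℝ (gradient (Ub U σ) x) (y - x)) - inner ℝ (gradient (Ub U σ) y) (x - y) := by
    unfold G
    rw [inner_sub_left, ← neg_sub x y, inner_neg_right, neg_neg]
  rw [e]
  linarith

end pot

end Crest.Agent.R285.Prek
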