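import Crest.Agent.R285.Prog

/-!
Row 285 (S0430): the PROGRAM THEOREM for flat systems, with WEIGHTS `ω k > 0` of the visible vectors
in the error term (adapted from helper518's Prog.lean): the error weight is
`WtW ω c p = √d + ‖c‖ + ‖(ω k • p k)_k‖`, if the visible coefficients of the points satisfy
`LF.tot (LF.wdiv ω (pt i)) ≤ T` (`wdiv ω` divides the `k`-th visible coefficient by `ω k`).

If every call `G_{r_i}` has a robust contract at input noise `rin i` and output noise `σ i`, and the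
noise of every evaluation point is at most `rin i` (`LF.nz rc σ (pt i) ≤ rin i`), then the `G`-values,
points and the output of the `k`-th sweep are drawable, with explicit (crude) numbers of draws and
queries, Lipschitz constants and errors.
-/

set_option autoImplicit false
set_option linter.unusedSectionVars false

open MeasureTheory ProbabilityTheory
open Crest.OracleSampling (E Admissible)
open scoped NNReal

noncomputable section

namespace Crest.Agent.R285

variable {d : ℕ}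

namespace LF

/-- divide the visible coefficients by the weights -/
def wdiv {P ι : Type} (ω : P → ℝ) (f : LF P ι) : LF P ι := (f.1, fun k => f.2.1 k / ω k, f.2.2)

theorem eval_wdiv {P ι : Type} [Fintype P] [Fintype ι] {X : Type} [NormedAddCommGroup X]
    [NormedSpace ℝ X] {ω : P → ℝ} (hω : ∀ k, 0 < ω k) (c : X) (p : P → X) (g : ι → X)
    (f : LF P ι) : eval c (fun k => ω k • p k) g (wdiv ω f) = eval c p g f := by
  simp only [eval_apply, wdiv]
  congr 2
  refine Finset.sum_congr rfl fun k _ => ?_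
  rw [smul_smul, div_mul_cancel₀ _ (hω k).ne']

theorem wdiv_beta {P ι : Type} (ω : P → ℝ) (f : LF P ι) : (wdiv ω f).2.2 = f.2.2 := rfl

end LF

/-- Error weight, with weights of the visible vectors. -/
def WtW {d : ℕ} {Pt : Type} [Fintype Pt] (ω : Pt → ℝ) (c : E d) (p : Pt → E d) : ℝ :=
  √(d : ℝ) + ‖c‖ + ‖fun k => ω k • p k‖

section
variable {Pt ι : Type} [Fintype Pt] [Fintype ι] {ω : Pt → ℝ}

theorem WtW_nonneg (c : E d) (p : Pt → E d) : 0 ≤ WtW ω c p := by unfold WtW; positivity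

theorem sqrt_le_WtW (c : E d) (p : Pt → E d) : √(d : ℝ) ≤ WtW ω c p := by
  unfold WtW; have := norm_nonneg c; have := norm_nonneg (fun k => ω k • p k); linarith

theorem norm_c_le_WtW (c : E d) (p : Pt → E d) : ‖c‖ ≤ WtW ω c p := by
  unfold WtW
  have := Real.sqrt_nonneg (d : ℝ); have := norm_nonneg (fun k => ω k • p k); linarith

theorem norm_p_le_WtW (c : E d) (p : Pt → E d) (k : Pt) : ‖ω k • p k‖ ≤ WtW ω c p := by
  unfold WtW
  have := Real.sqrt_nonneg (d : ℝ); have := norm_nonneg c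
  have := norm_le_pi_norm (fun k => ω k • p k) k; linarith

/-- Growth of the exact semantic values. -/
theorem FlatSys.growthW (S : FlatSys Pt ι) {Gf : ℝ → E d → E d} {Λ T : ℝ} (hΛ : 1 ≤ Λ) (hT : 1 ≤ T)
    (hω : ∀ k, 0 < ω k)
    (hG : ∀ i x, ‖Gf (S.r i) x‖ ≤ Λ * (√(d : ℝ) + ‖x‖))
    (hS : ∀ i, LF.tot (LF.wdiv ω (S.pt i)) ≤ T)
    (c : E d) (p : Pt → E d) (k : ℕ) (i : ι) :
    ‖S.gval Gf c p k i‖ ≤ (2 * Λ * T) ^ k * WtW ω c p ∧
      ‖S.point Gf c p k i‖ ≤ T * ((2 * Λ * T) ^ k * WtW ω c p) := by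
  have hW := WtW_nonneg (ω := ω) c p
  have h2 : 1 ≤ 2 * Λ * T := by nlinarith
  have hpt : ∀ k, (∀ i, ‖S.gval Gf c p k i‖ ≤ (2 * Λ * T) ^ k * WtW ω c p) →
      ∀ i, ‖S.point Gf c p k i‖ ≤ T * ((2 * Λ * T) ^ k * WtW ω c p) := by
    intro k hk i
    have hB : WtW ω c p ≤ (2 * Λ * T) ^ k * WtW ω c p :=
      le_mul_of_one_le_left hW (one_le_pow₀ h2)
    have h3 := LF.norm_eval_le c (fun k => ω k • p k) (S.gval Gf c p k) (LF.wdiv ω (S.pt i))
      (B := (2 * Λ * T) ^ k * WtW ω c p) ((norm_c_le_WtW (ω := ω) c p).trans hB)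
      (fun k => (norm_p_le_WtW (ω := ω) c p k).trans hB) hk
    rw [LF.eval_wdiv hω] at h3
    refine h3.trans (mul_le_mul_of_nonneg_right (hS i) ?_)
    positivity
  have hg : ∀ k, ∀ i, ‖S.gval Gf c p k i‖ ≤ (2 * Λ * T) ^ k * WtW ω c p := by
    intro k
    induction k with
    | zero =>
      intro i
      simp only [FlatSys.gval_zero, Pi.zero_apply, norm_zero]
      positivity
    | succ k ih =>
      intro i
      rw [FlatSys.gval_succ]
      refine (hG i _).trans ?_
      have h4 := hpt k ih i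
      have hB : WtW ω c p ≤ (2 * Λ * T) ^ k * WtW ω c p :=
        le_mul_of_one_le_left hW (one_le_pow₀ h2)
      have h5 : WtW ω c p ≤ T * ((2 * Λ * T) ^ k * WtW ω c p) :=
        hB.trans (le_mul_of_one_le_left (by positivity) hT)
      have h6 : √(d : ℝ) + ‖S.point Gf c p k i‖ ≤ 2 * (T * ((2 * Λ * T) ^ k * WtW ω c p)) := by
        have := sqrt_le_WtW (ω := ω) c p; linarith
      calc Λ * (√(d : ℝ) + ‖S.point Gf c p k i‖)
          ≤ Λ * (2 * (T * ((2 * Λ * T) ^ k * WtW ω c p))) :=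
            mul_le_mul_of_nonneg_left h6 (by linarith)
        _ = (2 * Λ * T) ^ (k + 1) * WtW ω c p := by ring
  exact ⟨hg k i, hpt k (hg k) i⟩

/-- Data of the program theorem (calls inside the sweeps). -/
structure ProgDataW (d : ℕ) (S : FlatSys Pt ι) (ω : Pt → ℝ) (rc : ℝ) (σ rin : ι → ℝ) (N' q' : ℕ) (L' : ℝ≥0)
    (D' Λ : ℝ) (T : ℝ≥0) (b : ℝ) : Prop where
  rc0 : 0 ≤ rc
  ω0 : ∀ k, 0 < ω k
  totw : ∀ i, LF.tot (LF.wdiv ω (S.pt i)) ≤ T
  σ0 : ∀ i, 0 ≤ σ i
  N1 : 1 ≤ N'
  D0 : 0 ≤ D'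
  Λ1 : 1 ≤ Λ
  T1 : 1 ≤ T
  b0 : 0 ≤ b
  bT : b ≤ T
  growth : ∀ V : E d → ℝ, Admissible d V → ∀ i x, ‖G V (S.r i) x‖ ≤ Λ * (√(d : ℝ) + ‖x‖)
  tot : ∀ i, LF.tot (S.pt i) ≤ T
  bet : ∀ i, ∑ j, |(S.pt i).2.2 j| ≤ b
  margin : ∀ i, LF.nz rc σ (S.pt i) ≤ rin i
  con : ∀ i, Con (d := d) (rin i) N' q' L' (fun V c => gN (G V (S.r i) c) (σ i)) D'

variable {S : FlatSys Pt ι} {rc : ℝ} {σ rin : ι → ℝ} {N' q' : ℕ} {L' : ℝ≥0}
    {D' Λ : ℝ} {T : ℝ≥0} {b : ℝ}

namespace ProgDataW

theorem q1 (h : ProgDataW d S ω rc σ rin N' q' L' D' Λ T b) : 1 ≤ QQ Λ T L' N' := by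
  unfold QQ
  have h1 := h.Λ1
  have h2 : (1 : ℝ) ≤ T := by exact_mod_cast h.T1
  have h3 : (1 : ℝ) ≤ N' := by exact_mod_cast h.N1
  have h4 : (0 : ℝ) ≤ L' := L'.2
  have : 1 ≤ Λ * T := by nlinarith
  have : 1 ≤ Λ * T * N' := by nlinarith
  nlinarith

theorem q2 (h : ProgDataW d S ω rc σ rin N' q' L' D' Λ T b) : 2 * Λ * T ≤ QQ Λ T L' N' := by
  unfold QQ
  have h1 := h.Λ1
  have h2 : (1 : ℝ) ≤ T := by exact_mod_cast h.T1
  have h3 : (1 : ℝ) ≤ N' := by exact_mod_cast h.N1
  have h4 : (0 : ℝ) ≤ L' := L'.2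
  have h5 : 0 ≤ Λ * T := by positivity
  have h6 : 1 ≤ N' * ((L' : ℝ) + 1) := by nlinarith
  calc 2 * Λ * T = 2 * (Λ * T) * 1 := by ring
    _ ≤ 2 * (Λ * T) * (N' * ((L' : ℝ) + 1)) := mul_le_mul_of_nonneg_left h6 (by positivity)
    _ ≤ 4 * Λ * T * N' * (L' + 1) := by nlinarith [mul_nonneg h5 (by positivity : (0:ℝ) ≤ N' * ((L' : ℝ) + 1))]

theorem q3 (h : ProgDataW d S ω rc σ rin N' q' L' D' Λ T b) :
    N' * (L' * b) + 2 * T ≤ QQ Λ T L' N' := by
  unfold QQ
  have h1 := h.Λ1
  have h2 : (1 : ℝ) ≤ T := by exact_mod_cast h.T1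
  have h3 : (1 : ℝ) ≤ N' := by exact_mod_cast h.N1
  have h4 : (0 : ℝ) ≤ L' := L'.2
  have hb := h.bT
  have hT0 : (0 : ℝ) ≤ T := by linarith
  have e1 : N' * (L' * b) ≤ T * N' * L' := by
    have : (L' : ℝ) * b ≤ L' * T := mul_le_mul_of_nonneg_left hb h4
    nlinarith
  have e2 : T * N' * L' + 2 * T ≤ 4 * (T * N' * (L' + 1)) := by
    have : (T : ℝ) ≤ T * N' := by nlinarith
    nlinarith [mul_nonneg (mul_nonneg hT0 (by linarith : (0:ℝ) ≤ N')) h4]
  have e3 : 4 * (T * N' * ((L' : ℝ) + 1)) ≤ 4 * Λ * T * N' * (L' + 1) := by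
    have : 0 ≤ T * N' * ((L' : ℝ) + 1) := by positivity
    nlinarith
  linarith

/-- **Program theorem**, calls inside the sweeps. -/
theorem gval (h : ProgDataW d S ω rc σ rin N' q' L' D' Λ T b) (k : ℕ) (i : ι) :
    Draw (d := d) (P := Pt → E d) rc ((N' * (1 + Fintype.card ι)) ^ k)
      (q' * (N' * (1 + Fintype.card ι)) ^ k) ((2 * (L' + 1) * T) ^ k) (σ i)
      (fun V c p => S.gval (G V) c p k i)
      (fun c p => D' * QQ Λ T L' N' ^ k * WtW ω c p) := by
  have hT1 := h.T1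
  induction k generalizing i with
  | zero =>
    refine ((Draw.zero (d := d) (P := Pt → E d) (rc := rc) (N := 1) (q := q') (L := 1)
      (h.σ0 i)).mono (by simp) (by simp) (by simp) (fun c p => ?_)).congr (fun V _ c p => ?_)
    · have := WtW_nonneg (ω := ω) c p
      have := h.D0
      simp only [pow_zero, mul_one]; positivity
    · rfl
  | succ k ih =>
    have hf := Draw.form h.rc0 h.σ0 ih (S.pt i) (h.margin i)
      (T := T) (h.tot i)
    have hg : ∀ V : E d → ℝ, Admissible d V → ∀ c (p : Pt → E d),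
        ‖LF.eval c p (S.gval (G V) c p k) (S.pt i)‖ ≤ T * ((2 * Λ * T) ^ k * WtW ω c p) :=
      fun V hV c p => (S.growthW h.Λ1 (by exact_mod_cast hT1) h.ω0 (h.growth V hV) h.totw c p k i).2
    have hc := Draw.call (h.con i) h.D0 hf hg
    refine (hc.mono ?_ ?_ ?_ (fun c p => ?_)).congr (fun V _ c p => ?_)
    · -- number of draws
      rw [pow_succ, Nat.mul_comm ((N' * (1 + Fintype.card ι)) ^ k)]
      calc N' * (1 + Fintype.card ι * (N' * (1 + Fintype.card ι)) ^ k)
          ≤ N' * ((N' * (1 + Fintype.card ι)) ^ k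
              + Fintype.card ι * (N' * (1 + Fintype.card ι)) ^ k) := by
            gcongr
            exact Nat.one_le_pow _ _ (Nat.mul_pos h.N1 (by omega))
        _ = N' * (1 + Fintype.card ι) * (N' * (1 + Fintype.card ι)) ^ k := by ring
    · rw [pow_succ]
      have hB : 1 ≤ (N' * (1 + Fintype.card ι)) ^ k :=
        Nat.one_le_pow _ _ (Nat.mul_pos h.N1 (by omega))
      have hN := h.N1
      calc N' * (Fintype.card ι * (q' * (N' * (1 + Fintype.card ι)) ^ k)) + q'
          ≤ N' * (Fintype.card ι * (q' * (N' * (1 + Fintype.card ι)) ^ k))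
            + N' * (q' * (N' * (1 + Fintype.card ι)) ^ k) := by
              refine Nat.add_le_add_left ?_ _
              calc q' = 1 * (q' * 1) := by ring
                _ ≤ N' * (q' * (N' * (1 + Fintype.card ι)) ^ k) := by gcongr
        _ = q' * ((N' * (1 + Fintype.card ι)) ^ k * (N' * (1 + Fintype.card ι))) := by ring
    · -- Lipschitz constants
      have h1 : (1 : ℝ≥0) ≤ (2 * (L' + 1) * T) ^ k := by
        refine one_le_pow₀ ?_
        calc (1 : ℝ≥0) ≤ 2 * (0 + 1) * 1 := by norm_num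
          _ ≤ 2 * (L' + 1) * T := by gcongr; exact zero_le
      rw [pow_succ]
      calc L' * (T * (1 + (2 * (L' + 1) * T) ^ k))
          ≤ (L' + 1) * (T * ((2 * (L' + 1) * T) ^ k + (2 * (L' + 1) * T) ^ k)) := by
            gcongr
            exact le_self_add
        _ = (2 * (L' + 1) * T) ^ k * (2 * (L' + 1) * T) := by ring
    · -- errors
      have hW := WtW_nonneg (ω := ω) c p
      have hD := h.D0
      have hQ1 := h.q1
      have hQ2 := h.q2
      have hQ3 := h.q3
      have hT : (1 : ℝ) ≤ T := by exact_mod_cast hT1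
      have hL : (0 : ℝ) ≤ L' := L'.2
      have hΛ := h.Λ1
      have h2 : 1 ≤ 2 * Λ * T := by nlinarith
      have hpw : (2 * Λ * T) ^ k ≤ QQ Λ T L' N' ^ k := pow_le_pow_left₀ (by linarith) hQ2 k
      have hQk : 1 ≤ QQ Λ T L' N' ^ k := one_le_pow₀ hQ1
      have e1 : √(d : ℝ) + T * ((2 * Λ * T) ^ k * WtW ω c p)
          ≤ 2 * T * (QQ Λ T L' N' ^ k * WtW ω c p) := by
        have a1 := sqrt_le_WtW (ω := ω) c p
        have a2 : WtW ω c p ≤ T * (QQ Λ T L' N' ^ k * WtW ω c p) :=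
          calc WtW ω c p = 1 * (1 * WtW ω c p) := by ring
            _ ≤ T * (QQ Λ T L' N' ^ k * WtW ω c p) := by gcongr
        have a3 : T * ((2 * Λ * T) ^ k * WtW ω c p) ≤ T * (QQ Λ T L' N' ^ k * WtW ω c p) := by gcongr
        linarith
      have e2 : (∑ j, |(S.pt i).2.2 j|) * (D' * QQ Λ T L' N' ^ k * WtW ω c p)
          ≤ b * (D' * QQ Λ T L' N' ^ k * WtW ω c p) :=
        mul_le_mul_of_nonneg_right (h.bet i) (by positivity)
      calc N' * (L' * ((∑ j, |(S.pt i).2.2 j|) * (D' * QQ Λ T L' N' ^ k * WtW ω c p)))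
            + D' * (√(d : ℝ) + T * ((2 * Λ * T) ^ k * WtW ω c p))
          ≤ N' * (L' * (b * (D' * QQ Λ T L' N' ^ k * WtW ω c p)))
            + D' * (2 * T * (QQ Λ T L' N' ^ k * WtW ω c p)) := by gcongr
        _ = (D' * QQ Λ T L' N' ^ k * WtW ω c p) * (N' * (L' * b) + 2 * T) := by ring
        _ ≤ (D' * QQ Λ T L' N' ^ k * WtW ω c p) * QQ Λ T L' N' :=
            mul_le_mul_of_nonneg_left hQ3 (by positivity)
        _ = D' * QQ Λ T L' N' ^ (k + 1) * WtW ω c p := by ring
    · rfl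

/-- The evaluation points of sweep `k` are drawable. -/
theorem point (h : ProgDataW d S ω rc σ rin N' q' L' D' Λ T b) (k : ℕ) (i : ι) {r : ℝ}
    (hr : LF.nz rc σ (S.pt i) ≤ r) :
    Draw (d := d) (P := Pt → E d) rc (1 + Fintype.card ι * (N' * (1 + Fintype.card ι)) ^ k)
      (Fintype.card ι * (q' * (N' * (1 + Fintype.card ι)) ^ k)) (T * (1 + (2 * (L' + 1) * T) ^ k)) r
      (fun V c p => S.point (G V) c p k i)
      (fun c p => b * (D' * QQ Λ T L' N' ^ k * WtW ω c p)) := by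
  refine ((Draw.form h.rc0 h.σ0 (h.gval k) (S.pt i) hr (T := T) (h.tot i)).mono le_rfl le_rfl
    le_rfl (fun c p => ?_)).congr (fun V _ c p => rfl)
  have := WtW_nonneg (ω := ω) c p
  have := h.D0
  have := h.q1
  refine mul_le_mul_of_nonneg_right (h.bet i) ?_
  have : 0 ≤ QQ Λ T L' N' ^ k := by positivity
  positivity

/-- **Program theorem**, output: the calls of the output may have their own contracts (`σo`, `D''`),
needed only where the output uses them. -/
theorem outv (h : ProgDataW d S ω rc σ rin N' q' L' D' Λ T b) {σo : ι → ℝ} {D'' bo r : ℝ} {To : ℝ≥0}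
    (hσo : ∀ i, 0 ≤ σo i) (hD'' : 0 ≤ D'')
    (hTo : LF.tot S.out ≤ To) (hbo : ∑ j, |S.out.2.2 j| ≤ bo)
    (hcon : ∀ i, S.out.2.2 i ≠ 0 →
      Con (d := d) (rin i) N' q' L' (fun V c => gN (G V (S.r i) c) (σo i)) D'')
    (hr : LF.nz rc σo S.out ≤ r) (k : ℕ) :
    Draw (d := d) (P := Pt → E d) rc (1 + Fintype.card ι * (N' * (1 + Fintype.card ι)) ^ (k + 1))
      (Fintype.card ι * (q' * (N' * (1 + Fintype.card ι)) ^ (k + 1)))
      (To * (1 + (2 * (L' + 1) * T) ^ (k + 1))) r
      (fun V c p => S.outv (G V) c p (k + 1))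
      (fun c p => bo * (N' * L' * (b * (D' * QQ Λ T L' N' ^ k))
        + D'' * (2 * T * (2 * Λ * T) ^ k)) * WtW ω c p) := by
  classical
  have hT1 := h.T1
  -- the values used by the output
  set g : (E d → ℝ) → E d → (Pt → E d) → ι → E d := fun V c p i =>
    if S.out.2.2 i = 0 then 0 else S.gval (G V) c p (k + 1) i with hg
  have key : ∀ i, Draw (d := d) (P := Pt → E d) rc ((N' * (1 + Fintype.card ι)) ^ (k + 1))
      (q' * (N' * (1 + Fintype.card ι)) ^ (k + 1)) ((2 * (L' + 1) * T) ^ (k + 1)) (σo i)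
      (fun V c p => g V c p i)
      (fun c p => (N' * L' * (b * (D' * QQ Λ T L' N' ^ k))
        + D'' * (2 * T * (2 * Λ * T) ^ k)) * WtW ω c p) := by
    intro i
    have hQ1 := h.q1
    by_cases hi : S.out.2.2 i = 0
    · refine ((Draw.zero (d := d) (P := Pt → E d) (rc := rc) (hσo i)).mono
        le_rfl le_rfl le_rfl (fun c p => ?_)).congr (fun V _ c p => ?_)
      · have := WtW_nonneg (ω := ω) c p
        have := h.D0
        have := h.b0
        have := h.Λ1
        positivity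
      · simp [hg, hi]
    · have hf := h.point k i (h.margin i)
      have hgr : ∀ V : E d → ℝ, Admissible d V → ∀ c (p : Pt → E d),
          ‖S.point (G V) c p k i‖ ≤ T * ((2 * Λ * T) ^ k * WtW ω c p) :=
        fun V hV c p => (S.growthW h.Λ1 (by exact_mod_cast hT1) h.ω0 (h.growth V hV) h.totw c p k i).2
      have hc := Draw.call (hcon i hi) hD'' hf hgr
      refine (hc.mono ?_ ?_ ?_ (fun c p => ?_)).congr (fun V _ c p => ?_)
      · rw [pow_succ, Nat.mul_comm ((N' * (1 + Fintype.card ι)) ^ k)]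
        calc N' * (1 + Fintype.card ι * (N' * (1 + Fintype.card ι)) ^ k)
            ≤ N' * ((N' * (1 + Fintype.card ι)) ^ k
                + Fintype.card ι * (N' * (1 + Fintype.card ι)) ^ k) := by
              gcongr
              exact Nat.one_le_pow _ _ (Nat.mul_pos h.N1 (by omega))
          _ = N' * (1 + Fintype.card ι) * (N' * (1 + Fintype.card ι)) ^ k := by ring
      · rw [pow_succ]
        have hB : 1 ≤ (N' * (1 + Fintype.card ι)) ^ k :=
          Nat.one_le_pow _ _ (Nat.mul_pos h.N1 (by omega))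
        have hN := h.N1
        calc N' * (Fintype.card ι * (q' * (N' * (1 + Fintype.card ι)) ^ k)) + q'
            ≤ N' * (Fintype.card ι * (q' * (N' * (1 + Fintype.card ι)) ^ k))
              + N' * (q' * (N' * (1 + Fintype.card ι)) ^ k) := by
                refine Nat.add_le_add_left ?_ _
                calc q' = 1 * (q' * 1) := by ring
                  _ ≤ N' * (q' * (N' * (1 + Fintype.card ι)) ^ k) := by gcongr
          _ = q' * ((N' * (1 + Fintype.card ι)) ^ k * (N' * (1 + Fintype.card ι))) := by ring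
      · have h1 : (1 : ℝ≥0) ≤ (2 * (L' + 1) * T) ^ k := by
          refine one_le_pow₀ ?_
          calc (1 : ℝ≥0) ≤ 2 * (0 + 1) * 1 := by norm_num
            _ ≤ 2 * (L' + 1) * T := by gcongr; exact zero_le
        rw [pow_succ]
        calc L' * (T * (1 + (2 * (L' + 1) * T) ^ k))
            ≤ (L' + 1) * (T * ((2 * (L' + 1) * T) ^ k + (2 * (L' + 1) * T) ^ k)) := by
              gcongr
              exact le_self_add
          _ = (2 * (L' + 1) * T) ^ k * (2 * (L' + 1) * T) := by ring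
      · have hW := WtW_nonneg (ω := ω) c p
        have hT : (1 : ℝ) ≤ T := by exact_mod_cast hT1
        have hΛ := h.Λ1
        have h2 : 1 ≤ 2 * Λ * T := by nlinarith
        have e1 : √(d : ℝ) + T * ((2 * Λ * T) ^ k * WtW ω c p)
            ≤ 2 * T * (2 * Λ * T) ^ k * WtW ω c p := by
          have a1 := sqrt_le_WtW (ω := ω) c p
          have a2 : WtW ω c p ≤ T * ((2 * Λ * T) ^ k * WtW ω c p) :=
            calc WtW ω c p = 1 * (1 * WtW ω c p) := by ring
              _ ≤ T * ((2 * Λ * T) ^ k * WtW ω c p) := by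
                gcongr; exact one_le_pow₀ h2
          nlinarith
        calc N' * (L' * (b * (D' * QQ Λ T L' N' ^ k * WtW ω c p)))
              + D'' * (√(d : ℝ) + T * ((2 * Λ * T) ^ k * WtW ω c p))
            ≤ N' * (L' * (b * (D' * QQ Λ T L' N' ^ k * WtW ω c p)))
              + D'' * (2 * T * (2 * Λ * T) ^ k * WtW ω c p) := by gcongr
          _ = _ := by ring
      · simp only [hg, hi, if_false]
        rfl
  have hfin := Draw.form h.rc0 hσo key S.out hr (T := To) hTo
  refine (hfin.mono le_rfl le_rfl le_rfl (fun c p => ?_)).congr (fun V _ c p => ?_)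
  · have hW := WtW_nonneg (ω := ω) c p
    have hQ1 := h.q1
    have := h.D0
    have := h.b0
    have := h.Λ1
    rw [mul_assoc bo]
    refine mul_le_mul_of_nonneg_right hbo ?_
    positivity
  · unfold FlatSys.outv
    simp only [LF.eval_apply]
    congr 1
    refine Finset.sum_congr rfl fun i _ => ?_
    by_cases hi : S.out.2.2 i = 0
    · simp [hi]
    · simp [hg, hi]

end ProgDataW

end

end Crest.Agent.R285
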