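import Crest.Agent.R285.Unroll
import Crest.Agent.R285.ProgW

/-!
Row 285 (S0430): the program theorem (with weights) for the unrolled system.
-/

set_option autoImplicit false
set_option linter.unusedSectionVars false

open MeasureTheory ProbabilityTheory
open Crest.OracleSampling (E Admissible)
open scoped NNReal

noncomputable section

namespace Crest.Agent.R285

theorem LF.tot_wdiv_start_le' {P ι ι' : Type} [Fintype P] [Fintype ι] [Fintype ι'] [DecidableEq P]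
    {θ : ℝ} (hθ : |θ| ≤ 1) {z : P} {ω : P → ℝ} (hω : ∀ k, 0 < ω k) (hz : θ = 0 ∨ 1 ≤ ω z)
    (f : LF P ι) : LF.tot (LF.wdiv ω (LF.start (ι' := ι') θ z f)) ≤ LF.tot (LF.wdiv ω f) := by
  simp only [LF.tot, LF.wdiv, LF.start, Pi.add_apply, Pi.zero_apply, abs_zero,
    Finset.sum_const_zero, add_zero]
  have h1 : ∑ k, |(f.2.1 k + (Pi.single z (θ * ∑ j, f.2.2 j) : P → ℝ) k) / ω k|
      ≤ ∑ k, |f.2.1 k / ω k| + ∑ k, |(Pi.single z (θ * ∑ j, f.2.2 j) : P → ℝ) k / ω k| := by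
    rw [← Finset.sum_add_distrib]
    refine Finset.sum_le_sum fun k _ => ?_
    rw [add_div]
    exact abs_add_le _ _
  have h2 : ∑ k, |(Pi.single z (θ * ∑ j, f.2.2 j) : P → ℝ) k / ω k| = |θ * ∑ j, f.2.2 j| / ω z := by
    rw [Finset.sum_eq_single z]
    · rw [Pi.single_eq_same, abs_div, abs_of_pos (hω z)]
    · intro b _ hb; rw [Pi.single_eq_of_ne hb, zero_div, abs_zero]
    · intro h; exact absurd (Finset.mem_univ z) h
  have h3 : |∑ j, f.2.2 j| ≤ ∑ j, |f.2.2 j| := Finset.abs_sum_le_sum_abs _ _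
  have h4 : |θ * ∑ j, f.2.2 j| / ω z ≤ |∑ j, f.2.2 j| := by
    rcases hz with rfl | hz
    · simp
    · rw [abs_mul]
      refine (div_le_self (by positivity) hz).trans ?_
      exact mul_le_of_le_one_left (abs_nonneg _) hθ
  linarith

section prog

variable {d : ℕ} {Pt ι : Type} [Fintype Pt] [Fintype ι] [DecidableEq Pt] {S : FlatSys Pt ι}
    {ω : Pt → ℝ} {rc : ℝ} {σ rin : ι → ℝ} {N' q' : ℕ} {L' : ℝ≥0} {D' Λ : ℝ} {T : ℝ≥0} {b : ℝ}

theorem ProgDataW.unroll' (h : ProgDataW d S ω rc σ rin N' q' L' D' Λ T b) {θ : ℝ} (hθ : |θ| ≤ 1)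
    {z : Pt} (hz : θ = 0 ∨ 1 ≤ ω z) (K : ℕ) :
    ProgDataW d (S.unroll θ z K) ω rc (fun x => σ x.2) (fun x => rin x.2) N' q' L' D' Λ T b where
  rc0 := h.rc0
  ω0 := h.ω0
  totw x := by
    obtain ⟨k, i⟩ := x
    rcases Fin.eq_zero_or_eq_succ k with rfl | ⟨j, rfl⟩
    · rw [FlatSys.unroll_pt_zero]
      exact (LF.tot_wdiv_start_le' hθ h.ω0 hz _).trans (h.totw i)
    · rw [FlatSys.unroll_pt_succ]
      have e : LF.wdiv ω (LF.lift j.castSucc (S.pt i)) = LF.lift j.castSucc (LF.wdiv ω (S.pt i)) :=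
        rfl
      rw [e, LF.tot_lift]
      exact h.totw i
  σ0 x := h.σ0 x.2
  N1 := h.N1
  D0 := h.D0
  Λ1 := h.Λ1
  T1 := h.T1
  b0 := h.b0
  bT := h.bT
  growth V hV x := h.growth V hV x.2
  tot x := by
    obtain ⟨k, i⟩ := x
    rcases Fin.eq_zero_or_eq_succ k with rfl | ⟨j, rfl⟩
    · rw [FlatSys.unroll_pt_zero]; exact (LF.tot_start_le hθ z _).trans (h.tot i)
    · rw [FlatSys.unroll_pt_succ, LF.tot_lift]; exact h.tot i
  bet x := by
    obtain ⟨k, i⟩ := x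
    rcases Fin.eq_zero_or_eq_succ k with rfl | ⟨j, rfl⟩
    · rw [FlatSys.unroll_pt_zero]
      simp only [LF.start, Pi.zero_apply, abs_zero, Finset.sum_const_zero]
      exact h.b0
    · rw [FlatSys.unroll_pt_succ, LF.sum_abs_lift]; exact h.bet i
  margin x := by
    obtain ⟨k, i⟩ := x
    rcases Fin.eq_zero_or_eq_succ k with rfl | ⟨j, rfl⟩
    · rw [FlatSys.unroll_pt_zero]; exact (LF.nz_start_le θ z _ _ σ _).trans (h.margin i)
    · rw [FlatSys.unroll_pt_succ, LF.nz_lift]; exact h.margin i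
  con x := h.con x.2

/-- **Program theorem**, output after `K + 1` sweeps from the start `g_i = θ • p z`. -/
theorem ProgDataW.outF' (h : ProgDataW d S ω rc σ rin N' q' L' D' Λ T b) {θ : ℝ} (hθ : |θ| ≤ 1)
    {z : Pt} (hz : θ = 0 ∨ 1 ≤ ω z) (K : ℕ)
    {σo : ι → ℝ} {D'' bo r : ℝ} {To : ℝ≥0}
    (hσo : ∀ i, 0 ≤ σo i) (hD'' : 0 ≤ D'')
    (hTo : LF.tot S.out ≤ To) (hbo : ∑ j, |S.out.2.2 j| ≤ bo)
    (hcon : ∀ i, S.out.2.2 i ≠ 0 →
      Con (d := d) (rin i) N' q' L' (fun V c => gN (G V (S.r i) c) (σo i)) D'')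
    (hr : LF.nz rc σo S.out ≤ r) :
    Draw (d := d) (P := Pt → E d) rc
      (1 + ((K + 1) * Fintype.card ι) * (N' * (1 + (K + 1) * Fintype.card ι)) ^ (K + 1))
      (((K + 1) * Fintype.card ι) * (q' * (N' * (1 + (K + 1) * Fintype.card ι)) ^ (K + 1)))
      (To * (1 + (2 * (L' + 1) * T) ^ (K + 1))) r
      (fun V c p => S.outF (G V) c p (fun _ => θ • p z) (K + 1))
      (fun c p => bo * (N' * L' * (b * (D' * QQ Λ T L' N' ^ K))
        + D'' * (2 * T * (2 * Λ * T) ^ K)) * WtW ω c p) := by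
  have h1 := (h.unroll' hθ hz K).outv (σo := fun x => σo x.2) (D'' := D'') (bo := bo) (r := r)
    (To := To)
    (fun x => hσo x.2) hD''
    (by change LF.tot (LF.lift (Fin.last K) S.out) ≤ _; rw [LF.tot_lift]; exact hTo)
    (by change ∑ j, |(LF.lift (Fin.last K) S.out).2.2 j| ≤ _; rw [LF.sum_abs_lift]; exact hbo)
    (fun x hx => hcon x.2 fun h0 => hx (by
      change (LF.lift (Fin.last K) S.out).2.2 x = 0
      simp [LF.lift, h0]))
    (by change LF.nz rc _ (LF.lift (Fin.last K) S.out) ≤ _; rw [LF.nz_lift]; exact hr) K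
  have hc : Fintype.card (Fin (K + 1) × ι) = (K + 1) * Fintype.card ι := by simp
  rw [hc] at h1
  exact h1.congr fun V _ c p => S.outv_unroll θ z K (G V) c p

end prog

end Crest.Agent.R285
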