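import Crest.Agent.R285.SemQDef
import Crest.Agent.R285.UnrollW

/-!
Row 285 (S0430): the UNROLLED Q-system (start `g_i = θ • X₁`) and the draw of its output.

`θ = 1`, `w = 1` if `σb ≤ 1`;  `θ = 0`, `w = σb⁻¹` if `σb > 1`.
-/

set_option autoImplicit false
set_option linter.unusedSectionVars false

open MeasureTheory ProbabilityTheory
open Crest.OracleSampling (E Admissible)
open scoped NNReal

noncomputable section

namespace Crest.Agent.R285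

open Crest.Agent.R285.Num

section prog

variable {d : ℕ} {Pt ι : Type} [Fintype Pt] [Fintype ι] [DecidableEq Pt] {S : FlatSys Pt ι}
    {ω : Pt → ℝ} {rc : ℝ}
    {σ rin : ι → ℝ} {N' q' : ℕ} {L' : ℝ≥0} {D' Λ : ℝ} {T : ℝ≥0} {b : ℝ}

/-- **Output of the unrolled system**, averaged over four draws of the hidden vector. -/
theorem ProgDataW.outv_unroll (h : ProgDataW d S ω rc σ rin N' q' L' D' Λ T b) {θ : ℝ}
    (hθ : |θ| ≤ 1) (z : Pt) (hz : θ = 0 ∨ 1 ≤ ω z) (K : ℕ)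
    {σo D'' bo r : ℝ} {To : ℝ≥0} (hσo : 0 ≤ σo) (hD'' : 0 ≤ D'')
    (hTo : LF.tot S.out ≤ To) (hbo : ∑ j, |S.out.2.2 j| ≤ bo)
    (hcon : ∀ i, Con (d := d) (rin i) N' q' L' (fun V c => gN (G V (S.r i) c) σo) D'')
    (hr : LF.nz rc (fun _ => σo) S.out ≤ r) {B : ℕ} (hB : 1 + (K + 1) * Fintype.card ι ≤ B) :
    Draw (d := d) (P := Pt → E d) (2 * rc) (4 * (B * (N' * B) ^ (K + 1)))
      (B * (q' * (N' * B) ^ (K + 1))) (To * (1 + (2 * (L' + 1) * T) ^ (K + 1))) r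
      (fun V c p => (S.unroll θ z K).outv (G V) c p (K + 1))
      (fun c p => bo * (N' * L' * (b * (D' * QQ Λ T L' N' ^ K))
        + D'' * (2 * T * (2 * Λ * T) ^ K)) * WtW ω c p) := by
  have hcard : Fintype.card (Fin (K + 1) × ι) = (K + 1) * Fintype.card ι := by
    rw [Fintype.card_prod, Fintype.card_fin]
  have hc : 1 + Fintype.card (Fin (K + 1) × ι) ≤ B := by rw [hcard]; exact hB
  have h1 := (h.unroll' hθ hz K).outv (σo := fun _ => σo) (D'' := D'') (bo := bo) (r := r)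
    (To := To) (fun _ => hσo) hD''
    (by
      change LF.tot (LF.lift (Fin.last K) S.out) ≤ To
      rw [LF.tot_lift]; exact hTo)
    (by
      change ∑ j, |(LF.lift (Fin.last K) S.out).2.2 j| ≤ bo
      rw [LF.sum_abs_lift]; exact hbo)
    (fun x _ => hcon x.2)
    (by
      change LF.nz rc _ (LF.lift (Fin.last K) S.out) ≤ r
      rw [LF.nz_lift]; exact hr) K
  have h2 := GD.avg4 (rc := 2 * rc) (by have := h.rc0; positivity) (by
    have e : 2 * rc / 2 = rc := by ring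
    rw [e]; exact h1.toGD)
  have h3 := GD.toDraw h2 (N := 4 * (B * (N' * B) ^ (K + 1)))
    (err' := fun c p => bo * (N' * L' * (b * (D' * QQ Λ T L' N' ^ K))
        + D'' * (2 * T * (2 * Λ * T) ^ K)) * WtW ω c p) ?_
    (fun V hV c p => le_rfl)
  · refine h3.mono le_rfl ?_ le_rfl (fun c p => le_rfl)
    have hc' : Fintype.card (Fin (K + 1) × ι) ≤ B := by omega
    gcongr
  · simp only [Fintype.card_prod, Fintype.card_fin] at hc ⊢
    have hN := h.N1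
    set m := (K + 1) * Fintype.card ι with hm
    have hB1 : 1 ≤ (N' * B) ^ (K + 1) := Nat.one_le_pow _ _ (Nat.mul_pos hN (by omega))
    have hmono : (N' * (1 + m)) ^ (K + 1) ≤ (N' * B) ^ (K + 1) := by
      gcongr
    calc (1 + m * (N' * (1 + m)) ^ (K + 1)) * 4
        ≤ ((N' * B) ^ (K + 1) + m * (N' * B) ^ (K + 1)) * 4 := by gcongr
      _ = 4 * ((1 + m) * (N' * B) ^ (K + 1)) := by ring
      _ ≤ 4 * (B * (N' * B) ^ (K + 1)) := by gcongr

end prog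

namespace QPar

variable {Q : QPar}

namespace Ok

/-- **The output of the unrolled Q-system is drawable**, hidden centre with noise `s / 4`.
`θ = 1, w = 1` (`σb ≤ 1`) or `θ = 0, w = σb⁻¹` (`σb > 1`). -/
theorem drawU {d : ℕ} (h : Q.Ok) {s σb σin σo r D' D'' Λ w θ : ℝ} {N' q' : ℕ} {L' : ℝ≥0}
    (hs : 0 < s) (hs1 : s ≤ 1) (hσb : 0 < σb) (hρ : Q.ρ = s * σb)
    (hb : Q.bq s σb ≤ 1) (hσin : 0 ≤ σin)
    (hin : σin * (cN Q.n * (s + Q.a0 / (σb * Q.k1))) ≤ Q.k1 / 16) (hN : 1 ≤ N') (hD : 0 ≤ D')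
    (hΛ : 1 ≤ Λ) (hw : 0 < w) (hw1 : s / σb ≤ w) (hθ : |θ| ≤ 1) (hθw : θ = 0 ∨ w = 1)
    (growth : ∀ V : E d → ℝ, Admissible d V → ∀ (i : QI Q.n Q.M) x,
      ‖G V (s * Q.sys.r i) x‖ ≤ Λ * (√(d : ℝ) + ‖x‖))
    (con : ∀ i : QI Q.n Q.M, Con (d := d) (s * Q.sys.r i / 4) N' q' L'
      (fun V c => gN (G V (s * Q.sys.r i) c) σin) D')
    (hσo : 0 ≤ σo) (hD'' : 0 ≤ D'') (hr : cO Q.n / (Q.a0 * Q.t0 * Q.k1) * σo ≤ r)
    (cono : ∀ i : QI Q.n Q.M, Con (d := d) (s * Q.sys.r i / 4) N' q' L'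
      (fun V c => gN (G V (s * Q.sys.r i) c) σo) D'') (K : ℕ) {B : ℕ}
    (hB : 1 + (K + 1) * (Q.M * (Q.n + 1) * (1 + (2 * Q.n + 5) * (Q.n + 2))) ≤ B)
    {bo : ℝ} (hbo : cO Q.n / (Q.a0 * Q.t0 * Q.k1) ≤ bo) {To : ℝ≥0} (hTo : 1 + bo ≤ To) :
    Draw (d := d) (P := Fin 3 → E d) (s / 4) (4 * (B * (N' * B) ^ (K + 1)))
      (B * (q' * (N' * B) ^ (K + 1))) (To * (1 + (2 * (L' + 1) * 4) ^ (K + 1))) r
      (fun V c p => ((Q.osys s).unroll θ 1 K).outv (G V) c p (K + 1))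
      (fun c p => bo * (N' * L' * (Q.bq s σb * (D' * QQ Λ 4 L' N' ^ K))
        + D'' * (2 * 4 * (2 * Λ * 4) ^ K)) * WtW (ww w) c p) := by
  have hP := h.progDataW hs hs1 hσb hρ hb hσin hin hN hD hΛ hw hw1 growth con
  have hz : θ = 0 ∨ 1 ≤ ww w 1 := by
    rcases hθw with h | h
    · exact Or.inl h
    · right; simp [ww, h]
  have h1 := hP.outv_unroll hθ 1 hz K (σo := σo) (D'' := D'') (bo := bo) (r := r) (To := To)
    hσo hD'' ((h.tot_out hs).trans (by linarith)) ((h.sum_out hs).trans hbo) cono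
    ((h.nz_out hs hσo).trans hr) (B := B) (by rw [card_QI]; exact hB)
  have e : 2 * (s / 8) = s / 4 := by ring
  rw [e] at h1
  simpa using h1

/-- weight of `X₁` -/
def _root_.Crest.Agent.R285.qww (σb : ℝ) : ℝ := if σb ≤ 1 then 1 else σb⁻¹

theorem _root_.Crest.Agent.R285.qww_pos {σb : ℝ} (h : 0 < σb) : 0 < qww σb := by
  unfold qww; split_ifs <;> positivity

theorem _root_.Crest.Agent.R285.qww_le_one (σb : ℝ) : qww σb ≤ 1 := by
  unfold qww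
  split_ifs with h
  · exact le_rfl
  · push Not at h
    exact inv_le_one_of_one_le₀ h.le

theorem _root_.Crest.Agent.R285.qww_mul_le {σb : ℝ} (h : 0 < σb) : qww σb * σb ≤ 1 := by
  unfold qww
  split_ifs with h1
  · rw [one_mul]; exact h1
  · rw [inv_mul_cancel₀ h.ne']

theorem _root_.Crest.Agent.R285.le_qww {s σb : ℝ} (hs1 : s ≤ 1) (hσb : 0 < σb)
    (h : s / σb ≤ 1) : s / σb ≤ qww σb := by
  unfold qww
  split_ifs with h1
  · exact h
  · rw [div_eq_mul_inv]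
    exact mul_le_of_le_one_left (by positivity) hs1

/-- **The semantic output `qout` is drawable** (hidden centre with noise `s / 4`), weights
`![1, qww σb, 1]`, start factor `qth σb`. -/
theorem drawQ {d : ℕ} (h : Q.Ok) {s σb σin σo r D' D'' Λ : ℝ} {N' q' : ℕ} {L' : ℝ≥0}
    (hs : 0 < s) (hs1 : s ≤ 1) (hσb : 0 < σb) (hρ : Q.ρ = s * σb)
    (hb : Q.bq s σb ≤ 1) (hσin : 0 ≤ σin)
    (hin : σin * (cN Q.n * (s + Q.a0 / (σb * Q.k1))) ≤ Q.k1 / 16) (hN : 1 ≤ N') (hD : 0 ≤ D')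
    (hΛ : 1 ≤ Λ)
    (growth : ∀ V : E d → ℝ, Admissible d V → ∀ (i : QI Q.n Q.M) x,
      ‖G V (s * Q.sys.r i) x‖ ≤ Λ * (√(d : ℝ) + ‖x‖))
    (con : ∀ i : QI Q.n Q.M, Con (d := d) (s * Q.sys.r i / 4) N' q' L'
      (fun V c => gN (G V (s * Q.sys.r i) c) σin) D')
    (hσo : 0 ≤ σo) (hD'' : 0 ≤ D'') (hr : cO Q.n / (Q.a0 * Q.t0 * Q.k1) * σo ≤ r)
    (cono : ∀ i : QI Q.n Q.M, Con (d := d) (s * Q.sys.r i / 4) N' q' L'
      (fun V c => gN (G V (s * Q.sys.r i) c) σo) D'') (K : ℕ) {B : ℕ}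
    (hB : 1 + (K + 1) * (Q.M * (Q.n + 1) * (1 + (2 * Q.n + 5) * (Q.n + 2))) ≤ B)
    {bo : ℝ} (hbo : cO Q.n / (Q.a0 * Q.t0 * Q.k1) ≤ bo) {To : ℝ≥0} (hTo : 1 + bo ≤ To) :
    Draw (d := d) (P := Fin 3 → E d) (s / 4) (4 * (B * (N' * B) ^ (K + 1)))
      (B * (q' * (N' * B) ^ (K + 1))) (To * (1 + (2 * (L' + 1) * 4) ^ (K + 1))) r
      (fun V c p => qout Q s (qth σb) K V c p)
      (fun c p => bo * (N' * L' * (Q.bq s σb * (D' * QQ Λ 4 L' N' ^ K))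
        + D'' * (2 * 4 * (2 * Λ * 4) ^ K)) * WtW (ww (qww σb)) c p) := by
  have hsb := h.s_div_le hs hσb hb
  have hθw : qth σb = 0 ∨ qww σb = 1 := by
    unfold qth qww
    split_ifs <;> simp
  exact (h.drawU hs hs1 hσb hρ hb hσin hin hN hD hΛ (qww_pos hσb) (le_qww hs1 hσb hsb)
    (qth_abs_le σb) hθw growth con hσo hD'' hr cono K hB hbo hTo).congr
      (fun V _ c p => (Q.osys s).outv_unroll (qth σb) 1 K (G V) c p)

end Ok

end QPar

end Crest.Agent.R285
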