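import Crest.Agent.R285.QFlat
import Crest.Agent.R285.ProgW
import Crest.Agent.R285.DrawAvg

/-!
Row 285 (S0430): the Q-system: contraction (rescaled units), the system in original units, noise
margins, `ProgData`, and the draw of the output.

Original units: `ρ = s σb`, visible `p = ![y₁, x₁, q]`.
-/

set_option autoImplicit false
set_option linter.unusedSectionVars false

open MeasureTheory ProbabilityTheory
open Crest.OracleSampling (E Admissible)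
open scoped NNReal

noncomputable section

namespace Crest.Agent.R285

open Crest.Agent.R285.Num

namespace QPar

variable (Q : QPar)

/-- The Q-system in original units; the output is gradient-like. -/
def osys (s : ℝ) : FlatSys (Fin 3) (QI Q.n Q.M) :=
  Q.sys.orig s (LF.a3 s) LF.e3 (LF.grd s (LF.a3 s) LF.e3 Q.sys.out)

variable {Q}

/-- Output of the system in original units, in terms of the rescaled system. -/
theorem outv_osys {d : ℕ} (s : ℝ) (V : E d → ℝ) (c : E d) (p : Fin 3 → E d) (k : ℕ) :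
    (Q.osys s).outv (G V) c p k
      = s⁻¹ • Q.sys.outv (fun r y => G (resc V c s) r y) 0
          ![s⁻¹ • (p 0 - c), s • p 1, p 2] k := by
  unfold osys
  rw [FlatSys.outv_orig_grd, LF.resc3]
  simp only [G_resc]

/-- Points of the system in original units, in terms of the rescaled system. -/
theorem point_osys {d : ℕ} (s : ℝ) (V : E d → ℝ) (c : E d) (p : Fin 3 → E d) (k : ℕ)
    (i : QI Q.n Q.M) :
    (Q.osys s).point (G V) c p k i
      = c + s • Q.sys.point (fun r y => G (resc V c s) r y) 0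
          ![s⁻¹ • (p 0 - c), s • p 1, p 2] k i := by
  unfold osys
  rw [FlatSys.point_orig, LF.resc3]
  simp only [G_resc]

theorem card_QI (n M : ℕ) :
    Fintype.card (QI n M) = M * (n + 1) * (1 + (2 * n + 5) * (n + 2)) := by
  simp only [Fintype.card_sum, Fintype.card_prod, Fintype.card_fin, Fintype.card_unit]
  ring

theorem one_le_cN (n : ℕ) : 1 ≤ cN n := by
  unfold cN
  have h1 := cW_nonneg n
  have h2 := derC_nonneg n
  have h3 := intC_nonneg (n + 2)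
  have h4 : 0 ≤ cW n * (1 + derC n) := by positivity
  have h5 : 0 ≤ cW n * derC n ^ 2 := by positivity
  have h6 : 0 ≤ intC (n + 2) * derC n := by positivity
  linarith

/-- bound of the call coefficients of the points in original units -/
def bq (Q : QPar) (s σb : ℝ) : ℝ := cN Q.n * (s ^ 2 + Q.a0 * s / (σb * Q.k1))

/-- weights of the visible vectors -/
def ww (w : ℝ) : Fin 3 → ℝ := ![1, w, 1]

namespace Ok

/-- **Contraction**, rescaled units. -/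
theorem contr (h : Q.Ok) {τ : ℝ} (hτ : 0 ≤ τ) :
    Q.sys.Contr τ (fun _ => 1) (τ * (cN Q.n * (1 + Q.a0 / (Q.ρ * Q.k1)))) where
  pos := fun _ => zero_le_one
  le := fun i => by
    rw [mul_one]
    exact mul_le_mul_of_nonneg_left (h.NN_pt i) hτ

theorem bq_nonneg (h : Q.Ok) {s σb : ℝ} (hs : 0 < s) (hσb : 0 < σb) : 0 ≤ Q.bq s σb := by
  have := (cN_pos Q.n).le
  have := h.a0
  have := h.k1_pos
  unfold bq
  positivity

/-- the size of the call coefficients in original units -/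
theorem s_sq_NN_le (h : Q.Ok) {s σb : ℝ} (hs : 0 < s) (hσb : 0 < σb) (hρ : Q.ρ = s * σb)
    (i : QI Q.n Q.M) : s ^ 2 * LF.NN (Q.sys.pt i) ≤ Q.bq s σb := by
  have h1 := mul_le_mul_of_nonneg_left (h.NN_pt i) (sq_nonneg s)
  refine h1.trans (le_of_eq ?_)
  rw [hρ]
  have := h.k1_pos.ne'
  unfold bq
  field_simp

theorem s_div_le (h : Q.Ok) {s σb : ℝ} (hs : 0 < s) (hσb : 0 < σb)
    (hb : Q.bq s σb ≤ 1) : s / σb ≤ 1 := by
  have h1 := one_le_cN Q.n
  have h2 := h.a1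
  have h3 := h.k1_pos
  have h4 := h.k1_le
  have h5 : s / σb ≤ Q.a0 * s / (σb * Q.k1) := by
    rw [div_le_div_iff₀ hσb (by positivity)]
    calc s * (σb * Q.k1) ≤ s * (σb * 1) := by gcongr
      _ = 1 * (s * σb) := by ring
      _ ≤ Q.a0 * (s * σb) := by gcongr; linarith
      _ = Q.a0 * s * σb := by ring
  have h6 : 0 ≤ Q.a0 * s / (σb * Q.k1) := by have := h.a0; positivity
  unfold bq at hb
  nlinarith [sq_nonneg s]

/-- **Noise margin**, original units: hidden centre with noise `s / 8`. -/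
theorem margin (h : Q.Ok) {s σb σin : ℝ} (hs : 0 < s) (hσb : 0 < σb) (hρ : Q.ρ = s * σb)
    (hσin : 0 ≤ σin) (hin : σin * (cN Q.n * (s + Q.a0 / (σb * Q.k1))) ≤ Q.k1 / 16)
    (i : QI Q.n Q.M) :
    LF.nz (s / 8) (fun _ => σin) ((Q.osys s).pt i) ≤ s * Q.sys.r i / 4 := by
  have h1 := LF.nz_pos3_le hs (rc := s / 8) (by positivity) (σ := fun _ => σin) (fun _ => hσin)
    (Q.sys.pt i)
  refine h1.trans ?_
  have h2 := (h.visc_pt i).1
  have h3 := h.r_ge i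
  have h4 : s / 8 / s = 1 / 8 := by field_simp
  rw [abs_of_nonneg (by linarith [h2.2.1]), h4, LF.l1_const]
  have h5 : s * σin * LF.NN (Q.sys.pt i) ≤ Q.k1 / 16 := by
    have h6 := mul_le_mul_of_nonneg_left (h.NN_pt i) (mul_nonneg hs.le hσin)
    refine (h6.trans (le_of_eq ?_)).trans hin
    rw [hρ]
    have := h.k1_pos.ne'
    field_simp
  have h7 : (1 - (Q.sys.pt i).2.1 0) * (1 / 8) + s * σin * LF.NN (Q.sys.pt i)
      ≤ Q.sys.r i / 4 := by
    have := h2.2.2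
    linarith
  calc s * _ ≤ s * (Q.sys.r i / 4) := mul_le_mul_of_nonneg_left h7 hs.le
    _ = _ := by ring

theorem visc1_osys_le (h : Q.Ok) {s σb : ℝ} (hs : 0 < s) (hσb : 0 < σb)
    (hρ : Q.ρ = s * σb) (i : QI Q.n Q.M) :
    s ^ 2 * |(Q.sys.pt i).2.1 1| ≤ s / σb := by
  have h5 := mul_le_mul_of_nonneg_left (h.visc_pt i).2.1 (sq_nonneg s)
  refine h5.trans (le_of_eq ?_)
  rw [hρ]
  field_simp

theorem tot_pt (h : Q.Ok) {s σb : ℝ} (hs : 0 < s) (hs1 : s ≤ 1) (hσb : 0 < σb)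
    (hρ : Q.ρ = s * σb) (hb : Q.bq s σb ≤ 1) (i : QI Q.n Q.M) :
    LF.tot ((Q.osys s).pt i) ≤ 4 := by
  change LF.tot (LF.pos s (LF.a3 s) LF.e3 (Q.sys.pt i)) ≤ 4
  rw [LF.tot_pos3 hs]
  have h2 := h.visc_pt i
  have h3 : s ^ 2 * ∑ i_1, |(Q.sys.pt i).2.2 i_1| ≤ 1 := by
    rw [← LF.NN_eq]
    exact (h.s_sq_NN_le hs hσb hρ i).trans hb
  have h4 := (h.visc1_osys_le hs hσb hρ i).trans (h.s_div_le hs hσb hb)
  have h5 : s * |(Q.sys.pt i).2.1 2| ≤ 1 := by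
    calc s * |(Q.sys.pt i).2.1 2| ≤ 1 * 1 := mul_le_mul hs1 h2.2.2 (abs_nonneg _) zero_le_one
      _ = 1 := one_mul _
  rw [abs_of_nonneg (by linarith [h2.1.2.1]), abs_of_nonneg h2.1.1]
  linarith

/-- total size with weights -/
theorem tot_ptW (h : Q.Ok) {s σb w : ℝ} (hs : 0 < s) (hs1 : s ≤ 1) (hσb : 0 < σb)
    (hρ : Q.ρ = s * σb) (hb : Q.bq s σb ≤ 1) (hw : 0 < w) (hw1 : s / σb ≤ w) (i : QI Q.n Q.M) :
    LF.tot (LF.wdiv (ww w) ((Q.osys s).pt i)) ≤ 4 := by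
  have h2 := h.visc_pt i
  have h3 : s ^ 2 * ∑ i_1, |(Q.sys.pt i).2.2 i_1| ≤ 1 := by
    rw [← LF.NN_eq]
    exact (h.s_sq_NN_le hs hσb hρ i).trans hb
  have h4 : s ^ 2 * |(Q.sys.pt i).2.1 1| / w ≤ 1 := by
    rw [div_le_one hw]
    exact (h.visc1_osys_le hs hσb hρ i).trans hw1
  have h5 : s * |(Q.sys.pt i).2.1 2| ≤ 1 := by
    calc s * |(Q.sys.pt i).2.1 2| ≤ 1 * 1 := mul_le_mul hs1 h2.2.2 (abs_nonneg _) zero_le_one
      _ = 1 := one_mul _
  have key : LF.tot (LF.wdiv (ww w) ((Q.osys s).pt i))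
      = |1 - (Q.sys.pt i).2.1 0| + |(Q.sys.pt i).2.1 0| + s ^ 2 * |(Q.sys.pt i).2.1 1| / w
        + s * |(Q.sys.pt i).2.1 2| + s ^ 2 * ∑ j, |(Q.sys.pt i).2.2 j| := by
    change LF.tot (LF.wdiv (ww w) (LF.pos s (LF.a3 s) LF.e3 (Q.sys.pt i))) = _
    rw [LF.tot, LF.wdiv_beta, LF.sum_call_pos, Fin.sum_univ_three]
    simp only [LF.wdiv]
    rw [LF.pos3_fst hs.ne']
    simp only [ww, LF.pos_vis, LF.a3, Matrix.cons_val_zero,
      Matrix.cons_val_one, Matrix.cons_val_two, Matrix.tail_cons, Matrix.head_cons, mul_one,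
      abs_mul, abs_of_pos hs, abs_inv, div_one, abs_div, abs_of_pos hw]
    field_simp
    ring
  rw [key, abs_of_nonneg (by linarith [h2.1.2.1]), abs_of_nonneg h2.1.1]
  linarith

theorem out_osys (h : Q.Ok) {s : ℝ} (hs : 0 < s) :
    (Q.osys s).out = (0, ![0, 1, 0], Q.sys.out.2.2) :=
  LF.grd3_out hs _ h.visc_out.1 h.visc_out.2.1 h.visc_out.2.2

theorem sum_out (h : Q.Ok) {s : ℝ} (hs : 0 < s) :
    ∑ i, |(Q.osys s).out.2.2 i| ≤ cO Q.n / (Q.a0 * Q.t0 * Q.k1) := by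
  rw [h.out_osys hs, ← LF.NN_eq]
  have := h.NN_out
  rw [LF.NN_eq] at this ⊢
  exact this

theorem tot_out (h : Q.Ok) {s : ℝ} (hs : 0 < s) :
    LF.tot (Q.osys s).out ≤ 1 + cO Q.n / (Q.a0 * Q.t0 * Q.k1) := by
  rw [h.out_osys hs, LF.tot_out3]
  have := h.NN_out
  rw [LF.NN_eq] at this
  linarith

theorem nz_out (h : Q.Ok) {s rc σo : ℝ} (hs : 0 < s) (hσo : 0 ≤ σo) :
    LF.nz rc (fun _ => σo) (Q.osys s).out ≤ cO Q.n / (Q.a0 * Q.t0 * Q.k1) * σo := by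
  rw [h.out_osys hs]
  refine (LF.nz_out3_le rc (fun _ => hσo) _).trans ?_
  rw [← Finset.sum_mul]
  have := h.NN_out
  rw [LF.NN_eq] at this
  exact mul_le_mul_of_nonneg_right this hσo

/-- **`ProgData` of the Q-system.** -/
theorem progData {d : ℕ} (h : Q.Ok) {s σb σin D' Λ : ℝ} {N' q' : ℕ} {L' : ℝ≥0} (hs : 0 < s)
    (hs1 : s ≤ 1) (hσb : 0 < σb) (hρ : Q.ρ = s * σb)
    (hb : Q.bq s σb ≤ 1) (hσin : 0 ≤ σin)
    (hin : σin * (cN Q.n * (s + Q.a0 / (σb * Q.k1))) ≤ Q.k1 / 16) (hN : 1 ≤ N') (hD : 0 ≤ D')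
    (hΛ : 1 ≤ Λ)
    (growth : ∀ V : E d → ℝ, Admissible d V → ∀ (i : QI Q.n Q.M) x,
      ‖G V (s * Q.sys.r i) x‖ ≤ Λ * (√(d : ℝ) + ‖x‖))
    (con : ∀ i : QI Q.n Q.M, Con (d := d) (s * Q.sys.r i / 4) N' q' L'
      (fun V c => gN (G V (s * Q.sys.r i) c) σin) D') :
    ProgData d (Q.osys s) (s / 8) (fun _ => σin) (fun i => s * Q.sys.r i / 4) N' q' L' D' Λ 4
      (Q.bq s σb) where
  rc0 := by positivity
  σ0 := fun _ => hσin
  N1 := hN
  D0 := hD
  Λ1 := hΛ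
  T1 := by norm_num
  b0 := h.bq_nonneg hs hσb
  bT := hb.trans (by norm_num)
  growth := growth
  tot := fun i => by
    have := h.tot_pt hs hs1 hσb hρ hb i
    simpa using this
  bet := fun i => by
    have h1 : ∑ j, |((Q.osys s).pt i).2.2 j| = s ^ 2 * LF.NN (Q.sys.pt i) := by
      rw [LF.NN_eq]
      exact LF.sum_call_pos s _ _ _
    rw [h1]
    exact h.s_sq_NN_le hs hσb hρ i
  margin := fun i => h.margin hs hσb hρ hσin hin i
  con := con

/-- **`ProgDataW` of the Q-system**, weights `![1, w, 1]`, `s / σb ≤ w ≤ 1`. -/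
theorem progDataW {d : ℕ} (h : Q.Ok) {s σb σin D' Λ w : ℝ} {N' q' : ℕ} {L' : ℝ≥0} (hs : 0 < s)
    (hs1 : s ≤ 1) (hσb : 0 < σb) (hρ : Q.ρ = s * σb)
    (hb : Q.bq s σb ≤ 1) (hσin : 0 ≤ σin)
    (hin : σin * (cN Q.n * (s + Q.a0 / (σb * Q.k1))) ≤ Q.k1 / 16) (hN : 1 ≤ N') (hD : 0 ≤ D')
    (hΛ : 1 ≤ Λ) (hw : 0 < w) (hw1 : s / σb ≤ w)
    (growth : ∀ V : E d → ℝ, Admissible d V → ∀ (i : QI Q.n Q.M) x,
      ‖G V (s * Q.sys.r i) x‖ ≤ Λ * (√(d : ℝ) + ‖x‖))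
    (con : ∀ i : QI Q.n Q.M, Con (d := d) (s * Q.sys.r i / 4) N' q' L'
      (fun V c => gN (G V (s * Q.sys.r i) c) σin) D') :
    ProgDataW d (Q.osys s) (ww w) (s / 8) (fun _ => σin) (fun i => s * Q.sys.r i / 4) N' q' L' D'
      Λ 4 (Q.bq s σb) where
  rc0 := by positivity
  ω0 := fun k => by fin_cases k <;> simp [ww, hw]
  totw := fun i => by
    have := h.tot_ptW hs hs1 hσb hρ hb hw hw1 i
    simpa using this
  σ0 := fun _ => hσin
  N1 := hN
  D0 := hD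
  Λ1 := hΛ
  T1 := by norm_num
  b0 := h.bq_nonneg hs hσb
  bT := hb.trans (by norm_num)
  growth := growth
  tot := fun i => by
    have := h.tot_pt hs hs1 hσb hρ hb i
    simpa using this
  bet := fun i => by
    have h1 : ∑ j, |((Q.osys s).pt i).2.2 j| = s ^ 2 * LF.NN (Q.sys.pt i) := by
      rw [LF.NN_eq]
      exact LF.sum_call_pos s _ _ _
    rw [h1]
    exact h.s_sq_NN_le hs hσb hρ i
  margin := fun i => h.margin hs hσb hρ hσin hin i
  con := con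

/-- **The output of the Q-system is drawable**, hidden centre with noise `s / 4`. -/
theorem draw {d : ℕ} (h : Q.Ok) {s σb σin σo r D' D'' Λ : ℝ} {N' q' : ℕ} {L' : ℝ≥0} (hs : 0 < s)
    (hs1 : s ≤ 1) (hσb : 0 < σb) (hρ : Q.ρ = s * σb)
    (hb : Q.bq s σb ≤ 1) (hσin : 0 ≤ σin)
    (hin : σin * (cN Q.n * (s + Q.a0 / (σb * Q.k1))) ≤ Q.k1 / 16) (hN : 1 ≤ N') (hD : 0 ≤ D')
    (hΛ : 1 ≤ Λ)
    (growth : ∀ V : E d → ℝ, Admissible d V → ∀ (i : QI Q.n Q.M) x,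
      ‖G V (s * Q.sys.r i) x‖ ≤ Λ * (√(d : ℝ) + ‖x‖))
    (con : ∀ i : QI Q.n Q.M, Con (d := d) (s * Q.sys.r i / 4) N' q' L'
      (fun V c => gN (G V (s * Q.sys.r i) c) σin) D')
    (hσo : 0 ≤ σo) (hD'' : 0 ≤ D'') (hr : cO Q.n / (Q.a0 * Q.t0 * Q.k1) * σo ≤ r)
    (cono : ∀ i : QI Q.n Q.M, Con (d := d) (s * Q.sys.r i / 4) N' q' L'
      (fun V c => gN (G V (s * Q.sys.r i) c) σo) D'') (K : ℕ) {B : ℕ}
    (hB : 1 + Fintype.card (QI Q.n Q.M) ≤ B) {bo : ℝ} (hbo : cO Q.n / (Q.a0 * Q.t0 * Q.k1) ≤ bo)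
    {To : ℝ≥0} (hTo : 1 + bo ≤ To) :
    Draw (d := d) (P := Fin 3 → E d) (s / 4) (4 * (B * (N' * B) ^ (K + 1)))
      (B * (q' * (N' * B) ^ (K + 1))) (To * (1 + (2 * (L' + 1) * 4) ^ (K + 1))) r
      (fun V c p => (Q.osys s).outv (G V) c p (K + 1))
      (fun c p => bo * (N' * L' * (Q.bq s σb * (D' * QQ Λ 4 L' N' ^ K))
        + D'' * (2 * 4 * (2 * Λ * 4) ^ K)) * Wt c p) := by
  have hP := h.progData hs hs1 hσb hρ hb hσin hin hN hD hΛ growth con
  have h1 := hP.outv (σo := fun _ => σo) (D'' := D'') (bo := bo) (r := r) (To := To)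
    (fun _ => hσo) hD'' ((h.tot_out hs).trans (by linarith)) ((h.sum_out hs).trans hbo)
    (fun i _ => cono i) ((h.nz_out hs hσo).trans hr) K
  have h2 := GD.avg4 (rc := s / 4) (by positivity) (by
    have e : s / 4 / 2 = s / 8 := by ring
    rw [e]; exact h1.toGD)
  have h3 := GD.toDraw h2 (N := 4 * (B * (N' * B) ^ (K + 1)))
    (err' := fun c p => bo * (N' * L' * (Q.bq s σb
      * (D' * QQ Λ 4 L' N' ^ K)) + D'' * (2 * 4 * (2 * Λ * 4) ^ K)) * Wt c p) ?_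
    (fun V hV c p => le_rfl)
  · refine h3.mono le_rfl ?_ le_rfl (fun c p => le_rfl)
    have hc : Fintype.card (QI Q.n Q.M) ≤ B := by omega
    gcongr
  · simp only [Fintype.card_prod, Fintype.card_fin]
    have hc : Fintype.card (QI Q.n Q.M) ≤ B := by omega
    have hB1 : 1 ≤ (N' * B) ^ (K + 1) := Nat.one_le_pow _ _ (Nat.mul_pos hN (by omega))
    have hmono : (N' * (1 + Fintype.card (QI Q.n Q.M))) ^ (K + 1) ≤ (N' * B) ^ (K + 1) := by
      gcongr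
    calc (1 + Fintype.card (QI Q.n Q.M) * (N' * (1 + Fintype.card (QI Q.n Q.M))) ^ (K + 1)) * 4
        ≤ ((N' * B) ^ (K + 1) + Fintype.card (QI Q.n Q.M) * (N' * B) ^ (K + 1)) * 4 := by gcongr
      _ = 4 * ((1 + Fintype.card (QI Q.n Q.M)) * (N' * B) ^ (K + 1)) := by ring
      _ ≤ 4 * (B * (N' * B) ^ (K + 1)) := by gcongr

end Ok

end QPar

end Crest.Agent.R285
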