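import Mathlib
import Crest.Prelude.Def_OracleSampling

/-!
Row 285 (S0430): the algorithm layer.

`IsQ q f` says that `f : potential → seed → value` can be computed, for EVERY potential `V`, with
exactly `q` adaptive value-and-gradient queries and measurable (unrestricted) computation; the seed
`ω : Ω` contains all the randomness and all the inputs.  Closure properties: measurable
pre/post-composition, pairing, one more query, sequential composition, iteration.
At the end `IsQ.toAlg` produces a `QueryAlg`.
-/

set_option autoImplicit false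

open MeasureTheory Crest.OracleSampling

namespace Crest.Agent.R285

variable {d : ℕ} {Ω Ω' β γ δ : Type} [MeasurableSpace Ω] [MeasurableSpace Ω']
  [MeasurableSpace β] [MeasurableSpace γ] [MeasurableSpace δ]

/-- The transcript of a query strategy. -/
noncomputable def trans (Q : (i : ℕ) → Ω → (Fin i → Answer d) → E d) (V : E d → ℝ) (ω : Ω) :
    (i : ℕ) → (Fin i → Answer d)
  | 0 => Fin.elim0
  | i + 1 => Fin.snoc (trans Q V ω i) (oracle V (Q i ω (trans Q V ω i)))

/-- `f` is computable with `q` adaptive queries. -/
def IsQ (q : ℕ) (f : (E d → ℝ) → Ω → β) : Prop :=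
  ∃ (Q : (i : ℕ) → Ω → (Fin i → Answer d) → E d) (O : Ω → (Fin q → Answer d) → β),
    (∀ i, Measurable (Function.uncurry (Q i))) ∧ Measurable (Function.uncurry O) ∧
      ∀ V ω, f V ω = O ω (trans Q V ω q)

/-- A query-free measurable function. -/
theorem IsQ.const {g : Ω → β} (hg : Measurable g) : IsQ (d := d) 0 (fun _ ω => g ω) :=
  ⟨fun _ _ _ => 0, fun ω _ => g ω, fun _ => measurable_const, hg.comp measurable_fst,
    fun _ _ => rfl⟩

theorem IsQ.congr {q : ℕ} {f g : (E d → ℝ) → Ω → β} (hf : IsQ q f) (h : ∀ V ω, g V ω = f V ω) :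
    IsQ q g := by
  obtain ⟨Q, O, hQ, hO, H⟩ := hf
  exact ⟨Q, O, hQ, hO, fun V ω => (h V ω).trans (H V ω)⟩

/-- Post-composition with a measurable map that may look at the seed. -/
theorem IsQ.map {q : ℕ} {f : (E d → ℝ) → Ω → β} (hf : IsQ q f) {g : Ω × β → γ}
    (hg : Measurable g) : IsQ q (fun V ω => g (ω, f V ω)) := by
  obtain ⟨Q, O, hQ, hO, H⟩ := hf
  refine ⟨Q, fun ω a => g (ω, O ω a), hQ, ?_, fun V ω => by simp only [H V ω]⟩
  exact hg.comp (measurable_fst.prodMk hO)

/-- Pre-composition with a measurable map of the seeds. -/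
theorem IsQ.comap {q : ℕ} {f : (E d → ℝ) → Ω → β} (hf : IsQ q f) {g : Ω' → Ω}
    (hg : Measurable g) : IsQ q (fun V ω => f V (g ω)) := by
  obtain ⟨Q, O, hQ, hO, H⟩ := hf
  refine ⟨fun i ω => Q i (g ω), fun ω => O (g ω), fun i => ?_, ?_, ?_⟩
  · exact (hQ i).comp ((hg.comp measurable_fst).prodMk measurable_snd)
  · exact hO.comp ((hg.comp measurable_fst).prodMk measurable_snd)
  · intro V ω
    change f V (g ω) = O (g ω) (trans (fun i ω => Q i (g ω)) V ω q)
    rw [H V (g ω)]
    congr 1
    have : ∀ i, trans Q V (g ω) i = trans (fun i ω => Q i (g ω)) V ω i := by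
      intro i
      induction i with
      | zero => rfl
      | succ i ih => simp only [trans, ih]
    exact this q

/-- Truncation of a tuple to its first `i` entries. -/
def trunc {α : Type} {n i : ℕ} (h : i ≤ n) (a : Fin n → α) : Fin i → α :=
  fun j => a (Fin.castLE h j)

theorem measurable_trunc {α : Type} [MeasurableSpace α] {n i : ℕ} (h : i ≤ n) :
    Measurable (trunc (α := α) h) :=
  measurable_pi_lambda _ fun _ => measurable_pi_apply _

/-- The tail of a tuple after its first `m` entries. -/
def tailFrom {α : Type} (m : ℕ) {n : ℕ} (a : Fin n → α) : Fin (n - m) → α :=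
  fun j => a ⟨m + j, by omega⟩

theorem measurable_tailFrom {α : Type} [MeasurableSpace α] (m : ℕ) {n : ℕ} :
    Measurable (tailFrom (α := α) m (n := n)) :=
  measurable_pi_lambda _ fun _ => measurable_pi_apply _

omit [MeasurableSpace Ω] in
theorem trans_apply_eq (Q : (i : ℕ) → Ω → (Fin i → Answer d) → E d) (V : E d → ℝ) (ω : Ω)
    {i n : ℕ} (h : i ≤ n) : trunc h (trans Q V ω n) = trans Q V ω i := by
  induction n, h using Nat.le_induction with
  | base => rfl
  | succ n hn ih =>
    rw [← ih]
    funext j
    have : Fin.castLE (Nat.le_succ_of_le hn) j = Fin.castSucc (Fin.castLE hn j) := rfl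
    simp only [trunc, trans]
    rw [this, Fin.snoc_castSucc]

/-- Sequential composition: run `f`, then run `g` on the seed and the value of `f`. -/
theorem IsQ.bind {p q : ℕ} {f : (E d → ℝ) → Ω → β} (hf : IsQ p f)
    {g : (E d → ℝ) → Ω × β → γ} (hg : IsQ q g) :
    IsQ (p + q) (fun V ω => g V (ω, f V ω)) := by
  obtain ⟨Q₁, O₁, hQ₁, hO₁, H₁⟩ := hf
  obtain ⟨Q₂, O₂, hQ₂, hO₂, H₂⟩ := hg
  -- the strategy
  let Q : (i : ℕ) → Ω → (Fin i → Answer d) → E d := fun i ω a =>
    if h : p ≤ i then Q₂ (i - p) (ω, O₁ ω (trunc h a)) (tailFrom p a) else Q₁ i ω a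
  let O : Ω → (Fin (p + q) → Answer d) → γ := fun ω a =>
    O₂ (ω, O₁ ω (trunc (Nat.le_add_right p q) a))
      (fun j => a (Fin.natAdd p j))
  have key1 : ∀ V ω i, i ≤ p → trans Q V ω i = trans Q₁ V ω i := by
    intro V ω i hi
    induction i with
    | zero => rfl
    | succ i ih =>
      have hlt : ¬ p ≤ i := by omega
      simp only [trans, ih (by omega)]
      congr 1
      simp only [Q, dif_neg hlt]
  have key2 : ∀ V ω j, (fun k : Fin j => trans Q V ω (p + j) (Fin.natAdd p k))
      = trans Q₂ V (ω, O₁ ω (trans Q₁ V ω p)) j := by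
    intro V ω j
    induction j with
    | zero => funext k; exact k.elim0
    | succ j ih =>
      funext k
      refine Fin.lastCases ?_ (fun k => ?_) k
      · have e1 : (Fin.natAdd p (Fin.last j) : Fin (p + (j + 1))) = Fin.last (p + j) := rfl
        have e2 : trans Q V ω (p + (j + 1)) (Fin.last (p + j))
            = oracle V (Q (p + j) ω (trans Q V ω (p + j))) := by
          change (Fin.snoc (trans Q V ω (p + j)) (oracle V (Q (p + j) ω (trans Q V ω (p + j)))) :
            Fin (p + j + 1) → Answer d) (Fin.last (p + j)) = _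
          exact Fin.snoc_last _ _
        rw [e1, e2]
        have e3 : trans Q₂ V (ω, O₁ ω (trans Q₁ V ω p)) (j + 1) (Fin.last j)
            = oracle V (Q₂ j (ω, O₁ ω (trans Q₁ V ω p))
                (trans Q₂ V (ω, O₁ ω (trans Q₁ V ω p)) j)) := by
          change (Fin.snoc _ _ : Fin (j + 1) → Answer d) (Fin.last j) = _
          exact Fin.snoc_last _ _
        rw [e3]
        congr 1
        have hp : p ≤ p + j := Nat.le_add_right p j
        simp only [Q, dif_pos hp]
        rw [trans_apply_eq Q V ω hp, key1 V ω p le_rfl, ← ih]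
        -- align the dependent types
        have hsub : p + j - p = j := by omega
        have aux : ∀ (m : ℕ) (hm : m = j) (a : Fin m → Answer d) (b : Fin j → Answer d),
            (∀ k : Fin j, a (Fin.cast hm.symm k) = b k) →
            Q₂ m (ω, O₁ ω (trans Q₁ V ω p)) a = Q₂ j (ω, O₁ ω (trans Q₁ V ω p)) b := by
          intro m hm a b hab
          subst hm
          congr 1
          funext k
          exact hab k
        exact aux _ hsub _ _ (fun k => rfl)
      · have e1 : (Fin.natAdd p (Fin.castSucc k) : Fin (p + (j + 1)))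
            = Fin.castSucc (Fin.natAdd p k) := rfl
        have e2 : trans Q V ω (p + (j + 1)) (Fin.castSucc (Fin.natAdd p k))
            = trans Q V ω (p + j) (Fin.natAdd p k) := by
          change (Fin.snoc (trans Q V ω (p + j)) _ : Fin (p + j + 1) → Answer d)
            (Fin.castSucc (Fin.natAdd p k)) = _
          exact Fin.snoc_castSucc _ _ _
        have e3 : trans Q₂ V (ω, O₁ ω (trans Q₁ V ω p)) (j + 1) (Fin.castSucc k)
            = trans Q₂ V (ω, O₁ ω (trans Q₁ V ω p)) j k := by
          change (Fin.snoc _ _ : Fin (j + 1) → Answer d) (Fin.castSucc k) = _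
          exact Fin.snoc_castSucc _ _ _
        rw [e1, e2, e3, ← ih]
  refine ⟨Q, O, fun i => ?_, ?_, fun V ω => ?_⟩
  · by_cases h : p ≤ i
    · have : Function.uncurry (Q i) = fun x : Ω × (Fin i → Answer d) =>
          Q₂ (i - p) (x.1, O₁ x.1 (trunc h x.2)) (tailFrom p x.2) := by
        funext x; simp only [Function.uncurry, Q, dif_pos h]
      rw [this]
      have hin : Measurable fun x : Ω × (Fin i → Answer d) =>
          ((x.1, O₁ x.1 (trunc h x.2)), (tailFrom p x.2 : Fin (i - p) → Answer d)) := by
        refine Measurable.prodMk (measurable_fst.prodMk ?_)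
          ((measurable_tailFrom p).comp measurable_snd)
        exact hO₁.comp (measurable_fst.prodMk ((measurable_trunc h).comp measurable_snd))
      exact (hQ₂ (i - p)).comp hin
    · have : Function.uncurry (Q i) = Function.uncurry (Q₁ i) := by
        funext x; simp only [Function.uncurry, Q, dif_neg h]
      rw [this]; exact hQ₁ i
  · have hin : Measurable fun x : Ω × (Fin (p + q) → Answer d) =>
        ((x.1, O₁ x.1 (trunc (Nat.le_add_right p q) x.2)), fun j : Fin q => x.2 (Fin.natAdd p j)) := by
      refine Measurable.prodMk (measurable_fst.prodMk ?_) ?_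
      · exact hO₁.comp (measurable_fst.prodMk
          ((measurable_trunc (Nat.le_add_right p q)).comp measurable_snd))
      · exact measurable_pi_lambda _ fun j => (measurable_pi_apply _).comp measurable_snd
    exact hO₂.comp hin
  · simp only [O]
    rw [trans_apply_eq Q V ω (Nat.le_add_right p q), key1 V ω p le_rfl, key2 V ω q, H₂, H₁]

/-- One query at a measurable function of the seed. -/
theorem IsQ.query {x : Ω → E d} (hx : Measurable x) : IsQ 1 (fun V ω => oracle V (x ω)) := by
  refine ⟨fun _ ω _ => x ω, fun _ a => a 0, fun i => hx.comp measurable_fst,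
    (measurable_pi_apply 0).comp measurable_snd, fun V ω => ?_⟩
  simp only [trans]
  rfl

/-- One more query, at a computed point. -/
theorem IsQ.oracle {q : ℕ} {x : (E d → ℝ) → Ω → E d} (hx : IsQ q x) :
    IsQ (q + 1) (fun V ω => oracle V (x V ω)) :=
  hx.bind (g := fun V p => Crest.OracleSampling.oracle V p.2) (IsQ.query measurable_snd)

/-- One more gradient query, at a computed point. -/
theorem IsQ.grad {q : ℕ} {x : (E d → ℝ) → Ω → E d} (hx : IsQ q x) :
    IsQ (q + 1) (fun V ω => gradient V (x V ω)) :=
  (hx.oracle).map (g := fun p => p.2.2) (measurable_snd.comp measurable_snd)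

/-- Pairing. -/
theorem IsQ.pair {p q : ℕ} {f : (E d → ℝ) → Ω → β} (hf : IsQ p f)
    {g : (E d → ℝ) → Ω → γ} (hg : IsQ q g) : IsQ (p + q) (fun V ω => (f V ω, g V ω)) := by
  have h1 : IsQ q (fun V (x : Ω × β) => (x.2, g V x.1)) :=
    (hg.comap (g := fun x : Ω × β => x.1) measurable_fst).map
      (g := fun y : (Ω × β) × γ => (y.1.2, y.2))
      ((measurable_snd.comp measurable_fst).prodMk measurable_snd)
  exact hf.bind h1

/-- Raising the query budget (wasting queries). -/
theorem IsQ.mono {p q : ℕ} (h : p ≤ q) {f : (E d → ℝ) → Ω → β} (hf : IsQ p f) : IsQ q f := by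
  obtain ⟨Q, O, hQ, hO, H⟩ := hf
  refine ⟨Q, fun ω a => O ω (trunc h a), hQ, ?_, fun V ω => ?_⟩
  · exact hO.comp (measurable_fst.prodMk ((measurable_trunc h).comp measurable_snd))
  · simp only [trans_apply_eq Q V ω h, H V ω]

/-- Iteration: `n` steps of a `q`-query procedure `g : state × seed → state`. -/
theorem IsQ.iterate {q : ℕ} {g : (E d → ℝ) → Ω × β → β} (hg : IsQ q g) {x0 : Ω → β}
    (hx0 : Measurable x0) (n : ℕ) :
    IsQ (n * q) (fun V ω => (fun b => g V (ω, b))^[n] (x0 ω)) := by
  induction n with
  | zero => simpa using IsQ.const hx0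
  | succ n ih =>
    have h := ih.bind hg
    have e : n * q + q = (n + 1) * q := by ring
    rw [e] at h
    refine h.congr (fun V ω => ?_)
    rw [Function.iterate_succ_apply']

/-- Finite families. -/
theorem IsQ.pi {q n : ℕ} {f : Fin n → (E d → ℝ) → Ω → β} (hf : ∀ i, IsQ q (f i)) :
    IsQ (n * q) (fun V ω => fun i => f i V ω) := by
  induction n with
  | zero =>
    have : IsQ (d := d) 0 (fun _ (_ : Ω) => (Fin.elim0 : Fin 0 → β)) := IsQ.const measurable_const
    rw [Nat.zero_mul]
    refine this.congr (fun V ω => ?_)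
    funext i
    exact i.elim0
  | succ n ih =>
    have h1 := ih (f := fun i => f (Fin.castSucc i)) (fun i => hf _)
    have h2 := h1.pair (hf (Fin.last n))
    have e : n * q + q = (n + 1) * q := by ring
    rw [e] at h2
    have hm : Measurable fun p : Ω × ((Fin n → β) × β) => (Fin.snoc p.2.1 p.2.2 : Fin (n+1) → β) := by
      refine measurable_pi_lambda _ fun i => ?_
      refine Fin.lastCases ?_ (fun i => ?_) i
      · simp only [Fin.snoc_last]; exact measurable_snd.comp measurable_snd
      · simp only [Fin.snoc_castSucc]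
        exact (measurable_pi_apply i).comp (measurable_fst.comp measurable_snd)
    refine (h2.map hm).congr (fun V ω => ?_)
    funext i
    refine Fin.lastCases ?_ (fun i => ?_) i
    · simp only [Fin.snoc_last]
    · simp only [Fin.snoc_castSucc]

/-- For a fixed potential with measurable oracle, a computable function is measurable. -/
theorem IsQ.measurable {q : ℕ} {f : (E d → ℝ) → Ω → β} (hf : IsQ q f) {V : E d → ℝ}
    (hV : Measurable (Crest.OracleSampling.oracle V)) : Measurable (f V) := by
  obtain ⟨Q, O, hQ, hO, H⟩ := hf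
  have ht : ∀ i, Measurable fun ω => trans Q V ω i := by
    intro i
    induction i with
    | zero => exact measurable_const
    | succ i ih =>
      refine measurable_pi_lambda _ fun j => ?_
      refine Fin.lastCases ?_ (fun j => ?_) j
      · simp only [trans, Fin.snoc_last]
        exact hV.comp ((hQ i).comp (measurable_id.prodMk ih))
      · simp only [trans, Fin.snoc_castSucc]
        exact (measurable_pi_apply j).comp ih
  have : f V = fun ω => Function.uncurry O (ω, trans Q V ω q) := by
    funext ω; exact H V ω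
  rw [this]
  exact hO.comp (measurable_id.prodMk (ht q))

/-- The final packaging. -/
theorem IsQ.exists_alg {q : ℕ} {f : (E d → ℝ) → Ω → E d} (hf : IsQ q f) (μ : Measure Ω)
    [IsProbabilityMeasure μ] :
    ∃ A : QueryAlg d q, ∀ V, outputLaw A V = μ.map (f V) := by
  obtain ⟨Q, O, hQ, hO, H⟩ := hf
  let A : QueryAlg d q :=
    { Ω := Ω, mΩ := inferInstance, μ := μ, prob := inferInstance, query := Q, output := O,
      query_meas := hQ, output_meas := hO }
  refine ⟨A, fun V => ?_⟩
  have ht : ∀ ω i, transcript A V ω i = trans Q V ω i := by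
    intro ω i
    induction i with
    | zero => rfl
    | succ i ih =>
      simp only [transcript, trans]
      rw [ih]
  have : run A V = f V := by
    funext ω
    rw [H V ω]
    change O ω (transcript A V ω q) = _
    rw [ht]
  change @Measure.map _ _ _ _ (run A V) μ = _
  rw [this]

end Crest.Agent.R285
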