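import Mathlib

/-!
Row 285 (S0430), module RECURSION: the abstract exponent recursion.

`QP g e A` : noisy-gradient calls (`2 s / σ ≤ β ^ e`) can be answered to accuracy `β ^ A`
             with `C β ^ (-g)` queries;
`SP g a A` : restricted samplers (`s ^ 2 ≤ β ^ a`) are available to accuracy `β ^ A`
             with `C β ^ (-g)` queries.

The base lemmas and the step lemmas are the hypotheses.  The chain step `k` (`κ₁ = β ^ k`) may
depend on the cost exponent `g`; every other sub-procedure is used at arbitrarily small cost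
exponents.
-/

set_option autoImplicit false

namespace Crest.Agent.R285.Recursion

/-- Downward chain: from `e` large to `e`. -/
theorem chain {P : ℝ → Prop} {e₀ A k : ℝ} (hk : 0 < k) (base : ∀ e, A ≤ e → P e)
    (step : ∀ e, e₀ ≤ e → e < A → P (e + k) → P e) : ∀ e, e₀ ≤ e → P e := by
  have main : ∀ n : ℕ, ∀ e, e₀ ≤ e → A ≤ e + n * k → P e := by
    intro n
    induction n with
    | zero => intro e _ h; exact base e (by simpa using h)
    | succ n ih =>
      intro e he h
      by_cases hA : A ≤ e
      · exact base e hA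
      push Not at hA
      refine step e he hA (ih _ (by linarith) ?_)
      push_cast at h
      linarith
  intro e he
  obtain ⟨n, hn⟩ := exists_nat_ge ((A - e) / k)
  have := (div_le_iff₀ hk).1 hn
  exact main n e he (by linarith)

/-- The recursion. Outer induction: accuracy, in units of `1/16`; inner induction: the number of
outer (value) steps; innermost: the chain in `k`. -/
theorem recursion {QP SP : ℝ → ℝ → ℝ → Prop}
    (baseQ : ∀ g e A : ℝ, 0 < g → 0 < e → A ≤ e → QP g e A)
    (baseS : ∀ g a A : ℝ, 0 < g → 1 ≤ a → 2 * A ≤ a → SP g a A)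
    (stepS : ∀ γ A g : ℝ, 0 < γ → γ ≤ 1 / 64 → 0 < A → 0 < g →
      (∀ g', 0 < g' → QP g' (1 - γ) A) → ∃ k : ℝ, 0 < k ∧
      ∀ a : ℝ, 1 ≤ a → a < 2 * A → SP g (a + k) A → SP g a A)
    (stepQ : ∀ ψ γ A g : ℝ, 0 < ψ → ψ ≤ 1 / 4 → 0 < γ → γ ≤ ψ / 16 → 0 < A → 0 < g →
      ∃ k : ℝ, 0 < k ∧ ∀ e : ℝ, 1 / 4 ≤ e → e < A →
        (∀ g', 0 < g' → QP g' ((1 + ψ) * e - γ) A) →
        (∀ g', 0 < g' → QP g' (min ((1 - ψ) * e) 1 - γ) (A - (1 + ψ) * e + γ)) →
        (∀ g', 0 < g' → QP g' (1 - γ) (A - e + γ)) →
        QP g (e + k) A → QP g e A) :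
    ∀ A g : ℝ, 0 < g → SP g 1 A := by
  intro A₀ g₀ hg₀
  -- `M` is an upper bound for all the accuracies that occur
  obtain ⟨M, hM1, hMA⟩ : ∃ M : ℝ, 1 ≤ M ∧ A₀ + 1 ≤ M :=
    ⟨max 1 (A₀ + 1), le_max_left _ _, le_max_right _ _⟩
  -- the parameters
  obtain ⟨ψ, hψ0, hψ1, hψM⟩ : ∃ ψ : ℝ, 0 < ψ ∧ ψ ≤ 1 / 8 ∧ ψ * (8 * M) = 1 := by
    refine ⟨1 / (8 * M), by positivity, ?_, ?_⟩
    · exact one_div_le_one_div_of_le (by norm_num) (by linarith)
    · field_simp
  obtain ⟨γ, hγ0, hγψ, hγ1⟩ : ∃ γ : ℝ, 0 < γ ∧ γ ≤ ψ / 16 ∧ γ ≤ 1 / 64 :=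
    ⟨ψ / 16, by positivity, le_rfl, by linarith⟩
  have hγM : γ * (128 * M) ≤ 1 := by nlinarith
  -- `Q`: invariant  `1/4 * (1 + A / M) ≤ e`, written multiplicatively
  have mainQ : ∀ n : ℕ, ∀ e A : ℝ, M + A ≤ 4 * M * e → A ≤ M → 1 / 4 ≤ e →
      A ≤ 1 / 4 + n / 16 → ∀ g, 0 < g → QP g e A := by
    intro n
    induction n with
    | zero =>
      intro e A _ _ he hA g hg
      exact baseQ g e A hg (by linarith) (by norm_num at hA; linarith)
    | succ n ihQ =>
      have hn0 : (0:ℝ) ≤ n / 16 := by positivity
      push_cast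
      -- inner induction: number of value steps
      have inner : ∀ k : ℕ, ∀ e A : ℝ, M + A ≤ 4 * M * e → A ≤ M → 1 / 4 ≤ e →
          A ≤ 1 / 4 + (n + 1) / 16 → A ≤ e + k * (ψ / 16) → ∀ g, 0 < g → QP g e A := by
        intro k
        induction k with
        | zero =>
          intro e A _ _ he _ hk g hg
          exact baseQ g e A hg (by linarith) (by norm_num at hk; linarith)
        | succ k ihk =>
          intro e₁ A hinv₁ hAM he₁ hA hk₁ g hg
          by_cases hb₁ : A ≤ e₁
          · exact baseQ g e₁ A hg (by linarith) hb₁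
          push Not at hb₁
          obtain ⟨κ, hκ0, hκ⟩ := stepQ ψ γ A g hψ0 (by linarith) hγ0 hγψ (by linarith) hg
          refine chain (P := fun e => QP g e A) (e₀ := e₁) (A := A) hκ0
            (fun e he => baseQ g e A hg (by linarith) he) ?_ e₁ le_rfl
          intro e hee₁ hb hchain
          have he : 1 / 4 ≤ e := by linarith
          have hinv : M + A ≤ 4 * M * e := by
            have : 4 * M * e₁ ≤ 4 * M * e := mul_le_mul_of_nonneg_left hee₁ (by linarith)
            linarith
          have hk : A ≤ e + (k + 1 : ℕ) * (ψ / 16) := by linarith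
          have he0 : 0 < e := by linarith
          refine hκ e he hb ?_ ?_ ?_ hchain
          · -- value call
            have h1 : e + ψ / 16 ≤ (1 + ψ) * e - γ := by nlinarith
            refine ihk _ _ ?_ hAM (by linarith [hψ0]) hA ?_
            · have : 4 * M * e ≤ 4 * M * ((1 + ψ) * e - γ) :=
                mul_le_mul_of_nonneg_left (by linarith) (by linarith)
              linarith
            · push_cast at hk
              linarith
          · -- relaxed call
            have hψe : 0 ≤ ψ * e := by positivity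
            refine ihQ _ _ ?_ ?_ ?_ ?_
            · -- invariant
              rcases le_total ((1 - ψ) * e) 1 with h | h
              · rw [min_eq_left h]
                have e1 : 4 * M * ((1 - ψ) * e - γ) = 4 * M * e - (ψ * (8 * M)) * e / 2
                    - 4 * M * γ := by ring
                rw [e1, hψM]
                nlinarith
              · rw [min_eq_right h]
                nlinarith
            · nlinarith
            · rcases le_total ((1 - ψ) * e) 1 with h | h
              · rw [min_eq_left h]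
                have hA4 : 1 / 4 < A := by linarith
                have h2 : (4 * M - 1) * e ≥ M := by nlinarith
                have h3 : 4 * M * ((1 - ψ) * e - γ) ≥ 4 * M * (1 / 4) := by
                  have e1 : 4 * M * ((1 - ψ) * e - γ) = 4 * M * e - (ψ * (8 * M)) * e / 2
                    - 4 * M * γ := by ring
                  rw [e1, hψM]
                  nlinarith
                have : 0 < 4 * M := by linarith
                exact le_of_mul_le_mul_left h3 this
              · rw [min_eq_right h]
                linarith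
            · nlinarith
          · -- the `Y`-step
            refine ihQ _ _ ?_ (by linarith) (by linarith) (by linarith)
            nlinarith
      intro e A hinv hAM he hA
      obtain ⟨k, hk⟩ := exists_nat_ge ((A - e) / (ψ / 16))
      refine inner k e A hinv hAM he hA ?_
      have hpos : 0 < ψ / 16 := by positivity
      have := (div_le_iff₀ hpos).1 hk
      linarith
  -- `S`
  by_cases hA1 : A₀ ≤ 1 / 2
  · exact baseS g₀ 1 A₀ hg₀ le_rfl (by linarith)
  push Not at hA1
  obtain ⟨n, hn⟩ := exists_nat_ge (16 * (A₀ + γ))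
  obtain ⟨κ, hκ0, hκ⟩ := stepS γ A₀ g₀ hγ0 hγ1 (by linarith) hg₀
    (fun g' hg' => mainQ n _ _ (by nlinarith) (by linarith) (by linarith) (by linarith) g' hg')
  exact chain (P := fun a => SP g₀ a A₀) (e₀ := 1) (A := 2 * A₀) hκ0
    (fun a ha => baseS g₀ a A₀ hg₀ (by linarith) ha) (fun a ha1 haA hch => hκ a ha1 haA hch) 1 le_rfl

end Crest.Agent.R285.Recursion
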