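import Crest.Agent.R285.Draw
import Crest.Agent.R285.Recursion

/-!
Row 285 (S0430), module RECURSION: the concrete predicates.

`bt x d = d ^ (-x)` is the small parameter `β`.  All scales satisfy `s ^ 2 ≤ β`.

* `QP x g e A` : for `2 s ≤ σ β ^ e` the law `N(G V s c, σ²)` can be produced from `N` draws of
  `N(c, (s/4)²)` with error `C β ^ A σ (√d + |c|)`, with `N, q ≤ C β ^ (-g)`, Lipschitz constant `C`;
* `YP x g k A` : the Gaussian channel of the posterior, `y = κ² c + (1 - κ²) z + s κ √(1-κ²) g`,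
  `κ = β ^ k`, `z ∼ post V c s` (this is `y_{ε₁}`, `ε₁ = √(1-κ²)`, of the flow), with error `C β ^ A s`;
* `SP x g a A` : for `s ^ 2 ≤ β ^ a` the posterior itself, with (absolute) error `C β ^ A`.
-/

set_option autoImplicit false

open MeasureTheory ProbabilityTheory Filter Topology
open Crest.OracleSampling (E Admissible)
open scoped NNReal

noncomputable section

namespace Crest.Agent.R285

/-- The small parameter `β = d ^ (-x)`. -/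
def bt (x : ℝ) (d : ℕ) : ℝ := (d : ℝ) ^ (-x)

/-- Robust noisy gradients. -/
def QP (x g e A : ℝ) : Prop :=
  ∃ C : ℝ, 0 < C ∧ ∀ᶠ d : ℕ in atTop, ∀ s σ : ℝ, 0 < s → 0 < σ → s ^ 2 ≤ bt x d →
    2 * s ≤ σ * bt x d ^ e →
    Con (d := d) (s / 4) ⌊C * bt x d ^ (-g)⌋₊ ⌊C * bt x d ^ (-g)⌋₊ C.toNNReal
      (fun V c => gN (G V s c) σ) (C * bt x d ^ A * σ)

/-- Robust posterior samples. -/
def SP (x g a A : ℝ) : Prop :=
  ∃ C : ℝ, 0 < C ∧ ∀ᶠ d : ℕ in atTop, ∀ s : ℝ, 0 < s → s ^ 2 ≤ bt x d ^ a →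
    Con (d := d) (s / 4) ⌊C * bt x d ^ (-g)⌋₊ ⌊C * bt x d ^ (-g)⌋₊ C.toNNReal
      (fun V c => post V c s) (C * bt x d ^ A)

/-- The law of the visible point `y = κ² c + (1 - κ²) z + s κ √(1-κ²) g`, `z ∼ post V c s`. -/
def TY {d : ℕ} (s κ : ℝ) (V : E d → ℝ) (c : E d) : Measure (E d) :=
  ((post V c s).prod (stdGaussian (E d))).map
    (fun p => κ ^ 2 • c + (1 - κ ^ 2) • p.1 + (s * κ * √(1 - κ ^ 2)) • p.2)

/-- Robust visible points. -/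
def YP (x g k A : ℝ) : Prop :=
  ∃ C : ℝ, 0 < C ∧ ∀ᶠ d : ℕ in atTop, ∀ s : ℝ, 0 < s → s ^ 2 ≤ bt x d →
    Con (d := d) (s / 4) ⌊C * bt x d ^ (-g)⌋₊ ⌊C * bt x d ^ (-g)⌋₊ C.toNNReal
      (TY s (bt x d ^ k)) (C * bt x d ^ A * s)

/-- The recursion, from the two base lemmas and the three step lemmas. -/
theorem recursion_concrete {x : ℝ}
    (baseQ : ∀ g e A : ℝ, 0 < g → 0 < e → A ≤ e → QP x g e A)
    (baseS : ∀ g a A : ℝ, 0 < g → 1 ≤ a → 2 * A ≤ a → SP x g a A)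
    (stepY : ∀ γ A g : ℝ, 0 < γ → γ ≤ 1 / 64 → 0 < A → 0 < g →
      ∃ k₀ : ℝ, 0 < k₀ ∧ ∀ k : ℝ, 0 < k → k ≤ k₀ → ∀ A' : ℝ, A' ≤ A →
        (∀ g', 0 < g' → QP x g' (1 - γ) A') → YP x g k A')
    (stepS : ∀ A g k : ℝ, 0 < A → 0 < g → 0 < k → YP x g k A →
      ∀ a : ℝ, 1 ≤ a → SP x g (a + 2 * k) A → SP x g a A)
    (stepQ : ∀ ψ γ A g : ℝ, 0 < ψ → ψ ≤ 1 / 4 → 0 < γ → γ ≤ ψ / 16 → 0 < A → 0 < g →
      ∃ k₀ : ℝ, 0 < k₀ ∧ ∀ k : ℝ, 0 < k → k ≤ k₀ → ∀ e : ℝ, 1 / 4 ≤ e → e < A →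
        (∀ g', 0 < g' → QP x g' ((1 + ψ) * e - γ) A) →
        (∀ g', 0 < g' → QP x g' (min ((1 - ψ) * e) 1 - γ) (A - (1 + ψ) * e + γ)) →
        YP x g (2 * k) (A - e + γ) →
        QP x g (e + k) A → QP x g e A) :
    ∀ A g : ℝ, 0 < g → SP x g 1 A := by
  refine Recursion.recursion (QP := QP x) (SP := SP x) baseQ baseS ?_ ?_
  · intro γ A g hγ hγ1 hA hg hQ
    obtain ⟨k, hk, h⟩ := stepY γ A g hγ hγ1 hA hg
    exact ⟨2 * k, by linarith, fun a ha _ hS =>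
      stepS A g k hA hg hk (h k hk le_rfl A le_rfl hQ) a ha hS⟩
  · intro ψ γ A g hψ hψ1 hγ hγψ hA hg
    obtain ⟨k₁, hk₁, h₁⟩ := stepQ ψ γ A g hψ hψ1 hγ hγψ hA hg
    obtain ⟨k₂, hk₂, h₂⟩ := stepY γ A g hγ (by linarith) hA hg
    have hk : 0 < min k₁ (k₂ / 2) := lt_min hk₁ (by linarith)
    refine ⟨min k₁ (k₂ / 2), hk, fun e he heA ho hi hY hc => ?_⟩
    refine h₁ _ hk (min_le_left _ _) e he heA ho hi ?_ hc
    exact h₂ _ (by linarith) (by linarith [min_le_right k₁ (k₂ / 2)]) _ (by linarith) hY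

end Crest.Agent.R285
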