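import Mathlib

/-!
Row 285 (S0430): the exponent recursion (pure arithmetic).

`PQ A e` : "the averages `N(G_s c, σ²)` can be produced with accuracy `d^{-A} σ` as soon as
`2 s / σ ≤ d^{-e}`";  `PY A` : "the coarse points can be produced with accuracy `d^{-A} s`".
From the three asymptotic steps we get `PQ` in the whole region `e > x (1 + A / Amax)`.
-/

set_option autoImplicit false

namespace Crest.Agent.R285

/-- Left-limit version. -/
def LL (P : ℝ → Prop) (A : ℝ) : Prop := ∀ A' < A, P A'

/-- Asymptotic steps, abstract form. `x` is the exponent of `s` (`s ≤ d^{-x}`). -/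
structure Steps (x : ℝ) (PQ : ℝ → ℝ → Prop) (PY : ℝ → Prop) : Prop where
  /-- base -/
  base : ∀ A e : ℝ, 0 < e → A ≤ e → PQ A e
  /-- Y-step -/
  ystep : ∀ A e : ℝ, 0 < e → e < 2 * x → PQ A e → ∀ A' < A, PY A'
  /-- Q-step: outer calls, inner calls, Y-step -/
  qstep : ∀ A e ψ δ : ℝ, 0 < e → 0 < ψ → ψ < 1 / 2 → 0 < δ → δ < ψ * e → 
    PQ A ((1 + ψ) * e - δ) → PQ (A - (1 + ψ) * e + δ) ((1 - ψ) * e - δ) → PY (A - e + δ) →
    ∀ A' < A, PQ A' e

variable {x : ℝ} {PQ : ℝ → ℝ → Prop} {PY : ℝ → Prop}

theorem Steps.base' (h : Steps x PQ PY) {A e : ℝ} (he : 0 < e) (hA : A ≤ e) :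
    LL (fun A => PQ A e) A :=
  fun A' hA' => h.base A' e he (hA'.le.trans hA)

theorem Steps.ystep' (h : Steps x PQ PY) {A e : ℝ} (he : 0 < e) (he2 : e < 2 * x)
    (hq : LL (fun A => PQ A e) A) : LL PY A := by
  intro A' hA'
  obtain ⟨B, h1, h2⟩ := exists_between hA'
  exact h.ystep B e he he2 (hq B h2) A' h1

theorem Steps.qstep' (h : Steps x PQ PY) {A e ψ δ : ℝ} (he : 0 < e) (hψ : 0 < ψ)
    (hψ2 : ψ < 1 / 2) (hδ : 0 < δ) (hδ2 : δ < ψ * e)
    (h1 : LL (fun A => PQ A ((1 + ψ) * e - δ)) A)
    (h2 : LL (fun A => PQ A ((1 - ψ) * e - δ)) (A - (1 + ψ) * e + δ))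
    (h3 : LL PY (A - e + δ)) : LL (fun A => PQ A e) A := by
  intro A' hA'
  obtain ⟨B, hB1, hB2⟩ := exists_between hA'
  refine h.qstep B e ψ δ he hψ hψ2 hδ hδ2 (h1 B hB2) (h2 _ ?_) (h3 _ ?_) A' hB1
  · linarith
  · linarith

/-- The whole region. -/
theorem Steps.region (h : Steps x PQ PY) (hx : 0 < x) {Am : ℝ} (hAm : x ≤ Am) :
    ∀ A ≤ Am, ∀ e > x * (1 + A / Am), 0 < e → LL (fun A => PQ A e) A := by
  have hAm0 : 0 < Am := hx.trans_le hAm
  -- parameters
  set ψ : ℝ := x / (8 * Am) with hψdef
  set δ : ℝ := ψ * x / 4 with hδdef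
  have hψ0 : 0 < ψ := by positivity
  have hψ1 : ψ ≤ 1 / 8 := by
    rw [hψdef, div_le_iff₀ (by positivity)]; linarith
  have hδ0 : 0 < δ := by positivity
  have hψA : ψ * (8 * Am) = x := by rw [hψdef]; field_simp
  have hδA : δ * (32 * Am) = x ^ 2 := by rw [hδdef]; nlinarith [hψA]
  have hδx : δ ≤ x / 32 := by rw [hδdef]; nlinarith
  -- induction on the accuracy
  have key : ∀ n : ℕ, ∀ A ≤ Am, A ≤ n * (x / 2) → ∀ e > x * (1 + A / Am), 0 < e →
      LL (fun A => PQ A e) A := by
    intro n
    induction n with
    | zero =>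
      intro A _ hA e _ he0
      refine h.base' he0 ?_
      simp at hA
      linarith
    | succ n ih =>
      intro A hAAm hA e he he0
      rcases le_or_gt A 0 with hA0 | hA0
      · exact h.base' he0 (hA0.trans he0.le)
      -- for `A > 0` we have `e > x`
      have claim : ∀ m : ℕ, ∀ e > x * (1 + A / Am), A - m * (ψ * x / 2) ≤ e →
          LL (fun A => PQ A e) A := by
        intro m
        induction m with
        | zero =>
          intro e he hm
          have hex : x < e := lt_trans (by nlinarith [div_pos hA0 hAm0]) he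
          refine h.base' (hx.trans hex) ?_
          simpa using hm
        | succ m ihm =>
          intro e he hm
          have hq : 0 < A / Am := div_pos hA0 hAm0
          have hqA : A / Am * Am = A := by field_simp
          have hex : x < e := lt_trans (by nlinarith) he
          have he0 : 0 < e := hx.trans hex
          have hψe : ψ * x < ψ * e := by nlinarith
          refine h.qstep' (ψ := ψ) (δ := δ) he0 hψ0 (by linarith) hδ0 ?_ ?_ ?_ ?_
          · rw [hδdef]; nlinarith
          · -- outer calls
            refine ihm _ ?_ ?_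
            · have : e ≤ (1 + ψ) * e - δ := by rw [hδdef]; nlinarith
              exact lt_of_lt_of_le he this
            · push_cast at hm
              rw [hδdef]; nlinarith
          · -- inner calls
            have hinA : A - (1 + ψ) * e + δ ≤ A - x := by nlinarith
            have hlow : x * (1 + (A - (1 + ψ) * e + δ) / Am) < (1 - ψ) * e - δ := by
              have e1 : x * (1 + (A - (1 + ψ) * e + δ) / Am)
                  = x * (1 + A / Am) - x * ((1 + ψ) * e - δ) / Am := by
                field_simp; ring
              rw [e1]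
              have e2 : x ^ 2 / Am ≤ x * ((1 + ψ) * e - δ) / Am := by
                apply div_le_div_of_nonneg_right _ hAm0.le
                nlinarith
              have e3 : x ^ 2 / Am = 8 * ψ * x := by
                rw [hψdef]; field_simp
              have e4 : x * (1 + A / Am) ≤ 2 * x := by
                have : A / Am ≤ 1 := by rw [div_le_one hAm0]; exact hAAm
                nlinarith
              nlinarith
            have hein : 0 < (1 - ψ) * e - δ := by nlinarith
            refine ih _ (by linarith) ?_ _ hlow hein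
            push_cast at hA
            linarith
          · -- Y-step
            have h4 : x ^ 2 / Am = 8 * ψ * x := by
              rw [hψdef]; field_simp
            refine h.ystep' (e := 2 * x - δ) (by linarith) (by linarith) ?_
            refine ih _ (by nlinarith) ?_ _ ?_ (by linarith)
            · push_cast at hA
              nlinarith
            · have e1 : x * (1 + (A - e + δ) / Am) ≤ x * (1 + (Am - x + δ) / Am) := by
                apply mul_le_mul_of_nonneg_left _ hx.le
                gcongr
              have e2 : x * (1 + (Am - x + δ) / Am) = 2 * x - x ^ 2 / Am + x * δ / Am := by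
                field_simp; ring
              have e3 : x * δ / Am ≤ δ := by
                rw [div_le_iff₀ hAm0]; nlinarith
              have e5 : (2:ℝ) * δ < 8 * ψ * x := by rw [hδdef]; nlinarith
              change x * (1 + (A - e + δ) / Am) < 2 * x - δ
              linarith
      obtain ⟨m, hm⟩ := exists_nat_gt (A / (ψ * x / 2))
      refine claim m e he ?_
      rw [div_lt_iff₀ (by positivity)] at hm
      linarith
  intro A hA e he he0
  obtain ⟨n, hn⟩ := exists_nat_gt (A / (x / 2))
  rw [div_lt_iff₀ (by positivity)] at hn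
  exact key n A hA hn.le e he he0

/-- Coarse points with every accuracy. -/
theorem Steps.allY (h : Steps x PQ PY) (hx : 0 < x) (A : ℝ) : PY A := by
  set Am : ℝ := max x (2 * (|A| + 1)) with hAm
  have hAmx : x ≤ Am := le_max_left _ _
  have hAm0 : 0 < Am := hx.trans_le hAmx
  have hA2 : 2 * (|A| + 1) ≤ Am := le_max_right _ _
  have hA0 : A ≤ |A| := le_abs_self A
  have h1 : (|A| + 1) / Am ≤ 1 / 2 := by
    rw [div_le_iff₀ hAm0]; linarith
  refine h.ystep' (A := |A| + 1) (e := 7 / 4 * x) (by positivity) (by linarith) ?_ A (by linarith)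
  refine h.region hx hAmx (|A| + 1) ?_ _ ?_ (by positivity)
  · have := abs_nonneg A
    linarith
  · nlinarith

end Crest.Agent.R285
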