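import Crest.Agent.R285.SM2

/-!
Row 285 (S0430): smoothness along a general exact flow `v` on a state space `W` whose `η`- and
`b`-coordinates are `H`, `B` (hypotheses of `InstEv.iterate_Dv_evt`) and whose law at time `t` is
mapped by `(H, B)` to `law1 f a t × γ`.
-/

set_option autoImplicit false
set_option linter.unusedSectionVars false

open MeasureTheory ProbabilityTheory Real Filter Topology Set
open Crest.OracleSampling (E)
open MvPolynomial (C)
open scoped RealInnerProductSpace ENNReal ContDiff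

noncomputable section

namespace Crest.Agent.R285.SM

open Crest.Agent.R285 Crest.Agent.R285.Inst Crest.Agent.R285.InstFix Crest.Agent.R285.PolyDv

variable {d : ℕ}

theorem evt_eq_evp {W : Type} [NormedAddCommGroup W] [NormedSpace ℝ W] (τ : ℝ) (f : E d → ℝ)
    (a : E d) (H B : ℝ → W → E d) (t : ℝ) (x : W) (g : A (Fin d)) :
    evt τ (AF.uT f) a H B t x g = PolyEv.evp (gval f (√(1 - t ^ 2)) a t τ) (H t x, B t x) g := by
  unfold evt PolyEv.evp
  congr 2
  funext g
  cases g <;> rfl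

/-- **General smoothness transfer.** -/
theorem eLpNorm_iterate {c : ℕ → ℝ} {K τ et : ℝ} {f : E d → ℝ} (hf : PotP τ f) (hτ : 0 < τ)
    (hτ1 : τ ≤ 1) (a : E d) {W : Type} [NormedAddCommGroup W] [NormedSpace ℝ W]
    [MeasurableSpace W] [BorelSpace W] {v : ℝ → W → W} {H B : ℝ → W → E d} {J : Set ℝ}
    (hJo : IsOpen J) (hJ : J ⊆ Ioo (-1 : ℝ) 1) (hv : SmOn v J) (hH : SmOn H J) (hB : SmOn B J)
    (hvH : ∀ t ∈ J, ∀ x i, Dv v H t x i = evt τ (AF.uT f) a H B t x (XX τ et (gη i)))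
    (hvB : ∀ t ∈ J, ∀ x i, Dv v B t x i = evt τ (AF.uT f) a H B t x (XX τ et (gb i)))
    {t : ℝ} (ht : t ∈ J) {P : Measure W}
    (hP : P.map (fun x => (H t x, B t x)) = (Scale.law1 f a t).prod (stdGaussian (E d)))
    (hK : 1 ≤ K) (het : |et| ≤ 1) (hAF : AFB c K τ f (√(1 - t ^ 2)))
    {m : ℕ} {F : ℝ → W → E m} (hF : SmOn F J) (φ : Fin m → A (Fin d))
    (hφ : ∀ t ∈ J, ∀ x i, F t x i = evt τ (AF.uT f) a H B t x (φ i))
    (n : ℕ) {B₀ : ℝ} (hB0 : 0 ≤ B₀)
    (hB₀ : ∀ het hε hτ0 hτ1, ∀ i,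
      (fixSett c K et hK het hf (sqrt_pos' (hJ ht)) a t hε hτ0 hτ1 hAF).I
        ((XX τ et)^[n] (φ i) * (XX τ et)^[n] (φ i)) ≤ B₀ ^ 2) :
    eLpNorm ((Dv v)^[n] F t) 2 P ≤ ENNReal.ofReal (B₀ * √m) := by
  have ht1 := hJ ht
  have hε : |t| ≤ 1 := abs_le.2 ⟨ht1.1.le, ht1.2.le⟩
  have hB' := hB₀ het hε hτ.ne' (by rw [abs_of_pos hτ]; exact hτ1)
  have hvals := vals hf (sqrt_pos' ht1) a t hτ.ne' (bdd_of_AF hτ.ne' hAF)
  have hcont : Continuous ((Dv v)^[n] F t) := by
    rw [← continuousOn_univ]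
    exact (hF.iterate_Dv hJo hv n).continuousOn.comp
      (f := fun x : W => (t, x)) (by fun_prop) (fun x _ => ⟨ht, mem_univ _⟩)
  have hHc : Continuous (H t) := by
    rw [← continuousOn_univ]
    exact ContDiffOn.continuousOn hH |>.comp (f := fun x : W => (t, x)) (by fun_prop)
      (fun x _ => ⟨ht, mem_univ _⟩)
  have hBc : Continuous (B t) := by
    rw [← continuousOn_univ]
    exact ContDiffOn.continuousOn hB |>.comp (f := fun x : W => (t, x)) (by fun_prop)
      (fun x _ => ⟨ht, mem_univ _⟩)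
  -- the squared norm as a function of `(η, b)`
  have key : ∀ x, ‖(Dv v)^[n] F t x‖ ^ 2 =
      ∑ i, (PolyEv.evp (gval f (√(1 - t ^ 2)) a t τ) (H t x, B t x)
        ((XX τ et)^[n] (φ i))) ^ 2 := by
    intro x
    rw [EuclideanSpace.norm_sq_eq]
    refine Finset.sum_congr rfl fun i _ => ?_
    rw [Real.norm_eq_abs, sq_abs]
    congr 1
    set L : E m →L[ℝ] ℝ := EuclideanSpace.proj (𝕜 := ℝ) i with hL
    have h1 := iterate_Dv_clm L hJo hF hv n t ht x
    have h2 : ∀ t ∈ J, ∀ p : W, L (F t p) = evt τ (AF.uT f) a H B t p (φ i) := by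
      intro t ht p
      exact hφ t ht p i
    have h3 := iterate_Dv_congr (v := v) hJo h2 n t ht x
    have h4 := iterate_Dv_evt (v := v) (et := et) hτ.ne' (AF.joint_uT hf) (AF.hj_uT hf) hJo hJ hH hB
      hvH hvB (φ i) n ht x
    have h6 : L ((Dv v)^[n] F t x) = ((Dv v)^[n] F t x) i := rfl
    rw [← h6, ← h1, h3, h4, evt_eq_evp]
  -- compare with the vector valued function on `E d × E d`
  set F₂ : E d × E d → E m := fun p => WithLp.toLp 2 fun i =>
    PolyEv.evp (gval f (√(1 - t ^ 2)) a t τ) p ((XX τ et)^[n] (φ i)) with hF₂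
  have hF₂c : Continuous F₂ := by
    refine (PiLp.continuous_toLp 2 _).comp (continuous_pi fun i => ?_)
    exact PolyEv.continuous_evp hvals.cont _
  have e1 : eLpNorm ((Dv v)^[n] F t) 2 P = eLpNorm (F₂ ∘ fun x => (H t x, B t x)) 2 P := by
    refine eLpNorm_congr_norm_ae (ae_of_all _ fun x => ?_)
    have h1 := key x
    have h2 : ‖F₂ (H t x, B t x)‖ ^ 2 = ∑ i, (PolyEv.evp (gval f (√(1 - t ^ 2)) a t τ)
        (H t x, B t x) ((XX τ et)^[n] (φ i))) ^ 2 := by
      rw [EuclideanSpace.norm_sq_eq]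
      refine Finset.sum_congr rfl fun i _ => ?_
      rw [Real.norm_eq_abs, sq_abs]
    rw [← h2] at h1
    exact (sq_eq_sq₀ (norm_nonneg _) (norm_nonneg _)).1 h1
  have hmap : Measurable fun x : W => (H t x, B t x) := (hHc.prodMk hBc).measurable
  rw [e1, ← eLpNorm_map_measure (by rw [hP]; exact hF₂c.aestronglyMeasurable)
    hmap.aemeasurable, hP, Scale.law1_prod hf a ht1]
  refine Scale.eLpNorm_M2_le hvals (fun i : Fin m => (XX τ et)^[n] (φ i)) (fun x => ?_)
    (by positivity) ?_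
  · rw [EuclideanSpace.norm_sq_eq]
    refine Finset.sum_congr rfl fun i _ => ?_
    rw [Real.norm_eq_abs, sq_abs]
  · calc _ ≤ ∑ _i : Fin m, B₀ ^ 2 := Finset.sum_le_sum fun i _ => hB' i
      _ = (B₀ * √m) ^ 2 := by
        rw [Finset.sum_const, Finset.card_univ, Fintype.card_fin, nsmul_eq_mul, mul_pow,
          Real.sq_sqrt (Nat.cast_nonneg m)]
        ring

end Crest.Agent.R285.SM
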