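import Crest.Agent.R285.SM1
import Crest.Agent.R285.CoupGen
import Crest.Agent.R285.SobExp
import Crest.Agent.R285.SMInner

/-!
Row 285 (S0430): `L²` smoothness along the COUPLED flow (unit scale, `(η, X)`-coordinates).
-/

set_option autoImplicit false
set_option linter.unusedSectionVars false

open MeasureTheory ProbabilityTheory Real Filter Topology Set
open Crest.OracleSampling (E)
open scoped RealInnerProductSpace ENNReal ContDiff

noncomputable section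

namespace Crest.Agent.R285.SM

open Crest.Agent.R285 Crest.Agent.R285.Inst Crest.Agent.R285.InstFix Crest.Agent.R285.PolyDv

variable {d : ℕ}

theorem iterate_smul_XX (τ et r : ℝ) (w : A (Fin d)) (n : ℕ) :
    (XX τ et)^[n] (r • w) = r • (XX τ et)^[n] w := by
  induction n with
  | zero => rfl
  | succ n ih => rw [Function.iterate_succ_apply', Function.iterate_succ_apply', ih,
      Derivation.map_smul]

section

variable {τ : ℝ} {f : E d → ℝ}

/-- General bound for a vector field with word coordinates along the coupled flow. -/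
theorem coupled_word {c : ℕ → ℝ} (hf : PotP τ f) (hτ : 0 < τ) (hτ1 : τ ≤ 1) (a : E d) {ρ : ℝ}
    (hρ : τ ≤ ρ) {t : ℝ} (ht : t ∈ Ioo (-1 : ℝ) 1)
    (hAF : AFB c (√(1 - t ^ 2))⁻¹ τ f (√(1 - t ^ 2))) {P : Measure (E d × E d)}
    (hP : P.map (fun x => (x.1, bC f a ρ t x)) = (Scale.law1 f a t).prod (stdGaussian (E d)))
    {F : ℝ → E d × E d → E d} (hF : SmOn F (Ioo (-1 : ℝ) 1)) (r : ℝ) (w : Fin d → A (Fin d))
    (hw : ∀ t ∈ Ioo (-1 : ℝ) 1, ∀ x i, F t x i =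
      r * PolyEv.evp (gval f √(1 - t ^ 2) a t τ) (x.1, bC f a ρ t x) (w i))
    (n : ℕ) {B : ℝ} (hB0 : 0 ≤ B)
    (hB' : ∀ hK het hε hτ0 hτ1 i,
      (fixSett c (√(1 - t ^ 2))⁻¹ (τ / ρ) hK het hf (sqrt_pos' ht) a t hε hτ0 hτ1 hAF).I
        ((XX τ (τ / ρ))^[n] (w i) * (XX τ (τ / ρ))^[n] (w i)) ≤ B) :
    eLpNorm ((Dv (vC f a ρ))^[n] F t) 2 P ≤ ENNReal.ofReal (|r| * √B * √d) := by
  have hρ0 : 0 < ρ := hτ.trans_le hρ
  have hK : 1 ≤ (√(1 - t ^ 2))⁻¹ := by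
    rw [one_le_inv₀ (sqrt_pos' ht)]
    rw [Real.sqrt_le_one]
    nlinarith [sq_nonneg t]
  have het : |τ / ρ| ≤ 1 := by
    rw [abs_of_pos (div_pos hτ hρ0), div_le_one hρ0]
    exact hρ
  refine eLpNorm_iterate (c := c) (et := τ / ρ) hf hτ hτ1 a isOpen_Ioo subset_rfl (smOn_vC hf a ρ)
    (H := fun _ x => x.1) (B := bC f a ρ) smOn_fst (smOn_bC hf a ρ) ?_ ?_ ht hP hK het hAF hF
    (fun i => r • w i) ?_ n (by positivity) ?_
  · intro t ht x i
    rw [Dv_fst, evt_eq_evp' τ f a (fun _ x => x.1) (bC f a ρ) t x]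
    exact vC_fst hf a hτ.ne' ht x i
  · intro t ht x i
    rw [evt_eq_evp' τ f a (fun _ x => x.1) (bC f a ρ) t x]
    exact Dv_bC hf a hτ.ne' hρ0.ne' ht x i
  · intro t ht x i
    rw [evt_eq_evp' τ f a (fun _ x => x.1) (bC f a ρ) t x, map_smul, smul_eq_mul]
    exact hw t ht x i
  · intro het hε hτ0 hτ1 i
    have h1 := hB' hK het hε hτ0 hτ1 i
    rw [iterate_smul_XX]
    have e : (r • (XX τ (τ / ρ))^[n] (w i)) * (r • (XX τ (τ / ρ))^[n] (w i)) =
        (r ^ 2) • ((XX τ (τ / ρ))^[n] (w i) * (XX τ (τ / ρ))^[n] (w i)) := by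
      rw [smul_mul_smul_comm, sq]
    rw [e, mul_pow, sq_abs, Real.sq_sqrt hB0]
    have h2 : ∀ (S : Sob.Sett c) (z : S.A), S.I ((r ^ 2) • z) = r ^ 2 * S.I z := fun S z => by
      rw [map_smul, smul_eq_mul]
    exact le_of_eq_of_le (h2 (fixSett c (√(1 - t ^ 2))⁻¹ (τ / ρ) hK het hf (sqrt_pos' ht) a t hε hτ0
      hτ1 hAF) _) (mul_le_mul_of_nonneg_left h1 (sq_nonneg r))


/-! ### quadratic estimates for `I` -/

theorem I2_add {c : ℕ → ℝ} (S : Sob.Sett c) (x y : S.A) :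
    S.I ((x + y) * (x + y)) ≤ 2 * S.I (x * x) + 2 * S.I (y * y) := by
  have h := Sob.I_sq_nonneg S (x - y)
  have e : (x - y) * (x - y) + (x + y) * (x + y) = (2 : ℝ) • (x * x) + (2 : ℝ) • (y * y) := by
    simp only [two_smul]
    ring
  have e2 := congrArg S.I e
  simp only [map_add, map_smul, smul_eq_mul] at e2
  linarith

theorem I2_smul {c : ℕ → ℝ} (S : Sob.Sett c) (r : ℝ) (x : S.A) :
    S.I ((r • x) * (r • x)) = r ^ 2 * S.I (x * x) := by
  have e : (r • x) * (r • x) = (r ^ 2) • (x * x) := by rw [smul_mul_smul_comm, sq]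
  rw [e, map_smul, smul_eq_mul]

theorem I2_eps {c : ℕ → ℝ} (S : Sob.Sett c) (x : S.A) :
    S.I ((S.eps * x) * (S.eps * x)) ≤ S.I (x * x) := by
  refine Sob.I_mono S fun p => ?_
  simp only [map_mul]
  have h := S.abs_ev_eps p
  have h1 : (S.ev p S.eps) ^ 2 ≤ 1 := by
    rw [sq_le_one_iff_abs_le_one]; exact h
  nlinarith [mul_self_nonneg (S.ev p x)]

theorem iterate_add_XX (τ et : ℝ) (w w' : A (Fin d)) (n : ℕ) :
    (XX τ et)^[n] (w + w') = (XX τ et)^[n] w + (XX τ et)^[n] w' := by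
  induction n with
  | zero => rfl
  | succ n ih => simp only [Function.iterate_succ_apply', ih, map_add]

theorem iterate_ge_XX (τ et : ℝ) (w : A (Fin d)) (n : ℕ) :
    (XX τ et)^[n + 1] (ge * w) = ge * (XX τ et)^[n + 1] w + ((n : ℝ) + 1) • (XX τ et)^[n] w := by
  induction n with
  | zero =>
    simp only [zero_add, Function.iterate_one, Function.iterate_zero, id_eq]
    rw [Derivation.leibniz, XX_e]
    simp
  | succ n ih =>
    rw [Function.iterate_succ_apply', ih, map_add, Derivation.leibniz, XX_e, Derivation.map_smul,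
      ← Function.iterate_succ_apply' (XX τ et), ← Function.iterate_succ_apply' (XX τ et)]
    simp only [smul_eq_mul, mul_one]
    push_cast
    rw [add_assoc, add_smul ((n : ℝ) + 1) 1, one_smul, add_comm ((XX τ et)^[n + 1] w)]

/-- constants -/
theorem sqrt_CK {C K : ℝ} (hC : 0 ≤ C) (hK : 1 ≤ K) (P : ℕ) : √(C * K ^ P) ≤ (C + 1) * K ^ P := by
  have hKp : 1 ≤ K ^ P := one_le_pow₀ hK
  rw [Real.sqrt_le_left (by positivity), mul_pow]
  have h2 : C * K ^ P ≤ (C + 1) ^ 2 * K ^ P := by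
    have : C ≤ (C + 1) ^ 2 := by nlinarith
    exact mul_le_mul_of_nonneg_right this (by positivity)
  have h3 : (C + 1) ^ 2 * K ^ P ≤ (C + 1) ^ 2 * (K ^ P) ^ 2 := by
    have : K ^ P ≤ (K ^ P) ^ 2 := by nlinarith
    exact mul_le_mul_of_nonneg_left this (by positivity)
  exact h2.trans h3

variable {c : ℕ → ℝ}

/-- **Coupled flow, first component** (the velocity of `η`). -/
theorem exists_C1 (hAF : AFall c) (n : ℕ) : ∃ (C : ℝ) (P : ℕ), 0 ≤ C ∧
    ∀ {d : ℕ} {f : E d → ℝ} {τ : ℝ}, PotP τ f → 0 < τ → τ ≤ 1 → ∀ (a : E d) {ρ : ℝ}, τ ≤ ρ →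
      ∀ {t : ℝ}, t ∈ Ioo (-1 : ℝ) 1 → ∀ {Q : Measure (E d × E d)},
      Q.map (fun x => (x.1, bC f a ρ t x)) = (Scale.law1 f a t).prod (stdGaussian (E d)) →
      eLpNorm ((Dv (vC f a ρ))^[n + 1] (fun t x => (vC f a ρ t x).1) t) 2 Q ≤
        ENNReal.ofReal ((τ + τ / ρ) * (C * (√(1 - t ^ 2))⁻¹ ^ P) * √d) := by
  obtain ⟨C, P, hC, H⟩ := Sob.export_coord c (n + 1)
  obtain ⟨C₀, P₀, hC₀, H₀⟩ := Sob.export_coord c n
  refine ⟨2 * (C₀ + 1) + 2 * (C + 1), P + P₀, by linarith, fun {d f τ} hf hτ hτ1 a ρ hρ t ht Q hQ => ?_⟩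
  have hκ := sqrt_pos' ht
  have hK : 1 ≤ (√(1 - t ^ 2))⁻¹ := (one_le_inv₀ hκ).2 kappa_le
  have hρ0 : 0 < ρ := hτ.trans_le hρ
  have hAF' := hAF hf hτ hτ1 hκ kappa_le
  set K := (√(1 - t ^ 2))⁻¹ with hKd
  have hF : SmOn (fun t x => (vC f a ρ t x).1) (Ioo (-1 : ℝ) 1) := by
    have := smOn_vC hf a ρ
    exact this.fst
  have key := coupled_word (c := c) hf hτ hτ1 a hρ ht hAF' hQ hF 1
    (fun i => (-τ) • gT {i} + (τ / ρ) • wAb i) ?_ (n + 1)
    (B := 2 * (τ ^ 2 * (C₀ * K ^ P₀)) + 2 * ((τ / ρ) ^ 2 * (C * K ^ P))) (by positivity) ?_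
  · refine key.trans (ENNReal.ofReal_le_ofReal ?_)
    rw [abs_one, one_mul]
    refine mul_le_mul_of_nonneg_right ?_ (Real.sqrt_nonneg _)
    have h1 : √(2 * (τ ^ 2 * (C₀ * K ^ P₀)) + 2 * ((τ / ρ) ^ 2 * (C * K ^ P))) ≤
        2 * τ * √(C₀ * K ^ P₀) + 2 * (τ / ρ) * √(C * K ^ P) := by
      have hτρ : 0 < τ / ρ := by positivity
      rw [Real.sqrt_le_left (by positivity)]
      have a1 : √(C₀ * K ^ P₀) ^ 2 = C₀ * K ^ P₀ := Real.sq_sqrt (by positivity)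
      have a2 : √(C * K ^ P) ^ 2 = C * K ^ P := Real.sq_sqrt (by positivity)
      have a3 : 0 ≤ τ * √(C₀ * K ^ P₀) * ((τ / ρ) * √(C * K ^ P)) := by positivity
      have a4 : 0 ≤ τ ^ 2 * (C₀ * K ^ P₀) := by positivity
      have a5 : 0 ≤ (τ / ρ) ^ 2 * (C * K ^ P) := by positivity
      have a6 : (2 * τ * √(C₀ * K ^ P₀) + 2 * (τ / ρ) * √(C * K ^ P)) ^ 2 =
          4 * (τ ^ 2 * √(C₀ * K ^ P₀) ^ 2) + 4 * ((τ / ρ) ^ 2 * √(C * K ^ P) ^ 2) +
          8 * (τ * √(C₀ * K ^ P₀) * ((τ / ρ) * √(C * K ^ P))) := by ring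
      rw [a6, a1, a2]
      linarith
    have h2 := sqrt_CK hC₀ hK P₀
    have h3 := sqrt_CK hC hK P
    have hk1 : K ^ P₀ ≤ K ^ (P + P₀) := pow_le_pow_right₀ hK (by omega)
    have hk2 : K ^ P ≤ K ^ (P + P₀) := pow_le_pow_right₀ hK (by omega)
    have hτρ : 0 < τ / ρ := by positivity
    calc _ ≤ 2 * τ * √(C₀ * K ^ P₀) + 2 * (τ / ρ) * √(C * K ^ P) := h1
      _ ≤ 2 * τ * ((C₀ + 1) * K ^ (P + P₀)) + 2 * (τ / ρ) * ((C + 1) * K ^ (P + P₀)) := by
        gcongr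
        · exact h2.trans (mul_le_mul_of_nonneg_left hk1 (by positivity))
        · exact h3.trans (mul_le_mul_of_nonneg_left hk2 (by positivity))
      _ ≤ _ := by
        have b1 : 0 ≤ τ * (C + 1) * K ^ (P + P₀) := by positivity
        have b2 : 0 ≤ (τ / ρ) * (C₀ + 1) * K ^ (P + P₀) := by positivity
        nlinarith
  · intro t ht x i
    rw [one_mul, map_add, map_smul, map_smul]
    have h1 := G_word hf a hτ.ne' ht (x.1, bC f a ρ t x) i
    have h2 := DGr_word hf a hτ.ne' ht (x.1, bC f a ρ t x) i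
    have e1 : (vC f a ρ t x).1 i = -(G f √(1 - t ^ 2) (a + t • x.1) i) +
      ρ⁻¹ * DGr f (√(1 - t ^ 2), a + t • x.1) (bC f a ρ t x) i := rfl
    change (vC f a ρ t x).1 i = _
    rw [e1]
    change G f √(1 - t ^ 2) (a + t • x.1) i = _ at h1
    change DGr f (√(1 - t ^ 2), a + t • x.1) (bC f a ρ t x) i = _ at h2
    rw [h1, h2]
    simp only [smul_eq_mul]
    field_simp
  · intro hK' het hε hτ0 hτ1' i
    rw [iterate_add_XX, iterate_smul_XX, iterate_smul_XX]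
    set S := fixSett c K (τ / ρ) hK' het hf (sqrt_pos' ht) a t hε hτ0 hτ1' hAF' with hS
    refine (I2_add S ((-τ) • (XX τ (τ / ρ))^[n + 1] (gT {i})) _).trans ?_
    have g1 := (H₀ S i).1
    have g2 := (H S i).2.1
    have g3 := I2_smul S (-τ) ((XX τ (τ / ρ))^[n + 1] (gT {i}))
    have g4 := I2_smul S (τ / ρ) ((XX τ (τ / ρ))^[n + 1] (wAb i))
    refine add_le_add (mul_le_mul_of_nonneg_left ?_ (by norm_num))
      (mul_le_mul_of_nonneg_left ?_ (by norm_num))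
    · refine le_of_eq_of_le g3 ?_
      rw [neg_sq]
      exact mul_le_mul_of_nonneg_left g1 (sq_nonneg _)
    · refine le_of_eq_of_le g4 ?_
      exact mul_le_mul_of_nonneg_left g2 (sq_nonneg _)


theorem wAAb_bound (c : ℕ → ℝ) (n : ℕ) : ∃ (C : ℝ) (P : ℕ), 0 ≤ C ∧ ∀ (S : Sob.Sett c) (i : S.N),
    S.I ((fun f => S.X f)^[n] (S.eps * ∑ l, S.T {i, l} * ∑ k, S.T {l, k} * S.b k) *
      (fun f => S.X f)^[n] (S.eps * ∑ l, S.T {i, l} * ∑ k, S.T {l, k} * S.b k)) ≤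
        C * S.K ^ P := by
  cases n with
  | zero =>
    obtain ⟨C, P, hC, H⟩ := Sob.export_coord c 0
    refine ⟨C, P, hC, fun S i => ?_⟩
    exact (I2_eps S _).trans (H S i).2.2
  | succ n =>
    obtain ⟨C, P, hC, H⟩ := Sob.export_coord c (n + 1)
    obtain ⟨C₀, P₀, hC₀, H₀⟩ := Sob.export_coord c n
    refine ⟨2 * C + 2 * ((n : ℝ) + 1) ^ 2 * C₀, P + P₀, by positivity, fun S i => ?_⟩
    have hit : ∀ (w : S.A) (n : ℕ), (fun f => S.X f)^[n + 1] (S.eps * w) =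
        S.eps * (fun f => S.X f)^[n + 1] w + ((n : ℝ) + 1) • (fun f => S.X f)^[n] w := by
      intro w n
      induction n with
      | zero =>
        simp only [zero_add, Function.iterate_one, Function.iterate_zero, id_eq]
        rw [Derivation.leibniz, S.X_eps]
        simp
      | succ n ih =>
        rw [Function.iterate_succ_apply', ih]
        rw [map_add, Derivation.leibniz, S.X_eps, Derivation.map_smul]
        rw [show S.X ((fun f => S.X f)^[n + 1] w) = (fun f => S.X f)^[n + 1 + 1] w from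
          (Function.iterate_succ_apply' (fun f => S.X f) (n + 1) w).symm,
          show S.X ((fun f => S.X f)^[n] w) = (fun f => S.X f)^[n + 1] w from
          (Function.iterate_succ_apply' (fun f => S.X f) n w).symm]
        simp only [smul_eq_mul, mul_one]
        push_cast
        rw [add_assoc, add_smul ((n : ℝ) + 1) 1, one_smul, add_comm ((fun f => S.X f)^[n + 1] w)]
    rw [hit]
    have hK := S.one_le_K
    have hk1 : S.K ^ P ≤ S.K ^ (P + P₀) := pow_le_pow_right₀ hK (by omega)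
    have hk2 : S.K ^ P₀ ≤ S.K ^ (P + P₀) := pow_le_pow_right₀ hK (by omega)
    refine (I2_add S _ _).trans ?_
    have g1 := (I2_eps S ((fun f => S.X f)^[n + 1]
      (∑ l, S.T {i, l} * ∑ k, S.T {l, k} * S.b k))).trans (H S i).2.2
    have g2 := (I2_smul S ((n : ℝ) + 1) ((fun f => S.X f)^[n]
      (∑ l, S.T {i, l} * ∑ k, S.T {l, k} * S.b k)))
    have g3 := (H₀ S i).2.2
    rw [g2]
    calc _ ≤ 2 * (C * S.K ^ P) + 2 * (((n : ℝ) + 1) ^ 2 * (C₀ * S.K ^ P₀)) := by gcongr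
      _ ≤ 2 * (C * S.K ^ (P + P₀)) + 2 * (((n : ℝ) + 1) ^ 2 * (C₀ * S.K ^ (P + P₀))) := by gcongr
      _ = _ := by ring

/-- **Coupled flow, second component** (the velocity of `X`). -/
theorem exists_C2 (hAF : AFall c) (n : ℕ) : ∃ (C : ℝ) (P : ℕ), 0 ≤ C ∧
    ∀ {d : ℕ} {f : E d → ℝ} {τ : ℝ}, PotP τ f → 0 < τ → τ ≤ 1 → ∀ (a : E d) {ρ : ℝ}, τ ≤ ρ →
      ∀ {t : ℝ}, t ∈ Ioo (-1 : ℝ) 1 → ∀ {Q : Measure (E d × E d)},
      Q.map (fun x => (x.1, bC f a ρ t x)) = (Scale.law1 f a t).prod (stdGaussian (E d)) →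
      eLpNorm ((Dv (vC f a ρ))^[n] (fun t x => (vC f a ρ t x).2) t) 2 Q ≤
        ENNReal.ofReal (τ ^ 2 / ρ * (C * (√(1 - t ^ 2))⁻¹ ^ P) * √d) := by
  obtain ⟨C, P, hC, H⟩ := wAAb_bound c n
  refine ⟨C + 1, P, by linarith, fun {d f τ} hf hτ hτ1 a ρ hρ t ht Q hQ => ?_⟩
  have hκ := sqrt_pos' ht
  have hK : 1 ≤ (√(1 - t ^ 2))⁻¹ := (one_le_inv₀ hκ).2 kappa_le
  have hρ0 : 0 < ρ := hτ.trans_le hρ
  have hAF' := hAF hf hτ hτ1 hκ kappa_le
  set K := (√(1 - t ^ 2))⁻¹ with hKd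
  have hF : SmOn (fun t x => (vC f a ρ t x).2) (Ioo (-1 : ℝ) 1) := by
    have := smOn_vC hf a ρ
    exact this.snd
  have key := coupled_word (c := c) hf hτ hτ1 a hρ ht hAF' hQ hF (τ ^ 2 / ρ)
    (fun i => ge * wAAb i) ?_ n (B := C * K ^ P) (by positivity) ?_
  · refine key.trans (ENNReal.ofReal_le_ofReal ?_)
    rw [abs_of_pos (by positivity)]
    refine mul_le_mul_of_nonneg_right ?_ (Real.sqrt_nonneg _)
    exact mul_le_mul_of_nonneg_left (sqrt_CK hC hK P) (by positivity)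
  · intro t ht x i
    rw [map_mul, InstFix.evp_ge]
    have h1 := DGr_DGr_word hf a hτ.ne' ht (x.1, bC f a ρ t x) i
    change DGr f (√(1 - t ^ 2), a + t • x.1) (DGr f (√(1 - t ^ 2), a + t • x.1)
      (bC f a ρ t x)) i = _ at h1
    change (t * ρ⁻¹) * DGr f (√(1 - t ^ 2), a + t • x.1) (DGr f (√(1 - t ^ 2), a + t • x.1)
      (bC f a ρ t x)) i = _
    rw [h1]
    field_simp
  · intro hK' het hε hτ0 hτ1' i
    exact H (fixSett c K (τ / ρ) hK' het hf (sqrt_pos' ht) a t hε hτ0 hτ1' hAF') i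

end

end Crest.Agent.R285.SM
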