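import Crest.Agent.R285.FixLaw
import Crest.Agent.R285.InstEv
import Crest.Agent.R285.AFPot
import Crest.Agent.R285.Scale
import Crest.Agent.R285.DvLift

/-!
Row 285 (S0430): smoothness of the uncoupled flow (1) (and of the inner flow at a frozen centre):
`L²` bounds of the iterated total derivatives of the field `vY`, from the abstract bounds of
`Sob.Sett` (hypothesis `hS` below) and the flattening bounds (hypothesis `AF`).
-/

set_option autoImplicit false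
set_option linter.unusedSectionVars false

open MeasureTheory ProbabilityTheory Real Filter Topology Set
open Crest.OracleSampling (E)
open MvPolynomial (C)
open scoped RealInnerProductSpace ENNReal ContDiff

noncomputable section

namespace Crest.Agent.R285.SM

open Crest.Agent.R285 Crest.Agent.R285.Inst Crest.Agent.R285.InstFix Crest.Agent.R285.PolyDv

variable {d : ℕ}

/-- The flattening bounds at level `κ` in the form used by `fixSett`. -/
def AFB (c : ℕ → ℝ) (K τ : ℝ) (f : E d → ℝ) (κ : ℝ) : Prop :=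
  ∀ (p q : ℕ) (y : E d) (x : (Fin (p + 1) → Fin d) → ℝ),
    ∑ j : Fin (q + 1) → Fin d, (∑ k : Fin (p + 1) → Fin d,
      (τ⁻¹ * AF.pdm (Finset.univ.val.map k + Finset.univ.val.map j) (Ub f κ) y) * x k) ^ 2 ≤
      (c (p + q + 2) * K ^ (p + q + 2)) ^ 2 * ∑ k, x k ^ 2

/-- The uncoupled field on `E d × E d`. -/
def v2 (f : E d → ℝ) (a : E d) (t : ℝ) (p : E d × E d) : E d × E d := (vY f a 1 t p.1, 0)

theorem ev_eq (i : Fin d) : AF.ev i = EuclideanSpace.single i (1 : ℝ) := rfl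

theorem G_apply {τ : ℝ} {f : E d → ℝ} (hf : PotP τ f) {κ : ℝ} (hκ : 0 < κ) (y : E d) (i : Fin d) :
    G f κ y i = AF.pdm {i} (Ub f κ) y := by
  rw [AF.pdm_single (AF.contDiff_Ub hf hκ), ← AF.inner_gradient_ev, AF.ev,
    EuclideanSpace.inner_single_left]
  simp [G]

theorem sqrt_pos' {t : ℝ} (ht : t ∈ Ioo (-1 : ℝ) 1) : 0 < √(1 - t ^ 2) :=
  Real.sqrt_pos.2 (one_sub_sq_pos ht)

theorem vY_apply {τ : ℝ} {f : E d → ℝ} (hf : PotP τ f) (a : E d) {t : ℝ} (ht : t ∈ Ioo (-1 : ℝ) 1)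
    (η : E d) (i : Fin d) :
    vY f a 1 t η i = -AF.pdm {i} (AF.uT f (1 - t ^ 2)) (a + t • η) := by
  unfold vY AF.uT
  rw [← G_apply hf (sqrt_pos' ht)]
  simp

/-- abbreviation: value of the formal ring along the uncoupled flow -/
abbrev ev2 (τ : ℝ) (f : E d → ℝ) (a : E d) (t : ℝ) (x : E d × E d) : A (Fin d) →ₐ[ℝ] ℝ :=
  evt τ (AF.uT f) a (fun _ x => x.1) (fun _ x => x.2) t x

theorem ev2_eq (τ : ℝ) (f : E d → ℝ) (a : E d) (t : ℝ) (x : E d × E d) (g : A (Fin d)) :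
    ev2 τ f a t x g = PolyEv.evp (gval f (√(1 - t ^ 2)) a t τ) x g := by
  unfold ev2 evt PolyEv.evp
  congr 2
  funext g
  cases g <;> rfl

theorem smOn_fst' {J : Set ℝ} : SmOn (fun (_ : ℝ) (x : E d × E d) => x.1) J := by
  have : ContDiff ℝ ((⊤ : ℕ∞) : WithTop ℕ∞) (fun p : ℝ × E d × E d => p.2.1) := by fun_prop
  exact this.contDiffOn

theorem smOn_snd' {J : Set ℝ} : SmOn (fun (_ : ℝ) (x : E d × E d) => x.2) J := by
  have : ContDiff ℝ ((⊤ : ℕ∞) : WithTop ℕ∞) (fun p : ℝ × E d × E d => p.2.2) := by fun_prop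
  exact this.contDiffOn

theorem Dv_clm_const {W F : Type} [NormedAddCommGroup W] [NormedSpace ℝ W] [NormedAddCommGroup F]
    [NormedSpace ℝ F] (v : ℝ → W → W) (L : W →L[ℝ] F) (t : ℝ) (x : W) :
    Dv v (fun _ x => L x) t x = L (v t x) := by
  have h : HasFDerivAt (fun p : ℝ × W => L p.2) (L.comp (ContinuousLinearMap.snd ℝ ℝ W)) (t, x) :=
    L.hasFDerivAt.comp (t, x) hasFDerivAt_snd
  simp only [Dv]
  rw [h.fderiv]
  simp

/-- iterated total derivatives in the formal ring, uncoupled flow -/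
theorem iterate_ev2 {τ : ℝ} {f : E d → ℝ} (hf : PotP τ f) (hτ : τ ≠ 0) (a : E d) (g : A (Fin d))
    (n : ℕ) {t : ℝ} (ht : t ∈ Ioo (-1 : ℝ) 1) (x : E d × E d) :
    (Dv (v2 f a))^[n] (fun t x => ev2 τ f a t x g) t x = ev2 τ f a t x ((XX τ 0)^[n] g) := by
  refine iterate_Dv_evt (et := 0) hτ (AF.joint_uT hf) (AF.hj_uT hf) isOpen_Ioo subset_rfl
    smOn_fst' smOn_snd' ?_ ?_ g n ht x
  · intro t ht x i
    have h1 : Dv (v2 f a) (fun (_ : ℝ) (x : E d × E d) => x.1) t x = (v2 f a t x).1 :=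
      Dv_clm_const (v2 f a) (ContinuousLinearMap.fst ℝ (E d) (E d)) t x
    rw [h1, XX_η]
    simp only [v2, vY_apply hf a ht]
    simp only [map_neg, map_mul, evt_C, evt_T, map_zero, zero_mul, add_zero]
    field_simp
  · intro t ht x i
    have h1 : Dv (v2 f a) (fun (_ : ℝ) (x : E d × E d) => x.2) t x = (v2 f a t x).2 :=
      Dv_clm_const (v2 f a) (ContinuousLinearMap.snd ℝ (E d) (E d)) t x
    rw [h1, XX_b]
    simp [v2]

theorem smOn_v2 {τ : ℝ} {f : E d → ℝ} (hf : PotP τ f) (a : E d) :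
    SmOn (v2 f a) (Ioo (-1 : ℝ) 1) := by
  have h1 : SmOn (fun t (p : E d × E d) => vY f a 1 t p.1) (Ioo (-1 : ℝ) 1) :=
    PolyDv.SmOn.fst (smOn_vY hf a one_pos)
  exact ContDiffOn.prodMk h1 contDiffOn_const

/-- Squared norm of the iterated derivative of the field. -/
theorem norm_sq_iterate_vY {τ : ℝ} {f : E d → ℝ} (hf : PotP τ f) (hτ : τ ≠ 0) (a : E d) (n : ℕ)
    {t : ℝ} (ht : t ∈ Ioo (-1 : ℝ) 1) (x : E d × E d) :
    ‖(Dv (vY f a 1))^[n] (vY f a 1) t x.1‖ ^ 2 =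
      ∑ i, (PolyEv.evp (gval f (√(1 - t ^ 2)) a t τ) x (-(C τ * (XX τ 0)^[n] (gT {i})))) ^ 2 := by
  rw [← iterate_Dv_fst (v := vY f a 1) (v₂ := v2 f a) isOpen_Ioo (smOn_vY hf a one_pos)
    (smOn_vY hf a one_pos) (fun t _ p => rfl) n t ht x]
  rw [EuclideanSpace.norm_sq_eq]
  refine Finset.sum_congr rfl fun i _ => ?_
  rw [Real.norm_eq_abs, sq_abs]
  congr 1
  set L : E d →L[ℝ] ℝ := EuclideanSpace.proj (𝕜 := ℝ) i with hL
  have hf1 : SmOn (fun t (p : E d × E d) => vY f a 1 t p.1) (Ioo (-1 : ℝ) 1) :=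
    PolyDv.SmOn.fst (smOn_vY hf a one_pos)
  have h1 := iterate_Dv_clm L isOpen_Ioo hf1 (smOn_v2 hf a) n t ht x
  have h2 : ∀ t ∈ Ioo (-1 : ℝ) 1, ∀ p : E d × E d, L (vY f a 1 t p.1) =
      ev2 τ f a t p (-(C τ * gT {i})) := by
    intro t ht p
    have : L (vY f a 1 t p.1) = vY f a 1 t p.1 i := rfl
    rw [this, vY_apply hf a ht]
    simp only [map_neg, map_mul, evt_C, evt_T]
    field_simp
  have h3 := iterate_Dv_congr (v := v2 f a) isOpen_Ioo h2 n t ht x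
  have h4 := iterate_ev2 hf hτ a (-(C τ * gT {i})) n ht x
  have h5 : ∀ (n : ℕ) (g : A (Fin d)), (XX τ 0)^[n] (-(C τ * g)) = -(C τ * (XX τ 0)^[n] g) := by
    intro n
    induction n with
    | zero => intro g; rfl
    | succ n ih =>
      intro g
      rw [Function.iterate_succ_apply, Function.iterate_succ_apply, ← ih]
      congr 1
      rw [map_neg, ← MvPolynomial.smul_eq_C_mul, Derivation.map_smul, MvPolynomial.smul_eq_C_mul]
  have h6 : L ((Dv (v2 f a))^[n] (fun t (p : E d × E d) => vY f a 1 t p.1) t x) =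
      ((Dv (v2 f a))^[n] (fun t (p : E d × E d) => vY f a 1 t p.1) t x) i := rfl
  rw [← h6, ← h1, h3, h4, h5, ev2_eq]

/-- What is needed from the abstract theory: bound `B` for the `n`-th derivative of the generators
`T{i}` in the setting `S`. -/
def GBound {c : ℕ → ℝ} (S : Sob.Sett c) (n : ℕ) (B : ℝ) : Prop :=
  ∀ i : S.N, S.I (S.X^[n] (S.T {i}) * S.X^[n] (S.T {i})) ≤ B ^ 2

theorem eLpNorm_vY_law1 {c : ℕ → ℝ} {K τ : ℝ} {f : E d → ℝ} (hf : PotP τ f) (hτ : 0 < τ)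
    (hτ1 : τ ≤ 1) (a : E d) (n : ℕ) {t : ℝ} (ht : t ∈ Ioo (-1 : ℝ) 1) (hK : 1 ≤ K)
    (hAF : AFB c K τ f (√(1 - t ^ 2))) {B : ℝ} (hB0 : 0 ≤ B)
    (hB : ∀ het hε hτ0 hτ1, GBound (fixSett c K 0 hK het hf (sqrt_pos' ht) a t hε hτ0 hτ1 hAF) n B) :
    eLpNorm ((Dv (vY f a 1))^[n] (vY f a 1) t) 2 (Scale.law1 f a t) ≤
      ENNReal.ofReal (τ * B * √d) := by
  have hε : |t| ≤ 1 := abs_le.2 ⟨ht.1.le, ht.2.le⟩
  have hB' := hB (by simp) hε hτ.ne' (by rw [abs_of_pos hτ]; exact hτ1)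
  have hvals := vals hf (sqrt_pos' ht) a t hτ.ne' (bdd_of_AF hτ.ne' hAF)
  have := Scale.isProb_law1 hf a ht
  have hcont : Continuous ((Dv (vY f a 1))^[n] (vY f a 1) t) := by
    rw [← continuousOn_univ]
    exact ((smOn_vY hf a one_pos).iterate_Dv isOpen_Ioo (smOn_vY hf a one_pos) n).continuousOn.comp
      (f := fun x : E d => (t, x)) (by fun_prop) (fun x _ => ⟨ht, mem_univ _⟩)
  rw [← eLpNorm_fst (W := E d) (γ := stdGaussian (E d)) hcont, Scale.law1_prod hf a ht]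
  refine Scale.eLpNorm_M2_le hvals (fun i : Fin d => -(C τ * (XX τ 0)^[n] (gT {i})))
    (fun x => ?_) (by positivity) ?_
  · exact norm_sq_iterate_vY hf hτ.ne' a n ht x
  · have h1 : ∀ i : Fin d, PolyEv.If (gval f (√(1 - t ^ 2)) a t τ) (psi f (√(1 - t ^ 2)) a t)
        hvals.integrable (-(C τ * (XX τ 0)^[n] (gT {i})) * -(C τ * (XX τ 0)^[n] (gT {i}))) ≤
        τ ^ 2 * B ^ 2 := by
      intro i
      have e : (-(C τ * (XX τ 0)^[n] (gT {i})) * -(C τ * (XX τ 0)^[n] (gT {i})) : A (Fin d)) =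
          (τ ^ 2) • ((XX τ 0)^[n] (gT {i}) * (XX τ 0)^[n] (gT {i})) := by
        rw [MvPolynomial.smul_eq_C_mul, map_pow]; ring
      rw [e, map_smul, smul_eq_mul]
      exact mul_le_mul_of_nonneg_left (hB' i) (sq_nonneg _)
    calc _ ≤ ∑ _i : Fin d, τ ^ 2 * B ^ 2 := Finset.sum_le_sum fun i _ => h1 i
      _ = (τ * B * √d) ^ 2 := by
        rw [Finset.sum_const, Finset.card_univ, Fintype.card_fin, nsmul_eq_mul, mul_pow, mul_pow,
          Real.sq_sqrt (Nat.cast_nonneg d)]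
        ring

end Crest.Agent.R285.SM
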