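import Crest.Agent.R285.SM1C
import Crest.Agent.R285.CoupInst
import Crest.Agent.R285.AFAll
import Crest.Agent.R285.SM1Y

/-!
Row 285 (S0430): all smoothness inputs, unconditionally.

* `SM.innB` : inner flow at a frozen centre (`InnB`);
* `SM.mainB` : the coupled flow (`MainB` for the field `Inst.vC`);
* `SM.semY_all : SEMY`, `SM.sm1Y_all : SM1Y`.
-/

set_option autoImplicit false
set_option linter.unusedSectionVars false

open MeasureTheory ProbabilityTheory Real Filter Topology Set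
open Crest.OracleSampling (E)
open scoped RealInnerProductSpace ENNReal ContDiff

noncomputable section

namespace Crest.Agent.R285.SM

open Crest.Agent.R285 Crest.Agent.R285.Inst Crest.Agent.R285.YSys

variable {c : ℕ → ℝ}

theorem inv_kappa_mono {t e : ℝ} (ht : 0 ≤ t) (hte : t ≤ e) (he : e < 1) :
    (√(1 - t ^ 2))⁻¹ ≤ (√(1 - e ^ 2))⁻¹ := by
  have e1 : √(1 - e ^ 2) ≤ √(1 - t ^ 2) := by
    refine Real.sqrt_le_sqrt ?_
    nlinarith
  exact inv_anti₀ (sqrt_pos' ⟨by linarith, he⟩) e1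

/-- Law of `(η_t, b_t)` for the image of the starting law under the coupled flow. -/
theorem law_coup {d : ℕ} {f : E d → ℝ} {τ ρ : ℝ} (hf : PotP τ f) (hρ : 0 < ρ) (a : E d) {t : ℝ}
    (ht : t ∈ Jm) :
    ((((stdGaussian (E d)).prod (stdGaussian (E d))).map (xin f a ρ)).map
      (evol (vC f a ρ) Jm 0 t)).map (fun x => (x.1, bC f a ρ t x)) =
      (Scale.law1 f a t).prod (stdGaussian (E d)) := by
  have hv := coupField_vC' hf a ρ
  have h1 := coup_law hf hρ hv (coupLi_vC hf a ρ) ht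
  rw [Scale.map_evol_law1 hf a ht] at h1
  have hb : Continuous (fun x : E d × E d => (x.1, bC f a ρ t x)) := by
    refine continuous_fst.prodMk ?_
    rw [← continuousOn_univ]
    exact ContDiffOn.continuousOn (smOn_bC hf a ρ) |>.comp (f := fun x : E d × E d => (t, x))
      (by fun_prop) (fun x _ => ⟨ht, mem_univ _⟩)
  have he := hv.good.continuous_evol zero_mem_Jm ht
  rw [Measure.map_map hb.measurable he.measurable,
    Measure.map_map (hb.comp he).measurable (continuous_xin f a ρ).measurable]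
  exact h1

/-- **Smoothness along the coupled flow.** -/
theorem exists_MainB (hAF : AFall c) (n : ℕ) : ∃ (C : ℝ) (P : ℕ), 0 ≤ C ∧
    ∀ {d : ℕ} {f : E d → ℝ} {τ : ℝ}, PotP τ f → 0 < τ → τ ≤ 1 → ∀ (a : E d) {ρ : ℝ}, τ ≤ ρ →
      ∀ {e1 : ℝ}, 0 < e1 → e1 < 1 →
      MainB (vC f a ρ) (((stdGaussian (E d)).prod (stdGaussian (E d))).map (xin f a ρ)) n e1
        (ENNReal.ofReal ((τ + τ / ρ) * (C * (√(1 - e1 ^ 2))⁻¹ ^ P) * √d))
        (ENNReal.ofReal (τ * (τ / ρ) * (C * (√(1 - e1 ^ 2))⁻¹ ^ P) * √d)) := by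
  obtain ⟨C₁, P₁, hC₁, H₁⟩ := exists_C1 hAF n
  obtain ⟨C₂, P₂, hC₂, H₂⟩ := exists_C2 hAF (n + 1)
  refine ⟨C₁ + C₂, P₁ + P₂, by linarith, fun {d f τ} hf hτ hτ1 a ρ hρ e1 he0 he1 => ?_⟩
  have hρ0 : 0 < ρ := hτ.trans_le hρ
  have hv := coupField_vC' hf a ρ
  have hcont : ∀ {t : ℝ}, t ∈ Jm → ∀ {F : ℝ → E d × E d → E d}, SmOn F Jm →
      Continuous ((Dv (vC f a ρ))^[n + 1] F t) := by
    intro t ht F hF
    rw [← continuousOn_univ]
    exact (hF.iterate_Dv isOpen_Ioo (smOn_vC hf a ρ) (n + 1)).continuousOn.comp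
      (f := fun x : E d × E d => (t, x)) (by fun_prop) (fun x _ => ⟨ht, mem_univ _⟩)
  have hpow : ∀ {t : ℝ}, t ∈ Ioc 0 e1 → ∀ {C' : ℝ} {P' : ℕ}, 0 ≤ C' → C' ≤ C₁ + C₂ →
      P' ≤ P₁ + P₂ → C' * (√(1 - t ^ 2))⁻¹ ^ P' ≤
        (C₁ + C₂) * (√(1 - e1 ^ 2))⁻¹ ^ (P₁ + P₂) := by
    intro t ht C' P' hC' hC'' hP'
    have h1 := inv_kappa_mono ht.1.le ht.2 he1
    have hκ := sqrt_pos' (t := t) ⟨by linarith [ht.1], by linarith [ht.2]⟩
    have hK : 1 ≤ (√(1 - t ^ 2))⁻¹ := (one_le_inv₀ hκ).2 kappa_le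
    have h2 : (√(1 - t ^ 2))⁻¹ ^ P' ≤ (√(1 - t ^ 2))⁻¹ ^ (P₁ + P₂) :=
      pow_le_pow_right₀ hK hP'
    have h3 : (√(1 - t ^ 2))⁻¹ ^ (P₁ + P₂) ≤ (√(1 - e1 ^ 2))⁻¹ ^ (P₁ + P₂) :=
      pow_le_pow_left₀ (by positivity) h1 _
    exact mul_le_mul hC'' (h2.trans h3) (by positivity) (by linarith)
  refine ⟨fun t ht => ?_, fun t ht => ?_⟩
  · have htJ : t ∈ Jm := ⟨by linarith [ht.1], by linarith [ht.2]⟩
    have h1 := H₁ hf hτ hτ1 a hρ htJ (law_coup hf hρ0 a htJ)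
    rw [eLpNorm_map_measure (hcont htJ (smOn_vC hf a ρ).fst).aestronglyMeasurable
      (hv.good.continuous_evol zero_mem_Jm htJ).measurable.aemeasurable] at h1
    refine h1.trans (ENNReal.ofReal_le_ofReal ?_)
    have h2 := hpow ht hC₁ (by linarith) (Nat.le_add_right P₁ P₂)
    have h3 : 0 ≤ τ + τ / ρ := by positivity
    exact mul_le_mul_of_nonneg_right (mul_le_mul_of_nonneg_left h2 h3) (Real.sqrt_nonneg _)
  · have htJ : t ∈ Jm := ⟨by linarith [ht.1], by linarith [ht.2]⟩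
    have h1 := H₂ hf hτ hτ1 a hρ htJ (law_coup hf hρ0 a htJ)
    rw [eLpNorm_map_measure (hcont htJ (smOn_vC hf a ρ).snd).aestronglyMeasurable
      (hv.good.continuous_evol zero_mem_Jm htJ).measurable.aemeasurable] at h1
    refine h1.trans (ENNReal.ofReal_le_ofReal ?_)
    have h2 := hpow ht hC₂ (by linarith) (Nat.le_add_left P₂ P₁)
    have h3 : 0 ≤ τ ^ 2 / ρ := by positivity
    have h4 : τ * (τ / ρ) = τ ^ 2 / ρ := by ring
    rw [h4]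
    exact mul_le_mul_of_nonneg_right (mul_le_mul_of_nonneg_left h2 h3) (Real.sqrt_nonneg _)

/-! ### Unconditional forms -/

/-- smoothness of the coupled flow -/
theorem mainB (n : ℕ) : ∃ (C : ℝ) (P : ℕ), 0 ≤ C ∧
    ∀ {d : ℕ} {f : E d → ℝ} {τ : ℝ}, PotP τ f → 0 < τ → τ ≤ 1 → ∀ (a : E d) {ρ : ℝ}, τ ≤ ρ →
      ∀ {e1 : ℝ}, 0 < e1 → e1 < 1 →
      MainB (vC f a ρ) (((stdGaussian (E d)).prod (stdGaussian (E d))).map (xin f a ρ)) n e1
        (ENNReal.ofReal ((τ + τ / ρ) * (C * (√(1 - e1 ^ 2))⁻¹ ^ P) * √d))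
        (ENNReal.ofReal (τ * (τ / ρ) * (C * (√(1 - e1 ^ 2))⁻¹ ^ P) * √d)) :=
  exists_MainB AF.AFall_afc n

/-- smoothness of the inner flow at a frozen centre -/
theorem innB (n : ℕ) : ∃ (C : ℝ) (P : ℕ), 0 ≤ C ∧
    ∀ {d : ℕ} {U : E d → ℝ} {h s : ℝ}, PotP h U → 0 < h → 0 < s → h * s ^ 2 ≤ 1 →
      ∀ (y : E d) {t0 : ℝ}, 0 < t0 → t0 < 1 →
      InnB U y s (n + 1) t0
        (ENNReal.ofReal (h * s ^ 2 * (C * (√(1 - t0 ^ 2))⁻¹ ^ P) * √d)) :=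
  exists_InnB AF.AFall_afc n

/-- smoothness of the inner flow at a frozen centre, with a universal constant -/
theorem innB_half (n : ℕ) : ∃ C : ℝ, 0 ≤ C ∧
    ∀ {d : ℕ} {f : E d → ℝ} {τ : ℝ}, PotP τ f → 0 < τ → τ ≤ 1 → ∀ (y : E d) {s : ℝ}, 0 < s →
      s ≤ 1 → ∀ {t0 : ℝ}, 0 < t0 → t0 ≤ 1 / 2 →
      InnB f y s (n + 1) t0 (ENNReal.ofReal (τ * C * √d)) := by
  obtain ⟨C, P, hC, H⟩ := innB n
  refine ⟨C * 2 ^ P, by positivity, fun {d f τ} hf hτ hτ1 y s hs hs1 t0 h0 h1 t ht => ?_⟩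
  have hs2 : s ^ 2 ≤ 1 := by nlinarith
  have h2 : τ * s ^ 2 ≤ τ := by nlinarith
  refine (H hf hτ hs (h2.trans hτ1) y h0 (by linarith) t ht).trans (ENNReal.ofReal_le_ofReal ?_)
  have hk : (2 : ℝ)⁻¹ ≤ √(1 - t0 ^ 2) := by
    refine Real.le_sqrt_of_sq_le ?_
    nlinarith
  have hk2 : (√(1 - t0 ^ 2))⁻¹ ≤ 2 := inv_le_of_inv_le₀ two_pos hk
  have hk3 : (√(1 - t0 ^ 2))⁻¹ ^ P ≤ 2 ^ P := pow_le_pow_left₀ (by positivity) hk2 P
  have h4 : τ * s ^ 2 * (C * (√(1 - t0 ^ 2))⁻¹ ^ P) ≤ τ * (C * 2 ^ P) :=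
    mul_le_mul h2 (mul_le_mul_of_nonneg_left hk3 hC) (by positivity) hτ.le
  exact mul_le_mul_of_nonneg_right h4 (Real.sqrt_nonneg _)

theorem sm1Y_all : SM1Y := sm1Y AF.AFall_afc

/-- **SEM_Y.** -/
theorem semY_all : SEMY := semY AF.AFall_afc

end Crest.Agent.R285.SM
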