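import Crest.Agent.R285.Froz
import Crest.Agent.R285.QFlat

/-!
Row 285: the exact points of the Q-system (518's `QPar.sys`, rescaled units, centre `a`) and the
`L²` bound of every defect `x_i - evalAt x (pt i)` and of `X₀ - evalAt x out`.

The exact path enters through `y j, b j` (values at the main nodes), `y1, X1, X0, q`; the main-grid
quadrature errors are hypotheses (`ExQ.main_y`, `main_X`, `main_0`).
-/

set_option autoImplicit false
set_option linter.unusedSectionVars false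

open Set Filter Topology MeasureTheory ProbabilityTheory
open scoped ENNReal NNReal RealInnerProductSpace

noncomputable section

namespace Crest.Agent.R285

namespace SemQ

variable {V : Type} [NormedAddCommGroup V] [InnerProductSpace ℝ V] [FiniteDimensional ℝ V]
  [MeasurableSpace V] [BorelSpace V]
variable {Ω : Type*} [MeasurableSpace Ω] {P : Measure Ω}

/-- `L²` bound with measurability. -/
structure LB (P : Measure Ω) (g : Ω → V) (δ : ℝ≥0∞) : Prop where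
  m : AEStronglyMeasurable g P
  le : eLpNorm g 2 P ≤ δ

theorem LB.mono {g : Ω → V} {δ δ' : ℝ≥0∞} (h : LB P g δ) (hd : δ ≤ δ') : LB P g δ' :=
  ⟨h.m, h.le.trans hd⟩

theorem LB.congr {g g' : Ω → V} {δ : ℝ≥0∞} (h : LB P g δ) (e : ∀ ω, g' ω = g ω) : LB P g' δ := by
  have : g' = g := funext e
  rw [this]; exact h

theorem LB.add {g g' : Ω → V} {δ δ' : ℝ≥0∞} (h : LB P g δ) (h' : LB P g' δ') :
    LB P (fun ω => g ω + g' ω) (δ + δ') :=
  ⟨h.m.add h'.m, (eLpNorm_add_le h.m h'.m (by norm_num)).trans (add_le_add h.le h'.le)⟩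

theorem LB.smul {g : Ω → V} {δ : ℝ≥0∞} (h : LB P g δ) (c : ℝ) :
    LB P (fun ω => c • g ω) (ENNReal.ofReal |c| * δ) := by
  refine ⟨h.m.const_smul c, ?_⟩
  have : eLpNorm (fun ω => c • g ω) 2 P = ‖c‖ₑ * eLpNorm g 2 P := eLpNorm_const_smul c g 2 P
  rw [this, ← ofReal_norm, Real.norm_eq_abs]
  exact mul_le_mul' le_rfl h.le

theorem LB.neg {g : Ω → V} {δ : ℝ≥0∞} (h : LB P g δ) : LB P (fun ω => -g ω) δ := by
  refine ⟨h.m.neg, ?_⟩
  have : eLpNorm (fun ω => -g ω) 2 P = eLpNorm g 2 P := eLpNorm_neg g 2 P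
  rw [this]
  exact h.le

theorem LB.sub {g g' : Ω → V} {δ δ' : ℝ≥0∞} (h : LB P g δ) (h' : LB P g' δ') :
    LB P (fun ω => g ω - g' ω) (δ + δ') :=
  (h.add h'.neg).congr fun ω => by rw [sub_eq_add_neg]

theorem LB.sum {κ : Type} [Fintype κ] {g : κ → Ω → V} {δ : ℝ≥0∞} (w : κ → ℝ)
    (h : ∀ l, LB P (g l) δ) :
    LB P (fun ω => ∑ l, w l • g l ω) (ENNReal.ofReal (∑ l, |w l|) * δ) := by
  refine ⟨?_, eLpNorm_sum_smul_le Finset.univ w g (fun l _ => (h l).m) fun l _ => (h l).le⟩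
  exact Finset.aestronglyMeasurable_fun_sum _ fun l _ => (h l).m.const_smul (w l)

variable (Q : QPar) (f : V → ℝ) (a : V) (y b : QJ Q.n Q.M → Ω → V) (y1 X1 X0 q : Ω → V)

/-- the shifted field -/
def Gt (f : V → ℝ) (a : V) (σ : ℝ) (x : V) : V := G f σ (a + x)

/-- value of the field at the main point -/
def gq (j : QJ Q.n Q.M) (ω : Ω) : V := G f (Q.kj j) (a + y j ω)

/-- derivative of the field at the main point -/
def Aq (j : QJ Q.n Q.M) (ω : Ω) : V →L[ℝ] V := DGr f (Q.kj j, a + y j ω)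

/-- The exact points. -/
def xq (ω : Ω) : QI Q.n Q.M → V
  | Sum.inl j => y j ω
  | Sum.inr (j, v, k) =>
    xpt f (Q.kj j) Q.ρ Q.n Q.t0 Q.a0 (a + y j ω) (b j ω, q ω) v k - a

/-- The visible vectors. -/
def pq (ω : Ω) : Fin 3 → V := ![y1 ω, X1 ω, q ω]

/-- Exact data for the Q-system. -/
structure ExQ (τ : ℝ) (P : Measure Ω) (B βy βX : ℝ≥0∞) : Prop where
  ok : Q.Ok
  pot : PotP τ f
  inn : ∀ j Y, InnB f Y (Q.kj j) (Q.n + 2) Q.t0 B
  law : ∀ j, FrozLaw P (fun ω => a + y j ω) (b j) q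
  my1 : Measurable y1
  mX1 : Measurable X1
  mX0 : Measurable X0
  main_y : ∀ j, eLpNorm (fun ω => y j ω - ((Q.nd j / Q.e1) • y1 ω + Q.nd j • ∑ l, Q.Wb j l •
    (gq Q f a y l ω - Q.ρ⁻¹ • Aq Q f a y l ω (b l ω)))) 2 P ≤ βy
  main_X : ∀ j, eLpNorm (fun ω => (Q.ρ • b j ω + gq Q f a y j ω) - (X1 ω -
    ∑ l, (Q.Wb j l * Q.nd l) • Q.ρ⁻¹ • Aq Q f a y l ω (Aq Q f a y l ω (b l ω)))) 2 P ≤ βX
  main_0 : eLpNorm (fun ω => X0 ω - (X1 ω -
    ∑ l, (Q.W0 l * Q.nd l) • Q.ρ⁻¹ • Aq Q f a y l ω (Aq Q f a y l ω (b l ω)))) 2 P ≤ βX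

/-- evaluation of a linear form at the exact points -/
def ev (ω : Ω) : Q.F →ₗ[ℝ] V :=
  LF.eval 0 (pq y1 X1 q ω) (fun i => Gt f a (Q.sys.r i) (xq Q f a y b q ω i))

theorem evalAt_eq (ω : Ω) (F : Q.F) :
    Q.sys.evalAt (Gt f a) 0 (pq y1 X1 q ω) (xq Q f a y b q ω) F =
      ev Q f a y b y1 X1 q ω F := rfl

variable {Q f a y b y1 X1 X0 q}

theorem ev_ca (j : QJ Q.n Q.M) (ω : Ω) :
    ev Q f a y b y1 X1 q ω (Q.ca j) = gq Q f a y j ω := by
  rw [ev, QPar.ca, LF.eval_call]; rfl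

theorem ev_cb (j : QJ Q.n Q.M) (v : QD Q.n) (k : Fin (Q.n + 2)) (ω : Ω) :
    ev Q f a y b y1 X1 q ω (Q.cb j v k) =
      xG f (Q.kj j) Q.ρ Q.n Q.t0 Q.a0 (a + y j ω) (b j ω, q ω) v k := by
  rw [ev, QPar.cb, LF.eval_call]
  show G f (Q.kj j * √(1 - Q.tk k ^ 2)) (a + (_ - a)) = _
  rw [add_sub_cancel]
  rfl

theorem ev_AA (j : QJ Q.n Q.M) (v : QD Q.n) (ω : Ω) :
    ev Q f a y b y1 X1 q ω (Q.AA j v) =
      xAA f (Q.kj j) Q.ρ Q.n Q.t0 Q.a0 (a + y j ω) (b j ω, q ω) v := by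
  rw [QPar.AA, map_sum, xAA]
  exact Finset.sum_congr rfl fun k _ => by rw [map_smul, ev_cb]

theorem ev_vis0 (ω : Ω) : ev Q f a y b y1 X1 q ω (LF.vis 0) = y1 ω := by
  rw [ev, LF.eval_vis]; rfl

theorem ev_vis1 (ω : Ω) : ev Q f a y b y1 X1 q ω (LF.vis 1) = X1 ω := by
  rw [ev, LF.eval_vis]; rfl

theorem ev_vis2 (ω : Ω) : ev Q f a y b y1 X1 q ω (LF.vis 2) = q ω := by
  rw [ev, LF.eval_vis]; rfl

theorem ev_RR (j : QJ Q.n Q.M) (ω : Ω) :
    ev Q f a y b y1 X1 q ω (Q.RR j) = ∑ m, db Q.n Q.a0 m •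
      xAA f (Q.kj j) Q.ρ Q.n Q.t0 Q.a0 (a + y j ω) (b j ω, q ω) (qdQ m) := by
  rw [QPar.RR, map_sum]
  exact Finset.sum_congr rfl fun k _ => by rw [map_smul, ev_AA]

theorem ev_XX (j : QJ Q.n Q.M) (ω : Ω) :
    ev Q f a y b y1 X1 q ω (Q.XX j) = X1 ω -
      ∑ l, (Q.Wb j l * Q.nd l) • ev Q f a y b y1 X1 q ω (Q.RR l) := by
  rw [QPar.XX, map_sub, ev_vis1, map_sum]
  simp only [map_smul]

theorem ev_out (ω : Ω) :
    ev Q f a y b y1 X1 q ω Q.sys.out = X1 ω -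
      ∑ l, (Q.W0 l * Q.nd l) • ev Q f a y b y1 X1 q ω (Q.RR l) := by
  rw [show Q.sys.out = LF.vis 1 - ∑ l, (Q.W0 l * Q.nd l) • Q.RR l from rfl, map_sub, ev_vis1,
    map_sum]
  simp only [map_smul]

theorem ev_bb (j : QJ Q.n Q.M) (ω : Ω) :
    ev Q f a y b y1 X1 q ω (Q.bb j) =
      Q.ρ⁻¹ • (ev Q f a y b y1 X1 q ω (Q.XX j) - gq Q f a y j ω) := by
  rw [QPar.bb, map_smul, map_sub, ev_ca]

theorem ev_uu (j : QJ Q.n Q.M) (m : Fin (Q.n + 2)) (ω : Ω) :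
    ev Q f a y b y1 X1 q ω (Q.uu j m) = ev Q f a y b y1 X1 q ω (Q.bb j) -
      ∑ l, (Q.ρ⁻¹ * wb Q.n Q.a0 (Num.node (Q.n + 2) m) l) •
        xAA f (Q.kj j) Q.ρ Q.n Q.t0 Q.a0 (a + y j ω) (b j ω, q ω) (qdQ l) := by
  rw [QPar.uu, map_sub, map_sum]
  simp only [map_smul, ev_AA]

theorem ev_qq (j : QJ Q.n Q.M) (m : Fin (Q.n + 2)) (ω : Ω) :
    ev Q f a y b y1 X1 q ω (Q.qq j m) = q ω +
      ∑ l, (Q.ρ⁻¹ * wb Q.n Q.a0 (Num.node (Q.n + 2) m) l) •
        xAA f (Q.kj j) Q.ρ Q.n Q.t0 Q.a0 (a + y j ω) (b j ω, q ω) (qdU l) := by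
  rw [QPar.qq, map_add, map_sum, ev_vis2]
  simp only [map_smul, ev_AA]

theorem ev_yy (j : QJ Q.n Q.M) (ω : Ω) :
    ev Q f a y b y1 X1 q ω (Q.yy j) = (Q.nd j / Q.e1) • y1 ω + Q.nd j • ∑ l, Q.Wb j l •
      (gq Q f a y l ω - Q.ρ⁻¹ •
        xAA f (Q.kj l) Q.ρ Q.n Q.t0 Q.a0 (a + y l ω) (b l ω, q ω) qdB) := by
  rw [QPar.yy, map_add, map_smul, map_smul, map_sum, ev_vis0]
  simp only [map_smul, map_sub, ev_ca, ev_AA]

theorem ev_pp (j : QJ Q.n Q.M) (v : QD Q.n) (k : Fin (Q.n + 2)) (ω : Ω) :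
    ev Q f a y b y1 X1 q ω (Q.pp j v k) = ev Q f a y b y1 X1 q ω (Q.yy j) +
      (Q.kj j * Q.tk k) • (ev Q f a y b y1 X1 q ω (Q.dir j v) - Q.kj j •
        ∑ l, wb Q.n Q.t0 (Num.node (Q.n + 2) k) l •
          xG f (Q.kj j) Q.ρ Q.n Q.t0 Q.a0 (a + y j ω) (b j ω, q ω) v l) := by
  rw [QPar.pp, map_add, map_smul, map_sub, map_smul, map_sum]
  simp only [map_smul, ev_cb]

/-! ### measurability -/

section meas

variable {τ : ℝ} {B βy βX : ℝ≥0∞} (h : ExQ Q f a y b y1 X1 X0 q τ P B βy βX)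
include h

theorem ExQ.my (j : QJ Q.n Q.M) : Measurable (y j) := by
  have h1 := (h.law j).mY.sub_const a
  have e : (fun ω => (a + y j ω) - a) = y j := funext fun ω => add_sub_cancel_left _ _
  rwa [e] at h1

theorem ExQ.mz (j : QJ Q.n Q.M) : Measurable (fun ω => (a + y j ω, (b j ω, q ω))) :=
  (h.law j).mY.prodMk ((h.law j).mb.prodMk (h.law j).mq)

theorem ExQ.t1 : Q.t0 < 1 := by linarith [h.ok.t1]

theorem ExQ.mg (j : QJ Q.n Q.M) : Measurable (gq Q f a y j) := by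
  have h1 : Continuous (fun Y : V => G f (Q.kj j) Y) :=
    (contDiff_gr h.pot).continuous.comp (f := fun Y : V => ((Q.kj j, Y) : ℝ × V)) (by fun_prop)
  exact h1.measurable.comp (h.law j).mY

theorem ExQ.mA (j : QJ Q.n Q.M) {w : Ω → V} (hw : Measurable w) :
    Measurable (fun ω => Aq Q f a y j ω (w ω)) := by
  have hD : Continuous (fun z : V × V => DGr f (Q.kj j, z.1)) :=
    (continuous_DGr h.pot (Q.kj j)).comp continuous_fst
  have h1 : Continuous (fun z : V × V => DGr f (Q.kj j, z.1) z.2) := hD.clm_apply continuous_snd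
  have h2 : Measurable (fun z : V × V => DGr f (Q.kj j, z.1) z.2) := h1.measurable
  have h3 : Measurable (fun ω => (a + y j ω, w ω)) := (h.law j).mY.prodMk hw
  have h4 := h2.comp h3
  simp only [Function.comp_def] at h4
  exact h4

theorem ExQ.mAA (j : QJ Q.n Q.M) (v : QD Q.n) :
    Measurable (fun ω => xAA f (Q.kj j) Q.ρ Q.n Q.t0 Q.a0 (a + y j ω) (b j ω, q ω) v) := by
  have h2 : Continuous (fun z : V × (V × V) => xAA f (Q.kj j) Q.ρ Q.n Q.t0 Q.a0 z.1 z.2 v) :=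
    continuous_xAA₂ h.pot (h.ok.kj_pos j) Q.ρ Q.n h.ok.t0.le h.t1 Q.a0 v
  have h3 := h2.measurable
  have h4 := h3.comp (h.mz j)
  simp only [Function.comp_def] at h4
  exact h4

theorem ExQ.mdir (j : QJ Q.n Q.M) (v : QD Q.n) :
    Measurable (fun ω => xdir (DGr f (Q.kj j, a + y j ω)) Q.ρ Q.n Q.a0 (b j ω, q ω) v) := by
  have h2 : Continuous (fun z : V × (V × V) => xdir (DGr f (Q.kj j, z.1)) Q.ρ Q.n Q.a0 z.2 v) :=
    continuous_xdir₂ h.pot (Q.kj j) Q.ρ Q.n Q.a0 v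
  have h3 := h2.measurable
  have h4 := h3.comp (h.mz j)
  simp only [Function.comp_def] at h4
  exact h4

theorem ExQ.mG (j : QJ Q.n Q.M) (v : QD Q.n) (k : Fin (Q.n + 2)) :
    Measurable (fun ω => xG f (Q.kj j) Q.ρ Q.n Q.t0 Q.a0 (a + y j ω) (b j ω, q ω) v k) := by
  have h2 : Continuous (fun z : V × (V × V) => xG f (Q.kj j) Q.ρ Q.n Q.t0 Q.a0 z.1 z.2 v k) :=
    continuous_xG₂ h.pot (h.ok.kj_pos j) Q.ρ Q.n h.ok.t0.le h.t1 Q.a0 v k
  have h3 := h2.measurable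
  have h4 := h3.comp (h.mz j)
  simp only [Function.comp_def] at h4
  exact h4

theorem ExQ.mpt (j : QJ Q.n Q.M) (v : QD Q.n) (k : Fin (Q.n + 2)) :
    Measurable (fun ω => xpt f (Q.kj j) Q.ρ Q.n Q.t0 Q.a0 (a + y j ω) (b j ω, q ω) v k) := by
  have h2 : Continuous (fun z : V × (V × V) => xpt f (Q.kj j) Q.ρ Q.n Q.t0 Q.a0 z.1 z.2 v k) :=
    continuous_xpt₂ h.pot (h.ok.kj_pos j) Q.ρ Q.n h.ok.t0.le h.t1 Q.a0 v k
  have h3 := h2.measurable
  have h4 := h3.comp (h.mz j)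
  simp only [Function.comp_def] at h4
  exact h4

theorem ExQ.mx (i : QI Q.n Q.M) : Measurable (fun ω => xq Q f a y b q ω i) := by
  rcases i with j | ⟨j, v, k⟩
  · exact h.my j
  · exact (h.mpt j v k).sub_const a

theorem ExQ.mev (F : Q.F) : Measurable (fun ω => ev Q f a y b y1 X1 q ω F) := by
  by_cases hne : Nonempty (QJ Q.n Q.M)
  · obtain ⟨j0⟩ := hne
    have hq : Measurable q := (h.law j0).mq
    have hc : ∀ σ, Continuous (fun x : V => Gt f a σ x) := fun σ =>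
      (contDiff_gr h.pot).continuous.comp (f := fun x : V => ((σ, a + x) : ℝ × V)) (by fun_prop)
    have hp : ∀ k : Fin 3, Measurable (fun ω => pq y1 X1 q ω k) := by
      intro k
      fin_cases k
      · exact h.my1
      · exact h.mX1
      · exact hq
    simp only [ev, LF.eval_apply, smul_zero, zero_add]
    refine Measurable.add (Finset.measurable_sum _ fun k _ => (hp k).const_smul _)
      (Finset.measurable_sum _ fun i _ => ?_)
    exact (((hc _).measurable.comp (h.mx i))).const_smul _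
  · exfalso
    have : 0 < Q.M := h.ok.M0
    exact hne ⟨(⟨0, this⟩, ⟨0, by omega⟩)⟩

/-! ### the constants -/

end meas

/-- error of the stencil -/
def eS (Q : QPar) (B : ℝ≥0∞) : ℝ≥0∞ := dS Q.n Q.k1 Q.t0 B
/-- error of the rotation -/
def eU (Q : QPar) (τ dd : ℝ) (B : ℝ≥0∞) : ℝ≥0∞ :=
  ENNReal.ofReal (rcQ Q.n * (Q.a0 * (τ / Q.ρ)) ^ (Q.n + 3) * √(2 * dd)) +
    ENNReal.ofReal (rcQ Q.n * Q.a0 / Q.ρ) * eS Q B
/-- error of `R` -/
def eR (Q : QPar) (τ dd : ℝ) (B : ℝ≥0∞) : ℝ≥0∞ :=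
  ENNReal.ofReal (Num.derC Q.n * (τ * (τ / Q.ρ)) * (Q.a0 * (τ / Q.ρ)) ^ (Q.n + 1) * √(2 * dd)) +
    ENNReal.ofReal (Num.derC Q.n / Q.a0) * eS Q B
/-- error of `X` -/
def eX (Q : QPar) (τ dd : ℝ) (B βX : ℝ≥0∞) : ℝ≥0∞ :=
  βX + ENNReal.ofReal (QPar.cW Q.n) * eR Q τ dd B
/-- error of `y` -/
def eY (Q : QPar) (B βy : ℝ≥0∞) : ℝ≥0∞ :=
  βy + ENNReal.ofReal (QPar.cW Q.n / Q.ρ) * eS Q B
/-- error of the directions -/
def eD (Q : QPar) (τ dd : ℝ) (B βX : ℝ≥0∞) : ℝ≥0∞ :=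
  eU Q τ dd B + ENNReal.ofReal Q.ρ⁻¹ * eX Q τ dd B βX
/-- error of the points -/
def eP (Q : QPar) (τ dd : ℝ) (B βy βX : ℝ≥0∞) : ℝ≥0∞ :=
  ENNReal.ofReal (rcQ Q.n * Q.t0 ^ (Q.n + 4)) * B + eY Q B βy +
    ENNReal.ofReal Q.t0 * eD Q τ dd B βX
/-- error of the output -/
def eO (Q : QPar) (τ dd : ℝ) (B βX : ℝ≥0∞) : ℝ≥0∞ :=
  βX + ENNReal.ofReal (YSys.CY Q.n) * eR Q τ dd B

section defects

variable {τ : ℝ} {B βy βX : ℝ≥0∞} (h : ExQ Q f a y b y1 X1 X0 q τ P B βy βX)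
include h

theorem ExQ.dS_le (j : QJ Q.n Q.M) : dS Q.n (Q.kj j) Q.t0 B ≤ eS Q B := by
  unfold eS dS
  have h1 := h.ok.k1_le_kj j
  have h2 := h.ok.k1_pos
  have h3 := Num.derC_nonneg Q.n
  have h4 := h.ok.t0
  gcongr

theorem ExQ.lb_A (j : QJ Q.n Q.M) (v : QD Q.n) :
    LB P (fun ω => Aq Q f a y j ω (xdir (DGr f (Q.kj j, a + y j ω)) Q.ρ Q.n Q.a0 (b j ω, q ω) v) -
      xAA f (Q.kj j) Q.ρ Q.n Q.t0 Q.a0 (a + y j ω) (b j ω, q ω) v) (eS Q B) :=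
  ⟨((h.mA j (h.mdir j v)).sub (h.mAA j v)).aestronglyMeasurable,
    ((h.law j).stencil h.pot (h.ok.kj_pos j) h.ok.t0 h.t1 (h.inn j) v).trans (h.dS_le j)⟩

theorem ExQ.lb_R (j : QJ Q.n Q.M) :
    LB P (fun ω => Q.ρ⁻¹ • Aq Q f a y j ω (Aq Q f a y j ω (b j ω)) -
      ev Q f a y b y1 X1 q ω (Q.RR j)) (eR Q τ (Module.finrank ℝ V) B) := by
  have hb := (h.law j).mb
  refine ⟨(((h.mA j (h.mA j hb)).const_smul _).sub (h.mev _)).aestronglyMeasurable, ?_⟩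
  simp_rw [ev_RR]
  refine ((h.law j).defect_R h.pot (h.ok.kj_pos j) h.ok.ρ0 h.ok.t0 h.t1 h.ok.a0
    (h.inn j)).trans ?_
  exact add_le_add le_rfl (mul_le_mul' le_rfl (h.dS_le j))

theorem ExQ.lb_X (j : QJ Q.n Q.M) :
    LB P (fun ω => (Q.ρ • b j ω + gq Q f a y j ω) - ev Q f a y b y1 X1 q ω (Q.XX j))
      (eX Q τ (Module.finrank ℝ V) B βX) := by
  have h1 : LB P (fun ω => (Q.ρ • b j ω + gq Q f a y j ω) - (X1 ω -
    ∑ l, (Q.Wb j l * Q.nd l) • Q.ρ⁻¹ • Aq Q f a y l ω (Aq Q f a y l ω (b l ω)))) βX := by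
    refine ⟨?_, h.main_X j⟩
    refine Measurable.aestronglyMeasurable ?_
    refine (((h.law j).mb.const_smul _).add (h.mg j)).sub (h.mX1.sub
      (Finset.measurable_sum _ fun l _ => ?_))
    exact (((h.mA l (h.mA l (h.law l).mb)).const_smul _).const_smul _)
  have h2 := LB.sum (fun l => Q.Wb j l * Q.nd l) (fun l => h.lb_R l)
  refine ((h1.sub h2).mono ?_).congr fun ω => ?_
  · unfold eX
    refine add_le_add le_rfl (mul_le_mul' (ENNReal.ofReal_le_ofReal ?_) le_rfl)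
    refine le_trans (Finset.sum_le_sum fun l _ => ?_) (h.ok.sum_Wb_le j)
    rw [abs_mul]
    exact mul_le_of_le_one_right (abs_nonneg _) (h.ok.abs_nd_le l)
  · rw [ev_XX]
    simp only [smul_sub, Finset.sum_sub_distrib]
    abel

theorem ExQ.lb_out :
    LB P (fun ω => X0 ω - ev Q f a y b y1 X1 q ω Q.sys.out)
      (eO Q τ (Module.finrank ℝ V) B βX) := by
  have h1 : LB P (fun ω => X0 ω - (X1 ω -
    ∑ l, (Q.W0 l * Q.nd l) • Q.ρ⁻¹ • Aq Q f a y l ω (Aq Q f a y l ω (b l ω)))) βX := by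
    refine ⟨?_, h.main_0⟩
    refine Measurable.aestronglyMeasurable ?_
    refine h.mX0.sub (h.mX1.sub (Finset.measurable_sum _ fun l _ => ?_))
    exact (((h.mA l (h.mA l (h.law l).mb)).const_smul _).const_smul _)
  have h2 := LB.sum (fun l => Q.W0 l * Q.nd l) (fun l => h.lb_R l)
  refine ((h1.sub h2).mono ?_).congr fun ω => ?_
  · unfold eO
    refine add_le_add le_rfl (mul_le_mul' (ENNReal.ofReal_le_ofReal ?_) le_rfl)
    refine le_trans (Finset.sum_le_sum fun l _ => ?_) h.ok.sum_W0_le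
    rw [abs_mul]
    exact mul_le_of_le_one_right (abs_nonneg _) (h.ok.abs_nd_le l)
  · rw [ev_out]
    simp only [smul_sub, Finset.sum_sub_distrib]
    abel

theorem ExQ.lb_b (j : QJ Q.n Q.M) :
    LB P (fun ω => b j ω - ev Q f a y b y1 X1 q ω (Q.bb j))
      (ENNReal.ofReal Q.ρ⁻¹ * eX Q τ (Module.finrank ℝ V) B βX) := by
  have hρ := h.ok.ρ0
  have h1 := (h.lb_X j).smul Q.ρ⁻¹
  rw [abs_of_pos (inv_pos.mpr hρ)] at h1
  refine h1.congr fun ω => ?_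
  rw [ev_bb]
  have e : Q.ρ⁻¹ • (Q.ρ • b j ω) = b j ω := inv_smul_smul₀ hρ.ne' _
  rw [smul_sub, smul_sub, smul_add, e]
  abel

theorem ExQ.lb_y (j : QJ Q.n Q.M) :
    LB P (fun ω => y j ω - ev Q f a y b y1 X1 q ω (Q.yy j)) (eY Q B βy) := by
  have hρ := h.ok.ρ0
  have h1 : LB P (fun ω => y j ω - ((Q.nd j / Q.e1) • y1 ω + Q.nd j • ∑ l, Q.Wb j l •
    (gq Q f a y l ω - Q.ρ⁻¹ • Aq Q f a y l ω (b l ω)))) βy := by
    refine ⟨?_, h.main_y j⟩
    refine Measurable.aestronglyMeasurable ?_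
    refine (h.my j).sub ((h.my1.const_smul _).add (Measurable.const_smul
      (Finset.measurable_sum _ fun l _ => ?_) _))
    exact ((h.mg l).sub ((h.mA l (h.law l).mb).const_smul _)).const_smul _
  have h2 := (LB.sum (fun l => Q.Wb j l) (fun l => (h.lb_A l qdB).smul Q.ρ⁻¹)).smul (Q.nd j)
  refine ((h1.sub h2).mono ?_).congr fun ω => ?_
  · unfold eY
    refine add_le_add le_rfl ?_
    rw [abs_of_pos (inv_pos.mpr hρ), ← mul_assoc, ← mul_assoc,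
      ← ENNReal.ofReal_mul (abs_nonneg _), ← ENNReal.ofReal_mul (by positivity)]
    refine mul_le_mul' (ENNReal.ofReal_le_ofReal ?_) le_rfl
    have hW := h.ok.sum_Wb_le j
    have hn := h.ok.abs_nd_le j
    have h0 : 0 ≤ ∑ l, |Q.Wb j l| := Finset.sum_nonneg fun _ _ => abs_nonneg _
    rw [div_eq_mul_inv]
    refine mul_le_mul_of_nonneg_right ?_ (inv_nonneg.mpr hρ.le)
    calc |Q.nd j| * ∑ l, |Q.Wb j l| ≤ 1 * QPar.cW Q.n := mul_le_mul hn hW h0 zero_le_one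
      _ = _ := one_mul _
  · rw [ev_yy]
    have e : ∀ l, xdir (DGr f (Q.kj l, a + y l ω)) Q.ρ Q.n Q.a0 (b l ω, q ω) qdB = b l ω :=
      fun l => rfl
    simp only [e, smul_sub, Finset.sum_sub_distrib]
    abel

/-- **Directions.** -/
theorem ExQ.lb_dir (j : QJ Q.n Q.M) (v : QD Q.n) :
    LB P (fun ω => xdir (DGr f (Q.kj j, a + y j ω)) Q.ρ Q.n Q.a0 (b j ω, q ω) v -
      ev Q f a y b y1 X1 q ω (Q.dir j v)) (eD Q τ (Module.finrank ℝ V) B βX) := by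
  rcases v with _ | m | m
  · refine ((h.lb_b j).mono ?_).congr fun ω => rfl
    unfold eD
    exact le_add_self
  · have h1 : LB P (fun ω => xdir (DGr f (Q.kj j, a + y j ω)) Q.ρ Q.n Q.a0 (b j ω, q ω) (qdU m) -
        (b j ω - ∑ l, (Q.ρ⁻¹ * wb Q.n Q.a0 (Num.node (Q.n + 2) m) l) •
        xAA f (Q.kj j) Q.ρ Q.n Q.t0 Q.a0 (a + y j ω) (b j ω, q ω) (qdQ l)))
        (eU Q τ (Module.finrank ℝ V) B) := by
      refine ⟨Measurable.aestronglyMeasurable ?_, ?_⟩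
      · exact (h.mdir j _).sub ((h.law j).mb.sub
          (Finset.measurable_sum _ fun l _ => (h.mAA j _).const_smul _))
      · refine ((h.law j).defect_u h.pot (h.ok.kj_pos j) h.ok.ρ0 h.ok.t0 h.t1 h.ok.a0.le
          (h.inn j) m).trans ?_
        exact add_le_add le_rfl (mul_le_mul' le_rfl (h.dS_le j))
    refine ((h1.add (h.lb_b j)).mono le_rfl).congr fun ω => ?_
    show _ - ev Q f a y b y1 X1 q ω (Q.uu j m) = _
    rw [ev_uu]
    abel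
  · have h1 : LB P (fun ω => xdir (DGr f (Q.kj j, a + y j ω)) Q.ρ Q.n Q.a0 (b j ω, q ω) (qdQ m) -
        (q ω + ∑ l, (Q.ρ⁻¹ * wb Q.n Q.a0 (Num.node (Q.n + 2) m) l) •
        xAA f (Q.kj j) Q.ρ Q.n Q.t0 Q.a0 (a + y j ω) (b j ω, q ω) (qdU l)))
        (eU Q τ (Module.finrank ℝ V) B) := by
      refine ⟨Measurable.aestronglyMeasurable ?_, ?_⟩
      · exact (h.mdir j _).sub ((h.law j).mq.add
          (Finset.measurable_sum _ fun l _ => (h.mAA j _).const_smul _))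
      · refine ((h.law j).defect_q h.pot (h.ok.kj_pos j) h.ok.ρ0 h.ok.t0 h.t1 h.ok.a0.le
          (h.inn j) m).trans ?_
        exact add_le_add le_rfl (mul_le_mul' le_rfl (h.dS_le j))
    refine (h1.mono ?_).congr fun ω => ?_
    · unfold eD
      exact le_self_add
    · show _ - ev Q f a y b y1 X1 q ω (Q.qq j m) = _
      rw [ev_qq]

/-- **Defect of every point.** -/
theorem ExQ.lb_pt (i : QI Q.n Q.M) :
    LB P (fun ω => xq Q f a y b q ω i - ev Q f a y b y1 X1 q ω (Q.sys.pt i))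
      (eP Q τ (Module.finrank ℝ V) B βy βX) := by
  rcases i with j | ⟨j, v, k⟩
  · refine (h.lb_y j).mono ?_
    unfold eP
    exact le_add_right (le_add_left le_rfl)
  · have hk := h.ok.tk_le k
    have hk0 := h.ok.tk_pos k
    have hκ := h.ok.kj_le j
    have hκ0 := h.ok.kj_pos j
    have h1 : LB P (fun ω => xpt f (Q.kj j) Q.ρ Q.n Q.t0 Q.a0 (a + y j ω) (b j ω, q ω) v k -
      ((a + y j ω) + (Q.kj j * (Q.t0 * Num.node (Q.n + 2) k)) •
      (xdir (DGr f (Q.kj j, a + y j ω)) Q.ρ Q.n Q.a0 (b j ω, q ω) v - Q.kj j •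
        ∑ l, wb Q.n Q.t0 (Num.node (Q.n + 2) k) l •
        xG f (Q.kj j) Q.ρ Q.n Q.t0 Q.a0 (a + y j ω) (b j ω, q ω) v l)))
        (ENNReal.ofReal (rcQ Q.n * Q.t0 ^ (Q.n + 4)) * B) := by
      refine ⟨Measurable.aestronglyMeasurable ?_, ?_⟩
      · refine (h.mpt j v k).sub ((h.law j).mY.add (Measurable.const_smul ?_ _))
        exact (h.mdir j v).sub (Measurable.const_smul
          (Finset.measurable_sum _ fun l _ => (h.mG j v l).const_smul _) _)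
      · refine ((h.law j).defect_p h.pot hκ0 h.ok.t0 h.t1 (h.inn j) v k).trans ?_
        refine mul_le_mul' (ENNReal.ofReal_le_ofReal ?_) le_rfl
        have := rcQ_nonneg Q.n
        have h4 := h.ok.t0
        calc Q.kj j * rcQ Q.n * Q.t0 ^ (Q.n + 4) ≤ 1 * rcQ Q.n * Q.t0 ^ (Q.n + 4) := by gcongr
          _ = _ := by ring
    have h2 := (h.lb_dir j v).smul (Q.kj j * Q.tk k)
    refine (((h1.add (h.lb_y j)).add h2).mono ?_).congr fun ω => ?_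
    · unfold eP
      refine add_le_add le_rfl (mul_le_mul' (ENNReal.ofReal_le_ofReal ?_) le_rfl)
      rw [abs_of_pos (mul_pos hκ0 hk0)]
      calc Q.kj j * Q.tk k ≤ 1 * Q.t0 := mul_le_mul hκ hk hk0.le zero_le_one
        _ = _ := one_mul _
    · show xpt f (Q.kj j) Q.ρ Q.n Q.t0 Q.a0 (a + y j ω) (b j ω, q ω) v k - a -
        ev Q f a y b y1 X1 q ω (Q.pp j v k) = _
      rw [ev_pp]
      have e : Q.tk k = Q.t0 * Num.node (Q.n + 2) k := rfl
      rw [e]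
      simp only [smul_sub]
      abel

end defects

end SemQ

end Crest.Agent.R285
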