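import Crest.Agent.R285.QProg
import Crest.Agent.R285.Unroll
import Crest.Agent.R285.LawPX

/-!
Row 285 (S0430): the statement SEM_Q (interface between the analysis and STEP Q).

`qpar n M s σ κ t0 a0` = the numerical parameters; `qout` = the semantic output (original units) of
`K + 1` sweeps from the start `g_i = θ • x₁`; `θ = 1` for `σ ≤ 1` and `θ = 0` for `σ > 1`.
The visible data are `p = ![y₁, x₁, q]` with the exact law `Rec.PX (TY s κ) (G · (s κ)) σ`.
-/

set_option autoImplicit false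
set_option linter.unusedSectionVars false

open MeasureTheory ProbabilityTheory
open Crest.OracleSampling (E Admissible)

noncomputable section

namespace Crest.Agent.R285

/-- numerical parameters of the Q-system at scale `s`, noise `σ`, `κ₁ = κ` -/
def qpar (n M : ℕ) (s σ κ t0 a0 : ℝ) : QPar := ⟨n, M, √(1 - κ ^ 2), t0, a0, s * σ⟩

/-- the start factor -/
def qth (σ : ℝ) : ℝ := if σ ≤ 1 then 1 else 0

theorem qth_abs_le (σ : ℝ) : |qth σ| ≤ 1 := by
  unfold qth; split_ifs <;> simp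

/-- the output of `K + 1` sweeps in original units, from the start `θ • x₁` -/
def qout {d : ℕ} (Q : QPar) (s θ : ℝ) (K : ℕ) (V : E d → ℝ) (c : E d) (p : Fin 3 → E d) : E d :=
  (Q.osys s).outF (G V) c p (fun _ => θ • p 1) (K + 1)

theorem FlatSys.continuous_gvalF {P ι : Type} [Fintype P] [Fintype ι] {X : Type}
    [NormedAddCommGroup X] [NormedSpace ℝ X] (S : FlatSys P ι) {G : ℝ → X → X}
    (hG : ∀ σ, Continuous (G σ)) (c : X) {g0 : (P → X) → ι → X}
    (hg : ∀ i, Continuous fun p => g0 p i) (k : ℕ) (i : ι) :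
    Continuous fun p : P → X => S.gvalF G c p (g0 p) k i := by
  induction k generalizing i with
  | zero => exact hg i
  | succ k ih =>
    refine (hG _).comp ?_
    simp only [LF.eval_apply]
    exact (continuous_const.add (continuous_finsetSum _ fun k _ =>
      (continuous_apply k).const_smul _)).add (continuous_finsetSum _ fun i _ => (ih i).const_smul _)

theorem FlatSys.continuous_outF {P ι : Type} [Fintype P] [Fintype ι] {X : Type}
    [NormedAddCommGroup X] [NormedSpace ℝ X] (S : FlatSys P ι) {G : ℝ → X → X}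
    (hG : ∀ σ, Continuous (G σ)) (c : X) {g0 : (P → X) → ι → X}
    (hg : ∀ i, Continuous fun p => g0 p i) (k : ℕ) :
    Continuous fun p : P → X => S.outF G c p (g0 p) k := by
  unfold FlatSys.outF
  simp only [LF.eval_apply]
  exact (continuous_const.add (continuous_finsetSum _ fun k _ =>
    (continuous_apply k).const_smul _)).add
      (continuous_finsetSum _ fun i _ => (S.continuous_gvalF hG c hg k i).const_smul _)

theorem continuous_qout {d : ℕ} (Q : QPar) (s θ : ℝ) (K : ℕ) {V : E d → ℝ} {h : ℝ} (hV : PotP h V)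
    (c : E d) : Continuous (qout Q s θ K V c) := by
  refine FlatSys.continuous_outF _ (fun σ => ?_) c (fun _ => (continuous_apply 1).const_smul θ) _
  exact (LipschitzWith.of_dist_le_mul (K := ⟨h, hV.hh⟩) fun x y => by
    rw [dist_eq_norm, dist_eq_norm]; exact gr_lip hV σ x y).continuous

theorem measurable_qout {d : ℕ} (Q : QPar) (s θ : ℝ) (K : ℕ) {V : E d → ℝ} (hV : Admissible d V)
    (c : E d) : Measurable (qout Q s θ K V c) :=
  (continuous_qout Q s θ K ⟨Pot.of_admissible hV, by norm_num⟩ c).measurable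

/-- The output in rescaled units. -/
theorem qout_eq {d : ℕ} (Q : QPar) (s θ : ℝ) (K : ℕ) (V : E d → ℝ) (c : E d) (p : Fin 3 → E d) :
    qout Q s θ K V c p = s⁻¹ • Q.sys.outF (fun r y => G (resc V c s) r y) 0
      ![s⁻¹ • (p 0 - c), s • p 1, p 2] (fun _ => θ • s • p 1) (K + 1) := by
  unfold qout QPar.osys
  rw [FlatSys.outF_orig_grd, LF.resc3]
  simp only [G_resc, smul_comm s θ]

/-- **SEM_Q**: the output of the Q-system is close, in mean, to a variable of law `N(G V s c, σ²)`. -/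
def SEMQ : Prop :=
  ∀ n : ℕ, ∃ (C : ℝ) (P : ℕ), 1 ≤ C ∧ ∀ (d : ℕ) (V : E d → ℝ), Admissible d V →
    ∀ (s σ κ t0 a0 : ℝ), 0 < s → 0 < σ → 0 < κ → κ ≤ 1 / 2 → 0 < t0 → t0 ≤ 1 / 2 → 1 ≤ a0 * t0 →
    C * (s ^ 2 + a0 * s / (σ * κ)) ≤ 1 → ∀ (c : E d) (M : ℕ), 0 < M → ∀ K : ℕ,
    ∃ (p : (E d × E d) × E d → Fin 3 → E d) (X₀ : (E d × E d) × E d → E d),
      Measurable p ∧ Measurable X₀ ∧
      (gam3 (E d)).map p = Rec.PX (TY s κ) (fun V => G V (s * κ)) σ V c ∧
      (gam3 (E d)).map X₀ = gN (G V s c) σ ∧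
      Integrable (fun ω => ‖qout (qpar n M s σ κ t0 a0) s (qth σ) K V c (p ω) - X₀ ω‖)
        (gam3 (E d)) ∧
      ∫ ω, ‖qout (qpar n M s σ κ t0 a0) s (qth σ) K V c (p ω) - X₀ ω‖ ∂(gam3 (E d)) ≤
        σ * (C * a0 * M * (κ ^ P)⁻¹ * ((C * (s ^ 2 + a0 * s / (σ * κ))) ^ K +
          (M : ℝ)⁻¹ ^ (n + 1) + t0 ^ (n + 1) + (a0 * s / σ) ^ (n + 1))) * (√(d : ℝ) + ‖c‖)

end Crest.Agent.R285
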