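import Crest.Agent.R285.SemQCore

/-!
Row 285 (S0430): the mean error of the Q-system, final form.
-/

set_option autoImplicit false
set_option linter.unusedSectionVars false

open Set Filter Topology MeasureTheory ProbabilityTheory
open Crest.OracleSampling (E Admissible)
open scoped ENNReal NNReal RealInnerProductSpace

noncomputable section

namespace Crest.Agent.R285

namespace SemQ

section core

variable {d : ℕ} {V : E d → ℝ}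
variable {Ω : Type*} [MeasurableSpace Ω] {P : Measure Ω} [IsProbabilityMeasure P]

/-- Picard against defects, in the mean (rescaled units). -/
theorem core_picard {Q : QPar} (c : E d) {s : ℝ} (hs : 0 < s)
    (hs2 : s ≤ 1 / 2)
    (hL : 2 * s ^ 2 * (QPar.cN Q.n * (1 + Q.a0 / (Q.ρ * Q.k1))) ≤ 1 / 2)
    {y b : QJ Q.n Q.M → Ω → E d} {y1 b1 X1 X0 q : Ω → E d} {B βy βX : ℝ≥0∞}
    (hE : ExQ Q (Scale.fs V s) (s⁻¹ • c) y b y1 X1 X0 q (2 * s ^ 2) P B βy βX)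
    (hX1 : ∀ ω, X1 ω = Q.ρ • b1 ω + G (Scale.fs V s) Q.k1 (s⁻¹ • c + y1 ω))
    (hb1 : Measurable b1)
    (my : ∀ j, ∫⁻ ω, ‖y j ω‖ₑ ∂P ≤ ENNReal.ofReal (3 * (√(d : ℝ) + ‖c‖)))
    (my1 : ∫⁻ ω, ‖y1 ω‖ₑ ∂P ≤ ENNReal.ofReal (3 * (√(d : ℝ) + ‖c‖)))
    (mb : ∀ j, ∫⁻ ω, ‖b j ω‖ₑ ∂P ≤ ENNReal.ofReal (√(d : ℝ)))
    (mb1 : ∫⁻ ω, ‖b1 ω‖ₑ ∂P ≤ ENNReal.ofReal (√(d : ℝ)))
    (mq : ∫⁻ ω, ‖q ω‖ₑ ∂P ≤ ENNReal.ofReal (√(d : ℝ)))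
    {E₁ : ℝ}
    (hP : eP Q (2 * s ^ 2) (Module.finrank ℝ (E d)) B βy βX ≤ ENNReal.ofReal E₁)
    (hO : eO Q (2 * s ^ 2) (Module.finrank ℝ (E d)) B βX ≤ ENNReal.ofReal (Q.ρ * E₁)) (K : ℕ)
    {θ : ℝ} (hθ : θ = 1 ∨ θ = 0) :
    ∫⁻ ω, ‖Q.sys.outF (Gt (Scale.fs V s) (s⁻¹ • c)) 0 ![y1 ω, X1 ω, q ω] (fun _ => θ • X1 ω)
        (K + 1) - X0 ω‖ₑ ∂P ≤
      ENNReal.ofReal (2 * s ^ 2 * LF.l1 (fun _ => 1) Q.sys.out) *
        (ENNReal.ofReal ((2 * s ^ 2 * (QPar.cN Q.n * (1 + Q.a0 / (Q.ρ * Q.k1)))) ^ K *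
          (QPar.cN Q.n * (1 + Q.a0 / (Q.ρ * Q.k1)))) *
          ((Fintype.card (QI Q.n Q.M) : ℝ≥0∞) * ENNReal.ofReal
            ((θ * Q.ρ + 31 * (2 * s ^ 2) + 2 * (1 - θ) * s) * (√(d : ℝ) + ‖c‖))) +
          3 * ((Fintype.card (QI Q.n Q.M) : ℝ≥0∞) * ENNReal.ofReal E₁)) +
        ENNReal.ofReal (Q.ρ * E₁) := by
  have hpot := hE.pot
  have hok := hE.ok
  have hτ0 : 0 ≤ 2 * s ^ 2 := by positivity
  have hk := hok.k1_pos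
  have ha0 := hok.a0
  have hρ0 := hok.ρ0
  have hcN := (QPar.cN_pos Q.n).le
  have hBc : 0 ≤ QPar.cN Q.n * (1 + Q.a0 / (Q.ρ * Q.k1)) := by positivity
  have hcont : ∀ r, Continuous (Gt (Scale.fs V s) (s⁻¹ • c) r) := fun r =>
    (contDiff_gr hpot).continuous.comp (f := fun x : E d => (r, s⁻¹ • c + x)) (by fun_prop)
  have m0 : ∀ i, AEMeasurable (fun ω => ‖θ • X1 ω - Gt (Scale.fs V s) (s⁻¹ • c) (Q.sys.r i)
      (xq Q (Scale.fs V s) (s⁻¹ • c) y b q ω i)‖ₑ) P := by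
    intro i
    have a1 : Measurable (fun ω => θ • X1 ω) := hE.mX1.const_smul θ
    have a2 : Measurable (Gt (Scale.fs V s) (s⁻¹ • c) (Q.sys.r i)) :=
      (hcont (Q.sys.r i)).measurable
    have a3 := hE.mx i
    have a4 : Measurable (fun ω => Gt (Scale.fs V s) (s⁻¹ • c) (Q.sys.r i)
      (xq Q (Scale.fs V s) (s⁻¹ • c) y b q ω i)) := a2.comp a3
    exact (a1.sub a4).enorm.aemeasurable
  have h2 := Q.sys.outF_mean (P := P) (G := Gt (Scale.fs V s) (s⁻¹ • c)) (Λ := 2 * s ^ 2)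
    (hok.contr hτ0) (mul_nonneg hτ0 hBc) hL
    (fun i x x' => by
      have := gr_lip hpot (Q.sys.r i) (s⁻¹ • c + x) (s⁻¹ • c + x')
      rwa [add_sub_add_left_eq_sub] at this) hτ0 0 (pq y1 X1 q) (fun ω _ => θ • X1 ω)
    (xq Q (Scale.fs V s) (s⁻¹ • c) y b q) X0 hBc
    (fun i => by rw [← LF.NN_eq]; exact hok.NN_pt i) K
    m0
    (fun i => ((hE.mx i).sub (hE.mev (Q.sys.pt i))).enorm.aemeasurable)
    (D0 := fun _ => ENNReal.ofReal ((θ * Q.ρ + 31 * (2 * s ^ 2) + 2 * (1 - θ) * s) *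
      (√(d : ℝ) + ‖c‖)))
    (δ := fun _ => ENNReal.ofReal E₁) (δo := ENNReal.ofReal (Q.ρ * E₁))
    (fun i => start_mean c hs hs2 hE hX1 hb1 my my1 mb mb1 mq hθ i)
    (fun i => by
      have h := hE.lb_pt i
      exact (FlatSys.lintegral_enorm_le_eLpNorm h.m).trans (h.le.trans hP))
    (by
      have h := hE.lb_out
      have h3 := (FlatSys.lintegral_enorm_le_eLpNorm h.m).trans (h.le.trans hO)
      refine le_trans (le_of_eq (lintegral_congr fun ω => ?_)) h3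
      rw [enorm_sub_rev]; rfl)
  simp only [Finset.sum_const, Finset.card_univ, nsmul_eq_mul] at h2
  exact h2

/-- **The mean error of the Q-system** (original units). -/
theorem core_mean {Q : QPar} (hV : PotP 2 V) (c : E d) {s σ : ℝ} (hs : 0 < s)
    (hs2 : s ≤ 1 / 2) (hσ : 0 < σ) (hsσ : 2 * s ≤ σ) (hρ : Q.ρ = s * σ)
    (hL : 2 * s ^ 2 * (QPar.cN Q.n * (1 + Q.a0 / (Q.ρ * Q.k1))) ≤ 1 / 2)
    {y b : QJ Q.n Q.M → Ω → E d} {y1 b1 X1 X0 q : Ω → E d} {B βy βX : ℝ≥0∞}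
    (hE : ExQ Q (Scale.fs V s) (s⁻¹ • c) y b y1 X1 X0 q (2 * s ^ 2) P B βy βX)
    (hX1 : ∀ ω, X1 ω = Q.ρ • b1 ω + G (Scale.fs V s) Q.k1 (s⁻¹ • c + y1 ω))
    (hb1 : Measurable b1)
    (my : ∀ j, ∫⁻ ω, ‖y j ω‖ₑ ∂P ≤ ENNReal.ofReal (3 * (√(d : ℝ) + ‖c‖)))
    (my1 : ∫⁻ ω, ‖y1 ω‖ₑ ∂P ≤ ENNReal.ofReal (3 * (√(d : ℝ) + ‖c‖)))
    (mb : ∀ j, ∫⁻ ω, ‖b j ω‖ₑ ∂P ≤ ENNReal.ofReal (√(d : ℝ)))
    (mb1 : ∫⁻ ω, ‖b1 ω‖ₑ ∂P ≤ ENNReal.ofReal (√(d : ℝ)))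
    (mq : ∫⁻ ω, ‖q ω‖ₑ ∂P ≤ ENNReal.ofReal (√(d : ℝ)))
    {E₁ : ℝ} (hE₁ : 0 ≤ E₁)
    (hP : eP Q (2 * s ^ 2) (Module.finrank ℝ (E d)) B βy βX ≤ ENNReal.ofReal E₁)
    (hO : eO Q (2 * s ^ 2) (Module.finrank ℝ (E d)) B βX ≤ ENNReal.ofReal (Q.ρ * E₁)) (K : ℕ) :
    ∫⁻ ω, ‖qout Q s (qth σ) K V c (![c + s • y1 ω, G V (s * Q.k1) (c + s • y1 ω) + σ • b1 ω,
        q ω]) - s⁻¹ • X0 ω‖ₑ ∂P ≤
      ENNReal.ofReal (σ * (QPar.cO Q.n / Q.k1 * (Fintype.card (QI Q.n Q.M) *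
        ((2 * s ^ 2 * (QPar.cN Q.n * (1 + Q.a0 / (Q.ρ * Q.k1)))) ^ K *
          (66 * QPar.cN Q.n * (Q.a0 / Q.k1)) * (√(d : ℝ) + ‖c‖) + 3 * E₁)) + E₁)) := by
  have hok := hE.ok
  have hτ0 : 0 ≤ 2 * s ^ 2 := by positivity
  have hk := hok.k1_pos
  have hk1 := hok.k1_le
  have ha0 := hok.a0
  have hρ0 := hok.ρ0
  have hcN := (QPar.cN_pos Q.n).le
  have hcO := QPar.cO_nonneg Q.n
  have hBc : 0 ≤ QPar.cN Q.n * (1 + Q.a0 / (Q.ρ * Q.k1)) := by positivity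
  have hW : 0 ≤ √(d : ℝ) + ‖c‖ := by positivity
  have hθ : qth σ = 1 ∨ qth σ = 0 := by unfold qth; split_ifs <;> simp
  have e1 : ∀ ω, _ := fun ω => qout_sub_eq (X0 := X0 ω) (q := q ω) hV c hs hρ (qth σ) (hX1 ω) K
  simp_rw [e1]
  rw [lintegral_const_mul' _ _ ENNReal.ofReal_ne_top]
  have h2 := core_picard c hs hs2 hL hE hX1 hb1 my my1 mb mb1 mq hP hO K hθ
  refine (mul_le_mul' le_rfl h2).trans ?_
  have hA : 1 ≤ Q.a0 / Q.k1 := by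
    rw [le_div_iff₀ hk, one_mul]
    linarith [hok.a1]
  have b1 := start_mul_le hA hs hs2 hσ hsσ
  have b2 : QPar.cN Q.n * (1 + Q.a0 / (Q.ρ * Q.k1)) *
      ((qth σ * Q.ρ + 31 * (2 * s ^ 2) + 2 * (1 - qth σ) * s) * (√(d : ℝ) + ‖c‖)) ≤
      66 * QPar.cN Q.n * (Q.a0 / Q.k1) * (√(d : ℝ) + ‖c‖) := by
    have e : QPar.cN Q.n * (1 + Q.a0 / (Q.ρ * Q.k1)) *
      ((qth σ * Q.ρ + 31 * (2 * s ^ 2) + 2 * (1 - qth σ) * s) * (√(d : ℝ) + ‖c‖)) =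
        QPar.cN Q.n * (√(d : ℝ) + ‖c‖) * ((1 + Q.a0 / Q.k1 / (s * σ)) *
        (qth σ * (s * σ) + 31 * (2 * s ^ 2) + 2 * (1 - qth σ) * s)) := by
      rw [hρ, div_div, mul_comm Q.k1 (s * σ)]
      ring
    rw [e]
    calc QPar.cN Q.n * (√(d : ℝ) + ‖c‖) * _ ≤
          QPar.cN Q.n * (√(d : ℝ) + ‖c‖) * (66 * (Q.a0 / Q.k1)) :=
          mul_le_mul_of_nonneg_left b1 (by positivity)
      _ = _ := by ring
  have b3 : LF.l1 (fun _ => (1 : ℝ)) Q.sys.out ≤ QPar.cO Q.n / Q.k1 := by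
    refine (hok.NN_out).trans ?_
    refine div_le_div_of_nonneg_left hcO hk ?_
    have := hok.at1
    nlinarith
  have hl1 : 0 ≤ LF.l1 (fun _ => (1 : ℝ)) Q.sys.out := LF.l1_nonneg (fun _ => zero_le_one) _
  have hD0 : 0 ≤ (qth σ * Q.ρ + 31 * (2 * s ^ 2) + 2 * (1 - qth σ) * s) *
      (√(d : ℝ) + ‖c‖) := by
    have : 0 ≤ qth σ ∧ qth σ ≤ 1 := by rcases hθ with h | h <;> rw [h] <;> norm_num
    have h1 : 0 ≤ 1 - qth σ := by linarith [this.2]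
    have h2 := this.1
    positivity
  exact enn_final hs hσ hsσ hρ hl1 (mul_nonneg hτ0 hBc) hBc hD0 hE₁ b2 b3

end core

end SemQ

end Crest.Agent.R285
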