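import Crest.Agent.R285.SemQ
import Crest.Agent.R285.SemQMain

/-!
Row 285: real-number form of the error bounds `eP`, `eO` of `SemQ.lean`, and the exact data `ExQ` from
the coupled flow (`CoupField`).
-/

set_option autoImplicit false
set_option linter.unusedSectionVars false

open Set Filter Topology MeasureTheory ProbabilityTheory
open scoped ENNReal NNReal RealInnerProductSpace

noncomputable section

namespace Crest.Agent.R285

namespace SemQ

theorem oadd {x y : ℝ≥0∞} {a b : ℝ} (ha : 0 ≤ a) (hb : 0 ≤ b) (hx : x ≤ ENNReal.ofReal a)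
    (hy : y ≤ ENNReal.ofReal b) : x + y ≤ ENNReal.ofReal (a + b) := by
  rw [ENNReal.ofReal_add ha hb]; exact add_le_add hx hy

theorem omul {x : ℝ≥0∞} {c a : ℝ} (hc : 0 ≤ c) (hx : x ≤ ENNReal.ofReal a) :
    ENNReal.ofReal c * x ≤ ENNReal.ofReal (c * a) := by
  rw [ENNReal.ofReal_mul hc]; exact mul_le_mul' le_rfl hx

theorem ole {x : ℝ≥0∞} {a b : ℝ} (hx : x ≤ ENNReal.ofReal a) (hab : a ≤ b) :
    x ≤ ENNReal.ofReal b := hx.trans (ENNReal.ofReal_le_ofReal hab)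

/-- The constant of the error bounds. -/
def cR (n : ℕ) (CB : ℝ) : ℝ :=
  3 + rcQ n * CB + 2 * QPar.cW n * Num.derC n * CB + 2 * rcQ n * Num.derC n * CB +
    QPar.cW n * Num.derC n ^ 2 * CB + 2 * rcQ n + 2 * QPar.cW n * Num.derC n +
    YSys.CY n * Num.derC n ^ 2 * CB + 2 * YSys.CY n * Num.derC n

theorem cR_pos (n : ℕ) {CB : ℝ} (hC : 0 ≤ CB) : 0 < cR n CB := by
  have h1 := rcQ_nonneg n
  have h2 := QPar.cW_nonneg n
  have h3 := Num.derC_nonneg n
  have h4 := YSys.CY_nonneg n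
  unfold cR
  positivity

theorem numP {D I W Y CB μ T R k sd : ℝ} (D0 : 0 ≤ D) (I0 : 0 ≤ I) (W0 : 0 ≤ W) (Y0 : 0 ≤ Y)
    (hC : 0 ≤ CB) (hμ : 0 ≤ μ) (T0 : 0 ≤ T) (R0 : 0 ≤ R) (k0 : 0 ≤ k) (hsd : 0 ≤ sd) :
    I * CB * T * k * sd + (2 * μ + W * D * CB * T * k) * sd +
      ((μ + (2 * I * R + I * D * CB * T + W * (2 * D * R + D ^ 2 * CB * T)) * k) * sd) ≤
    (3 + I * CB + 2 * W * D * CB + 2 * I * D * CB + W * D ^ 2 * CB + 2 * I + 2 * W * D +
      Y * D ^ 2 * CB + 2 * Y * D) * (μ + (T + R) * k) * sd := by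
  have e : (3 + I * CB + 2 * W * D * CB + 2 * I * D * CB + W * D ^ 2 * CB + 2 * I + 2 * W * D +
      Y * D ^ 2 * CB + 2 * Y * D) * (μ + (T + R) * k) * sd =
      (I * CB * T * k * sd + (2 * μ + W * D * CB * T * k) * sd +
      ((μ + (2 * I * R + I * D * CB * T + W * (2 * D * R + D ^ 2 * CB * T)) * k) * sd)) +
      ((I * CB + 2 * W * D * CB + 2 * I * D * CB + W * D ^ 2 * CB + 2 * I + 2 * W * D +
        Y * D ^ 2 * CB + 2 * Y * D) * μ * sd +
      (3 + W * D * CB + I * D * CB + 2 * I + 2 * W * D + Y * D ^ 2 * CB + 2 * Y * D) *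
        T * k * sd +
      (3 + I * CB + 2 * W * D * CB + 2 * I * D * CB + W * D ^ 2 * CB + Y * D ^ 2 * CB +
        2 * Y * D) * R * k * sd) := by ring
  rw [e]
  refine le_add_of_nonneg_right ?_
  positivity

theorem numO {D I W Y CB μ T R k sd : ℝ} (D0 : 0 ≤ D) (I0 : 0 ≤ I) (W0 : 0 ≤ W) (Y0 : 0 ≤ Y)
    (hC : 0 ≤ CB) (hμ : 0 ≤ μ) (T0 : 0 ≤ T) (R0 : 0 ≤ R) (k0 : 0 ≤ k) (hsd : 0 ≤ sd) :
    μ * sd + Y * ((2 * D * R + D ^ 2 * CB * T) * k * sd) ≤
    (3 + I * CB + 2 * W * D * CB + 2 * I * D * CB + W * D ^ 2 * CB + 2 * I + 2 * W * D +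
      Y * D ^ 2 * CB + 2 * Y * D) * (μ + (T + R) * k) * sd := by
  have e : (3 + I * CB + 2 * W * D * CB + 2 * I * D * CB + W * D ^ 2 * CB + 2 * I + 2 * W * D +
      Y * D ^ 2 * CB + 2 * Y * D) * (μ + (T + R) * k) * sd =
      (μ * sd + Y * ((2 * D * R + D ^ 2 * CB * T) * k * sd)) +
      ((2 + I * CB + 2 * W * D * CB + 2 * I * D * CB + W * D ^ 2 * CB + 2 * I + 2 * W * D +
        Y * D ^ 2 * CB + 2 * Y * D) * μ * sd +
      (3 + I * CB + 2 * W * D * CB + 2 * I * D * CB + W * D ^ 2 * CB + 2 * I + 2 * W * D +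
        2 * Y * D) * T * k * sd +
      (3 + I * CB + 2 * W * D * CB + 2 * I * D * CB + W * D ^ 2 * CB + 2 * I + 2 * W * D +
        Y * D ^ 2 * CB) * R * k * sd) := by ring
  rw [e]
  refine le_add_of_nonneg_right ?_
  positivity

set_option maxHeartbeats 1000000 in
/-- **Real form of the error bounds.**  `μ` = relative error of the main grid, `κ = Q.k1`. -/
theorem real_bounds {Q : QPar} (hQ : Q.Ok) {τ CB μ sd dd : ℝ} (hτ : 0 < τ) (hτ1 : τ ≤ 1)
    (hη : τ ≤ Q.ρ) (haη : Q.a0 * (τ / Q.ρ) ≤ 1) (hC : 0 ≤ CB) (hμ : 0 ≤ μ) (hsd : 0 ≤ sd)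
    (hdd : √(2 * dd) ≤ 2 * sd) {B βy βX : ℝ≥0∞}
    (hB : B ≤ ENNReal.ofReal (τ * CB * sd))
    (hβy : βy ≤ ENNReal.ofReal ((τ + τ / Q.ρ) * μ * sd))
    (hβX : βX ≤ ENNReal.ofReal (τ * (τ / Q.ρ) * μ * sd)) :
    eP Q τ dd B βy βX ≤ ENNReal.ofReal (cR Q.n CB * (μ + (Q.t0 ^ (Q.n + 1) +
      (Q.a0 * (τ / Q.ρ)) ^ (Q.n + 1)) / Q.k1 ^ 2) * sd) ∧
    eO Q τ dd B βX ≤ ENNReal.ofReal (Q.ρ * (cR Q.n CB * (μ + (Q.t0 ^ (Q.n + 1) +
      (Q.a0 * (τ / Q.ρ)) ^ (Q.n + 1)) / Q.k1 ^ 2) * sd)) := by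
  have hρ := hQ.ρ0
  have hκ := hQ.k1_pos
  have hκ1 := hQ.k1_le
  have ht0 := hQ.t0
  have ht1 := hQ.t1
  have ha0 := hQ.a0
  have ha1 := hQ.a1
  set η : ℝ := τ / Q.ρ with hηd
  have hη0 : 0 < η := div_pos hτ hρ
  have hη1 : η ≤ 1 := by rw [hηd, div_le_one hρ]; exact hη
  have hτρ : τ = η * Q.ρ := by rw [hηd, div_mul_cancel₀ _ hρ.ne']
  set D := Num.derC Q.n with hD
  set I := rcQ Q.n with hI
  set W := QPar.cW Q.n with hW
  set Y := YSys.CY Q.n with hY
  have D0 : 0 ≤ D := Num.derC_nonneg Q.n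
  have I0 : 0 ≤ I := rcQ_nonneg Q.n
  have W0 : 0 ≤ W := QPar.cW_nonneg Q.n
  have Y0 : 0 ≤ Y := YSys.CY_nonneg Q.n
  set T : ℝ := Q.t0 ^ (Q.n + 1) with hT
  set R : ℝ := (Q.a0 * η) ^ (Q.n + 1) with hR
  have T0 : 0 ≤ T := by positivity
  have R0 : 0 ≤ R := by positivity
  set k : ℝ := (Q.k1 ^ 2)⁻¹ with hk
  have k0 : 0 < k := by positivity
  have k1 : 1 ≤ k := (one_le_inv₀ (by positivity)).mpr (by nlinarith)
  -- stencil
  have bS : eS Q B ≤ ENNReal.ofReal (τ * (D * CB * T * k * sd)) := by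
    unfold eS dS
    refine ole (omul (by positivity) hB) (le_of_eq ?_)
    rw [← hD, ← hT, hk]
    ring
  -- R
  have bR : eR Q τ dd B ≤ ENNReal.ofReal (τ * ((2 * D * R + D ^ 2 * CB * T) * k * sd)) := by
    unfold eR
    refine ole (oadd (a := τ * (2 * D * R * k * sd)) (b := τ * (D ^ 2 * CB * T * k * sd))
      (by positivity) (by positivity) ?_ ?_) (le_of_eq (by ring))
    · refine ENNReal.ofReal_le_ofReal ?_
      rw [← hD, ← hηd, ← hR]
      calc D * (τ * η) * R * √(2 * dd) ≤ D * (τ * 1) * R * (2 * sd) := by gcongr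
        _ = τ * (2 * D * R * 1 * sd) := by ring
        _ ≤ τ * (2 * D * R * k * sd) := by gcongr
    · refine ole (omul (by positivity) bS) ?_
      rw [← hD]
      calc D / Q.a0 * (τ * (D * CB * T * k * sd)) ≤ D / 1 * (τ * (D * CB * T * k * sd)) := by
            gcongr; linarith
        _ = _ := by ring
  -- X
  have bX : eX Q τ dd B βX ≤ ENNReal.ofReal (τ * ((μ + W * (2 * D * R + D ^ 2 * CB * T) * k) * sd)) := by
    unfold eX
    refine ole (oadd (a := τ * (μ * sd))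
      (b := W * (τ * ((2 * D * R + D ^ 2 * CB * T) * k * sd))) (by positivity)
      (by positivity) ?_ (omul W0 bR)) (le_of_eq (by ring))
    refine ole hβX ?_
    calc τ * η * μ * sd ≤ τ * 1 * μ * sd := by gcongr
      _ = _ := by ring
  -- U
  have bU : eU Q τ dd B ≤ ENNReal.ofReal ((2 * I * R + I * D * CB * T) * k * sd) := by
    unfold eU
    refine ole (oadd (a := 2 * I * R * k * sd) (b := I * D * CB * T * k * sd)
      (by positivity) (by positivity) ?_ ?_) (le_of_eq (by ring))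
    · refine ENNReal.ofReal_le_ofReal ?_
      rw [← hI, ← hηd]
      have e1 : (Q.a0 * η) ^ (Q.n + 3) ≤ R := by
        rw [hR]
        exact pow_le_pow_of_le_one (by positivity) haη (by omega)
      calc I * (Q.a0 * η) ^ (Q.n + 3) * √(2 * dd) ≤ I * R * (2 * sd) := by gcongr
        _ = 2 * I * R * 1 * sd := by ring
        _ ≤ 2 * I * R * k * sd := by gcongr
    · refine ole (omul (by positivity) bS) ?_
      rw [← hI]
      have e2 : Q.a0 / Q.ρ * τ ≤ 1 := by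
        have : Q.a0 / Q.ρ * τ = Q.a0 * η := by rw [hηd]; ring
        rw [this]; exact haη
      calc I * Q.a0 / Q.ρ * (τ * (D * CB * T * k * sd)) =
            (Q.a0 / Q.ρ * τ) * (I * (D * CB * T * k * sd)) := by ring
        _ ≤ 1 * (I * (D * CB * T * k * sd)) := by gcongr
        _ = _ := by ring
  -- D
  have bD : eD Q τ dd B βX ≤ ENNReal.ofReal ((μ + (2 * I * R + I * D * CB * T +
      W * (2 * D * R + D ^ 2 * CB * T)) * k) * sd) := by
    unfold eD
    refine ole (oadd (a := (2 * I * R + I * D * CB * T) * k * sd)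
      (b := Q.ρ⁻¹ * (τ * ((μ + W * (2 * D * R + D ^ 2 * CB * T) * k) * sd)))
      (by positivity) (by positivity) bU (omul (by positivity) bX)) ?_
    have e3 : Q.ρ⁻¹ * τ ≤ 1 := by
      have : Q.ρ⁻¹ * τ = η := by rw [hηd]; ring
      rw [this]; exact hη1
    calc (2 * I * R + I * D * CB * T) * k * sd +
          Q.ρ⁻¹ * (τ * ((μ + W * (2 * D * R + D ^ 2 * CB * T) * k) * sd)) =
          (2 * I * R + I * D * CB * T) * k * sd +
          (Q.ρ⁻¹ * τ) * ((μ + W * (2 * D * R + D ^ 2 * CB * T) * k) * sd) := by ring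
      _ ≤ (2 * I * R + I * D * CB * T) * k * sd +
          1 * ((μ + W * (2 * D * R + D ^ 2 * CB * T) * k) * sd) := by gcongr
      _ = _ := by ring
  -- Y
  have bY : eY Q B βy ≤ ENNReal.ofReal ((2 * μ + W * D * CB * T * k) * sd) := by
    unfold eY
    refine ole (oadd (a := 2 * μ * sd) (b := W * D * CB * T * k * sd)
      (by positivity) (by positivity) ?_ ?_) (le_of_eq (by ring))
    · refine ole hβy ?_
      calc (τ + η) * μ * sd ≤ (1 + 1) * μ * sd := by gcongr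
        _ = _ := by ring
    · refine ole (omul (by positivity) bS) ?_
      have e3 : τ / Q.ρ ≤ 1 := hη1
      calc W / Q.ρ * (τ * (D * CB * T * k * sd)) = (τ / Q.ρ) * (W * (D * CB * T * k * sd)) := by
            ring
        _ ≤ 1 * (W * (D * CB * T * k * sd)) := by gcongr
        _ = _ := by ring
  constructor
  · unfold eP
    refine ole (oadd (a := I * CB * T * k * sd + (2 * μ + W * D * CB * T * k) * sd)
      (b := Q.t0 * ((μ + (2 * I * R + I * D * CB * T +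
        W * (2 * D * R + D ^ 2 * CB * T)) * k) * sd)) (by positivity) (by positivity)
      (oadd (by positivity) (by positivity) ?_ bY) (omul ht0.le bD)) ?_
    · refine ole (omul (by positivity) hB) ?_
      have e4 : Q.t0 ^ (Q.n + 4) ≤ T := pow_le_pow_of_le_one ht0.le (by linarith) (by omega)
      rw [← hI]
      calc I * Q.t0 ^ (Q.n + 4) * (τ * CB * sd) ≤ I * T * (1 * CB * sd) := by gcongr
        _ = I * CB * T * 1 * sd := by ring
        _ ≤ I * CB * T * k * sd := by gcongr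
    · have e5 : Q.t0 * ((μ + (2 * I * R + I * D * CB * T +
          W * (2 * D * R + D ^ 2 * CB * T)) * k) * sd) ≤ 1 * ((μ + (2 * I * R + I * D * CB * T +
          W * (2 * D * R + D ^ 2 * CB * T)) * k) * sd) := by
        refine mul_le_mul_of_nonneg_right (by linarith) (by positivity)
      rw [one_mul] at e5
      rw [div_eq_mul_inv, ← hk]
      unfold cR
      rw [← hI, ← hD, ← hW, ← hY]
      refine (add_le_add le_rfl e5).trans ?_
      exact numP D0 I0 W0 Y0 hC hμ T0 R0 k0.le hsd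
  · unfold eO
    refine ole (oadd (a := Q.ρ * (μ * sd))
      (b := Y * (τ * ((2 * D * R + D ^ 2 * CB * T) * k * sd))) (by positivity) (by positivity)
      ?_ (omul Y0 bR)) ?_
    · refine ole hβX ?_
      calc τ * η * μ * sd = Q.ρ * (η * η * μ * sd) := by rw [hτρ]; ring
        _ ≤ Q.ρ * (1 * 1 * μ * sd) := by gcongr
        _ = _ := by ring
    · have e6 : Y * (τ * ((2 * D * R + D ^ 2 * CB * T) * k * sd)) ≤
          Q.ρ * (Y * ((2 * D * R + D ^ 2 * CB * T) * k * sd)) := by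
        calc Y * (τ * ((2 * D * R + D ^ 2 * CB * T) * k * sd)) =
              τ * (Y * ((2 * D * R + D ^ 2 * CB * T) * k * sd)) := by ring
          _ ≤ _ := mul_le_mul_of_nonneg_right hη (by positivity)
      refine (add_le_add le_rfl e6).trans ?_
      rw [← mul_add]
      refine mul_le_mul_of_nonneg_left ?_ hρ.le
      rw [div_eq_mul_inv, ← hk]
      unfold cR
      rw [← hI, ← hD, ← hW, ← hY]
      exact numO D0 I0 W0 Y0 hC hμ T0 R0 k0.le hsd

/-! ### exact data from the coupled flow -/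

section coup

variable {V : Type} [NormedAddCommGroup V] [InnerProductSpace ℝ V] [FiniteDimensional ℝ V]
  [MeasurableSpace V] [BorelSpace V]
variable {Ω : Type*} [MeasurableSpace Ω] {P : Measure Ω} [SFinite P]

/-- The exact data of the Q-system from the coupled flow. -/
theorem exQ_of_coup {Q : QPar} (hQ : Q.Ok) {f : V → ℝ} {τ : ℝ} (hf : PotP τ f) {a : V}
    {v : ℝ → V × V → V × V} (hv : CoupField f a Q.ρ v) {X : Ω → V × V} (hX : Measurable X)
    {q : Ω → V} {B B1 B2 : ℝ≥0∞} (hB : MainB v (P.map X) Q.n Q.e1 B1 B2)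
    (hinn : ∀ j Y, InnB f Y (Q.kj j) (Q.n + 2) Q.t0 B)
    (hlaw : ∀ j, FrozLaw P (fun ω => a + yv v (Q.nd j) (X ω))
      (fun ω => bv f a Q.ρ v (Q.nd j) (X ω)) q) :
    ExQ Q f a (fun j ω => yv v (Q.nd j) (X ω)) (fun j ω => bv f a Q.ρ v (Q.nd j) (X ω))
      (fun ω => yv v Q.e1 (X ω)) (fun ω => Xv v Q.e1 (X ω)) (fun ω => (X ω).2) q τ P B
      (ENNReal.ofReal (2 * mgC Q.n Q.M Q.e1) * B1)
      (ENNReal.ofReal (2 * mgC Q.n Q.M Q.e1) * B2) where
  ok := hQ
  pot := hf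
  inn := hinn
  law := hlaw
  my1 := (hv.continuous_yv (Icc_subset_Jm' hQ.e1 ⟨hQ.e0.le, le_rfl⟩)).measurable.comp hX
  mX1 := (hv.continuous_Xv (Icc_subset_Jm' hQ.e1 ⟨hQ.e0.le, le_rfl⟩)).measurable.comp hX
  mX0 := measurable_snd.comp hX
  main_y := fun j => hv.main_y' Q hf hX hQ.M0 hQ.e0 hQ.e1 hB j
  main_X := fun j => by
    have h1 := hv.main_X' Q hf hX hQ.M0 hQ.e0 hQ.e1 hB j
    refine le_trans (le_of_eq ?_) h1
    congr 1
    funext ω
    have h2 := hv.Xv_eq hQ.ρ0.ne' (Q.nd j) (X ω)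
    rw [h2]
    rfl
  main_0 := by
    have h1 := hv.main_X0' Q hf hX hQ.M0 hQ.e0 hQ.e1 hB
    refine h1.trans (mul_le_mul' (ENNReal.ofReal_le_ofReal ?_) le_rfl)
    have := mgC_nonneg Q.n Q.M hQ.e0.le
    linarith

end coup

end SemQ

end Crest.Agent.R285
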