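import Crest.Agent.R285.SMAll
import Crest.Agent.R285.SemQReal

/-!
Row 285 (S0430), SEM_Q: the exact data `ExQ` of the Q-system along the coupled flow, with all error
bounds in closed real form (unconditional).
-/

set_option autoImplicit false
set_option linter.unusedSectionVars false

open MeasureTheory ProbabilityTheory Real Filter Topology Set
open Crest.OracleSampling (E)
open scoped RealInnerProductSpace ENNReal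

noncomputable section

namespace Crest.Agent.R285.SemQ

open Crest.Agent.R285 Crest.Agent.R285.Inst

/-- **The exact data of the Q-system, real form.** -/
theorem exQ_real (n : ℕ) : ∃ (C : ℝ) (P : ℕ), 1 ≤ C ∧ ∀ {Q : QPar}, Q.n = n → Q.Ok →
    ∀ {d : ℕ} {f : E d → ℝ} {τ : ℝ}, PotP τ f → 0 < τ → τ ≤ 1 → τ ≤ Q.ρ →
      Q.a0 * (τ / Q.ρ) ≤ 1 → ∀ a : E d, ∃ B βy βX : ℝ≥0∞,
      ExQ Q f a
        (fun j (ω : (E d × E d) × E d) => yv (vC f a Q.ρ) (Q.nd j) (xin f a Q.ρ ω.1))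
        (fun j ω => bv f a Q.ρ (vC f a Q.ρ) (Q.nd j) (xin f a Q.ρ ω.1))
        (fun ω => yv (vC f a Q.ρ) Q.e1 (xin f a Q.ρ ω.1))
        (fun ω => Xv (vC f a Q.ρ) Q.e1 (xin f a Q.ρ ω.1))
        (fun ω => G f 1 a + Q.ρ • ω.1.2) (fun ω => ω.2) τ (gam3 (E d)) B βy βX ∧
      eP Q τ (d : ℝ) B βy βX ≤ ENNReal.ofReal (C * (Q.k1⁻¹ ^ P *
        ((Q.M : ℝ)⁻¹ ^ (n + 1) + Q.t0 ^ (n + 1) + (Q.a0 * (τ / Q.ρ)) ^ (n + 1))) * √d) ∧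
      eO Q τ (d : ℝ) B βX ≤ ENNReal.ofReal (Q.ρ * (C * (Q.k1⁻¹ ^ P *
        ((Q.M : ℝ)⁻¹ ^ (n + 1) + Q.t0 ^ (n + 1) + (Q.a0 * (τ / Q.ρ)) ^ (n + 1))) * √d)) := by
  obtain ⟨C₁, P₁, hC₁, H₁⟩ := SM.mainB n
  obtain ⟨C₂, hC₂, H₂⟩ := SM.innB_half (n + 1)
  set D : ℝ := 2 * (1 + Num.intC (n + 1)) * C₁ + 1 with hD
  have hI := Num.intC_nonneg (n + 1)
  have hD0 : 0 < D := by positivity
  have hcR := cR_pos n hC₂
  refine ⟨cR n C₂ * D + 1, P₁ + 2, by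
    have : 0 ≤ cR n C₂ * D := by positivity
    linarith, fun {Q} hn ok {d f τ} hf hτ hτ1 hη haη a => ?_⟩
  subst hn
  have hρ := ok.ρ0
  have hκ := ok.k1_pos
  have hκ1 := ok.k1_le
  have hM : (0 : ℝ) < Q.M := by exact_mod_cast ok.M0
  have hK : 1 ≤ Q.k1⁻¹ := (one_le_inv₀ hκ).2 hκ1
  have hB := H₁ hf hτ hτ1 a hη ok.e0 ok.e1
  have hinn : ∀ j Y, InnB f Y (Q.kj j) (Q.n + 2) Q.t0 (ENNReal.ofReal (τ * C₂ * √d)) :=
    fun j Y => H₂ hf hτ hτ1 Y (ok.kj_pos j) (ok.kj_le j) ok.t0 ok.t1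
  have hex := exq_of (coupField_vC' hf a Q.ρ) (coupLi_vC hf a Q.ρ) ok hf hinn hB
  refine ⟨_, _, _, hex, ?_⟩
  -- the relative error of the main grid
  set μ : ℝ := 2 * mgC Q.n Q.M Q.e1 * (C₁ * Q.k1⁻¹ ^ P₁) with hμd
  have hmg := mgC_nonneg Q.n Q.M ok.e0.le
  have hμ : 0 ≤ μ := by positivity
  have hk1 : Q.k1 = √(1 - Q.e1 ^ 2) := rfl
  have hdd : √(2 * (d : ℝ)) ≤ 2 * √d := by
    rw [Real.sqrt_mul (by norm_num)]
    refine mul_le_mul_of_nonneg_right ?_ (Real.sqrt_nonneg _)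
    rw [Real.sqrt_le_left (by norm_num)]
    norm_num
  have key := real_bounds ok hτ hτ1 hη haη hC₂ hμ (Real.sqrt_nonneg (d : ℝ)) hdd
    (B := ENNReal.ofReal (τ * C₂ * √d))
    (βy := ENNReal.ofReal (2 * mgC Q.n Q.M Q.e1) *
      ENNReal.ofReal ((τ + τ / Q.ρ) * (C₁ * (√(1 - Q.e1 ^ 2))⁻¹ ^ P₁) * √d))
    (βX := ENNReal.ofReal (2 * mgC Q.n Q.M Q.e1) *
      ENNReal.ofReal (τ * (τ / Q.ρ) * (C₁ * (√(1 - Q.e1 ^ 2))⁻¹ ^ P₁) * √d)) le_rfl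
    (by
      rw [← ENNReal.ofReal_mul (by positivity)]
      refine ENNReal.ofReal_le_ofReal (le_of_eq ?_)
      rw [hμd, hk1]
      ring)
    (by
      rw [← ENNReal.ofReal_mul (by positivity)]
      refine ENNReal.ofReal_le_ofReal (le_of_eq ?_)
      rw [hμd, hk1]
      ring)
  -- final comparison
  have hfin : cR Q.n C₂ * (μ + (Q.t0 ^ (Q.n + 1) +
      (Q.a0 * (τ / Q.ρ)) ^ (Q.n + 1)) / Q.k1 ^ 2) ≤ (cR Q.n C₂ * D + 1) * (Q.k1⁻¹ ^ (P₁ + 2) *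
        ((Q.M : ℝ)⁻¹ ^ (Q.n + 1) + Q.t0 ^ (Q.n + 1) + (Q.a0 * (τ / Q.ρ)) ^ (Q.n + 1))) := by
    have ha0 : 0 ≤ Q.a0 * (τ / Q.ρ) := by
      have := ok.a0
      positivity
    have ht0 := ok.t0
    set X := (Q.M : ℝ)⁻¹ ^ (Q.n + 1) with hX
    set Y := Q.t0 ^ (Q.n + 1) + (Q.a0 * (τ / Q.ρ)) ^ (Q.n + 1) with hY
    have hX0 : 0 ≤ X := by positivity
    have hY0 : 0 ≤ Y := by positivity
    have h1 : mgC Q.n Q.M Q.e1 ≤ (1 + Num.intC (Q.n + 1)) * X := by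
      unfold mgC
      have e1 : (Q.e1 / Q.M) ^ (Q.n + 1) ≤ X := by
        rw [hX, div_eq_mul_inv]
        have h1 : Q.e1 * (Q.M : ℝ)⁻¹ ≤ (Q.M : ℝ)⁻¹ := by
          have := mul_le_mul_of_nonneg_right ok.e1.le (inv_nonneg.2 hM.le)
          linarith
        exact pow_le_pow_left₀ (mul_nonneg ok.e0.le (inv_nonneg.2 hM.le)) h1 _
      have e2 : (Q.e1 / Q.M) ^ (Q.n + 1) * Q.e1 ≤ X * 1 :=
        mul_le_mul e1 ok.e1.le ok.e0.le hX0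
      calc (1 + Num.intC (Q.n + 1)) * (Q.e1 / Q.M) ^ (Q.n + 1) * Q.e1 =
          (1 + Num.intC (Q.n + 1)) * ((Q.e1 / Q.M) ^ (Q.n + 1) * Q.e1) := by ring
        _ ≤ (1 + Num.intC (Q.n + 1)) * (X * 1) := mul_le_mul_of_nonneg_left e2 (by positivity)
        _ = _ := by ring
    have hKP : Q.k1⁻¹ ^ P₁ ≤ Q.k1⁻¹ ^ (P₁ + 2) := pow_le_pow_right₀ hK (by omega)
    have hK2 : Q.k1⁻¹ ^ 2 ≤ Q.k1⁻¹ ^ (P₁ + 2) := pow_le_pow_right₀ hK (by omega)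
    have h2 : μ ≤ D * (Q.k1⁻¹ ^ (P₁ + 2) * X) := by
      calc μ = 2 * C₁ * (mgC Q.n Q.M Q.e1 * Q.k1⁻¹ ^ P₁) := by rw [hμd]; ring
        _ ≤ 2 * C₁ * (((1 + Num.intC (Q.n + 1)) * X) * Q.k1⁻¹ ^ (P₁ + 2)) :=
          mul_le_mul_of_nonneg_left (mul_le_mul h1 hKP (by positivity) (by positivity))
            (by positivity)
        _ = (D - 1) * (Q.k1⁻¹ ^ (P₁ + 2) * X) := by rw [hD]; ring
        _ ≤ D * (Q.k1⁻¹ ^ (P₁ + 2) * X) :=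
          mul_le_mul_of_nonneg_right (by linarith) (by positivity)
    have h3 : Y / Q.k1 ^ 2 ≤ D * (Q.k1⁻¹ ^ (P₁ + 2) * Y) := by
      have hD1 : 1 ≤ D := by
        rw [hD]
        have : 0 ≤ 2 * (1 + Num.intC (Q.n + 1)) * C₁ := by positivity
        linarith
      calc Y / Q.k1 ^ 2 = 1 * (Q.k1⁻¹ ^ 2 * Y) := by
            rw [div_eq_mul_inv, inv_pow]; ring
        _ ≤ D * (Q.k1⁻¹ ^ (P₁ + 2) * Y) :=
          mul_le_mul hD1 (mul_le_mul_of_nonneg_right hK2 hY0) (by positivity) hD0.le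
    calc cR Q.n C₂ * (μ + Y / Q.k1 ^ 2)
        ≤ cR Q.n C₂ * (D * (Q.k1⁻¹ ^ (P₁ + 2) * X) + D * (Q.k1⁻¹ ^ (P₁ + 2) * Y)) :=
          mul_le_mul_of_nonneg_left (add_le_add h2 h3) hcR.le
      _ = (cR Q.n C₂ * D) * (Q.k1⁻¹ ^ (P₁ + 2) * (X + Y)) := by ring
      _ ≤ (cR Q.n C₂ * D + 1) * (Q.k1⁻¹ ^ (P₁ + 2) * (X + Y)) :=
          mul_le_mul_of_nonneg_right (by linarith) (by positivity)
      _ = _ := by rw [hY]; ring
  refine ⟨key.1.trans (ENNReal.ofReal_le_ofReal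
    (mul_le_mul_of_nonneg_right hfin (Real.sqrt_nonneg _))),
    key.2.trans (ENNReal.ofReal_le_ofReal (mul_le_mul_of_nonneg_left
      (mul_le_mul_of_nonneg_right hfin (Real.sqrt_nonneg _)) hρ.le))⟩

end Crest.Agent.R285.SemQ
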