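import Crest.Agent.R285.SemQEx
import Crest.Agent.R285.SemQCore

/-!
Row 285 (S0430), SEM_Q: the exact data of the Q-system for the rescaled potential and the
parameters `qpar n M s σ κ t0 a0`.
-/

set_option autoImplicit false
set_option linter.unusedSectionVars false

open MeasureTheory ProbabilityTheory Real Filter Topology Set
open Crest.OracleSampling (E Admissible)
open scoped RealInnerProductSpace ENNReal

noncomputable section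

namespace Crest.Agent.R285.SemQ

open Crest.Agent.R285 Crest.Agent.R285.Inst

/-- **The exact data of the Q-system for `qpar`**, with the errors in closed form. -/
theorem exQ_qpar (n : ℕ) : ∃ (C : ℝ) (P : ℕ), 1 ≤ C ∧ ∀ {d : ℕ} {V : E d → ℝ}, PotP 2 V →
    ∀ (c : E d) {s σ κ t0 a0 : ℝ} {M : ℕ}, 0 < M → 0 < s → s ≤ 1 / 2 → 0 < σ → 0 < κ →
      κ ≤ 1 / 2 → 0 < t0 → t0 ≤ 1 / 2 → 1 ≤ a0 * t0 → 2 * s ≤ σ → 2 * a0 * s ≤ σ →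
      ∃ B βy βX : ℝ≥0∞,
      ExQ (qpar n M s σ κ t0 a0) (Scale.fs V s) (s⁻¹ • c)
        (fun j (ω : (E d × E d) × E d) => yv (vC (Scale.fs V s) (s⁻¹ • c) (s * σ))
          ((qpar n M s σ κ t0 a0).nd j) (xin (Scale.fs V s) (s⁻¹ • c) (s * σ) ω.1))
        (fun j ω => bv (Scale.fs V s) (s⁻¹ • c) (s * σ) (vC (Scale.fs V s) (s⁻¹ • c) (s * σ))
          ((qpar n M s σ κ t0 a0).nd j) (xin (Scale.fs V s) (s⁻¹ • c) (s * σ) ω.1))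
        (fun ω => yv (vC (Scale.fs V s) (s⁻¹ • c) (s * σ)) (√(1 - κ ^ 2))
          (xin (Scale.fs V s) (s⁻¹ • c) (s * σ) ω.1))
        (fun ω => Xv (vC (Scale.fs V s) (s⁻¹ • c) (s * σ)) (√(1 - κ ^ 2))
          (xin (Scale.fs V s) (s⁻¹ • c) (s * σ) ω.1))
        (fun ω => G (Scale.fs V s) 1 (s⁻¹ • c) + (s * σ) • ω.1.2) (fun ω => ω.2) (2 * s ^ 2)
        (gam3 (E d)) B βy βX ∧
      eP (qpar n M s σ κ t0 a0) (2 * s ^ 2) (Module.finrank ℝ (E d)) B βy βX ≤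
        ENNReal.ofReal (C * (κ ^ P)⁻¹ *
          ((M : ℝ)⁻¹ ^ (n + 1) + t0 ^ (n + 1) + (a0 * s / σ) ^ (n + 1)) * √(d : ℝ)) ∧
      eO (qpar n M s σ κ t0 a0) (2 * s ^ 2) (Module.finrank ℝ (E d)) B βX ≤
        ENNReal.ofReal ((qpar n M s σ κ t0 a0).ρ * (C * (κ ^ P)⁻¹ *
          ((M : ℝ)⁻¹ ^ (n + 1) + t0 ^ (n + 1) + (a0 * s / σ) ^ (n + 1)) * √(d : ℝ))) := by
  obtain ⟨C, P, hC, H⟩ := exQ_real n
  refine ⟨2 ^ (n + 1) * C, P, ?_, fun {d V} hV c {s σ κ t0 a0 M} hM hs hs2 hσ hκ hκ1 ht0 ht1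
    hat hsσ hasσ => ?_⟩
  · have : (1 : ℝ) ≤ 2 ^ (n + 1) := one_le_pow₀ (by norm_num)
    nlinarith
  have ok := qpar_ok (n := n) hM hs hσ hκ hκ1 ht0 ht1 hat
  have hk := qpar_k1 (n := n) (M := M) (s := s) (σ := σ) (t0 := t0) (a0 := a0) hκ.le hκ1
  have hτ : 0 < 2 * s ^ 2 := by positivity
  have hτ1 : 2 * s ^ 2 ≤ 1 := by nlinarith
  have hη : 2 * s ^ 2 ≤ (qpar n M s σ κ t0 a0).ρ := by
    change 2 * s ^ 2 ≤ s * σ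
    nlinarith
  have e1 : a0 * (2 * s ^ 2 / (s * σ)) = 2 * (a0 * s / σ) := by field_simp
  have hαη : (qpar n M s σ κ t0 a0).a0 * (2 * s ^ 2 / (qpar n M s σ κ t0 a0).ρ) ≤ 1 := by
    change a0 * (2 * s ^ 2 / (s * σ)) ≤ 1
    rw [e1, ← mul_div_assoc, div_le_one hσ]
    linarith
  obtain ⟨B, βy, βX, hE, h1, h2⟩ := H (Q := qpar n M s σ κ t0 a0) rfl ok
    (Scale.potP_fs hV s) hτ hτ1 hη hαη (s⁻¹ • c)
  have ha0 : 0 < a0 := ok.a0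
  have key : C * ((qpar n M s σ κ t0 a0).k1⁻¹ ^ P *
      (((qpar n M s σ κ t0 a0).M : ℝ)⁻¹ ^ (n + 1) + (qpar n M s σ κ t0 a0).t0 ^ (n + 1) +
        ((qpar n M s σ κ t0 a0).a0 * (2 * s ^ 2 / (qpar n M s σ κ t0 a0).ρ)) ^ (n + 1))) *
        √(d : ℝ) ≤
      2 ^ (n + 1) * C * (κ ^ P)⁻¹ *
          ((M : ℝ)⁻¹ ^ (n + 1) + t0 ^ (n + 1) + (a0 * s / σ) ^ (n + 1)) * √(d : ℝ) := by
    rw [hk]
    change C * (κ⁻¹ ^ P * ((M : ℝ)⁻¹ ^ (n + 1) + t0 ^ (n + 1) +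
      (a0 * (2 * s ^ 2 / (s * σ))) ^ (n + 1))) * √(d : ℝ) ≤ _
    rw [e1, inv_pow, mul_pow]
    have h2 : (1 : ℝ) ≤ 2 ^ (n + 1) := one_le_pow₀ (by norm_num)
    have hx : 0 ≤ (M : ℝ)⁻¹ ^ (n + 1) := by positivity
    have hy : 0 ≤ t0 ^ (n + 1) := by positivity
    have hz : (M : ℝ)⁻¹ ^ (n + 1) + t0 ^ (n + 1) + 2 ^ (n + 1) * (a0 * s / σ) ^ (n + 1) ≤
        2 ^ (n + 1) * ((M : ℝ)⁻¹ ^ (n + 1) + t0 ^ (n + 1) + (a0 * s / σ) ^ (n + 1)) := by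
      nlinarith
    have hpos : 0 ≤ C * (κ ^ P)⁻¹ := by positivity
    calc C * ((κ ^ P)⁻¹ * ((M : ℝ)⁻¹ ^ (n + 1) + t0 ^ (n + 1) +
          2 ^ (n + 1) * (a0 * s / σ) ^ (n + 1))) * √(d : ℝ) =
        C * (κ ^ P)⁻¹ * ((M : ℝ)⁻¹ ^ (n + 1) + t0 ^ (n + 1) +
          2 ^ (n + 1) * (a0 * s / σ) ^ (n + 1)) * √(d : ℝ) := by ring
      _ ≤ C * (κ ^ P)⁻¹ * (2 ^ (n + 1) * ((M : ℝ)⁻¹ ^ (n + 1) + t0 ^ (n + 1) +
          (a0 * s / σ) ^ (n + 1))) * √(d : ℝ) :=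
          mul_le_mul_of_nonneg_right (mul_le_mul_of_nonneg_left hz hpos) (Real.sqrt_nonneg _)
      _ = _ := by ring
  refine ⟨B, βy, βX, hE, ?_, ?_⟩
  · rw [finrank_euclideanSpace_fin]
    exact h1.trans (ENNReal.ofReal_le_ofReal key)
  · rw [finrank_euclideanSpace_fin]
    exact h2.trans (ENNReal.ofReal_le_ofReal (mul_le_mul_of_nonneg_left key ok.ρ0.le))

end Crest.Agent.R285.SemQ
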