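import Crest.Agent.R285.CoupInst
import Crest.Agent.R285.LawPX
import Crest.Agent.R285.Scale

/-!
Row 285 (helper582): the law part of SEMQ for helper946's coupled field `Inst.vC`
(`f = Scale.fs V s`, `a = s⁻¹ c`, `ρ = s σ`).
-/

set_option autoImplicit false
set_option linter.unusedSectionVars false

open MeasureTheory ProbabilityTheory Real Set
open Crest.OracleSampling (E Admissible)
open scoped RealInnerProductSpace ENNReal

noncomputable section

namespace Crest.Agent.R285.SemQ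

variable {d : ℕ} {V : E d → ℝ} {h : ℝ}

/-- The visible data of the Q-system, original units. -/
def pvis (V : E d → ℝ) (c : E d) (s σ κ : ℝ) (ω : (E d × E d) × E d) : Fin 3 → E d :=
  ![c + s • yv (Inst.vC (Scale.fs V s) (s⁻¹ • c) (s * σ)) √(1 - κ ^ 2)
      (xin (Scale.fs V s) (s⁻¹ • c) (s * σ) ω.1),
    G V (s * κ) (c + s • yv (Inst.vC (Scale.fs V s) (s⁻¹ • c) (s * σ)) √(1 - κ ^ 2)
      (xin (Scale.fs V s) (s⁻¹ • c) (s * σ) ω.1)) +
      σ • bv (Scale.fs V s) (s⁻¹ • c) (s * σ) (Inst.vC (Scale.fs V s) (s⁻¹ • c) (s * σ))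
        √(1 - κ ^ 2) (xin (Scale.fs V s) (s⁻¹ • c) (s * σ) ω.1),
    ω.2]

/-- The target. -/
def x0vis (V : E d → ℝ) (c : E d) (s σ : ℝ) (ω : (E d × E d) × E d) : E d :=
  s⁻¹ • (G (Scale.fs V s) 1 (s⁻¹ • c) + (s * σ) • ω.1.2)

theorem sqrt_mem_Jm {κ : ℝ} (hκ : 0 < κ) (hκ1 : κ < 1) : √(1 - κ ^ 2) ∈ Jm := by
  have h1 : 0 < 1 - κ ^ 2 := by nlinarith
  have h2 : 0 < √(1 - κ ^ 2) := Real.sqrt_pos.2 h1
  have h4 : √(1 - κ ^ 2) < 1 := by
    rw [Real.sqrt_lt' one_pos]; nlinarith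
  exact ⟨by linarith, h4⟩

theorem measurable_pvis (hV : PotP h V) (c : E d) {s σ κ : ℝ} (hs : 0 < s) (hσ : 0 < σ)
    (hκ : 0 < κ) (hκ1 : κ < 1) : Measurable (pvis V c s σ κ) := by
  have hf := Scale.potP_fs hV s
  have hv := coupField_vC' hf (s⁻¹ • c) (s * σ)
  have ht := sqrt_mem_Jm hκ hκ1
  have h1 : Measurable fun ω : (E d × E d) × E d =>
      yv (Inst.vC (Scale.fs V s) (s⁻¹ • c) (s * σ)) √(1 - κ ^ 2)
        (xin (Scale.fs V s) (s⁻¹ • c) (s * σ) ω.1) :=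
    ((hv.continuous_yv ht).comp (continuous_xin _ _ _)).measurable.comp measurable_fst
  have h2 : Measurable fun ω : (E d × E d) × E d =>
      bv (Scale.fs V s) (s⁻¹ • c) (s * σ) (Inst.vC (Scale.fs V s) (s⁻¹ • c) (s * σ))
        √(1 - κ ^ 2) (xin (Scale.fs V s) (s⁻¹ • c) (s * σ) ω.1) :=
    (measurable_bv_xin hf hv ht).comp measurable_fst
  have h3 : Measurable fun ω : (E d × E d) × E d => c + s •
      yv (Inst.vC (Scale.fs V s) (s⁻¹ • c) (s * σ)) √(1 - κ ^ 2)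
      (xin (Scale.fs V s) (s⁻¹ • c) (s * σ) ω.1) :=
    measurable_const.add (h1.const_smul s)
  have hG : Measurable (G V (s * κ)) := ((contDiff_gr hV).continuous.comp
    (f := fun x : E d => ((s * κ, x) : ℝ × E d)) (by fun_prop)).measurable
  have h4 := (hG.comp h3).add (h2.const_smul σ)
  refine measurable_pi_lambda _ fun i => ?_
  fin_cases i
  · exact h3
  · exact h4
  · exact measurable_snd

/-- **Law of the visible data.** -/
theorem map_pvis (hV : PotP h V) (c : E d) {s σ κ : ℝ} (hs : 0 < s) (hσ : 0 < σ)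
    (hκ : 0 < κ) (hκ1 : κ < 1) :
    (gam3 (E d)).map (pvis V c s σ κ) = Rec.PX (TY s κ) (fun V => G V (s * κ)) σ V c := by
  have hf := Scale.potP_fs hV s
  have hv := coupField_vC' hf (s⁻¹ • c) (s * σ)
  have hLi := coupLi_vC hf (s⁻¹ • c) (s * σ)
  have ht := sqrt_mem_Jm hκ hκ1
  have hl := coup_law hf (mul_pos hs hσ) hv hLi ht
  rw [← Scale.vY_fs' hV hs.ne' c] at hl
  have key := law_PX hV c hs hκ hκ1 σ (measurable_evol_xin hv ht) (measurable_bv_xin hf hv ht) hl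
  rw [← key]
  congr 1
  funext ω
  simp only [pvis, yv, smul_smul]

theorem x0vis_eq (hV : PotP h V) (c : E d) {s : ℝ} (hs : 0 < s) (σ : ℝ)
    (ω : (E d × E d) × E d) : x0vis V c s σ ω = G V s c + σ • ω.1.2 := by
  rw [x0vis, Scale.G_fs hV, mul_one, smul_smul s s⁻¹ c, mul_inv_cancel₀ hs.ne', one_smul,
    smul_add, smul_smul, smul_smul, inv_mul_cancel₀ hs.ne', one_smul, ← mul_assoc,
    inv_mul_cancel₀ hs.ne', one_mul]

theorem measurable_x0vis (c : E d) (s σ : ℝ) : Measurable (x0vis V c s σ) := by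
  unfold x0vis
  fun_prop

theorem map_x0vis (hV : PotP h V) (c : E d) {s : ℝ} (hs : 0 < s) (σ : ℝ) :
    (gam3 (E d)).map (x0vis V c s σ) = gN (G V s c) σ := by
  rw [← law_X0 (G V s c) σ]
  congr 1
  funext ω
  exact x0vis_eq hV c hs σ ω

end Crest.Agent.R285.SemQ
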