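import Crest.Agent.R285.SemQPlug
import Crest.Agent.R285.Scale

/-!
Row 285 (helper582): first moments of the exact points of the Q-system on `gam3`.

`V` admissible, `0 < s ≤ 1/2`, `f = Scale.fs V s`, `a = s⁻¹ c`.
-/

set_option autoImplicit false
set_option linter.unusedSectionVars false

open MeasureTheory ProbabilityTheory Real Set
open Crest.OracleSampling (E Admissible)
open scoped RealInnerProductSpace ENNReal

noncomputable section

namespace Crest.Agent.R285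

open Chan

section gen

variable {V : Type} [NormedAddCommGroup V] [InnerProductSpace ℝ V] [FiniteDimensional ℝ V]
  [MeasurableSpace V] [BorelSpace V]

theorem lintegral_enorm_stdGaussian_le :
    ∫⁻ g : V, ‖g‖ₑ ∂(stdGaussian V) ≤ ENNReal.ofReal √(Module.finrank ℝ V) := by
  obtain ⟨h1, h2⟩ := integral_norm_stdGaussian_le (V := V)
  have h3 : Integrable (fun g : V => g) (stdGaussian V) :=
    ⟨measurable_id.aestronglyMeasurable, by
      have := h1.2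
      rwa [hasFiniteIntegral_norm_iff] at this⟩
  rw [← ofReal_integral_norm_eq_lintegral_enorm h3]
  exact ENNReal.ofReal_le_ofReal h2

variable {f : V → ℝ} {a : V} {ρ τ : ℝ} {v : ℝ → V × V → V × V}

/-- first moment of `b_t` -/
theorem lintegral_bv_le (hf : PotP τ f) (hρ : 0 < ρ) (hv : CoupField f a ρ v)
    (hLi : CoupLi f a ρ v) {t : ℝ} (ht : t ∈ Jm) :
    ∫⁻ ω : (V × V) × V, ‖bv f a ρ v t (xin f a ρ ω.1)‖ₑ ∂(gam3 V) ≤
      ENNReal.ofReal √(Module.finrank ℝ V) := by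
  have hP := isProb_evol_vY hf a ht
  have hl := coup_law hf hρ hv hLi ht
  have hm : Measurable (fun w => ((evol v Jm 0 t (xin f a ρ w)).1, bv f a ρ v t (xin f a ρ w))) :=
    (measurable_evol_xin hv ht).prodMk (measurable_bv_xin hf hv ht)
  have h1 : ∫⁻ ω : (V × V) × V, ‖bv f a ρ v t (xin f a ρ ω.1)‖ₑ ∂(gam3 V) =
      ∫⁻ w : V × V, ‖bv f a ρ v t (xin f a ρ w)‖ₑ ∂((stdGaussian V).prod (stdGaussian V)) := by
    have hg : Measurable fun w : V × V => ‖bv f a ρ v t (xin f a ρ w)‖ₑ :=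
      (measurable_bv_xin hf hv ht).enorm
    have hg' : Measurable fun ω : (V × V) × V => ‖bv f a ρ v t (xin f a ρ ω.1)‖ₑ :=
      hg.comp measurable_fst
    rw [gam3, lintegral_prod _ hg'.aemeasurable]
    simp
  have h2 : ∫⁻ w : V × V, ‖bv f a ρ v t (xin f a ρ w)‖ₑ ∂((stdGaussian V).prod (stdGaussian V)) =
      ∫⁻ p : V × V, ‖p.2‖ₑ ∂((((stdGaussian V).map (evol (vY f a 1) Jm 0 t))).prod
        (stdGaussian V)) := by
    rw [← hl, lintegral_map (by fun_prop) hm]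
  rw [h1, h2, lintegral_prod _ (by fun_prop)]
  simp only [lintegral_const, measure_univ, mul_one]
  exact lintegral_enorm_stdGaussian_le

/-- first moment of `η_t` in terms of the single flow -/
theorem lintegral_eta_eq (hf : PotP τ f) (hρ : 0 < ρ) (hv : CoupField f a ρ v)
    (hLi : CoupLi f a ρ v) {t : ℝ} (ht : t ∈ Jm) :
    ∫⁻ ω : (V × V) × V, ‖(evol v Jm 0 t (xin f a ρ ω.1)).1‖ₑ ∂(gam3 V) =
      ∫⁻ ξ : V, ‖evol (vY f a 1) Jm 0 t ξ‖ₑ ∂(stdGaussian V) := by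
  have hP := isProb_evol_vY hf a ht
  have hl := coup_law hf hρ hv hLi ht
  have hm : Measurable (fun w => ((evol v Jm 0 t (xin f a ρ w)).1, bv f a ρ v t (xin f a ρ w))) :=
    (measurable_evol_xin hv ht).prodMk (measurable_bv_xin hf hv ht)
  have h1 : ∫⁻ ω : (V × V) × V, ‖(evol v Jm 0 t (xin f a ρ ω.1)).1‖ₑ ∂(gam3 V) =
      ∫⁻ w : V × V, ‖(evol v Jm 0 t (xin f a ρ w)).1‖ₑ ∂((stdGaussian V).prod (stdGaussian V)) := by
    have hg : Measurable fun w : V × V => ‖(evol v Jm 0 t (xin f a ρ w)).1‖ₑ :=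
      (measurable_evol_xin hv ht).enorm
    have hg' : Measurable fun ω : (V × V) × V => ‖(evol v Jm 0 t (xin f a ρ ω.1)).1‖ₑ :=
      hg.comp measurable_fst
    rw [gam3, lintegral_prod _ hg'.aemeasurable]
    simp
  have h2 : ∫⁻ w : V × V, ‖(evol v Jm 0 t (xin f a ρ w)).1‖ₑ ∂((stdGaussian V).prod (stdGaussian V))
      = ∫⁻ p : V × V, ‖p.1‖ₑ ∂((((stdGaussian V).map (evol (vY f a 1) Jm 0 t))).prod
        (stdGaussian V)) := by
    rw [← hl, lintegral_map (by fun_prop) hm]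
  rw [h1, h2, lintegral_prod _ (by fun_prop)]
  simp only [lintegral_const, measure_univ, mul_one]
  rw [lintegral_map (by fun_prop) (measurable_evol_vY hf a one_pos ht)]

theorem lintegral_q_le : ∫⁻ ω : (V × V) × V, ‖ω.2‖ₑ ∂(gam3 V) ≤
    ENNReal.ofReal √(Module.finrank ℝ V) := by
  rw [gam3, lintegral_prod _ (by fun_prop)]
  simp only [lintegral_const, measure_univ, mul_one]
  exact lintegral_enorm_stdGaussian_le

theorem lintegral_b0_le : ∫⁻ ω : (V × V) × V, ‖ω.1.2‖ₑ ∂(gam3 V) ≤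
    ENNReal.ofReal √(Module.finrank ℝ V) := by
  rw [gam3, lintegral_prod _ (by fun_prop)]
  simp only [lintegral_const, measure_univ, mul_one]
  rw [lintegral_prod _ (by fun_prop)]
  simp only [lintegral_const, measure_univ, mul_one]
  exact lintegral_enorm_stdGaussian_le

end gen

section adm

variable {d : ℕ} {V : E d → ℝ}

/-- first moment of the single flow -/
theorem lintegral_evol_vY_le (hV : Admissible d V) (c : E d) {s : ℝ} (hs : 0 < s)
    (hs2 : s ≤ 1 / 2) {t : ℝ} (h0 : 0 ≤ t) (h1 : t < 1) :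
    ∫⁻ ξ : E d, ‖evol (vY V c s) Jm 0 t ξ‖ₑ ∂(stdGaussian (E d)) ≤
      ENNReal.ofReal (3 * (√(d : ℝ) + ‖c‖)) := by
  have hP := PotP.of_admissible hV
  have hpr := adm_isProb_post hV c hs
  have ht : t ∈ Jm := ⟨by linarith, h1⟩
  have e1 := evol_eta_law hP c hs h0 h1
  have hme := measurable_evol_vY hP c hs ht
  have e2 : ∫⁻ ξ : E d, ‖evol (vY V c s) Jm 0 t ξ‖ₑ ∂(stdGaussian (E d)) =
      ∫⁻ p : E d × E d, ‖(t / s) • (p.1 - c) + √(1 - t ^ 2) • p.2‖ₑ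
        ∂((post V c s).prod (stdGaussian (E d))) := by
    have h2 : ∫⁻ x, ‖x‖ₑ ∂((stdGaussian (E d)).map (evol (vY V c s) (Ioo (-1 : ℝ) 1) 0 t)) =
        ∫⁻ x, ‖x‖ₑ ∂(((post V c s).prod (stdGaussian (E d))).map
          (fun p => (t / s) • (p.1 - c) + √(1 - t ^ 2) • p.2)) := by rw [e1]
    rw [lintegral_map (by fun_prop) hme, lintegral_map (by fun_prop) (by fun_prop)] at h2
    exact h2
  rw [e2]
  have hk0 : 0 ≤ √(1 - t ^ 2) := Real.sqrt_nonneg _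
  have hk1 : √(1 - t ^ 2) ≤ 1 := by
    rw [Real.sqrt_le_one]
    nlinarith
  have hts : 0 ≤ t / s := div_nonneg h0 hs.le
  have h3 : ∀ p : E d × E d, ‖(t / s) • (p.1 - c) + √(1 - t ^ 2) • p.2‖ₑ ≤
      ENNReal.ofReal (t / s) * ‖p.1 - c‖ₑ + ‖p.2‖ₑ := by
    intro p
    refine (enorm_add_le _ _).trans (add_le_add ?_ ?_)
    · rw [enorm_smul, Real.enorm_of_nonneg hts]
    · rw [enorm_smul, Real.enorm_of_nonneg hk0]
      calc ENNReal.ofReal √(1 - t ^ 2) * ‖p.2‖ₑ ≤ 1 * ‖p.2‖ₑ := by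
            gcongr
            exact ENNReal.ofReal_le_one.2 hk1
        _ = ‖p.2‖ₑ := one_mul _
  refine (lintegral_mono h3).trans ?_
  rw [lintegral_add_left (by fun_prop), lintegral_const_mul _ (by fun_prop),
    lintegral_prod _ (by fun_prop), lintegral_prod _ (by fun_prop)]
  simp only [lintegral_const, measure_univ, mul_one]
  have h4 : ∫⁻ z, ‖z - c‖ₑ ∂(post V c s) ≤ ENNReal.ofReal (2 * s * (√(d : ℝ) + ‖c‖)) := by
    have hi : Integrable (fun z : E d => z - c) (post V c s) :=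
      ⟨by fun_prop, by
        have := (adm_integrable_norm_sub hV c hs).2
        rwa [hasFiniteIntegral_norm_iff] at this⟩
    rw [← ofReal_integral_norm_eq_lintegral_enorm hi]
    exact ENNReal.ofReal_le_ofReal (adm_post_disp hV c hs hs2)
  have h5 : ∫⁻ g : E d, ‖g‖ₑ ∂(stdGaussian (E d)) ≤ ENNReal.ofReal √(d : ℝ) := by
    have := lintegral_enorm_stdGaussian_le (V := E d)
    rwa [finrank_euclideanSpace_fin] at this
  calc ENNReal.ofReal (t / s) * ∫⁻ z, ‖z - c‖ₑ ∂(post V c s) +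
        ∫⁻ g : E d, ‖g‖ₑ ∂(stdGaussian (E d))
      ≤ ENNReal.ofReal (t / s) * ENNReal.ofReal (2 * s * (√(d : ℝ) + ‖c‖)) +
        ENNReal.ofReal √(d : ℝ) := by gcongr
    _ = ENNReal.ofReal ((t / s) * (2 * s * (√(d : ℝ) + ‖c‖)) + √(d : ℝ)) := by
      rw [← ENNReal.ofReal_mul hts, ← ENNReal.ofReal_add (by positivity) (by positivity)]
    _ ≤ ENNReal.ofReal (3 * (√(d : ℝ) + ‖c‖)) := by
      refine ENNReal.ofReal_le_ofReal ?_
      have e : (t / s) * (2 * s * (√(d : ℝ) + ‖c‖)) = 2 * t * (√(d : ℝ) + ‖c‖) := by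
        field_simp
      rw [e]
      have h6 : 0 ≤ √(d : ℝ) + ‖c‖ := by positivity
      have h7 : 0 ≤ ‖c‖ := norm_nonneg c
      nlinarith

/-- first moment of `η_t`, coupled flow -/
theorem lintegral_eta_le (hV : Admissible d V) (c : E d) {s ρ : ℝ} (hs : 0 < s)
    (hs2 : s ≤ 1 / 2) (hρ : 0 < ρ) {v : ℝ → E d × E d → E d × E d}
    (hv : CoupField (Scale.fs V s) (s⁻¹ • c) ρ v) (hLi : CoupLi (Scale.fs V s) (s⁻¹ • c) ρ v)
    {t : ℝ} (h0 : 0 ≤ t) (h1 : t < 1) :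
    ∫⁻ ω : (E d × E d) × E d, ‖(evol v Jm 0 t (xin (Scale.fs V s) (s⁻¹ • c) ρ ω.1)).1‖ₑ
      ∂(gam3 (E d)) ≤ ENNReal.ofReal (3 * (√(d : ℝ) + ‖c‖)) := by
  have hP := PotP.of_admissible hV
  rw [lintegral_eta_eq (Scale.potP_fs hP s) hρ hv hLi (t := t) ⟨by linarith, h1⟩,
    ← Scale.vY_fs' hP hs.ne' c]
  exact lintegral_evol_vY_le hV c hs hs2 h0 h1

/-- first moment of `y_t = t η_t`, coupled flow -/
theorem lintegral_yv_le (hV : Admissible d V) (c : E d) {s ρ : ℝ} (hs : 0 < s)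
    (hs2 : s ≤ 1 / 2) (hρ : 0 < ρ) {v : ℝ → E d × E d → E d × E d}
    (hv : CoupField (Scale.fs V s) (s⁻¹ • c) ρ v) (hLi : CoupLi (Scale.fs V s) (s⁻¹ • c) ρ v)
    {t : ℝ} (h0 : 0 ≤ t) (h1 : t < 1) :
    ∫⁻ ω : (E d × E d) × E d, ‖yv v t (xin (Scale.fs V s) (s⁻¹ • c) ρ ω.1)‖ₑ
      ∂(gam3 (E d)) ≤ ENNReal.ofReal (3 * (√(d : ℝ) + ‖c‖)) := by
  refine (lintegral_mono fun ω => ?_).trans (lintegral_eta_le hV c hs hs2 hρ hv hLi h0 h1)
  rw [yv, enorm_smul, Real.enorm_of_nonneg h0]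
  calc ENNReal.ofReal t * ‖(evol v Jm 0 t (xin (Scale.fs V s) (s⁻¹ • c) ρ ω.1)).1‖ₑ
      ≤ 1 * ‖(evol v Jm 0 t (xin (Scale.fs V s) (s⁻¹ • c) ρ ω.1)).1‖ₑ := by
        gcongr
        exact ENNReal.ofReal_le_one.2 h1.le
    _ = _ := one_mul _

/-- first moment of `b_t`, coupled flow, `E d` -/
theorem lintegral_bv_le' (hV : Admissible d V) (c : E d) (s : ℝ) {ρ : ℝ}
    (hρ : 0 < ρ) {v : ℝ → E d × E d → E d × E d}
    (hv : CoupField (Scale.fs V s) (s⁻¹ • c) ρ v) (hLi : CoupLi (Scale.fs V s) (s⁻¹ • c) ρ v)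
    {t : ℝ} (ht : t ∈ Jm) :
    ∫⁻ ω : (E d × E d) × E d, ‖bv (Scale.fs V s) (s⁻¹ • c) ρ v t
      (xin (Scale.fs V s) (s⁻¹ • c) ρ ω.1)‖ₑ ∂(gam3 (E d)) ≤ ENNReal.ofReal √(d : ℝ) := by
  have := lintegral_bv_le (Scale.potP_fs (PotP.of_admissible hV) s) hρ hv hLi ht
  rwa [finrank_euclideanSpace_fin] at this

theorem lintegral_q_le' : ∫⁻ ω : (E d × E d) × E d, ‖ω.2‖ₑ ∂(gam3 (E d)) ≤
    ENNReal.ofReal √(d : ℝ) := by
  have := lintegral_q_le (V := E d)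
  rwa [finrank_euclideanSpace_fin] at this

theorem lintegral_b0_le' : ∫⁻ ω : (E d × E d) × E d, ‖ω.1.2‖ₑ ∂(gam3 (E d)) ≤
    ENNReal.ofReal √(d : ℝ) := by
  have := lintegral_b0_le (V := E d)
  rwa [finrank_euclideanSpace_fin] at this

end adm

end Crest.Agent.R285
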