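import Crest.Agent.R285.SemQCore2
import Crest.Agent.R285.SemQEx
import Crest.Agent.R285.SemQMom
import Crest.Agent.R285.SemQLawF

/-!
Row 285 (S0430): **SEM_Q**, unconditional (`SemQ.semQ : SEMQ`).
-/

set_option autoImplicit false
set_option linter.unusedSectionVars false

open Set Filter Topology MeasureTheory ProbabilityTheory
open Crest.OracleSampling (E Admissible)
open scoped ENNReal NNReal RealInnerProductSpace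

noncomputable section

namespace Crest.Agent.R285

namespace SemQ

/-- the constants -/
theorem final_const {n P₁ K : ℕ} {σ κ a0 M x cO cI cN C₁ EE W E₁ C : ℝ} (hσ : 0 < σ)
    (hκ : 0 < κ) (hκ1 : κ ≤ 1) (ha : 1 ≤ a0) (hM : 1 ≤ M) (hx : 0 ≤ x) (hcO : 0 ≤ cO)
    (hcI : 0 ≤ cI) (hcN : 0 ≤ cN) (hC₁ : 0 ≤ C₁) (hEE : 0 ≤ EE) (hW : 0 ≤ W)
    (hE : E₁ ≤ C₁ * (κ⁻¹ ^ P₁ * (2 ^ (n + 1) * EE)) * W) (hE0 : 0 ≤ E₁)
    (hC : C = 4 + 4 * cN + 66 * cO * cI * cN + (3 * cO * cI + 1) * (C₁ * 2 ^ (n + 1))) :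
    σ * (cO / κ * ((M * cI) * ((2 * cN * x) ^ K * (66 * cN * (a0 / κ)) * W + 3 * E₁)) + E₁) ≤
      σ * (C * a0 * M * (κ ^ (P₁ + 2))⁻¹ * ((C * x) ^ K + EE)) * W := by
  set k := κ⁻¹ with hk
  have hk1 : 1 ≤ k := (one_le_inv₀ hκ).2 hκ1
  have hk0 : 0 < k := by positivity
  have hC0 : 0 ≤ C := by rw [hC]; positivity
  have e1 : (κ ^ (P₁ + 2))⁻¹ = k ^ (P₁ + 2) := by rw [hk, inv_pow]
  have e2 : cO / κ = cO * k := by rw [hk, div_eq_mul_inv]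
  have e3 : a0 / κ = a0 * k := by rw [hk, div_eq_mul_inv]
  rw [e1, e2, e3, mul_assoc σ]
  refine mul_le_mul_of_nonneg_left ?_ hσ.le
  have ha0 : 0 ≤ a0 := by linarith
  have hM0 : 0 ≤ M := by linarith
  have c1 : 66 * cO * cI * cN ≤ C := by
    rw [hC]
    have : 0 ≤ (3 * cO * cI + 1) * (C₁ * 2 ^ (n + 1)) := by positivity
    linarith
  have c2 : (3 * cO * cI + 1) * (C₁ * 2 ^ (n + 1)) ≤ C := by
    rw [hC]
    have : 0 ≤ 66 * cO * cI * cN := by positivity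
    linarith
  have c3 : 2 * cN * x ≤ C * x := by
    refine mul_le_mul_of_nonneg_right ?_ hx
    rw [hC]
    have : 0 ≤ (3 * cO * cI + 1) * (C₁ * 2 ^ (n + 1)) := by positivity
    have : 0 ≤ 66 * cO * cI * cN := by positivity
    linarith
  have c4 : (2 * cN * x) ^ K ≤ (C * x) ^ K := pow_le_pow_left₀ (by positivity) c3 K
  have c5 : k ^ 2 ≤ k ^ (P₁ + 2) := pow_le_pow_right₀ hk1 (by omega)
  have c6 : k * k ^ P₁ ≤ k ^ (P₁ + 2) := by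
    calc k * k ^ P₁ = k ^ (P₁ + 1) := by ring
      _ ≤ k ^ (P₁ + 2) := pow_le_pow_right₀ hk1 (by omega)
  have t1 : (66 * cO * cI * cN) * (a0 * M) * k ^ 2 * (2 * cN * x) ^ K * W ≤
      C * (a0 * M) * k ^ (P₁ + 2) * (C * x) ^ K * W := by
    gcongr
  have t2 : (3 * cO * cI * M * k + 1) * E₁ ≤ C * (a0 * M) * k ^ (P₁ + 2) * EE * W := by
    have h1 : 3 * cO * cI * M * k + 1 ≤ (3 * cO * cI + 1) * (a0 * M * k) := by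
      have h2 : 1 ≤ M * k := one_le_mul_of_one_le_of_one_le hM hk1
      have h3 : M * k ≤ a0 * (M * k) := le_mul_of_one_le_left (by positivity) ha
      have h4 : 3 * cO * cI * (M * k) ≤ 3 * cO * cI * (a0 * (M * k)) :=
        mul_le_mul_of_nonneg_left h3 (by positivity)
      nlinarith
    calc (3 * cO * cI * M * k + 1) * E₁ ≤
        ((3 * cO * cI + 1) * (a0 * M * k)) * (C₁ * (k ^ P₁ * (2 ^ (n + 1) * EE)) * W) :=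
          mul_le_mul h1 hE hE0 (by positivity)
      _ = ((3 * cO * cI + 1) * (C₁ * 2 ^ (n + 1))) * (a0 * M) * (k * k ^ P₁) * EE * W := by ring
      _ ≤ C * (a0 * M) * k ^ (P₁ + 2) * EE * W := by gcongr
  calc cO * k * ((M * cI) * ((2 * cN * x) ^ K * (66 * cN * (a0 * k)) * W + 3 * E₁)) + E₁ =
      (66 * cO * cI * cN) * (a0 * M) * k ^ 2 * (2 * cN * x) ^ K * W +
        (3 * cO * cI * M * k + 1) * E₁ := by ring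
    _ ≤ C * (a0 * M) * k ^ (P₁ + 2) * (C * x) ^ K * W +
        C * (a0 * M) * k ^ (P₁ + 2) * EE * W := add_le_add t1 t2
    _ = _ := by ring

/-- The mean error for a general parameter structure. -/
theorem gen1 {d : ℕ} {V : E d → ℝ} (hV : Admissible d V) {Q : QPar} (hok : Q.Ok) (c : E d)
    {s σ : ℝ} (hs : 0 < s) (hs2 : s ≤ 1 / 2) (hσ : 0 < σ) (hsσ : 2 * s ≤ σ) (hρ : Q.ρ = s * σ)
    (hL : 2 * s ^ 2 * (QPar.cN Q.n * (1 + Q.a0 / (Q.ρ * Q.k1))) ≤ 1 / 2) {B βy βX : ℝ≥0∞}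
    (hE : ExQ Q (Scale.fs V s) (s⁻¹ • c)
      (fun j (ω : (E d × E d) × E d) => yv (Inst.vC (Scale.fs V s) (s⁻¹ • c) Q.ρ) (Q.nd j)
        (xin (Scale.fs V s) (s⁻¹ • c) Q.ρ ω.1))
      (fun j ω => bv (Scale.fs V s) (s⁻¹ • c) Q.ρ (Inst.vC (Scale.fs V s) (s⁻¹ • c) Q.ρ) (Q.nd j)
        (xin (Scale.fs V s) (s⁻¹ • c) Q.ρ ω.1))
      (fun ω => yv (Inst.vC (Scale.fs V s) (s⁻¹ • c) Q.ρ) Q.e1
        (xin (Scale.fs V s) (s⁻¹ • c) Q.ρ ω.1))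
      (fun ω => Xv (Inst.vC (Scale.fs V s) (s⁻¹ • c) Q.ρ) Q.e1
        (xin (Scale.fs V s) (s⁻¹ • c) Q.ρ ω.1))
      (fun ω => G (Scale.fs V s) 1 (s⁻¹ • c) + Q.ρ • ω.1.2) (fun ω => ω.2) (2 * s ^ 2)
      (gam3 (E d)) B βy βX)
    {E₁ : ℝ} (hE₁ : 0 ≤ E₁) (hP : eP Q (2 * s ^ 2) (d : ℝ) B βy βX ≤ ENNReal.ofReal E₁)
    (hO : eO Q (2 * s ^ 2) (d : ℝ) B βX ≤ ENNReal.ofReal (Q.ρ * E₁)) (K : ℕ) :
    ∫⁻ ω : (E d × E d) × E d, ‖qout Q s (qth σ) K V c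
        (![c + s • yv (Inst.vC (Scale.fs V s) (s⁻¹ • c) Q.ρ) Q.e1
          (xin (Scale.fs V s) (s⁻¹ • c) Q.ρ ω.1), G V (s * Q.k1) (c + s •
          yv (Inst.vC (Scale.fs V s) (s⁻¹ • c) Q.ρ) Q.e1 (xin (Scale.fs V s) (s⁻¹ • c) Q.ρ ω.1)) +
          σ • bv (Scale.fs V s) (s⁻¹ • c) Q.ρ (Inst.vC (Scale.fs V s) (s⁻¹ • c) Q.ρ) Q.e1
            (xin (Scale.fs V s) (s⁻¹ • c) Q.ρ ω.1), ω.2]) -
        s⁻¹ • (G (Scale.fs V s) 1 (s⁻¹ • c) + Q.ρ • ω.1.2)‖ₑ ∂(gam3 (E d)) ≤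
      ENNReal.ofReal (σ * (QPar.cO Q.n / Q.k1 * (Fintype.card (QI Q.n Q.M) *
        ((2 * s ^ 2 * (QPar.cN Q.n * (1 + Q.a0 / (Q.ρ * Q.k1)))) ^ K *
          (66 * QPar.cN Q.n * (Q.a0 / Q.k1)) * (√(d : ℝ) + ‖c‖) + 3 * E₁)) + E₁)) := by
  have hVp : PotP 2 V := PotP.of_admissible hV
  have hf : PotP (2 * s ^ 2) (Scale.fs V s) := Scale.potP_fs hVp s
  have hρ0 : 0 < Q.ρ := hok.ρ0
  have hv := coupField_vC' hf (s⁻¹ • c) Q.ρ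
  have hLi := coupLi_vC hf (s⁻¹ • c) Q.ρ
  have he1 : Q.e1 ∈ Jm := ⟨by linarith [hok.e0], hok.e1⟩
  have hnd : ∀ j, Q.nd j ∈ Jm := fun j => ⟨by linarith [(hok.nd_mem j).1], hok.nd_lt j⟩
  have mb1 := (measurable_bv_xin hf hv he1).comp
    (measurable_fst : Measurable (Prod.fst : (E d × E d) × E d → E d × E d))
  have k1 := fun j => lintegral_yv_le hV c hs hs2 hρ0 hv hLi (hok.nd_mem j).1.le (hok.nd_lt j)
  have k2 := lintegral_yv_le hV c hs hs2 hρ0 hv hLi hok.e0.le hok.e1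
  have k3 := fun j => lintegral_bv_le' hV c s hρ0 hv hLi (hnd j)
  have k4 := lintegral_bv_le' hV c s hρ0 hv hLi he1
  have k5 := lintegral_q_le' (d := d)
  have hP' : eP Q (2 * s ^ 2) (Module.finrank ℝ (E d)) B βy βX ≤ ENNReal.ofReal E₁ := by
    rw [finrank_euclideanSpace_fin]; exact hP
  have hO' : eO Q (2 * s ^ 2) (Module.finrank ℝ (E d)) B βX ≤ ENNReal.ofReal (Q.ρ * E₁) := by
    rw [finrank_euclideanSpace_fin]; exact hO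
  exact core_mean hVp c hs hs2 hσ hsσ hρ hL hE
    (fun ω => hv.Xv_eq hρ0.ne' Q.e1 (xin (Scale.fs V s) (s⁻¹ • c) Q.ρ ω.1)) mb1
    k1 k2 k3 k4 k5 hE₁ hP' hO' K

/-- The mean error, with explicit numbers. -/
theorem gen2 {d : ℕ} {V : E d → ℝ} (hV : Admissible d V) {n P₁ : ℕ} {C₁ : ℝ} (hC₁ : 0 ≤ C₁)
    {Q : QPar} (hQn : Q.n = n) (hok : Q.Ok) (c : E d) {s σ κ a0 t0 : ℝ} {M : ℕ} (hs : 0 < s)
    (hs2 : s ≤ 1 / 2) (hσ : 0 < σ) (hsσ : 2 * s ≤ σ) (hρ : Q.ρ = s * σ) (hk : Q.k1 = κ)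
    (ha : Q.a0 = a0) (ht : Q.t0 = t0) (hMM : Q.M = M) (hκ : 0 < κ) (hκ1 : κ ≤ 1) (ha1 : 1 ≤ a0)
    (ht0 : 0 ≤ t0)
    (hL : 2 * QPar.cN n * (s ^ 2 + a0 * s / (σ * κ)) ≤ 1 / 2) {B βy βX : ℝ≥0∞}
    (hE : ExQ Q (Scale.fs V s) (s⁻¹ • c)
      (fun j (ω : (E d × E d) × E d) => yv (Inst.vC (Scale.fs V s) (s⁻¹ • c) Q.ρ) (Q.nd j)
        (xin (Scale.fs V s) (s⁻¹ • c) Q.ρ ω.1))
      (fun j ω => bv (Scale.fs V s) (s⁻¹ • c) Q.ρ (Inst.vC (Scale.fs V s) (s⁻¹ • c) Q.ρ) (Q.nd j)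
        (xin (Scale.fs V s) (s⁻¹ • c) Q.ρ ω.1))
      (fun ω => yv (Inst.vC (Scale.fs V s) (s⁻¹ • c) Q.ρ) Q.e1
        (xin (Scale.fs V s) (s⁻¹ • c) Q.ρ ω.1))
      (fun ω => Xv (Inst.vC (Scale.fs V s) (s⁻¹ • c) Q.ρ) Q.e1
        (xin (Scale.fs V s) (s⁻¹ • c) Q.ρ ω.1))
      (fun ω => G (Scale.fs V s) 1 (s⁻¹ • c) + Q.ρ • ω.1.2) (fun ω => ω.2) (2 * s ^ 2)
      (gam3 (E d)) B βy βX)
    (hP : eP Q (2 * s ^ 2) (d : ℝ) B βy βX ≤ ENNReal.ofReal (C₁ * (Q.k1⁻¹ ^ P₁ *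
      ((Q.M : ℝ)⁻¹ ^ (n + 1) + Q.t0 ^ (n + 1) + (Q.a0 * (2 * s ^ 2 / Q.ρ)) ^ (n + 1))) * √d))
    (hO : eO Q (2 * s ^ 2) (d : ℝ) B βX ≤ ENNReal.ofReal (Q.ρ * (C₁ * (Q.k1⁻¹ ^ P₁ *
      ((Q.M : ℝ)⁻¹ ^ (n + 1) + Q.t0 ^ (n + 1) + (Q.a0 * (2 * s ^ 2 / Q.ρ)) ^ (n + 1))) * √d)))
    (K : ℕ) {C : ℝ}
    (hC : C = 4 + 4 * QPar.cN n + 66 * QPar.cO n * cI n * QPar.cN n +
      (3 * QPar.cO n * cI n + 1) * (C₁ * 2 ^ (n + 1))) :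
    ∫⁻ ω : (E d × E d) × E d, ‖qout Q s (qth σ) K V c
        (![c + s • yv (Inst.vC (Scale.fs V s) (s⁻¹ • c) Q.ρ) Q.e1
          (xin (Scale.fs V s) (s⁻¹ • c) Q.ρ ω.1), G V (s * Q.k1) (c + s •
          yv (Inst.vC (Scale.fs V s) (s⁻¹ • c) Q.ρ) Q.e1 (xin (Scale.fs V s) (s⁻¹ • c) Q.ρ ω.1)) +
          σ • bv (Scale.fs V s) (s⁻¹ • c) Q.ρ (Inst.vC (Scale.fs V s) (s⁻¹ • c) Q.ρ) Q.e1
            (xin (Scale.fs V s) (s⁻¹ • c) Q.ρ ω.1), ω.2]) -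
        s⁻¹ • (G (Scale.fs V s) 1 (s⁻¹ • c) + Q.ρ • ω.1.2)‖ₑ ∂(gam3 (E d)) ≤
      ENNReal.ofReal (σ * (C * a0 * M * (κ ^ (P₁ + 2))⁻¹ *
        ((C * (s ^ 2 + a0 * s / (σ * κ))) ^ K + ((M : ℝ)⁻¹ ^ (n + 1) + t0 ^ (n + 1) +
          (a0 * s / σ) ^ (n + 1)))) * (√(d : ℝ) + ‖c‖)) := by
  subst hQn ha ht hMM hk
  have eη : Q.a0 * (2 * s ^ 2 / Q.ρ) = 2 * (Q.a0 * s / σ) := by
    rw [hρ]; field_simp
  have eL : 2 * s ^ 2 * (QPar.cN Q.n * (1 + Q.a0 / (Q.ρ * Q.k1))) =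
      2 * QPar.cN Q.n * (s ^ 2 + Q.a0 * s / (σ * Q.k1)) := by
    rw [hρ]
    field_simp
  rw [eη] at hP hO
  have ha0s : 0 ≤ Q.a0 * s / σ := by positivity
  have hM1 : (1 : ℝ) ≤ Q.M := by exact_mod_cast hok.M0
  have hE₁0 : 0 ≤ C₁ * (Q.k1⁻¹ ^ P₁ * ((Q.M : ℝ)⁻¹ ^ (Q.n + 1) + Q.t0 ^ (Q.n + 1) +
      (2 * (Q.a0 * s / σ)) ^ (Q.n + 1))) * √d := by positivity
  have key := gen1 hV hok c hs hs2 hσ hsσ hρ (by rw [eL]; exact hL) hE hE₁0 hP hO K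
  refine key.trans (ENNReal.ofReal_le_ofReal ?_)
  rw [eL, card_QI_cast]
  have hx0 : 0 ≤ s ^ 2 + Q.a0 * s / (σ * Q.k1) := by positivity
  refine final_const (n := Q.n) (P₁ := P₁) (K := K) hσ hκ hκ1 ha1 hM1 hx0
    (QPar.cO_nonneg Q.n) (cI_nonneg Q.n) (QPar.cN_pos Q.n).le hC₁ (by positivity) (by positivity)
    ?_ hE₁0 hC
  have h2 : (1 : ℝ) ≤ 2 ^ (Q.n + 1) := one_le_pow₀ (by norm_num)
  have h1 : (Q.M : ℝ)⁻¹ ^ (Q.n + 1) + Q.t0 ^ (Q.n + 1) + (2 * (Q.a0 * s / σ)) ^ (Q.n + 1) ≤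
      2 ^ (Q.n + 1) * ((Q.M : ℝ)⁻¹ ^ (Q.n + 1) + Q.t0 ^ (Q.n + 1) +
        (Q.a0 * s / σ) ^ (Q.n + 1)) := by
    rw [mul_pow, mul_add, mul_add]
    have h3 : 0 ≤ (Q.M : ℝ)⁻¹ ^ (Q.n + 1) := by positivity
    have h4 : 0 ≤ Q.t0 ^ (Q.n + 1) := by positivity
    nlinarith
  have h5 : √(d : ℝ) ≤ √(d : ℝ) + ‖c‖ := by linarith [norm_nonneg c]
  gcongr

/-- **SEM_Q.** -/
theorem semQ : SEMQ := by
  intro n
  obtain ⟨C₁, P₁, hC₁, H⟩ := exQ_real n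
  have hcN := QPar.cN_pos n
  have hcO := QPar.cO_nonneg n
  have hcI := cI_nonneg n
  have hC₁0 : 0 ≤ C₁ := by linarith
  have hC4 : 4 + 4 * QPar.cN n ≤ 4 + 4 * QPar.cN n + 66 * QPar.cO n * cI n * QPar.cN n +
      (3 * QPar.cO n * cI n + 1) * (C₁ * 2 ^ (n + 1)) := by
    have : 0 ≤ 66 * QPar.cO n * cI n * QPar.cN n := by positivity
    have : 0 ≤ (3 * QPar.cO n * cI n + 1) * (C₁ * 2 ^ (n + 1)) := by positivity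
    linarith
  obtain ⟨C, hC⟩ : ∃ C : ℝ, C = 4 + 4 * QPar.cN n + 66 * QPar.cO n * cI n * QPar.cN n +
      (3 * QPar.cO n * cI n + 1) * (C₁ * 2 ^ (n + 1)) := ⟨_, rfl⟩
  rw [← hC] at hC4
  refine ⟨C, P₁ + 2, by linarith, fun d V hV s σ κ t0 a0 hs hσ hκ hκ2 ht0 ht1 hat hsm c M hM K => ?_⟩
  have hk1 : κ ≤ 1 := by linarith
  have ha2 : 2 ≤ a0 := by
    by_contra h
    push Not at h
    nlinarith
  -- smallness
  have hx0 : 0 ≤ s ^ 2 + a0 * s / (σ * κ) := by positivity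
  have hx1 : (4 + 4 * QPar.cN n) * (s ^ 2 + a0 * s / (σ * κ)) ≤ 1 :=
    (mul_le_mul_of_nonneg_right hC4 hx0).trans hsm
  have hy0 : 0 ≤ a0 * s / (σ * κ) := by positivity
  have hx2 : 4 * (s ^ 2 + a0 * s / (σ * κ)) ≤ 1 := by
    have : 0 ≤ 4 * QPar.cN n * (s ^ 2 + a0 * s / (σ * κ)) := by positivity
    linarith
  have hx3 : 4 * QPar.cN n * (s ^ 2 + a0 * s / (σ * κ)) ≤ 1 := by
    linarith
  have hs2 : s ≤ 1 / 2 := by nlinarith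
  have h2a : 2 * (a0 * s / σ) ≤ a0 * s / (σ * κ) := by
    rw [← div_div, le_div_iff₀ hκ]
    have : 0 ≤ a0 * s / σ := by positivity
    nlinarith
  have haη : 2 * (a0 * s / σ) ≤ 1 := by
    have := sq_nonneg s
    linarith
  have hsσ : 2 * s ≤ σ := by
    have h1 : a0 * s / σ ≤ 1 / 2 := by linarith
    rw [div_le_iff₀ hσ] at h1
    nlinarith
  have hok : (qpar n M s σ κ t0 a0).Ok := qpar_ok hM hs hσ hκ hκ2 ht0 ht1 hat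
  have hQk : (qpar n M s σ κ t0 a0).k1 = κ := qpar_k1 hκ.le hκ2
  have hVp : PotP 2 V := PotP.of_admissible hV
  have hf : PotP (2 * s ^ 2) (Scale.fs V s) := Scale.potP_fs hVp s
  have hτ0 : 0 < 2 * s ^ 2 := by positivity
  have hτ1 : 2 * s ^ 2 ≤ 1 := by nlinarith
  have hτρ : 2 * s ^ 2 ≤ s * σ := by nlinarith
  have hη : a0 * (2 * s ^ 2 / (s * σ)) ≤ 1 := by
    have : a0 * (2 * s ^ 2 / (s * σ)) = 2 * (a0 * s / σ) := by field_simp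
    rw [this]; exact haη
  obtain ⟨B, βy, βX, hE, hP, hO⟩ := H (Q := qpar n M s σ κ t0 a0) rfl hok hf hτ0 hτ1 hτρ hη
    (s⁻¹ • c)
  have key := gen2 hV hC₁0 (Q := qpar n M s σ κ t0 a0) (n := n) (κ := κ) (a0 := a0) (t0 := t0)
    (M := M) rfl hok c hs hs2 hσ hsσ rfl hQk rfl rfl rfl
    hκ hk1 (by linarith) ht0.le (by linarith) hE hP hO K hC
  rw [hQk] at key
  have hp := measurable_pvis (V := V) hVp c hs hσ hκ (by linarith : κ < 1)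
  have hx := measurable_x0vis (V := V) c s σ
  refine ⟨pvis V c s σ κ, x0vis V c s σ, hp, hx, map_pvis hVp c hs hσ hκ (by linarith),
    map_x0vis hVp c hs σ, ?_⟩
  have key2 : ∫⁻ ω, ‖qout (qpar n M s σ κ t0 a0) s (qth σ) K V c (pvis V c s σ κ ω) -
      x0vis V c s σ ω‖ₑ ∂(gam3 (E d)) ≤
      ENNReal.ofReal (σ * (C * a0 * M * (κ ^ (P₁ + 2))⁻¹ *
        ((C * (s ^ 2 + a0 * s / (σ * κ))) ^ K + (M : ℝ)⁻¹ ^ (n + 1) + t0 ^ (n + 1) +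
          (a0 * s / σ) ^ (n + 1))) * (√(d : ℝ) + ‖c‖)) := by
    refine key.trans (le_of_eq ?_)
    congr 2
    ring
  have hmeas : Measurable (fun ω : (E d × E d) × E d =>
      qout (qpar n M s σ κ t0 a0) s (qth σ) K V c (pvis V c s σ κ ω) - x0vis V c s σ ω) :=
    ((measurable_qout (qpar n M s σ κ t0 a0) s (qth σ) K hV c).comp hp).sub hx
  have hint : Integrable (fun ω : (E d × E d) × E d =>
      qout (qpar n M s σ κ t0 a0) s (qth σ) K V c (pvis V c s σ κ ω) - x0vis V c s σ ω)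
      (gam3 (E d)) :=
    ⟨hmeas.aestronglyMeasurable, lt_of_le_of_lt key2 ENNReal.ofReal_lt_top⟩
  refine ⟨hint.norm, ?_⟩
  rw [integral_norm_eq_lintegral_enorm hmeas.aestronglyMeasurable]
  refine ENNReal.toReal_le_of_le_ofReal ?_ key2
  have hC0 : 0 ≤ C := by linarith
  have ha0 : 0 ≤ a0 := by linarith
  positivity

end SemQ

end Crest.Agent.R285
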