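import Crest.Agent.R285.SemQPlug
import Crest.Agent.R285.FrozMom
import Crest.Agent.R285.FlatMean

/-!
Row 285: the start error of the Q-system (rescaled units, centre `a`).

`start_one` (start `g_i = X₁`, used for `σ ≤ 1`) and `start_zero` (start `g_i = 0`), pathwise; and in mean
along the coupled flow (`mean_start_one`, `mean_start_zero`).
-/

set_option autoImplicit false
set_option linter.unusedSectionVars false

open Set Filter Topology MeasureTheory ProbabilityTheory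
open scoped ENNReal NNReal RealInnerProductSpace

noncomputable section

namespace Crest.Agent.R285

namespace SemQ

variable {V : Type} [NormedAddCommGroup V] [InnerProductSpace ℝ V] [FiniteDimensional ℝ V]
  [MeasurableSpace V] [BorelSpace V]
variable {Ω : Type*} [MeasurableSpace Ω] {P : Measure Ω}

variable {Q : QPar} {f : V → ℝ} {a : V} {y b : QJ Q.n Q.M → Ω → V} {y1 X1 X0 q : Ω → V} {τ : ℝ}

/-- the main node of a point -/
def mj : QI Q.n Q.M → QJ Q.n Q.M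
  | Sum.inl j => j
  | Sum.inr (j, _, _) => j

/-- Crude bound of the points, relative to the centre. -/
theorem norm_xq_le_start (hQ : Q.Ok) (hf : PotP τ f) (hτ : τ ≤ 1 / 2) (ω : Ω) (i : QI Q.n Q.M) :
    ‖xq Q f a y b q ω i‖ ≤ 4 * (‖y (mj i) ω‖ + ‖b (mj i) ω‖ + ‖q ω‖ +
      √(Module.finrank ℝ V)) + 6 * τ * ‖a‖ := by
  have hτ0 := hf.hh
  have hs := Real.sqrt_nonneg (Module.finrank ℝ V : ℝ)
  have ha := norm_nonneg a
  have hta : 0 ≤ τ * ‖a‖ := mul_nonneg hτ0 ha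
  have hq := norm_nonneg (q ω)
  rcases i with j | ⟨j, v, k⟩
  · show ‖y j ω‖ ≤ 4 * (‖y j ω‖ + ‖b j ω‖ + ‖q ω‖ + _) + _
    have := norm_nonneg (y j ω)
    have := norm_nonneg (b j ω)
    nlinarith
  · have hκ := hQ.kj_pos j
    have hκ1 := hQ.kj_le j
    have ht0 := hQ.t0
    have ht1 : Q.t0 < 1 := by linarith [hQ.t1]
    have hn := node_mem_Jm ht0.le ht1 k
    have hn0 : 0 ≤ Q.t0 * Num.node (Q.n + 2) k := mul_nonneg ht0.le (Num.node_pos _ k).le
    have hn1 : Q.t0 * Num.node (Q.n + 2) k ≤ 1 := hn.2.le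
    set D := xdir (DGr f (Q.kj j, a + y j ω)) Q.ρ Q.n Q.a0 (b j ω, q ω) v with hD
    have h2 := norm_ievol_le hf (a + y j ω) hκ (by
      calc τ * Q.kj j ^ 2 ≤ τ * 1 ^ 2 := by gcongr
        _ ≤ 1 / 2 := by linarith) hn0 hn.2 D
    have h3 : ‖D‖ ≤ ‖b j ω‖ + ‖q ω‖ :=
      norm_xdir_le (DGr_symm hf (Q.kj j, a + y j ω)) Q.ρ Q.n Q.a0 (b j ω, q ω) v
    have h4 := norm_add_le a (y j ω)
    have hy := norm_nonneg (y j ω)
    have hb := norm_nonneg (b j ω)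
    show ‖xpt f (Q.kj j) Q.ρ Q.n Q.t0 Q.a0 (a + y j ω) (b j ω, q ω) v k - a‖ ≤
      4 * (‖y j ω‖ + ‖b j ω‖ + ‖q ω‖ + _) + _
    have e : xpt f (Q.kj j) Q.ρ Q.n Q.t0 Q.a0 (a + y j ω) (b j ω, q ω) v k - a =
        y j ω + (Q.kj j * (Q.t0 * Num.node (Q.n + 2) k)) •
          ievol f (a + y j ω) (Q.kj j) (Q.t0 * Num.node (Q.n + 2) k) D := by
      show (a + y j ω) + (Q.kj j * (Q.t0 * Num.node (Q.n + 2) k)) •
          ievol f (a + y j ω) (Q.kj j) (Q.t0 * Num.node (Q.n + 2) k) D - a = _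
      abel
    rw [e]
    have h5 : ‖(Q.kj j * (Q.t0 * Num.node (Q.n + 2) k)) •
          ievol f (a + y j ω) (Q.kj j) (Q.t0 * Num.node (Q.n + 2) k) D‖ ≤
        3 * (‖D‖ + 2 * τ * Q.kj j * (‖a + y j ω‖ + Q.kj j * √(Module.finrank ℝ V))) := by
      rw [norm_smul, Real.norm_eq_abs, abs_of_nonneg (by positivity)]
      calc Q.kj j * (Q.t0 * Num.node (Q.n + 2) k) *
            ‖ievol f (a + y j ω) (Q.kj j) (Q.t0 * Num.node (Q.n + 2) k) D‖ ≤ 1 * 1 *
            (3 * (‖D‖ + 2 * τ * Q.kj j * (‖a + y j ω‖ + Q.kj j * √(Module.finrank ℝ V)))) := by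
            gcongr
        _ = _ := by ring
    have h6 : 2 * τ * Q.kj j * (‖a + y j ω‖ + Q.kj j * √(Module.finrank ℝ V)) ≤
        2 * τ * 1 * ((‖a‖ + ‖y j ω‖) + 1 * √(Module.finrank ℝ V)) := by gcongr
    have h7 : 2 * τ * (‖y j ω‖ + √(Module.finrank ℝ V)) ≤
        1 * (‖y j ω‖ + √(Module.finrank ℝ V)) := by gcongr; linarith
    refine (norm_add_le _ _).trans ((add_le_add le_rfl h5).trans ?_)
    nlinarith

theorem norm_G_sub_le (hf : PotP τ f) (hτ : τ ≤ 1 / 2) {r : ℝ} (hr : 0 < r) (hr1 : r ≤ 1) (z : V) :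
    ‖G f r (a + z) - gradient f (a + z)‖ ≤
      2 * τ * (√(Module.finrank ℝ V) + τ * ‖a‖ + τ * ‖z‖) := by
  have hτ0 := hf.hh
  have h1 := norm_G_sub_gradient_le hf (a + z) hr (by
    calc τ * r ^ 2 ≤ τ * 1 ^ 2 := by gcongr
      _ ≤ 1 / 2 := by linarith)
  refine h1.trans ?_
  have h2 := norm_add_le a z
  have hs := Real.sqrt_nonneg (Module.finrank ℝ V : ℝ)
  calc τ * (2 * r * √(Module.finrank ℝ V) + 2 * τ * r ^ 2 * ‖a + z‖) ≤
        τ * (2 * 1 * √(Module.finrank ℝ V) + 2 * τ * 1 ^ 2 * (‖a‖ + ‖z‖)) := by gcongr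
    _ = _ := by ring

/-- **Start `g_i = X₁`.** -/
theorem start_one (hQ : Q.Ok) (hf : PotP τ f) (hτ : τ ≤ 1 / 2) {b1 : Ω → V} {ω : Ω}
    (hX : X1 ω = Q.ρ • b1 ω + G f Q.k1 (a + y1 ω)) (i : QI Q.n Q.M) :
    ‖X1 ω - Gt f a (Q.sys.r i) (xq Q f a y b q ω i)‖ ≤ Q.ρ * ‖b1 ω‖ +
      16 * τ * (‖y1 ω‖ + ‖y (mj i) ω‖ + ‖b (mj i) ω‖ + ‖q ω‖ + √(Module.finrank ℝ V) +
        τ * ‖a‖) := by
  have hτ0 := hf.hh
  have h1 := norm_xq_le_start (a := a) (y := y) (b := b) (q := q) hQ hf hτ ω i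
  set x := xq Q f a y b q ω i with hx
  have h2 := norm_G_sub_le (a := a) hf hτ hQ.k1_pos hQ.k1_le (y1 ω)
  have h3 := norm_G_sub_le (a := a) hf hτ (hQ.r_pos i) (hQ.r_le i) x
  have h4 : ‖gradient f (a + y1 ω) - gradient f (a + x)‖ ≤ τ * (‖y1 ω‖ + ‖x‖) := by
    refine (norm_gradient_sub_le hf _ _).trans (mul_le_mul_of_nonneg_left ?_ hτ0)
    rw [add_sub_add_left_eq_sub]
    exact norm_sub_le _ _
  have e : X1 ω - Gt f a (Q.sys.r i) x = Q.ρ • b1 ω +
      ((G f Q.k1 (a + y1 ω) - gradient f (a + y1 ω)) +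
      (gradient f (a + y1 ω) - gradient f (a + x)) -
      (G f (Q.sys.r i) (a + x) - gradient f (a + x))) := by
    rw [hX, Gt]
    abel
  rw [e]
  have h5 : ‖Q.ρ • b1 ω‖ = Q.ρ * ‖b1 ω‖ := by
    rw [norm_smul, Real.norm_eq_abs, abs_of_pos hQ.ρ0]
  refine (norm_add_le _ _).trans (add_le_add h5.le ?_)
  refine (norm_sub_le _ _).trans ((add_le_add (norm_add_le _ _) le_rfl).trans
    ((add_le_add (add_le_add h2 h4) h3).trans ?_))
  have hy := norm_nonneg (y1 ω)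
  have hs := Real.sqrt_nonneg (Module.finrank ℝ V : ℝ)
  have ha := norm_nonneg a
  have hxx := norm_nonneg x
  have ey : τ * ‖y1 ω‖ ≤ 1 / 2 * ‖y1 ω‖ := by gcongr
  have ex : τ * ‖x‖ ≤ 1 / 2 * ‖x‖ := by gcongr
  have key : 2 * (√(Module.finrank ℝ V) + τ * ‖a‖ + τ * ‖y1 ω‖) + (‖y1 ω‖ + ‖x‖) +
      2 * (√(Module.finrank ℝ V) + τ * ‖a‖ + τ * ‖x‖) ≤
      16 * (‖y1 ω‖ + ‖y (mj i) ω‖ + ‖b (mj i) ω‖ + ‖q ω‖ + √(Module.finrank ℝ V) + τ * ‖a‖) := by
    have := norm_nonneg (y (mj i) ω)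
    have := norm_nonneg (b (mj i) ω)
    have := norm_nonneg (q ω)
    linarith
  calc _ = τ * (2 * (√(Module.finrank ℝ V) + τ * ‖a‖ + τ * ‖y1 ω‖) + (‖y1 ω‖ + ‖x‖) +
      2 * (√(Module.finrank ℝ V) + τ * ‖a‖ + τ * ‖x‖)) := by ring
    _ ≤ τ * (16 * (‖y1 ω‖ + ‖y (mj i) ω‖ + ‖b (mj i) ω‖ + ‖q ω‖ + √(Module.finrank ℝ V) +
        τ * ‖a‖)) := mul_le_mul_of_nonneg_left key hτ0
    _ = _ := by ring

/-- **Start `g_i = 0`.** -/
theorem start_zero (hQ : Q.Ok) (hf : PotP τ f) (hτ : τ ≤ 1 / 2) (ω : Ω) (i : QI Q.n Q.M) :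
    ‖Gt f a (Q.sys.r i) (xq Q f a y b q ω i)‖ ≤ 16 * τ * (‖a‖ + ‖y (mj i) ω‖ + ‖b (mj i) ω‖ +
      ‖q ω‖ + √(Module.finrank ℝ V)) := by
  have hτ0 := hf.hh
  have h1 := norm_xq_le_start (a := a) (y := y) (b := b) (q := q) hQ hf hτ ω i
  set x := xq Q f a y b q ω i with hx
  have h3 := norm_G_le hf (a + x) (hQ.r_pos i) (by
    calc τ * Q.sys.r i ^ 2 ≤ τ * 1 ^ 2 := by
          have := hQ.r_le i
          have := hQ.r_pos i
          gcongr
      _ ≤ 1 / 2 := by linarith)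
  rw [Gt]
  refine h3.trans ?_
  have h2 := norm_add_le a x
  have hs := Real.sqrt_nonneg (Module.finrank ℝ V : ℝ)
  have ha := norm_nonneg a
  have hr : Q.sys.r i * √(Module.finrank ℝ V) ≤ 1 * √(Module.finrank ℝ V) :=
    mul_le_mul_of_nonneg_right (hQ.r_le i) hs
  have eta : τ * ‖a‖ ≤ 1 / 2 * ‖a‖ := by gcongr
  have key : 2 * (‖a + x‖ + Q.sys.r i * √(Module.finrank ℝ V)) ≤
      16 * (‖a‖ + ‖y (mj i) ω‖ + ‖b (mj i) ω‖ + ‖q ω‖ + √(Module.finrank ℝ V)) := by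
    have := norm_nonneg (y (mj i) ω)
    have := norm_nonneg (b (mj i) ω)
    have := norm_nonneg (q ω)
    linarith
  calc _ = τ * (2 * (‖a + x‖ + Q.sys.r i * √(Module.finrank ℝ V))) := by ring
    _ ≤ τ * (16 * (‖a‖ + ‖y (mj i) ω‖ + ‖b (mj i) ω‖ + ‖q ω‖ + √(Module.finrank ℝ V))) :=
        mul_le_mul_of_nonneg_left key hτ0
    _ = _ := by ring

/-! ### means -/

theorem lintegral_enorm_stdGaussian :
    ∫⁻ g : V, ‖g‖ₑ ∂(stdGaussian V) ≤ ENNReal.ofReal (√(Module.finrank ℝ V)) := by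
  obtain ⟨h1, h2⟩ := integral_norm_stdGaussian_le (V := V)
  have h3 : ∫⁻ g : V, ‖g‖ₑ ∂(stdGaussian V) = ENNReal.ofReal (∫ g : V, ‖g‖ ∂(stdGaussian V)) := by
    rw [ofReal_integral_eq_lintegral_ofReal h1 (ae_of_all _ fun _ => norm_nonneg _)]
    exact lintegral_congr fun x => (ofReal_norm x).symm
  rw [h3]
  exact ENNReal.ofReal_le_ofReal h2

theorem lintegral_enorm_of_map {g : Ω → V} (hg : Measurable g) (hl : P.map g = stdGaussian V) :
    ∫⁻ ω, ‖g ω‖ₑ ∂P ≤ ENNReal.ofReal (√(Module.finrank ℝ V)) := by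
  refine le_trans (le_of_eq ?_) lintegral_enorm_stdGaussian
  rw [← hl, lintegral_map (by fun_prop) hg]

/-- Moment of the path `y_t`, under the law of the flow. -/
theorem lintegral_evol_vY (hf : PotP τ f) (hτ : τ ≤ 1 / 2) {t : ℝ} (h0 : 0 ≤ t) (h1 : t < 1) :
    ∫⁻ x : V, ‖evol (vY f a 1) Jm 0 t x‖ₑ ∂(stdGaussian V) ≤
      ENNReal.ofReal (6 * (√(Module.finrank ℝ V) + τ * ‖a‖)) := by
  have hτ0 := hf.hh
  have hs := Real.sqrt_nonneg (Module.finrank ℝ V : ℝ)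
  have ha := norm_nonneg a
  have key : ∀ x : V, ‖evol (vY f a 1) Jm 0 t x‖ₑ ≤ ENNReal.ofReal 3 * ‖x‖ₑ +
      ENNReal.ofReal (3 * (2 * τ * (‖a‖ + √(Module.finrank ℝ V)))) := fun x => by
    have h2 := norm_ievol_le hf a one_pos (by linarith : τ * 1 ^ 2 ≤ 1 / 2) h0 h1 x
    rw [← ofReal_norm, ← ofReal_norm, ← ENNReal.ofReal_mul (by norm_num),
      ← ENNReal.ofReal_add (by positivity) (by positivity)]
    refine ENNReal.ofReal_le_ofReal (h2.trans (le_of_eq ?_))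
    ring
  refine (lintegral_mono key).trans ?_
  rw [lintegral_add_right _ measurable_const, lintegral_const_mul _ (by fun_prop), lintegral_const,
    measure_univ, mul_one]
  calc _ ≤ ENNReal.ofReal 3 * ENNReal.ofReal (√(Module.finrank ℝ V)) +
        ENNReal.ofReal (3 * (2 * τ * (‖a‖ + √(Module.finrank ℝ V)))) :=
        add_le_add (mul_le_mul' le_rfl lintegral_enorm_stdGaussian) le_rfl
    _ = ENNReal.ofReal (3 * √(Module.finrank ℝ V) +
        3 * (2 * τ * (‖a‖ + √(Module.finrank ℝ V)))) := by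
        rw [← ENNReal.ofReal_mul (by norm_num), ← ENNReal.ofReal_add (by positivity) (by positivity)]
    _ ≤ _ := by
        refine ENNReal.ofReal_le_ofReal ?_
        have : τ * √(Module.finrank ℝ V) ≤ 1 / 2 * √(Module.finrank ℝ V) := by gcongr
        nlinarith

/-- **Mean start error, `θ = 1`**, from moments. -/
theorem mean_one (hQ : Q.Ok) (hf : PotP τ f) (hτ : τ ≤ 1 / 2) [IsProbabilityMeasure P]
    {b1 : Ω → V} (hX : ∀ ω, X1 ω = Q.ρ • b1 ω + G f Q.k1 (a + y1 ω))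
    (my1 : Measurable y1) (my : ∀ j, Measurable (y j)) (mb1 : Measurable b1)
    (mb : ∀ j, Measurable (b j)) (mq : Measurable q) {s : ℝ} (hs : 0 ≤ s)
    (e1 : ∫⁻ ω, ‖y1 ω‖ₑ ∂P ≤ ENNReal.ofReal (6 * (s + τ * ‖a‖)))
    (e2 : ∀ j, ∫⁻ ω, ‖y j ω‖ₑ ∂P ≤ ENNReal.ofReal (6 * (s + τ * ‖a‖)))
    (e3 : ∫⁻ ω, ‖b1 ω‖ₑ ∂P ≤ ENNReal.ofReal s) (e4 : ∀ j, ∫⁻ ω, ‖b j ω‖ₑ ∂P ≤ ENNReal.ofReal s)
    (e5 : ∫⁻ ω, ‖q ω‖ₑ ∂P ≤ ENNReal.ofReal s) (hsd : √(Module.finrank ℝ V) ≤ s)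
    (i : QI Q.n Q.M) :
    ∫⁻ ω, ‖X1 ω - Gt f a (Q.sys.r i) (xq Q f a y b q ω i)‖ₑ ∂P ≤
      ENNReal.ofReal (256 * (Q.ρ + τ) * (s + τ * ‖a‖)) := by
  have hτ0 := hf.hh
  have hρ := hQ.ρ0
  have ha := norm_nonneg a
  have key : ∀ ω, ‖X1 ω - Gt f a (Q.sys.r i) (xq Q f a y b q ω i)‖ₑ ≤
      ENNReal.ofReal Q.ρ * ‖b1 ω‖ₑ + ENNReal.ofReal (16 * τ) * (‖y1 ω‖ₑ + ‖y (mj i) ω‖ₑ +
        ‖b (mj i) ω‖ₑ + ‖q ω‖ₑ + ENNReal.ofReal (s + τ * ‖a‖)) := fun ω => by
    have h1 := start_one (y := y) (b := b) (q := q) hQ hf hτ (hX ω) i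
    simp only [← ofReal_norm]
    rw [← ENNReal.ofReal_add (by positivity) (by positivity),
      ← ENNReal.ofReal_add (by positivity) (by positivity),
      ← ENNReal.ofReal_add (by positivity) (by positivity),
      ← ENNReal.ofReal_add (by positivity) (by positivity),
      ← ENNReal.ofReal_mul hρ.le, ← ENNReal.ofReal_mul (by positivity),
      ← ENNReal.ofReal_add (by positivity) (by positivity)]
    refine ENNReal.ofReal_le_ofReal (h1.trans (add_le_add le_rfl ?_))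
    refine mul_le_mul_of_nonneg_left ?_ (by positivity)
    linarith
  refine (lintegral_mono key).trans ?_
  have m1 : Measurable fun ω => ‖y1 ω‖ₑ := my1.enorm
  have m2 : Measurable fun ω => ‖y (mj i) ω‖ₑ := (my _).enorm
  have m3 : Measurable fun ω => ‖b (mj i) ω‖ₑ := (mb _).enorm
  have m4 : Measurable fun ω => ‖q ω‖ₑ := mq.enorm
  have m5 : Measurable fun ω => ‖b1 ω‖ₑ := mb1.enorm
  rw [lintegral_add_left (m5.const_mul _), lintegral_const_mul _ m5,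
    lintegral_const_mul _ (by fun_prop),
    lintegral_add_right _ measurable_const, lintegral_add_right _ m4, lintegral_add_right _ m3,
    lintegral_add_right _ m2, lintegral_const, measure_univ, mul_one]
  have hS : 0 ≤ s + τ * ‖a‖ := by positivity
  calc _ ≤ ENNReal.ofReal Q.ρ * ENNReal.ofReal s + ENNReal.ofReal (16 * τ) *
        (ENNReal.ofReal (6 * (s + τ * ‖a‖)) + ENNReal.ofReal (6 * (s + τ * ‖a‖)) +
          ENNReal.ofReal s + ENNReal.ofReal s + ENNReal.ofReal (s + τ * ‖a‖)) := by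
        gcongr
        · exact e2 _
        · exact e4 _
    _ = ENNReal.ofReal (Q.ρ * s + 16 * τ * (6 * (s + τ * ‖a‖) + 6 * (s + τ * ‖a‖) + s + s +
          (s + τ * ‖a‖))) := by
        rw [← ENNReal.ofReal_add (by positivity) (by positivity),
          ← ENNReal.ofReal_add (by positivity) (by positivity),
          ← ENNReal.ofReal_add (by positivity) (by positivity),
          ← ENNReal.ofReal_add (by positivity) (by positivity),
          ← ENNReal.ofReal_mul hρ.le, ← ENNReal.ofReal_mul (by positivity),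
          ← ENNReal.ofReal_add (by positivity) (by positivity)]
    _ ≤ _ := by
        refine ENNReal.ofReal_le_ofReal ?_
        have h1 : s ≤ s + τ * ‖a‖ := by
          have : 0 ≤ τ * ‖a‖ := by positivity
          linarith
        have h2 : Q.ρ * s ≤ Q.ρ * (s + τ * ‖a‖) := by gcongr
        have h3 : 16 * τ * (6 * (s + τ * ‖a‖) + 6 * (s + τ * ‖a‖) + s + s + (s + τ * ‖a‖)) ≤
            16 * τ * (15 * (s + τ * ‖a‖)) := by
          refine mul_le_mul_of_nonneg_left ?_ (by positivity)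
          linarith
        have h4 : 0 ≤ Q.ρ * (s + τ * ‖a‖) := by positivity
        have h5 : 0 ≤ τ * (s + τ * ‖a‖) := by positivity
        nlinarith

/-- **Mean start error, `θ = 0`**, from moments. -/
theorem mean_zero (hQ : Q.Ok) (hf : PotP τ f) (hτ : τ ≤ 1 / 2) [IsProbabilityMeasure P]
    (my : ∀ j, Measurable (y j)) (mb : ∀ j, Measurable (b j)) (mq : Measurable q) {s : ℝ}
    (hs : 0 ≤ s)
    (e2 : ∀ j, ∫⁻ ω, ‖y j ω‖ₑ ∂P ≤ ENNReal.ofReal (6 * (s + τ * ‖a‖)))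
    (e4 : ∀ j, ∫⁻ ω, ‖b j ω‖ₑ ∂P ≤ ENNReal.ofReal s)
    (e5 : ∫⁻ ω, ‖q ω‖ₑ ∂P ≤ ENNReal.ofReal s) (hsd : √(Module.finrank ℝ V) ≤ s)
    (i : QI Q.n Q.M) :
    ∫⁻ ω, ‖Gt f a (Q.sys.r i) (xq Q f a y b q ω i)‖ₑ ∂P ≤
      ENNReal.ofReal (256 * τ * (s + ‖a‖)) := by
  have hτ0 := hf.hh
  have ha := norm_nonneg a
  have key : ∀ ω, ‖Gt f a (Q.sys.r i) (xq Q f a y b q ω i)‖ₑ ≤
      ENNReal.ofReal (16 * τ) * (‖y (mj i) ω‖ₑ +
        ‖b (mj i) ω‖ₑ + ‖q ω‖ₑ + ENNReal.ofReal (s + ‖a‖)) := fun ω => by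
    have h1 := start_zero (a := a) (y := y) (b := b) (q := q) hQ hf hτ ω i
    simp only [← ofReal_norm]
    rw [← ENNReal.ofReal_add (by positivity) (by positivity),
      ← ENNReal.ofReal_add (by positivity) (by positivity),
      ← ENNReal.ofReal_add (by positivity) (by positivity),
      ← ENNReal.ofReal_mul (by positivity)]
    refine ENNReal.ofReal_le_ofReal (h1.trans ?_)
    refine mul_le_mul_of_nonneg_left ?_ (by positivity)
    linarith
  refine (lintegral_mono key).trans ?_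
  have m2 : Measurable fun ω => ‖y (mj i) ω‖ₑ := (my _).enorm
  have m3 : Measurable fun ω => ‖b (mj i) ω‖ₑ := (mb _).enorm
  have m4 : Measurable fun ω => ‖q ω‖ₑ := mq.enorm
  rw [lintegral_const_mul _ (by fun_prop),
    lintegral_add_right _ measurable_const, lintegral_add_right _ m4, lintegral_add_right _ m3,
    lintegral_const, measure_univ, mul_one]
  calc _ ≤ ENNReal.ofReal (16 * τ) * (ENNReal.ofReal (6 * (s + τ * ‖a‖)) +
          ENNReal.ofReal s + ENNReal.ofReal s + ENNReal.ofReal (s + ‖a‖)) := by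
        gcongr
        · exact e2 _
        · exact e4 _
    _ = ENNReal.ofReal (16 * τ * (6 * (s + τ * ‖a‖) + s + s + (s + ‖a‖))) := by
        rw [← ENNReal.ofReal_add (by positivity) (by positivity),
          ← ENNReal.ofReal_add (by positivity) (by positivity),
          ← ENNReal.ofReal_add (by positivity) (by positivity),
          ← ENNReal.ofReal_mul (by positivity)]
    _ ≤ _ := by
        refine ENNReal.ofReal_le_ofReal ?_
        have h1 : τ * ‖a‖ ≤ 1 / 2 * ‖a‖ := by gcongr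
        have h3 : 16 * τ * (6 * (s + τ * ‖a‖) + s + s + (s + ‖a‖)) ≤
            16 * τ * (16 * (s + ‖a‖)) := by
          refine mul_le_mul_of_nonneg_left ?_ (by positivity)
          linarith
        linarith

/-! ### along the coupled flow -/

section coup

variable {v : ℝ → V × V → V × V}

theorem lintegral_yv (hf : PotP τ f) (hτ : τ ≤ 1 / 2) {ρ : ℝ} (hρ : 0 < ρ)
    (hv : CoupField f a ρ v) (hLi : CoupLi f a ρ v) {t : ℝ} (h0 : 0 ≤ t) (h1 : t < 1) :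
    ∫⁻ ω, ‖yv v t (xin f a ρ ω.1)‖ₑ ∂(gam3 V) ≤
      ENNReal.ofReal (6 * (√(Module.finrank ℝ V) + τ * ‖a‖)) := by
  have ht : t ∈ Jm := ⟨by linarith, h1⟩
  have hl := coup_law hf hρ hv hLi ht
  have hm := isProb_evol_vY hf a ht
  have mη : Measurable (fun w => (evol v Jm 0 t (xin f a ρ w)).1) := measurable_evol_xin hv ht
  have mb := measurable_bv_xin hf hv ht
  have hle : ∀ ω : (V × V) × V, ‖yv v t (xin f a ρ ω.1)‖ₑ ≤
      ‖(evol v Jm 0 t (xin f a ρ ω.1)).1‖ₑ := fun ω => by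
    unfold yv
    rw [enorm_smul]
    refine mul_le_of_le_one_left zero_le ?_
    rw [← ofReal_norm, Real.norm_eq_abs, abs_of_nonneg h0]
    exact ENNReal.ofReal_le_one.mpr h1.le
  refine (lintegral_mono hle).trans ?_
  have e1 : ∫⁻ ω : (V × V) × V, ‖(evol v Jm 0 t (xin f a ρ ω.1)).1‖ₑ ∂(gam3 V) =
      ∫⁻ w : V × V, ‖(evol v Jm 0 t (xin f a ρ w)).1‖ₑ
        ∂((stdGaussian V).prod (stdGaussian V)) := by
    have hfst : (gam3 V).map Prod.fst = (stdGaussian V).prod (stdGaussian V) := by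
      rw [gam3, Measure.map_fst_prod]; simp
    rw [← hfst, lintegral_map mη.enorm measurable_fst]
  have e2 : ∫⁻ w : V × V, ‖(evol v Jm 0 t (xin f a ρ w)).1‖ₑ
        ∂((stdGaussian V).prod (stdGaussian V)) =
      ∫⁻ x : V, ‖evol (vY f a 1) Jm 0 t x‖ₑ ∂(stdGaussian V) := by
    have h3 : ((stdGaussian V).prod (stdGaussian V)).map
        (fun w => (evol v Jm 0 t (xin f a ρ w)).1) =
        (stdGaussian V).map (evol (vY f a 1) Jm 0 t) := by
      have h4 : (fun w => (evol v Jm 0 t (xin f a ρ w)).1) = Prod.fst ∘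
          (fun w => ((evol v Jm 0 t (xin f a ρ w)).1, bv f a ρ v t (xin f a ρ w))) := rfl
      rw [h4, ← Measure.map_map measurable_fst (mη.prodMk mb), hl, Measure.map_fst_prod]
      simp
    have h5 : ∫⁻ w : V × V, ‖(evol v Jm 0 t (xin f a ρ w)).1‖ₑ
        ∂((stdGaussian V).prod (stdGaussian V)) =
        ∫⁻ x : V, ‖x‖ₑ ∂(((stdGaussian V).prod (stdGaussian V)).map
        (fun w => (evol v Jm 0 t (xin f a ρ w)).1)) := by
      rw [lintegral_map measurable_enorm mη]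
    rw [h5, h3, lintegral_map measurable_enorm (measurable_evol_vY hf a one_pos ht)]
  rw [e1, e2]
  exact lintegral_evol_vY hf hτ h0 h1

theorem lintegral_bv (hf : PotP τ f) {ρ : ℝ} (hρ : 0 < ρ)
    (hv : CoupField f a ρ v) (hLi : CoupLi f a ρ v) {t : ℝ} (ht : t ∈ Jm) :
    ∫⁻ ω, ‖bv f a ρ v t (xin f a ρ ω.1)‖ₑ ∂(gam3 V) ≤
      ENNReal.ofReal (√(Module.finrank ℝ V)) := by
  have hl := coup_law hf hρ hv hLi ht
  have hm := isProb_evol_vY hf a ht
  have mη : Measurable (fun w => (evol v Jm 0 t (xin f a ρ w)).1) := measurable_evol_xin hv ht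
  have mb := measurable_bv_xin hf hv ht
  refine lintegral_enorm_of_map (mb.comp measurable_fst) ?_
  have h6 : ((stdGaussian V).prod (stdGaussian V)).map (fun w => bv f a ρ v t (xin f a ρ w)) =
      stdGaussian V := by
    have h4 : (fun w => bv f a ρ v t (xin f a ρ w)) = Prod.snd ∘
        (fun w => ((evol v Jm 0 t (xin f a ρ w)).1, bv f a ρ v t (xin f a ρ w))) := rfl
    rw [h4, ← Measure.map_map measurable_snd (mη.prodMk mb), hl, Measure.map_snd_prod]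
    simp
  have h7 : (fun ω : (V × V) × V => bv f a ρ v t (xin f a ρ ω.1)) =
      (fun w => bv f a ρ v t (xin f a ρ w)) ∘ Prod.fst := rfl
  have hfst : (gam3 V).map Prod.fst = (stdGaussian V).prod (stdGaussian V) := by
    rw [gam3, Measure.map_fst_prod]; simp
  rw [h7, ← Measure.map_map mb measurable_fst, hfst, h6]

variable (hQ : Q.Ok) (hf : PotP τ f) (hτ : τ ≤ 1 / 2) (hv : CoupField f a Q.ρ v)
  (hLi : CoupLi f a Q.ρ v)

include hQ hf hτ hv hLi

/-- **Mean start error along the coupled flow, start `g_i = X₁`.** -/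
theorem coup_start_one (i : QI Q.n Q.M) :
    ∫⁻ ω, ‖Xv v Q.e1 (xin f a Q.ρ ω.1) - Gt f a (Q.sys.r i)
      (xq Q f a (fun j (ω : (V × V) × V) => yv v (Q.nd j) (xin f a Q.ρ ω.1))
        (fun j ω => bv f a Q.ρ v (Q.nd j) (xin f a Q.ρ ω.1)) (fun ω => ω.2) ω i)‖ₑ ∂(gam3 V) ≤
      ENNReal.ofReal (256 * (Q.ρ + τ) * (√(Module.finrank ℝ V) + τ * ‖a‖)) := by
  have hX : Measurable (fun ω : (V × V) × V => xin f a Q.ρ ω.1) :=
    (continuous_xin f a Q.ρ).measurable.comp measurable_fst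
  have he : Q.e1 ∈ Jm := Icc_subset_Jm' hQ.e1 ⟨hQ.e0.le, le_rfl⟩
  have hn : ∀ j, Q.nd j ∈ Jm := CoupField.nd_mem_Jm hv Q hQ.e0 hQ.e1
  exact mean_one (P := gam3 V)
    (y := fun j (ω : (V × V) × V) => yv v (Q.nd j) (xin f a Q.ρ ω.1))
    (b := fun j ω => bv f a Q.ρ v (Q.nd j) (xin f a Q.ρ ω.1)) (q := fun ω => ω.2)
    (y1 := fun ω => yv v Q.e1 (xin f a Q.ρ ω.1)) (X1 := fun ω => Xv v Q.e1 (xin f a Q.ρ ω.1))
    (b1 := fun ω => bv f a Q.ρ v Q.e1 (xin f a Q.ρ ω.1)) hQ hf hτ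
    (fun ω => hv.Xv_eq hQ.ρ0.ne' Q.e1 (xin f a Q.ρ ω.1))
    ((hv.continuous_yv he).measurable.comp hX)
    (fun j => (hv.continuous_yv (hn j)).measurable.comp hX)
    ((measurable_bv_xin hf hv he).comp measurable_fst)
    (fun j => (measurable_bv_xin hf hv (hn j)).comp measurable_fst) measurable_snd
    (Real.sqrt_nonneg _)
    (lintegral_yv hf hτ hQ.ρ0 hv hLi hQ.e0.le hQ.e1)
    (fun j => lintegral_yv hf hτ hQ.ρ0 hv hLi (hQ.nd_mem j).1.le (hQ.nd_lt j))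
    (lintegral_bv hf hQ.ρ0 hv hLi he) (fun j => lintegral_bv hf hQ.ρ0 hv hLi (hn j))
    (lintegral_enorm_of_map measurable_snd law_q) le_rfl i

/-- **Mean start error along the coupled flow, start `g_i = 0`.** -/
theorem coup_start_zero (i : QI Q.n Q.M) :
    ∫⁻ ω, ‖Gt f a (Q.sys.r i)
      (xq Q f a (fun j (ω : (V × V) × V) => yv v (Q.nd j) (xin f a Q.ρ ω.1))
        (fun j ω => bv f a Q.ρ v (Q.nd j) (xin f a Q.ρ ω.1)) (fun ω => ω.2) ω i)‖ₑ ∂(gam3 V) ≤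
      ENNReal.ofReal (256 * τ * (√(Module.finrank ℝ V) + ‖a‖)) := by
  have hX : Measurable (fun ω : (V × V) × V => xin f a Q.ρ ω.1) :=
    (continuous_xin f a Q.ρ).measurable.comp measurable_fst
  have hn : ∀ j, Q.nd j ∈ Jm := CoupField.nd_mem_Jm hv Q hQ.e0 hQ.e1
  exact mean_zero (P := gam3 V)
    (y := fun j (ω : (V × V) × V) => yv v (Q.nd j) (xin f a Q.ρ ω.1))
    (b := fun j ω => bv f a Q.ρ v (Q.nd j) (xin f a Q.ρ ω.1)) (q := fun ω => ω.2) hQ hf hτ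
    (fun j => (hv.continuous_yv (hn j)).measurable.comp hX)
    (fun j => (measurable_bv_xin hf hv (hn j)).comp measurable_fst) measurable_snd
    (Real.sqrt_nonneg _)
    (fun j => lintegral_yv hf hτ hQ.ρ0 hv hLi (hQ.nd_mem j).1.le (hQ.nd_lt j))
    (fun j => lintegral_bv hf hQ.ρ0 hv hLi (hn j))
    (lintegral_enorm_of_map measurable_snd law_q) le_rfl i

end coup

end SemQ

end Crest.Agent.R285
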