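import Crest.Agent.R285.ChanEta

/-!
Row 285, module CHANNEL, part 4 (helper582): skew products.  Joint laws of `(y, m(y) + σ g)`.

* `lintegral_skew`, `skew_withDensity` : the law of `(x, m x + σ g)`, `x ∼ volume.withDensity ρ`;
* `skew_eq_of_density` : a density of the form `exp (a x - ‖X - m x‖²/(2σ²))` on `V × V`.
-/

set_option autoImplicit false
set_option linter.unusedSectionVars false

open MeasureTheory ProbabilityTheory Real Set
open scoped RealInnerProductSpace ENNReal

noncomputable section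

namespace Crest.Agent.R285

variable {V : Type} [NormedAddCommGroup V] [InnerProductSpace ℝ V] [FiniteDimensional ℝ V]
  [MeasurableSpace V] [BorelSpace V] {h : ℝ} {U : V → ℝ}

open Chan

/-- The law of `(x, m x + σ g)` with `x ∼ μ` and `g` an independent standard Gaussian. -/
def skew (μ : Measure V) (m : V → V) (σ : ℝ) : Measure (V × V) :=
  (μ.prod (stdGaussian V)).map (fun p => (p.1, m p.1 + σ • p.2))

theorem lintegral_skew (μ : Measure V) [SFinite μ] {m : V → V} (hm : Measurable m) (σ : ℝ)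
    {F : V × V → ℝ≥0∞} (hF : Measurable F) :
    ∫⁻ p, F p ∂(skew μ m σ) = ∫⁻ x, ∫⁻ X, F (x, X) ∂(gN (m x) σ) ∂μ := by
  have hT : Measurable fun p : V × V => (p.1, m p.1 + σ • p.2) :=
    measurable_fst.prodMk ((hm.comp measurable_fst).add (measurable_snd.const_smul σ))
  have hFT : Measurable fun p : V × V => F (p.1, m p.1 + σ • p.2) := hF.comp hT
  rw [skew, lintegral_map hF hT, lintegral_prod _ hFT.aemeasurable]
  refine lintegral_congr fun x => ?_
  rw [Chan.lintegral_gN _ _ (f := fun X => F (x, X)) (hF.comp (by fun_prop))]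

/-- Density of a skew product. -/
theorem skew_withDensity {ρ : V → ℝ≥0∞} (hρ : Measurable ρ) {m : V → V} (hm : Measurable m)
    {σ : ℝ} (hσ : 0 < σ) [SFinite ((volume : Measure V).withDensity ρ)] :
    skew ((volume : Measure V).withDensity ρ) m σ =
      ((volume : Measure V).prod volume).withDensity fun p => ρ p.1 *
        ENNReal.ofReal (gK V σ * rexp (-(‖p.2 - m p.1‖ ^ 2 / (2 * σ ^ 2)))) := by
  have hd : Measurable fun p : V × V =>
      ENNReal.ofReal (gK V σ * rexp (-(‖p.2 - m p.1‖ ^ 2 / (2 * σ ^ 2)))) := by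
    have h1 : Measurable fun p : V × V => p.2 - m p.1 :=
      measurable_snd.sub (hm.comp measurable_fst)
    exact ENNReal.measurable_ofReal.comp (measurable_const.mul (Real.measurable_exp.comp
      ((h1.norm.pow_const 2).div_const _).neg))
  have hρd : Measurable fun p : V × V => ρ p.1 *
      ENNReal.ofReal (gK V σ * rexp (-(‖p.2 - m p.1‖ ^ 2 / (2 * σ ^ 2)))) :=
    (hρ.comp measurable_fst).mul hd
  refine Measure.ext_of_lintegral _ fun F hF => ?_
  have h2 : Measurable fun x => ∫⁻ X, F (x, X) ∂(gN (m x) σ) :=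
    measurable_lintegral_gN hF hm σ
  rw [lintegral_skew _ hm σ hF, lintegral_withDensity_eq_lintegral_mul _ hρ h2,
    lintegral_withDensity_eq_lintegral_mul _ hρd hF,
    lintegral_prod _ (hρd.mul hF).aemeasurable]
  refine lintegral_congr fun x => ?_
  simp only [Pi.mul_apply]
  have h3 : Measurable fun X : V => F (x, X) := hF.comp (by fun_prop)
  have h4 : Measurable fun X : V =>
      ENNReal.ofReal (gK V σ * rexp (-(‖X - m x‖ ^ 2 / (2 * σ ^ 2)))) := by fun_prop
  rw [gN_eq_withDensity (m x) hσ, lintegral_withDensity_eq_lintegral_mul _ h4 h3,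
    ← lintegral_const_mul _ (h4.mul h3)]
  refine lintegral_congr fun X => ?_
  simp only [Pi.mul_apply]
  ring

/-- A log-density of the form `a x - ‖X - m x‖²/(2σ²)` is a skew product. -/
theorem withDensity_exp_skew {a : V → ℝ} (ha : Measurable a) {m : V → V} (hm : Measurable m)
    {σ : ℝ} (hσ : 0 < σ) :
    ((volume : Measure V).prod volume).withDensity (fun p : V × V => ENNReal.ofReal
        (rexp (a p.1 - ‖p.2 - m p.1‖ ^ 2 / (2 * σ ^ 2)))) =
      (ENNReal.ofReal (gK V σ))⁻¹ •
        skew ((volume : Measure V).withDensity fun x => ENNReal.ofReal (rexp (a x))) m σ := by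
  have hK := gK_pos (V := V) hσ
  have hK0 : ENNReal.ofReal (gK V σ) ≠ 0 := (ENNReal.ofReal_pos.2 hK).ne'
  have ha' : Measurable fun x => ENNReal.ofReal (rexp (a x)) :=
    ENNReal.measurable_ofReal.comp (Real.measurable_exp.comp ha)
  have hsf : SFinite ((volume : Measure V).withDensity fun x => ENNReal.ofReal (rexp (a x))) :=
    inferInstance
  rw [skew_withDensity ha' hm hσ, ← withDensity_smul']
  · congr 1
    funext p
    simp only [Pi.smul_apply, smul_eq_mul]
    rw [sub_eq_add_neg, Real.exp_add, ENNReal.ofReal_mul (Real.exp_pos _).le,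
      ENNReal.ofReal_mul hK.le, ← mul_assoc, ← mul_assoc]
    rw [show (ENNReal.ofReal (gK V σ))⁻¹ * ENNReal.ofReal (rexp (a p.1)) * ENNReal.ofReal (gK V σ) =
      ENNReal.ofReal (rexp (a p.1)) * ((ENNReal.ofReal (gK V σ))⁻¹ * ENNReal.ofReal (gK V σ)) by ring,
      ENNReal.inv_mul_cancel hK0 ENNReal.ofReal_ne_top, mul_one]
  · exact ENNReal.inv_ne_top.2 hK0

theorem measurable_skewMap {m : V → V} (hm : Measurable m) (σ : ℝ) :
    Measurable fun p : V × V => (p.1, m p.1 + σ • p.2) :=
  measurable_fst.prodMk ((hm.comp measurable_fst).add (measurable_snd.const_smul σ))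

theorem measurable_skewInv {m : V → V} (hm : Measurable m) (σ : ℝ) :
    Measurable fun p : V × V => (p.1, σ⁻¹ • (p.2 - m p.1)) :=
  measurable_fst.prodMk ((measurable_snd.sub (hm.comp measurable_fst)).const_smul σ⁻¹)

theorem skew_unmap (μ : Measure V) {m : V → V} (hm : Measurable m) {σ : ℝ} (hσ : σ ≠ 0) :
    (skew μ m σ).map (fun p => (p.1, σ⁻¹ • (p.2 - m p.1))) = μ.prod (stdGaussian V) := by
  rw [skew, Measure.map_map (measurable_skewInv hm σ) (measurable_skewMap hm σ)]
  have : (fun p : V × V => (p.1, σ⁻¹ • (p.2 - m p.1))) ∘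
      (fun p : V × V => (p.1, m p.1 + σ • p.2)) = id := by
    funext p
    simp [smul_smul, inv_mul_cancel₀ hσ]
  rw [this, Measure.map_id]

/-- A map between skew products, in the coordinates `(x, g)`. -/
theorem map_of_skew {T : V × V → V × V} (hT : Measurable T) {μ₀ μ₁ : Measure V} {m₀ m₁ : V → V}
    (hm₀ : Measurable m₀) (hm₁ : Measurable m₁) {σ : ℝ} (hσ : σ ≠ 0)
    (h : (skew μ₀ m₀ σ).map T = skew μ₁ m₁ σ) :
    (μ₀.prod (stdGaussian V)).map (fun ω => ((T (ω.1, m₀ ω.1 + σ • ω.2)).1,
      σ⁻¹ • ((T (ω.1, m₀ ω.1 + σ • ω.2)).2 - m₁ (T (ω.1, m₀ ω.1 + σ • ω.2)).1))) =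
      μ₁.prod (stdGaussian V) := by
  have e1 := skew_unmap μ₁ hm₁ hσ
  rw [← h, skew, Measure.map_map hT (measurable_skewMap hm₀ σ),
    Measure.map_map (measurable_skewInv hm₁ σ) (hT.comp (measurable_skewMap hm₀ σ))] at e1
  exact e1

theorem skew_smul (μ : Measure V) [SFinite μ] {m : V → V} (hm : Measurable m) (σ : ℝ) (k : ℝ≥0∞)
    (hk : k ≠ ⊤) :
    skew (k • μ) m σ = k • skew μ m σ := by
  have : SFinite (k • μ) := inferInstance
  refine Measure.ext_of_lintegral _ fun F hF => ?_
  rw [lintegral_skew _ hm σ hF, lintegral_smul_measure, lintegral_smul_measure,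
    lintegral_skew _ hm σ hF]

/-- The law of the single flow, with respect to the volume. -/
theorem withDensity_lY (hU : PotP h U) (c : V) (s t : ℝ) :
    (volume : Measure V).withDensity (fun x => ENNReal.ofReal (rexp (lY U c s t x))) =
      ENNReal.ofReal ((2 * π) ^ ((Module.finrank ℝ V : ℝ) / 2) * rexp (-Ub U s c)) •
        (stdGaussian V).withDensity fun η => ENNReal.ofReal
          (rexp (Ub U s c - Ub U (s * √(1 - t ^ 2)) (c + (s * t) • η))) := by
  have hm2 : Measurable fun η : V => ENNReal.ofReal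
      (rexp (Ub U s c - Ub U (s * √(1 - t ^ 2)) (c + (s * t) • η))) := by
    refine Measurable.ennreal_ofReal (Continuous.measurable ?_)
    refine Real.continuous_exp.comp (continuous_const.sub ?_)
    exact (contDiff_ub hU).continuous.comp
      (f := fun η : V => (s * √(1 - t ^ 2), c + (s * t) • η)) (by fun_prop)
  rw [stdGaussian_eq_withDensity, ← withDensity_mul _
    continuous_gdens.measurable.ennreal_ofReal hm2, ← withDensity_smul' _ _ ENNReal.ofReal_ne_top]
  congr 1
  funext x
  simp only [Pi.smul_apply, Pi.mul_apply, smul_eq_mul]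
  rw [← ENNReal.ofReal_mul (gdens_pos x).le, ← ENNReal.ofReal_mul (by positivity)]
  congr 1
  have e1 : (2 * π) ^ ((Module.finrank ℝ V : ℝ) / 2) * (2 * π) ^ (-(Module.finrank ℝ V : ℝ) / 2)
      = 1 := by
    rw [← Real.rpow_add (by positivity)]
    simp [neg_div]
  have e2 : rexp (-Ub U s c) * rexp (Ub U s c) = 1 := by rw [← exp_add]; simp
  rw [gdens, lY, exp_sub, exp_sub]
  calc rexp (-(‖x‖ ^ 2 / 2)) / rexp (Ub U (s * √(1 - t ^ 2)) (c + (s * t) • x))
      = ((2 * π) ^ ((Module.finrank ℝ V : ℝ) / 2) * (2 * π) ^ (-(Module.finrank ℝ V : ℝ) / 2)) *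
        (rexp (-Ub U s c) * rexp (Ub U s c)) * (rexp (-(‖x‖ ^ 2 / 2)) /
          rexp (Ub U (s * √(1 - t ^ 2)) (c + (s * t) • x))) := by rw [e1, e2]; ring
    _ = _ := by
      rw [show -(‖x‖ ^ 2 / 2) = -‖x‖ ^ 2 / 2 by ring]
      ring

end Crest.Agent.R285
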