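import Mathlib

/-!
Row 285 (S0430): abstract core of the smoothness estimates ("word calculus").

`Sett c` is one configuration (one potential, one time `ε`): a commutative algebra `A` of functions
with the derivations `d i` (in `η`), `e i` (in `b`) and the total derivative `X` along the exact
flow, the normalised derivative tensors `T m` of the coarse potential, the positive functional `I`
(integration against the law at time `ε`).  All estimates are uniform over all configurations.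
-/

set_option autoImplicit false
set_option linter.unusedSectionVars false
set_option linter.unusedVariables false

open Finset

namespace Crest.Agent.R285.Sob

/-- One configuration. -/
structure Sett (c : ℕ → ℝ) : Type 1 where
  /-- coordinates -/
  N : Type
  fN : Fintype N
  dN : DecidableEq N
  /-- functions -/
  A : Type
  rA : CommRing A
  aA : Algebra ℝ A
  /-- inverse smoothing scale -/
  K : ℝ
  one_le_K : 1 ≤ K
  tau : ℝ
  et : ℝ
  abs_tau : |tau| ≤ 1
  abs_et : |et| ≤ 1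
  eps : A
  w : N → A
  b : N → A
  T : Multiset N → A
  d : N → Derivation ℝ A A
  e : N → Derivation ℝ A A
  X : Derivation ℝ A A
  /-- points -/
  P : Type
  ev : P → A →ₐ[ℝ] ℝ
  I : A →ₗ[ℝ] ℝ
  I_nonneg : ∀ f, (∀ p, 0 ≤ ev p f) → 0 ≤ I f
  I_one : I 1 = 1
  abs_ev_eps : ∀ p, |ev p eps| ≤ 1
  d_eps : ∀ i, d i eps = 0
  e_eps : ∀ i, e i eps = 0
  d_w : ∀ i j, d i (w j) = (if i = j then 1 else 0) + tau • (eps * eps * T {i, j})
  e_w : ∀ i j, e i (w j) = 0
  d_b : ∀ i j, d i (b j) = 0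
  e_b : ∀ i j, e i (b j) = if i = j then 1 else 0
  d_T : ∀ i m, m ≠ 0 → d i (T m) = eps * T (i ::ₘ m)
  e_T : ∀ i m, m ≠ 0 → e i (T m) = 0
  d_d : ∀ i j f, d i (d j f) = d j (d i f)
  d_e : ∀ i j f, d i (e j f) = e j (d i f)
  e_e : ∀ i j f, e i (e j f) = e j (e i f)
  X_eps : X eps = 1
  X_w : ∀ i, X (w i) = et • ∑ k, b k * T {k, i} +
    tau • (eps * (∑ l, (w l * T {l, i} - d l (T {l, i})))) +
    (tau * et) • (eps * eps * ∑ k, ∑ l, b k * (T {k, l} * T {l, i}))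
  X_b : ∀ k, X (b k) = -(et • ∑ l, (w l * T {l, k} - d l (T {l, k})))
  X_T : ∀ (ι : Type) [Fintype ι] [DecidableEq ι] [Nonempty ι] (J : ι → N),
    X (T (univ.val.map J)) =
      (∑ l, (w l * T (l ::ₘ univ.val.map J) - d l (T (l ::ₘ univ.val.map J)))) +
      et • (eps * ∑ k, ∑ l, b k * (T {k, l} * T (l ::ₘ univ.val.map J))) +
      tau • (eps * ∑ s ∈ (univ : Finset ι).powerset with s.Nonempty ∧ sᶜ.Nonempty,
        ∑ l, T (l ::ₘ s.val.map J) * T (l ::ₘ sᶜ.val.map J))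
  X_e : ∀ k f, X (e k f) = e k (X f) - et • ∑ l, T {k, l} * d l f
  X_d : ∀ i f, X (d i f) = d i (X f) + tau • (eps * ∑ l, T {i, l} * d l f) -
    et • (eps * ∑ k, (b k * (∑ l, T {i, k, l} * d l f) - e k (∑ l, T {i, k, l} * d l f))) +
    et • (eps * ∑ l, (w l * (∑ k, T {i, l, k} * e k f) - d l (∑ k, T {i, l, k} * e k f))) +
    et • (∑ k, T {i, k} * e k f) +
    (tau * et) • (eps * eps * ∑ l, ∑ k, T {i, l} * (T {l, k} * e k f))
  I_d : ∀ i f g, I (d i f * g) = I (f * (w i * g - d i g))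
  I_e : ∀ i f g, I (e i f * g) = I (f * (b i * g - e i g))
  AF : ∀ (p q : ℕ) (z : P) (x : (Fin (p + 1) → N) → ℝ),
    ∑ y : Fin (q + 1) → N, (∑ k : Fin (p + 1) → N,
      ev z (T (univ.val.map k + univ.val.map y)) * x k) ^ 2 ≤
      (c (p + q + 2) * K ^ (p + q + 2)) ^ 2 * ∑ k, x k ^ 2

attribute [instance] Sett.fN Sett.dN Sett.rA Sett.aA

variable {c : ℕ → ℝ}

/-- Fields with slots `ι`. -/
abbrev Fl (S : Sett c) (ι : Type) : Type := (ι → S.N) → S.A

/-- Operator families, uniform over all configurations. -/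
abbrev Op (c : ℕ → ℝ) (ι κ : Type) : Type 1 := ∀ S : Sett c, Fl S ι →ₗ[ℝ] Fl S κ

section norms

variable (S : Sett c) {ι κ : Type} [Fintype ι] [DecidableEq ι] [Fintype κ] [DecidableEq κ]

/-- squared `L²` norm. -/
noncomputable def nsq (F : Fl S ι) : ℝ := ∑ J, S.I (F J * F J)

theorem I_sq_nonneg (f : S.A) : 0 ≤ S.I (f * f) :=
  S.I_nonneg _ fun p => by rw [map_mul]; exact mul_self_nonneg _

theorem I_mono {f g : S.A} (h : ∀ p, S.ev p f ≤ S.ev p g) : S.I f ≤ S.I g := by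
  have := S.I_nonneg (g - f) fun p => by rw [map_sub]; linarith [h p]
  rw [map_sub] at this
  linarith

theorem nsq_nonneg (F : Fl S ι) : 0 ≤ nsq S F := sum_nonneg fun J _ => I_sq_nonneg S _

theorem nsq_add_le (F G : Fl S ι) : nsq S (F + G) ≤ 2 * nsq S F + 2 * nsq S G := by
  unfold nsq
  rw [mul_sum, mul_sum, ← sum_add_distrib]
  refine sum_le_sum fun J _ => ?_
  have h := I_sq_nonneg S (F J - G J)
  have e1 : (F J - G J) * (F J - G J) + (F + G) J * (F + G) J =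
      (2 : ℝ) • (F J * F J) + (2 : ℝ) • (G J * G J) := by
    simp only [Pi.add_apply, two_smul]
    ring
  have e2 := congrArg S.I e1
  simp only [map_add, map_smul, smul_eq_mul] at e2
  linarith

theorem nsq_smul (r : ℝ) (F : Fl S ι) : nsq S (r • F) = r ^ 2 * nsq S F := by
  unfold nsq
  rw [mul_sum]
  refine sum_congr rfl fun J _ => ?_
  have : (r • F) J * (r • F) J = (r ^ 2) • (F J * F J) := by
    simp only [Pi.smul_apply, smul_mul_smul_comm, sq]
  rw [this, map_smul, smul_eq_mul]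

theorem nsq_zero : nsq S (0 : Fl S ι) = 0 := by simp [nsq]

/-- The gradient in `η` (adds a slot). -/
def grad (ι : Type) : Op c ι (Unit ⊕ ι) := fun S =>
  { toFun := fun F J => S.d (J (Sum.inl ())) (F (J ∘ Sum.inr))
    map_add' := fun F G => by funext J; simp
    map_smul' := fun r F => by funext J; simp }

/-- The gradient in `b` (adds a slot). -/
def gradb (ι : Type) : Op c ι (Unit ⊕ ι) := fun S =>
  { toFun := fun F J => S.e (J (Sum.inl ())) (F (J ∘ Sum.inr))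
    map_add' := fun F G => by funext J; simp
    map_smul' := fun r F => by funext J; simp }

/-- The Sobolev norms. -/
noncomputable def Sq : ℕ → ∀ (S : Sett c) (ι : Type) [Fintype ι] [DecidableEq ι], Fl S ι → ℝ
  | 0, S, _, _, _, F => nsq S F
  | r + 1, S, ι, _, _, F => Sq r S ι F + Sq r S (Unit ⊕ ι) (grad ι S F) +
      Sq r S (Unit ⊕ ι) (gradb ι S F)

theorem Sq_zero (F : Fl S ι) : Sq 0 S ι F = nsq S F := rfl

theorem Sq_succ (r : ℕ) (F : Fl S ι) : Sq (r + 1) S ι F = Sq r S ι F +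
    Sq r S (Unit ⊕ ι) (grad ι S F) + Sq r S (Unit ⊕ ι) (gradb ι S F) := rfl

theorem Sq_nonneg (r : ℕ) : ∀ {ι : Type} [Fintype ι] [DecidableEq ι] (F : Fl S ι),
    0 ≤ Sq r S ι F := by
  induction r with
  | zero => intro ι _ _ F; exact nsq_nonneg S F
  | succ r ih =>
    intro ι _ _ F
    rw [Sq_succ]
    have := ih F
    have := ih (grad ι S F)
    have := ih (gradb ι S F)
    positivity

theorem Sq_add_le (r : ℕ) : ∀ {ι : Type} [Fintype ι] [DecidableEq ι] (F G : Fl S ι),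
    Sq r S ι (F + G) ≤ 2 * Sq r S ι F + 2 * Sq r S ι G := by
  induction r with
  | zero => intro ι _ _ F G; exact nsq_add_le S F G
  | succ r ih =>
    intro ι _ _ F G
    simp only [Sq_succ, map_add]
    have := ih F G
    have := ih (grad ι S F) (grad ι S G)
    have := ih (gradb ι S F) (gradb ι S G)
    linarith

theorem Sq_smul (r : ℕ) : ∀ {ι : Type} [Fintype ι] [DecidableEq ι] (t : ℝ) (F : Fl S ι),
    Sq r S ι (t • F) = t ^ 2 * Sq r S ι F := by
  induction r with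
  | zero => intro ι _ _ t F; exact nsq_smul S t F
  | succ r ih =>
    intro ι _ _ t F
    simp only [Sq_succ, map_smul, ih]
    ring

theorem Sq_null (r : ℕ) {ι : Type} [Fintype ι] [DecidableEq ι] : Sq r S ι (0 : Fl S ι) = 0 := by
  have := Sq_smul S r (ι := ι) (0 : ℝ) 0
  simpa using this

theorem Sq_neg (r : ℕ) {ι : Type} [Fintype ι] [DecidableEq ι] (F : Fl S ι) :
    Sq r S ι (-F) = Sq r S ι F := by
  have := Sq_smul S r (ι := ι) (-1 : ℝ) F
  simpa using this

theorem Sq_le_succ (r : ℕ) {ι : Type} [Fintype ι] [DecidableEq ι] (F : Fl S ι) :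
    Sq r S ι F ≤ Sq (r + 1) S ι F := by
  rw [Sq_succ]
  have := Sq_nonneg S r (grad ι S F)
  have := Sq_nonneg S r (gradb ι S F)
  linarith

theorem Sq_mono {r r' : ℕ} (h : r ≤ r') {ι : Type} [Fintype ι] [DecidableEq ι] (F : Fl S ι) :
    Sq r S ι F ≤ Sq r' S ι F := by
  induction r', h using Nat.le_induction with
  | base => exact le_rfl
  | succ n _ ih => exact ih.trans (Sq_le_succ S n F)

end norms

/-! ### bounded operator families -/

/-- Bounded families. -/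
def Bd {ι κ : Type} [Fintype ι] [DecidableEq ι] [Fintype κ] [DecidableEq κ] (O : Op c ι κ) :
    Prop :=
  ∀ r : ℕ, ∃ (C : ℝ) (P m : ℕ), 0 ≤ C ∧ ∀ (S : Sett c) (F : Fl S ι),
    Sq r S κ (O S F) ≤ C * S.K ^ P * Sq (r + m) S ι F

section closure

variable {ι κ μ : Type} [Fintype ι] [DecidableEq ι] [Fintype κ] [DecidableEq κ]
  [Fintype μ] [DecidableEq μ]

theorem K_pos (S : Sett c) : 0 < S.K := lt_of_lt_of_le one_pos S.one_le_K

theorem Bd.comp {O₁ : Op c κ μ} {O₂ : Op c ι κ} (h₁ : Bd O₁) (h₂ : Bd O₂) :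
    Bd (fun S => O₁ S ∘ₗ O₂ S) := by
  intro r
  obtain ⟨C₁, P₁, m₁, hC₁, H₁⟩ := h₁ r
  obtain ⟨C₂, P₂, m₂, hC₂, H₂⟩ := h₂ (r + m₁)
  refine ⟨C₁ * C₂, P₁ + P₂, m₁ + m₂, mul_nonneg hC₁ hC₂, fun S F => ?_⟩
  have hK := (K_pos S).le
  calc Sq r S μ (O₁ S (O₂ S F)) ≤ C₁ * S.K ^ P₁ * Sq (r + m₁) S κ (O₂ S F) := H₁ S _
    _ ≤ C₁ * S.K ^ P₁ * (C₂ * S.K ^ P₂ * Sq (r + m₁ + m₂) S ι F) := by
        gcongr
        exact H₂ S F
    _ = C₁ * C₂ * S.K ^ (P₁ + P₂) * Sq (r + (m₁ + m₂)) S ι F := by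
        rw [← add_assoc, pow_add]; ring

theorem Bd.add {O₁ O₂ : Op c ι κ} (h₁ : Bd O₁) (h₂ : Bd O₂) :
    Bd (fun S => O₁ S + O₂ S) := by
  intro r
  obtain ⟨C₁, P₁, m₁, hC₁, H₁⟩ := h₁ r
  obtain ⟨C₂, P₂, m₂, hC₂, H₂⟩ := h₂ r
  refine ⟨2 * (C₁ + C₂), P₁ + P₂, m₁ + m₂, by positivity, fun S F => ?_⟩
  have hK := S.one_le_K
  have a1 : C₁ * S.K ^ P₁ * Sq (r + m₁) S ι F ≤
      C₁ * S.K ^ (P₁ + P₂) * Sq (r + (m₁ + m₂)) S ι F := by
    have h0 := Sq_nonneg S (r + m₁) F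
    have h1 : S.K ^ P₁ ≤ S.K ^ (P₁ + P₂) := pow_le_pow_right₀ hK (by omega)
    have h2 : Sq (r + m₁) S ι F ≤ Sq (r + (m₁ + m₂)) S ι F := Sq_mono S (by omega) F
    have hKp := K_pos S
    exact mul_le_mul (mul_le_mul_of_nonneg_left h1 hC₁) h2 h0 (by positivity)
  have a2 : C₂ * S.K ^ P₂ * Sq (r + m₂) S ι F ≤
      C₂ * S.K ^ (P₁ + P₂) * Sq (r + (m₁ + m₂)) S ι F := by
    have h0 := Sq_nonneg S (r + m₂) F
    have h1 : S.K ^ P₂ ≤ S.K ^ (P₁ + P₂) := pow_le_pow_right₀ hK (by omega)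
    have h2 : Sq (r + m₂) S ι F ≤ Sq (r + (m₁ + m₂)) S ι F := Sq_mono S (by omega) F
    have hKp := K_pos S
    exact mul_le_mul (mul_le_mul_of_nonneg_left h1 hC₂) h2 h0 (by positivity)
  calc Sq r S κ (O₁ S F + O₂ S F) ≤ 2 * Sq r S κ (O₁ S F) + 2 * Sq r S κ (O₂ S F) :=
        Sq_add_le S r _ _
    _ ≤ 2 * (C₁ * S.K ^ (P₁ + P₂) * Sq (r + (m₁ + m₂)) S ι F) +
        2 * (C₂ * S.K ^ (P₁ + P₂) * Sq (r + (m₁ + m₂)) S ι F) := by
        have := H₁ S F
        have := H₂ S F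
        linarith
    _ = _ := by ring

theorem Bd.zero : Bd (fun _ => 0 : Op c ι κ) := by
  intro r
  refine ⟨0, 0, 0, le_rfl, fun S F => ?_⟩
  rw [LinearMap.zero_apply, Sq_null]
  simp

theorem Bd.sum {α : Type} (s : Finset α) (O : α → Op c ι κ) (h : ∀ a ∈ s, Bd (O a)) :
    Bd (fun S => ∑ a ∈ s, O a S) := by
  classical
  induction s using Finset.induction_on with
  | empty => simpa using Bd.zero (c := c) (ι := ι) (κ := κ)
  | insert a s ha ih =>
    have h1 : Bd (fun S => O a S + ∑ a ∈ s, O a S) :=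
      (h a (mem_insert_self a s)).add (ih fun x hx => h x (mem_insert_of_mem hx))
    have e : (fun S => ∑ a ∈ insert a s, O a S) = (fun S => O a S + ∑ a ∈ s, O a S) := by
      funext S
      rw [sum_insert ha]
    rw [e]
    exact h1

theorem Bd.id : Bd (fun _ => LinearMap.id : Op c ι ι) := by
  intro r
  refine ⟨1, 0, 0, zero_le_one, fun S F => ?_⟩
  simp

theorem Bd.neg {O : Op c ι κ} (h : Bd O) : Bd (fun S => -O S) := by
  intro r
  obtain ⟨C, P, m, hC, H⟩ := h r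
  refine ⟨C, P, m, hC, fun S F => ?_⟩
  rw [LinearMap.neg_apply, Sq_neg]
  exact H S F

theorem Bd.sub {O₁ O₂ : Op c ι κ} (h₁ : Bd O₁) (h₂ : Bd O₂) :
    Bd (fun S => O₁ S - O₂ S) := by
  have := h₁.add h₂.neg
  simpa only [sub_eq_add_neg] using this

/-- multiplication by a configuration-dependent scalar. -/
theorem Bd.smul {O : Op c ι κ} (h : Bd O) (t : Sett c → ℝ) (ht : ∀ S, |t S| ≤ 1) :
    Bd (fun S => t S • O S) := by
  intro r
  obtain ⟨C, P, m, hC, H⟩ := h r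
  refine ⟨C, P, m, hC, fun S F => ?_⟩
  rw [LinearMap.smul_apply, Sq_smul]
  have h1 : t S ^ 2 ≤ 1 := by
    have := ht S
    rw [← sq_abs]
    exact pow_le_one₀ (abs_nonneg _) this
  have h2 := Sq_nonneg S r (O S F)
  have h3 := H S F
  nlinarith

/-- The commutator with `X`. -/
def Xop (S : Sett c) (ι : Type) : Fl S ι →ₗ[ℝ] Fl S ι :=
  { toFun := fun F J => S.X (F J)
    map_add' := fun F G => by funext J; simp
    map_smul' := fun r F => by funext J; simp }

/-- The commutator with `X`. -/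
def ad (O : Op c ι κ) : Op c ι κ := fun S => Xop S κ ∘ₗ O S - O S ∘ₗ Xop S ι

/-- Families all of whose commutators up to order `n` are bounded. -/
def Sm : ℕ → Op c ι κ → Prop
  | 0, O => Bd O
  | n + 1, O => Bd O ∧ Sm n (ad O)

theorem Sm.bd {n : ℕ} {O : Op c ι κ} (h : Sm n O) : Bd O := by
  cases n with
  | zero => exact h
  | succ n => exact h.1

theorem Sm.down {n : ℕ} : ∀ {O : Op c ι κ}, Sm (n + 1) O → Sm n O := by
  induction n with
  | zero => intro O h; exact h.1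
  | succ n ih => intro O h; exact ⟨h.1, ih h.2⟩

theorem ad_add (O₁ O₂ : Op c ι κ) :
    ad (fun S => O₁ S + O₂ S) = fun S => ad O₁ S + ad O₂ S := by
  funext S
  simp only [ad, LinearMap.comp_add, LinearMap.add_comp]
  abel

theorem ad_neg (O : Op c ι κ) : ad (fun S => -O S) = fun S => -ad O S := by
  funext S
  simp only [ad, LinearMap.comp_neg, LinearMap.neg_comp]
  abel

theorem ad_smul (t : Sett c → ℝ) (O : Op c ι κ) :
    ad (fun S => t S • O S) = fun S => t S • ad O S := by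
  funext S
  simp only [ad, LinearMap.comp_smul, LinearMap.smul_comp, smul_sub]

theorem ad_comp (O₁ : Op c κ μ) (O₂ : Op c ι κ) :
    ad (fun S => O₁ S ∘ₗ O₂ S) = fun S => ad O₁ S ∘ₗ O₂ S + O₁ S ∘ₗ ad O₂ S := by
  funext S
  refine LinearMap.ext fun F => ?_
  simp only [ad, LinearMap.sub_apply, LinearMap.add_apply, LinearMap.comp_apply, map_sub]
  abel

theorem Sm.add {n : ℕ} : ∀ {O₁ O₂ : Op c ι κ}, Sm n O₁ → Sm n O₂ →
    Sm n (fun S => O₁ S + O₂ S) := by
  induction n with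
  | zero => intro O₁ O₂ h₁ h₂; exact Bd.add h₁ h₂
  | succ n ih =>
    intro O₁ O₂ h₁ h₂
    refine ⟨h₁.1.add h₂.1, ?_⟩
    rw [ad_add]
    exact ih h₁.2 h₂.2

theorem Sm.neg {n : ℕ} : ∀ {O : Op c ι κ}, Sm n O → Sm n (fun S => -O S) := by
  induction n with
  | zero => intro O h; exact Bd.neg h
  | succ n ih =>
    intro O h
    refine ⟨h.1.neg, ?_⟩
    rw [ad_neg]
    exact ih h.2

theorem Sm.sub {n : ℕ} {O₁ O₂ : Op c ι κ} (h₁ : Sm n O₁) (h₂ : Sm n O₂) :
    Sm n (fun S => O₁ S - O₂ S) := by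
  have := h₁.add h₂.neg
  simpa only [sub_eq_add_neg] using this

theorem Sm.smul {n : ℕ} (t : Sett c → ℝ) (ht : ∀ S, |t S| ≤ 1) : ∀ {O : Op c ι κ}, Sm n O →
    Sm n (fun S => t S • O S) := by
  induction n with
  | zero => intro O h; exact Bd.smul h t ht
  | succ n ih =>
    intro O h
    refine ⟨h.1.smul t ht, ?_⟩
    rw [ad_smul]
    exact ih h.2

theorem Sm.comp {n : ℕ} : ∀ {O₁ : Op c κ μ} {O₂ : Op c ι κ}, Sm n O₁ → Sm n O₂ →
    Sm n (fun S => O₁ S ∘ₗ O₂ S) := by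
  induction n with
  | zero => intro O₁ O₂ h₁ h₂; exact Bd.comp h₁ h₂
  | succ n ih =>
    intro O₁ O₂ h₁ h₂
    refine ⟨h₁.1.comp h₂.1, ?_⟩
    rw [ad_comp]
    exact (ih h₁.2 h₂.down).add (ih h₁.down h₂.2)

theorem ad_zero : ad (fun _ => 0 : Op c ι κ) = fun _ => 0 := by
  funext S
  simp [ad]

theorem Sm.zero {n : ℕ} : Sm n (fun _ => 0 : Op c ι κ) := by
  induction n with
  | zero => exact Bd.zero
  | succ n ih => exact ⟨Bd.zero, by rw [ad_zero]; exact ih⟩

theorem Sm.sum {n : ℕ} {α : Type} (s : Finset α) (O : α → Op c ι κ)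
    (h : ∀ a ∈ s, Sm n (O a)) : Sm n (fun S => ∑ a ∈ s, O a S) := by
  classical
  induction s using Finset.induction_on with
  | empty => simpa using Sm.zero (c := c) (ι := ι) (κ := κ)
  | insert a s ha ih =>
    have h1 : Sm n (fun S => O a S + ∑ a ∈ s, O a S) :=
      (h a (mem_insert_self a s)).add (ih fun x hx => h x (mem_insert_of_mem hx))
    have e : (fun S => ∑ a ∈ insert a s, O a S) = (fun S => O a S + ∑ a ∈ s, O a S) := by
      funext S
      rw [sum_insert ha]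
    rw [e]
    exact h1

/-- A bounded family commuting with `X` is in every class. -/
theorem Sm.of_ad_zero {O : Op c ι κ} (h : Bd O) (h0 : ad O = fun _ => 0) (n : ℕ) : Sm n O := by
  cases n with
  | zero => exact h
  | succ n => exact ⟨h, by rw [h0]; exact Sm.zero⟩

end closure

end Crest.Agent.R285.Sob
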