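import Crest.Agent.R285.SobDiv

/-!
Row 285: commutators of the letters with `X`.
-/

set_option autoImplicit false
set_option linter.unusedSectionVars false
set_option linter.unusedVariables false

open Finset

namespace Crest.Agent.R285.Sob

variable {c : ℕ → ℝ} (S : Sett c)

theorem Xop_apply {ι : Type} (F : Fl S ι) (J : ι → S.N) : Xop S ι F J = S.X (F J) := rfl

theorem ad_apply {ι κ : Type} [Fintype ι] [DecidableEq ι] [Fintype κ] [DecidableEq κ]
    (O : Op c ι κ) (F : Fl S ι) (J : κ → S.N) :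
    ad O S F J = S.X (O S F J) - O S (Xop S ι F) J := rfl

section

variable {ι κ σ β γ : Type} [Fintype ι] [DecidableEq ι] [Fintype κ] [DecidableEq κ]
  [Fintype σ] [DecidableEq σ] [Fintype β] [DecidableEq β] [Fintype γ] [DecidableEq γ]

theorem pair_comm {N : Type} (i l : N) : ({l} : Multiset N) + {i} = {i, l} := by
  rw [add_comm]; rfl

theorem MT_unit_apply (G : Fl S (Unit ⊕ ι)) (J : Unit ⊕ ι → S.N) : MT Unit Unit ι S G J =
    ∑ l, S.T {J (Sum.inl ()), l} * G (Sum.elim (fun _ => l) (J ∘ Sum.inr)) := by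
  rw [MT_apply, sum_unit_arrow]
  refine sum_congr rfl fun l _ => ?_
  rw [ml_unit, ml_unit, pair_comm]
  rfl

theorem MT12_apply (G : Fl S (Unit ⊕ ι)) (J : Unit ⊕ ι → S.N) (k : S.N) :
    re (Equiv.sumAssoc Unit Unit ι) S (MT Unit (Unit ⊕ Unit) ι S G) (Sum.elim (fun _ => k) J) =
    ∑ l, S.T {J (Sum.inl ()), k, l} * G (Sum.elim (fun _ => l) (J ∘ Sum.inr)) := by
  rw [re_apply, MT_apply, sum_unit_arrow]
  refine sum_congr rfl fun l _ => ?_
  rw [ml_unit, ml_sum, ml_unit, ml_unit]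
  have e1 : ({l} : Multiset S.N) + ({k} + {J (Sum.inl ())}) = {J (Sum.inl ()), k, l} := by
    change _ = ({J (Sum.inl ())} : Multiset S.N) + ({k} + {l})
    abel
  have e2 : (Sum.elim (fun _ : Unit => l)
      (((Sum.elim (fun _ => k) J : Unit ⊕ (Unit ⊕ ι) → S.N) ∘ ⇑(Equiv.sumAssoc Unit Unit ι)) ∘
        Sum.inr) : Unit ⊕ ι → S.N) = Sum.elim (fun _ => l) (J ∘ Sum.inr) := by
    funext x; rcases x with x | x <;> rfl
  rw [e2, ← e1]
  rfl

theorem MT21_apply (G : Fl S (Unit ⊕ (Unit ⊕ ι))) (J : ι → S.N) (l : S.N) :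
    MT (Unit ⊕ Unit) Unit ι S (re (Equiv.sumAssoc Unit Unit ι).symm S G)
      (Sum.elim (fun _ => l) J) =
    ∑ i, ∑ j, S.T {l, i, j} * G (Sum.elim (fun _ => i) (Sum.elim (fun _ => j) J)) := by
  rw [MT_apply, sum_unit_sum_arrow]
  refine sum_congr rfl fun i _ => ?_
  rw [sum_unit_arrow]
  refine sum_congr rfl fun j _ => ?_
  rw [ml_sum, ml_unit, ml_unit, ml_unit, re_apply]
  have e1 : ({i} : Multiset S.N) + {j} + {l} = {l, i, j} := by
    rw [add_comm]; rfl
  have e2 : ((Sum.elim (Sum.elim (fun _ : Unit => i) (fun _ : Unit => j))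
      ((Sum.elim (fun _ : Unit => l) J : Unit ⊕ ι → S.N) ∘ Sum.inr)) ∘
      ⇑(Equiv.sumAssoc Unit Unit ι).symm : Unit ⊕ (Unit ⊕ ι) → S.N) =
      Sum.elim (fun _ => i) (Sum.elim (fun _ => j) J) := by
    funext x; rcases x with x | x | x <;> rfl
  rw [e2, ← e1]
  rfl

/-! ### trivial commutators -/

theorem ad_re (e : ι ≃ κ) : ad (re (c := c) e) = fun _ => 0 := by
  funext S
  refine LinearMap.ext fun F => ?_
  funext J
  rw [ad_apply, re_apply, re_apply, Xop_apply, sub_self]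
  rfl

theorem ad_epsop : ad (epsop (c := c) ι) = fun _ => LinearMap.id := by
  funext S
  refine LinearMap.ext fun F => ?_
  funext J
  rw [ad_apply, epsop_apply, epsop_apply, Xop_apply, Derivation.leibniz, S.X_eps]
  simp

/-! ### gradients -/

theorem ad_gradb : ad (gradb (c := c) ι) =
    fun S => S.et • (-(MT Unit Unit ι S ∘ₗ grad ι S)) := by
  funext S
  refine LinearMap.ext fun F => ?_
  funext J
  rw [ad_apply, gradb_apply, gradb_apply, Xop_apply, S.X_e]
  rw [LinearMap.smul_apply, LinearMap.neg_apply, LinearMap.comp_apply, Pi.smul_apply,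
    Pi.neg_apply, MT_unit_apply]
  simp only [grad_apply, Sum.elim_inl, Sum.elim_comp_inr, smul_neg]
  abel

theorem ad_grad : ad (grad (c := c) ι) = fun S =>
    S.tau • (epsop _ S ∘ₗ MT Unit Unit ι S ∘ₗ grad ι S) +
    (S.et • (-(epsop _ S ∘ₗ divb (Unit ⊕ ι) S ∘ₗ re (Equiv.sumAssoc Unit Unit ι) S ∘ₗ
        MT Unit (Unit ⊕ Unit) ι S ∘ₗ grad ι S)) +
    (S.et • (epsop _ S ∘ₗ div (Unit ⊕ ι) S ∘ₗ re (Equiv.sumAssoc Unit Unit ι) S ∘ₗ
        MT Unit (Unit ⊕ Unit) ι S ∘ₗ gradb ι S) +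
    (S.et • (MT Unit Unit ι S ∘ₗ gradb ι S) +
    S.tau • (S.et • (epsop _ S ∘ₗ epsop _ S ∘ₗ MT Unit Unit ι S ∘ₗ MT Unit Unit ι S ∘ₗ
        gradb ι S))))) := by
  funext S
  refine LinearMap.ext fun F => ?_
  funext J
  rw [ad_apply, grad_apply, grad_apply, Xop_apply, S.X_d]
  simp only [LinearMap.add_apply, LinearMap.smul_apply, LinearMap.neg_apply,
    LinearMap.comp_apply, Pi.add_apply, Pi.smul_apply, Pi.neg_apply, epsop_apply, divb_apply,
    div_apply, MT12_apply, MT_unit_apply, grad_apply, gradb_apply, Sum.elim_inl,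
    Sum.elim_comp_inr, smul_neg, mul_smul, mul_sum]
  have e1 : ∀ x y z u v t : S.A, x + y - z + u + v + t - x = y + (-z + (u + (v + t))) := by
    intro x y z u v t; abel
  rw [e1]
  simp only [mul_assoc]

/-! ### divergences -/

theorem ad_divb : ad (divb (c := c) ι) =
    fun S => S.et • (-(div ι S ∘ₗ MT Unit Unit ι S)) := by
  funext S
  refine LinearMap.ext fun F => ?_
  funext J
  rw [ad_apply, divb_apply, divb_apply]
  simp only [LinearMap.smul_apply, LinearMap.neg_apply, LinearMap.comp_apply, Pi.smul_apply,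
    Pi.neg_apply, div_apply, MT_unit_apply, Sum.elim_inl, Sum.elim_comp_inr, Xop_apply]
  rw [map_sum, ← sum_sub_distrib]
  have h1 : ∀ k, S.X (S.b k * F (Sum.elim (fun _ => k) J) - S.e k (F (Sum.elim (fun _ => k) J))) -
      (S.b k * S.X (F (Sum.elim (fun _ => k) J)) - S.e k (S.X (F (Sum.elim (fun _ => k) J)))) =
      S.et • ∑ l, (S.T {l, k} * S.d l (F (Sum.elim (fun _ => k) J)) -
        (S.w l * S.T {l, k} - S.d l (S.T {l, k})) * F (Sum.elim (fun _ => k) J)) := by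
    intro k
    have e1 : ∑ l, (S.T {l, k} * S.d l (F (Sum.elim (fun _ => k) J)) -
        (S.w l * S.T {l, k} - S.d l (S.T {l, k})) * F (Sum.elim (fun _ => k) J)) =
        (∑ l, S.T {l, k} * S.d l (F (Sum.elim (fun _ => k) J))) -
        (∑ l, (S.w l * S.T {l, k} - S.d l (S.T {l, k}))) * F (Sum.elim (fun _ => k) J) := by
      rw [sum_mul, ← sum_sub_distrib]
    rw [map_sub, Derivation.leibniz, S.X_b, S.X_e, e1]
    simp only [Multiset.pair_comm k]
    simp only [smul_eq_mul]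
    simp only [Algebra.smul_def]
    ring
  simp only [h1]
  rw [← smul_sum]
  congr 1
  rw [sum_comm, ← sum_neg_distrib]
  refine sum_congr rfl fun l _ => ?_
  rw [map_sum, mul_sum, ← sum_sub_distrib, ← sum_neg_distrib]
  refine sum_congr rfl fun k _ => ?_
  rw [Derivation.leibniz]
  simp only [smul_eq_mul]
  ring

theorem trip_rot {N : Type} (l k i : N) : ({l, k, i} : Multiset N) = {i, l, k} := by
  change ({l} : Multiset N) + ({k} + {i}) = {i} + ({l} + {k})
  abel

theorem e_T_pair (k l i : S.N) : S.e k (S.T {l, i}) = 0 := S.e_T _ _ (by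
  intro h
  have := congrArg Multiset.card h
  simp at this)

theorem ad_div_aux (i : S.N) (f : S.A) :
    S.X (S.w i * f - S.d i f) - (S.w i * S.X f - S.d i (S.X f)) =
      S.tau • (S.eps * ∑ l, (S.w l * (S.T {l, i} * f) - S.d l (S.T {l, i} * f))) +
      (-(S.et • (S.eps * ∑ l, (S.w l * (∑ k, S.T {l, k, i} * S.e k f) -
        S.d l (∑ k, S.T {l, k, i} * S.e k f)))) +
      (S.et • (S.eps * ∑ k, (S.b k * (∑ l, S.T {k, l, i} * S.d l f) -
        S.e k (∑ l, S.T {k, l, i} * S.d l f))) +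
      (S.et • (∑ k, (S.b k * (S.T {k, i} * f) - S.e k (S.T {k, i} * f))) +
      S.tau • (S.et • (S.eps * (S.eps * ∑ k, (S.b k * (∑ l, S.T {k, l} * (S.T {l, i} * f)) -
        S.e k (∑ l, S.T {k, l} * (S.T {l, i} * f))))))))) := by
  have R1 : ∑ l, (S.w l * (S.T {l, i} * f) - S.d l (S.T {l, i} * f)) =
      (∑ l, (S.w l * S.T {l, i} - S.d l (S.T {l, i}))) * f - ∑ l, S.T {i, l} * S.d l f := by
    rw [sum_mul, ← sum_sub_distrib]
    refine sum_congr rfl fun l _ => ?_
    rw [Derivation.leibniz, Multiset.pair_comm i l]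
    simp only [smul_eq_mul]
    ring
  have R4 : ∑ k, (S.b k * (S.T {k, i} * f) - S.e k (S.T {k, i} * f)) =
      (∑ k, S.b k * S.T {k, i}) * f - ∑ k, S.T {i, k} * S.e k f := by
    rw [sum_mul, ← sum_sub_distrib]
    refine sum_congr rfl fun k _ => ?_
    rw [Derivation.leibniz, Multiset.pair_comm i k, e_T_pair]
    simp only [smul_eq_mul]
    ring
  have R5 : ∑ k, (S.b k * (∑ l, S.T {k, l} * (S.T {l, i} * f)) -
      S.e k (∑ l, S.T {k, l} * (S.T {l, i} * f))) =
      (∑ k, ∑ l, S.b k * (S.T {k, l} * S.T {l, i})) * f -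
        ∑ l, ∑ k, S.T {i, l} * (S.T {l, k} * S.e k f) := by
    rw [sum_comm (f := fun l k => S.T {i, l} * (S.T {l, k} * S.e k f)), sum_mul,
      ← sum_sub_distrib]
    refine sum_congr rfl fun k _ => ?_
    rw [map_sum, mul_sum, sum_mul, ← sum_sub_distrib, ← sum_sub_distrib]
    refine sum_congr rfl fun l _ => ?_
    rw [Derivation.leibniz, Derivation.leibniz, e_T_pair, e_T_pair, Multiset.pair_comm i l,
      Multiset.pair_comm l k]
    simp only [smul_eq_mul]
    ring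
  have R2 : ∀ l, ∑ k, S.T {i, l, k} * S.e k f = ∑ k, S.T {l, k, i} * S.e k f := fun l =>
    sum_congr rfl fun k _ => by rw [trip_rot l k i]
  have R3 : ∀ k, ∑ l, S.T {i, k, l} * S.d l f = ∑ l, S.T {k, l, i} * S.d l f := fun k =>
    sum_congr rfl fun l _ => by rw [trip_rot k l i]
  rw [map_sub, Derivation.leibniz, S.X_w, S.X_d, R1, R4, R5]
  simp only [R2, R3]
  simp only [smul_eq_mul]
  simp only [Algebra.smul_def, map_mul]
  ring

theorem ad_div : ad (div (c := c) ι) = fun S =>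
    S.tau • (epsop _ S ∘ₗ div ι S ∘ₗ MT Unit Unit ι S) +
    (S.et • (-(epsop _ S ∘ₗ div ι S ∘ₗ MT (Unit ⊕ Unit) Unit ι S ∘ₗ
        re (Equiv.sumAssoc Unit Unit ι).symm S ∘ₗ gradb (Unit ⊕ ι) S)) +
    (S.et • (epsop _ S ∘ₗ divb ι S ∘ₗ MT (Unit ⊕ Unit) Unit ι S ∘ₗ
        re (Equiv.sumAssoc Unit Unit ι).symm S ∘ₗ grad (Unit ⊕ ι) S) +
    (S.et • (divb ι S ∘ₗ MT Unit Unit ι S) +
    S.tau • (S.et • (epsop _ S ∘ₗ epsop _ S ∘ₗ divb ι S ∘ₗ MT Unit Unit ι S ∘ₗ
        MT Unit Unit ι S))))) := by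
  funext S
  refine LinearMap.ext fun F => ?_
  funext J
  rw [ad_apply, div_apply, div_apply]
  simp only [LinearMap.add_apply, LinearMap.smul_apply, LinearMap.neg_apply,
    LinearMap.comp_apply, Pi.add_apply, Pi.smul_apply, Pi.neg_apply, epsop_apply, div_apply,
    divb_apply, MT21_apply, MT_unit_apply, Sum.elim_inl, Sum.elim_comp_inr, Xop_apply,
    grad_apply, gradb_apply]
  rw [map_sum, ← sum_sub_distrib]
  simp only [ad_div_aux, sum_add_distrib, sum_neg_distrib, ← smul_sum, ← mul_sum]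
  have L1 : ∀ g : S.N → S.N → S.A, ∑ i, ∑ l, (S.w l * g l i - S.d l (g l i)) =
      ∑ l, (S.w l * ∑ i, g l i - S.d l (∑ i, g l i)) := by
    intro g
    rw [sum_comm]
    refine sum_congr rfl fun l _ => ?_
    rw [map_sum, mul_sum, ← sum_sub_distrib]
  have L2 : ∀ g : S.N → S.N → S.A, ∑ i, ∑ l, (S.b l * g l i - S.e l (g l i)) =
      ∑ l, (S.b l * ∑ i, g l i - S.e l (∑ i, g l i)) := by
    intro g
    rw [sum_comm]
    refine sum_congr rfl fun l _ => ?_
    rw [map_sum, mul_sum, ← sum_sub_distrib]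
  rw [L1, L1, L2, L2, L2, smul_neg]
  congr 1
  congr 1
  · congr 3
    refine sum_congr rfl fun l _ => ?_
    rw [sum_comm]
  congr 1
  · congr 2
    refine sum_congr rfl fun l _ => ?_
    rw [sum_comm]
  congr 1
  congr 4
  refine sum_congr rfl fun l _ => ?_
  rw [sum_comm]
  simp only [mul_sum]

end

end Crest.Agent.R285.Sob
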