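import Crest.Agent.R285.SobLet

/-!
Row 285: boundedness of the divergences.
-/

set_option autoImplicit false
set_option linter.unusedSectionVars false
set_option linter.unusedVariables false

open Finset

namespace Crest.Agent.R285.Sob

variable {c : ℕ → ℝ} (S : Sett c)

theorem I_del (l : S.N) (f g : S.A) : S.I ((S.w l * g - S.d l g) * f) = S.I (S.d l f * g) := by
  rw [S.I_d, mul_comm]

theorem I_delb (l : S.N) (f g : S.A) : S.I ((S.b l * g - S.e l g) * f) = S.I (S.e l f * g) := by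
  rw [S.I_e, mul_comm]

theorem I_mul_le (f g : S.A) : S.I (f * g) ≤ (S.I (f * f) + S.I (g * g)) / 2 := by
  have h := I_sq_nonneg S (f - g)
  have e1 : (f - g) * (f - g) = f * f + g * g - (2 : ℝ) • (f * g) := by
    rw [two_smul]; ring
  rw [e1, map_sub, map_add, map_smul, smul_eq_mul] at h
  linarith

section

variable {ι : Type} [Fintype ι] [DecidableEq ι]

/-- The key identity for two divergences. -/
theorem I_del_del (l m : S.N) (f g : S.A) :
    S.I ((S.w l * f - S.d l f) * (S.w m * g - S.d m g)) =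
      S.I (S.d m f * S.d l g) + S.I (S.d l (S.w m) * (f * g)) := by
  rw [I_del, map_sub, Derivation.leibniz, S.d_d l m g]
  simp only [smul_eq_mul]
  have e1 : (S.w m * S.d l g + g * S.d l (S.w m) - S.d m (S.d l g)) * f =
      (S.w m * S.d l g - S.d m (S.d l g)) * f + S.d l (S.w m) * (f * g) := by ring
  rw [e1, map_add, I_del]

theorem I_delb_delb (l m : S.N) (f g : S.A) :
    S.I ((S.b l * f - S.e l f) * (S.b m * g - S.e m g)) =
      S.I (S.e m f * S.e l g) + S.I (S.e l (S.b m) * (f * g)) := by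
  rw [I_delb, map_sub, Derivation.leibniz, S.e_e l m g]
  simp only [smul_eq_mul]
  have e1 : (S.b m * S.e l g + g * S.e l (S.b m) - S.e m (S.e l g)) * f =
      (S.b m * S.e l g - S.e m (S.e l g)) * f + S.e l (S.b m) * (f * g) := by ring
  rw [e1, map_add, I_delb]

theorem sum_I_le (H : S.N → S.N → S.A) :
    ∑ l, ∑ m, S.I (H m l * H l m) ≤ ∑ l, ∑ m, S.I (H l m * H l m) := by
  have h1 : ∑ l, ∑ m, S.I (H m l * H l m) ≤
      ∑ l, ∑ m, (S.I (H m l * H m l) + S.I (H l m * H l m)) / 2 :=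
    sum_le_sum fun l _ => sum_le_sum fun m _ => I_mul_le S _ _
  refine h1.trans (le_of_eq ?_)
  have h2 : ∑ l, ∑ m, S.I (H m l * H m l) = ∑ l, ∑ m, S.I (H l m * H l m) := sum_comm
  simp only [add_div, sum_add_distrib, ← sum_div]
  rw [h2]
  ring

theorem AF_unit (z : S.P) (x : S.N → ℝ) :
    ∑ l, (∑ m, S.ev z (S.T {l, m}) * x m) ^ 2 ≤ (c 2 * S.K ^ 2) ^ 2 * ∑ l, x l ^ 2 := by
  have h := AF_gen S (σ := Unit) (β := Unit) z (fun k => x (k ()))
  rw [Fintype.card_unit] at h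
  rw [sum_unit_arrow, sum_unit_arrow] at h
  refine le_trans (le_of_eq ?_) h
  refine sum_congr rfl fun l _ => ?_
  rw [sum_unit_arrow]
  congr 1
  refine sum_congr rfl fun m _ => ?_
  rw [ml_unit, ml_unit]
  congr 3
  rw [add_comm]
  rfl

/-- the constant in the bound of the divergence -/
theorem sum_dw_le (F : S.N → S.A) :
    ∑ l, ∑ m, S.I (S.d l (S.w m) * (F l * F m)) ≤
      (1 + (1 + (c 2 * S.K ^ 2) ^ 2) / 2) * ∑ l, S.I (F l * F l) := by
  simp only [← map_sum]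
  rw [← smul_eq_mul, ← map_smul]
  refine I_mono S fun z => ?_
  rw [map_smul, smul_eq_mul, map_sum, map_sum]
  set x : S.N → ℝ := fun l => S.ev z (F l) with hx
  have h := AF_unit S z x
  set D := (c 2 * S.K ^ 2) ^ 2
  set X2 := ∑ l, x l ^ 2
  have e1 : ∑ l, S.ev z (∑ m, S.d l (S.w m) * (F l * F m)) =
      X2 + S.tau * (S.ev z S.eps * S.ev z S.eps) *
        ∑ l, x l * ∑ m, S.ev z (S.T {l, m}) * x m := by
    rw [mul_sum, ← sum_add_distrib]
    refine sum_congr rfl fun l _ => ?_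
    rw [map_sum, mul_sum, mul_sum]
    have : ∀ m, S.ev z (S.d l (S.w m) * (F l * F m)) = (if l = m then x l * x m else 0) +
        S.tau * (S.ev z S.eps * S.ev z S.eps) * (x l * (S.ev z (S.T {l, m}) * x m)) := by
      intro m
      rw [S.d_w, map_mul, map_mul, map_add, map_smul, map_mul, map_mul, smul_eq_mul]
      by_cases hlm : l = m
      · rw [if_pos hlm, if_pos hlm, map_one]; simp only [hx]; ring
      · rw [if_neg hlm, if_neg hlm, map_zero]; simp only [hx]; ring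
    simp only [this, sum_add_distrib, sum_ite_eq, mem_univ, if_true]
    rw [sq]
  have e2 : ∑ l, S.ev z (F l * F l) = X2 := sum_congr rfl fun l _ => by
    rw [map_mul, sq]
  rw [e1, e2]
  have hX2 : 0 ≤ X2 := sum_nonneg fun l _ => sq_nonneg _
  have h1 : |∑ l, x l * ∑ m, S.ev z (S.T {l, m}) * x m| ≤ (1 + D) / 2 * X2 := by
    refine (abs_sum_le_sum_abs _ _).trans ?_
    have h2 : ∀ l, |x l * ∑ m, S.ev z (S.T {l, m}) * x m| ≤
        (x l ^ 2 + (∑ m, S.ev z (S.T {l, m}) * x m) ^ 2) / 2 := by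
      intro l
      set M := ∑ m, S.ev z (S.T {l, m}) * x m
      rw [abs_mul]
      nlinarith [sq_nonneg (|x l| - |M|), sq_abs (x l), sq_abs M]
    refine (sum_le_sum fun l _ => h2 l).trans ?_
    rw [← sum_div, sum_add_distrib]
    linarith
  have h3 : |S.tau * (S.ev z S.eps * S.ev z S.eps)| ≤ 1 := by
    rw [abs_mul, abs_mul]
    have a1 := S.abs_tau
    have a2 := S.abs_ev_eps z
    have a3 := abs_nonneg (S.ev z S.eps)
    have a4 := abs_nonneg S.tau
    calc |S.tau| * (|S.ev z S.eps| * |S.ev z S.eps|) ≤ 1 * (1 * 1) := by gcongr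
      _ = 1 := by norm_num
  have h4 : S.tau * (S.ev z S.eps * S.ev z S.eps) *
      ∑ l, x l * ∑ m, S.ev z (S.T {l, m}) * x m ≤ (1 + D) / 2 * X2 := by
    refine (le_abs_self _).trans ?_
    rw [abs_mul]
    calc _ ≤ 1 * ((1 + D) / 2 * X2) := by gcongr
      _ = _ := one_mul _
  linarith

theorem nsq_unit (F : Fl S (Unit ⊕ ι)) : nsq S F = ∑ J : ι → S.N, ∑ l,
    S.I (F (Sum.elim (fun _ => l) J) * F (Sum.elim (fun _ => l) J)) := by
  unfold nsq
  rw [sum_unit_sum_arrow, sum_comm]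

theorem nsq_grad_unit (F : Fl S (Unit ⊕ ι)) : nsq S (grad (Unit ⊕ ι) S F) =
    ∑ J : ι → S.N, ∑ l, ∑ m,
      S.I (S.d l (F (Sum.elim (fun _ => m) J)) * S.d l (F (Sum.elim (fun _ => m) J))) := by
  rw [nsq_unit, sum_unit_sum_arrow]
  rw [sum_comm]
  refine sum_congr rfl fun J _ => ?_
  rw [sum_comm]
  refine sum_congr rfl fun l _ => sum_congr rfl fun m _ => ?_
  rw [grad_apply, Sum.elim_inl, Sum.elim_comp_inr]

theorem nsq_gradb_unit (F : Fl S (Unit ⊕ ι)) : nsq S (gradb (Unit ⊕ ι) S F) =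
    ∑ J : ι → S.N, ∑ l, ∑ m,
      S.I (S.e l (F (Sum.elim (fun _ => m) J)) * S.e l (F (Sum.elim (fun _ => m) J))) := by
  rw [nsq_unit, sum_unit_sum_arrow]
  rw [sum_comm]
  refine sum_congr rfl fun J _ => ?_
  rw [sum_comm]
  refine sum_congr rfl fun l _ => sum_congr rfl fun m _ => ?_
  rw [gradb_apply, Sum.elim_inl, Sum.elim_comp_inr]

theorem nsq_div (F : Fl S (Unit ⊕ ι)) : nsq S (div ι S F) ≤
    nsq S (grad (Unit ⊕ ι) S F) + (1 + (1 + (c 2 * S.K ^ 2) ^ 2) / 2) * nsq S F := by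
  rw [nsq_grad_unit, nsq_unit S F, mul_sum, ← sum_add_distrib]
  unfold nsq
  refine sum_le_sum fun J _ => ?_
  have h1 : S.I (div ι S F J * div ι S F J) =
      ∑ l, ∑ m, (S.I (S.d m (F (Sum.elim (fun _ => l) J)) * S.d l (F (Sum.elim (fun _ => m) J))) +
        S.I (S.d l (S.w m) * (F (Sum.elim (fun _ => l) J) * F (Sum.elim (fun _ => m) J)))) := by
    rw [div_apply, sum_mul_sum, map_sum]
    refine sum_congr rfl fun l _ => ?_
    rw [map_sum]
    exact sum_congr rfl fun m _ => I_del_del S l m _ _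
  rw [h1]
  simp only [sum_add_distrib]
  refine add_le_add ?_ (sum_dw_le S _)
  exact sum_I_le S (fun l m => S.d l (F (Sum.elim (fun _ => m) J)))

theorem nsq_divb (F : Fl S (Unit ⊕ ι)) : nsq S (divb ι S F) ≤
    nsq S (gradb (Unit ⊕ ι) S F) + nsq S F := by
  rw [nsq_gradb_unit, nsq_unit S F, ← sum_add_distrib]
  unfold nsq
  refine sum_le_sum fun J _ => ?_
  have h1 : S.I (divb ι S F J * divb ι S F J) =
      ∑ l, ∑ m, (S.I (S.e m (F (Sum.elim (fun _ => l) J)) * S.e l (F (Sum.elim (fun _ => m) J))) +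
        S.I (S.e l (S.b m) * (F (Sum.elim (fun _ => l) J) * F (Sum.elim (fun _ => m) J)))) := by
    rw [divb_apply, sum_mul_sum, map_sum]
    refine sum_congr rfl fun l _ => ?_
    rw [map_sum]
    exact sum_congr rfl fun m _ => I_delb_delb S l m _ _
  rw [h1]
  simp only [sum_add_distrib]
  refine add_le_add ?_ (le_of_eq ?_)
  · exact sum_I_le S (fun l m => S.e l (F (Sum.elim (fun _ => m) J)))
  · refine sum_congr rfl fun l _ => ?_
    have : ∀ m, S.I (S.e l (S.b m) * (F (Sum.elim (fun _ => l) J) *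
        F (Sum.elim (fun _ => m) J))) = if l = m then S.I (F (Sum.elim (fun _ => l) J) *
        F (Sum.elim (fun _ => m) J)) else 0 := by
      intro m
      rw [S.e_b]
      split_ifs <;> simp
    simp only [this, sum_ite_eq, mem_univ, if_true]

/-! ### commutators of gradients and divergences -/

theorem comp_elim (J : Unit ⊕ ι → S.N) (l : S.N) :
    ((Sum.elim (fun _ => l) J : Unit ⊕ (Unit ⊕ ι) → S.N) ∘ ⇑(swp Unit Unit ι)) ∘ Sum.inr =
      Sum.elim (fun _ => l) (J ∘ Sum.inr) := by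
  funext x; rcases x with x | x <;> rfl

theorem elim_unit_eta (J : Unit ⊕ ι → S.N) :
    (Sum.elim (fun _ : Unit => J (Sum.inl ())) (J ∘ Sum.inr) : Unit ⊕ ι → S.N) = J := by
  funext x
  rcases x with u | x <;> rfl

theorem grad_div (F : Fl S (Unit ⊕ ι)) : grad ι S (div ι S F) =
    F + S.tau • epsop _ S (epsop _ S (MT Unit Unit ι S F)) +
      div (Unit ⊕ ι) S (re (swp Unit Unit ι) S (grad (Unit ⊕ ι) S F)) := by
  funext J
  have hJ := elim_unit_eta S J
  rw [Pi.add_apply, Pi.add_apply, Pi.smul_apply, epsop_apply, epsop_apply, MT_apply, grad_apply,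
    div_apply, div_apply, map_sum, sum_unit_arrow]
  have h1 : ∀ l, S.d (J (Sum.inl ())) (S.w l * F (Sum.elim (fun _ => l) (J ∘ Sum.inr)) -
      S.d l (F (Sum.elim (fun _ => l) (J ∘ Sum.inr)))) =
      ((if J (Sum.inl ()) = l then F (Sum.elim (fun _ => l) (J ∘ Sum.inr)) else 0) +
      S.tau • (S.eps * (S.eps * (S.T {J (Sum.inl ()), l} *
        F (Sum.elim (fun _ => l) (J ∘ Sum.inr)))))) +
      (S.w l * S.d (J (Sum.inl ())) (F (Sum.elim (fun _ => l) (J ∘ Sum.inr))) -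
        S.d l (S.d (J (Sum.inl ())) (F (Sum.elim (fun _ => l) (J ∘ Sum.inr))))) := by
    intro l
    rw [map_sub, Derivation.leibniz, S.d_w, S.d_d]
    simp only [smul_eq_mul]
    split_ifs
    · simp only [mul_add, mul_one, mul_smul_comm]
      have : F (Sum.elim (fun _ => l) (J ∘ Sum.inr)) * (S.eps * S.eps * S.T {J (Sum.inl ()), l}) =
        S.eps * (S.eps * (S.T {J (Sum.inl ()), l} * F (Sum.elim (fun _ => l) (J ∘ Sum.inr)))) := by
        ring
      rw [this]; abel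
    · simp only [mul_add, mul_zero, mul_smul_comm]
      have : F (Sum.elim (fun _ => l) (J ∘ Sum.inr)) * (S.eps * S.eps * S.T {J (Sum.inl ()), l}) =
        S.eps * (S.eps * (S.T {J (Sum.inl ()), l} * F (Sum.elim (fun _ => l) (J ∘ Sum.inr)))) := by
        ring
      rw [this]; abel
  simp only [h1, sum_add_distrib, sum_ite_eq, mem_univ, if_true]
  rw [hJ]
  congr 1
  · congr 1
    rw [← smul_sum, ← mul_sum, ← mul_sum]
    congr 3
    refine sum_congr rfl fun l _ => ?_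
    rw [ml_unit, ml_unit]
    congr 2
    change ({J (Sum.inl ()), l} : Multiset S.N) = {l} + {J (Sum.inl ())}
    rw [add_comm]
    rfl
  · refine sum_congr rfl fun l _ => ?_
    rw [re_apply, grad_apply, comp_elim]
    rfl

theorem gradb_div (F : Fl S (Unit ⊕ ι)) : gradb ι S (div ι S F) =
      div (Unit ⊕ ι) S (re (swp Unit Unit ι) S (gradb (Unit ⊕ ι) S F)) := by
  funext J
  rw [gradb_apply, div_apply, div_apply, map_sum]
  refine sum_congr rfl fun l _ => ?_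
  rw [re_apply, gradb_apply, comp_elim, map_sub, Derivation.leibniz, S.e_w, ← S.d_e]
  simp only [smul_eq_mul, mul_zero, add_zero]
  rfl

theorem grad_divb (F : Fl S (Unit ⊕ ι)) : grad ι S (divb ι S F) =
      divb (Unit ⊕ ι) S (re (swp Unit Unit ι) S (grad (Unit ⊕ ι) S F)) := by
  funext J
  rw [grad_apply, divb_apply, divb_apply, map_sum]
  refine sum_congr rfl fun l _ => ?_
  rw [re_apply, grad_apply, comp_elim, map_sub, Derivation.leibniz, S.d_b, S.d_e]
  simp only [smul_eq_mul, mul_zero, add_zero]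
  rfl

theorem gradb_divb (F : Fl S (Unit ⊕ ι)) : gradb ι S (divb ι S F) =
    F + divb (Unit ⊕ ι) S (re (swp Unit Unit ι) S (gradb (Unit ⊕ ι) S F)) := by
  funext J
  have hJ := elim_unit_eta S J
  rw [Pi.add_apply, gradb_apply, divb_apply, divb_apply, map_sum]
  have h1 : ∀ l, S.e (J (Sum.inl ())) (S.b l * F (Sum.elim (fun _ => l) (J ∘ Sum.inr)) -
      S.e l (F (Sum.elim (fun _ => l) (J ∘ Sum.inr)))) =
      (if J (Sum.inl ()) = l then F (Sum.elim (fun _ => l) (J ∘ Sum.inr)) else 0) +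
      (S.b l * S.e (J (Sum.inl ())) (F (Sum.elim (fun _ => l) (J ∘ Sum.inr))) -
        S.e l (S.e (J (Sum.inl ())) (F (Sum.elim (fun _ => l) (J ∘ Sum.inr))))) := by
    intro l
    rw [map_sub, Derivation.leibniz, S.e_b, S.e_e]
    simp only [smul_eq_mul]
    split_ifs
    · rw [mul_one]; abel
    · rw [mul_zero]; abel
  simp only [h1, sum_add_distrib, sum_ite_eq, mem_univ, if_true]
  rw [hJ]
  congr 1
  refine sum_congr rfl fun l _ => ?_
  rw [re_apply, gradb_apply, comp_elim]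
  rfl

end

theorem Sq_div (r : ℕ) : ∀ (ι : Type) [Fintype ι] [DecidableEq ι],
    ∃ (C : ℝ) (P : ℕ), 0 ≤ C ∧ ∀ (S : Sett c) (F : Fl S (Unit ⊕ ι)),
      Sq r S ι (div ι S F) ≤ C * S.K ^ P * Sq (r + 1) S (Unit ⊕ ι) F := by
  induction r with
  | zero =>
    intro ι _ _
    refine ⟨2 + c 2 ^ 2, 4, by positivity, fun S F => ?_⟩
    have h := nsq_div S F
    rw [Sq_zero, Sq_succ, Sq_zero, Sq_zero, Sq_zero]
    have hK := S.one_le_K
    have hK4 : 1 ≤ S.K ^ 4 := one_le_pow₀ hK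
    have f0 := nsq_nonneg S F
    have f1 := nsq_nonneg S (Sob.grad _ S F)
    have f2 := nsq_nonneg S (Sob.gradb _ S F)
    have e1 : (c 2 * S.K ^ 2) ^ 2 = c 2 ^ 2 * S.K ^ 4 := by ring
    rw [e1] at h
    have hc := sq_nonneg (c 2)
    have p1 : 0 ≤ (S.K ^ 4 - 1) * nsq S F := mul_nonneg (by linarith) f0
    have p2 : 0 ≤ (S.K ^ 4 - 1) * nsq S (Sob.grad _ S F) := mul_nonneg (by linarith) f1
    have p3 : 0 ≤ c 2 ^ 2 * S.K ^ 4 * nsq S F := by positivity
    have p4 : 0 ≤ c 2 ^ 2 * S.K ^ 4 * nsq S (Sob.grad _ S F) := by positivity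
    have p5 : 0 ≤ c 2 ^ 2 * S.K ^ 4 * nsq S (Sob.gradb _ S F) := by positivity
    have p6 : 0 ≤ S.K ^ 4 * nsq S (Sob.gradb _ S F) := by positivity
    have p7 : 0 ≤ S.K ^ 4 * nsq S (Sob.grad _ S F) := by positivity
    nlinarith
  | succ r ih =>
    intro ι _ _
    obtain ⟨C₀, P₀, hC₀, H₀⟩ := ih ι
    obtain ⟨C₁, P₁, hC₁, H₁⟩ := ih (Unit ⊕ ι)
    obtain ⟨C₂, P₂, hC₂, H₂⟩ := Sq_MT (c := c) r Unit Unit ι
    refine ⟨C₀ + 4 * (1 + C₂ + C₁), P₀ + P₁ + P₂, by positivity, fun S F => ?_⟩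
    have hK := S.one_le_K
    have hKp := K_pos S
    have k0 : S.K ^ P₀ ≤ S.K ^ (P₀ + P₁ + P₂) := pow_le_pow_right₀ hK (by omega)
    have k1 : S.K ^ P₁ ≤ S.K ^ (P₀ + P₁ + P₂) := pow_le_pow_right₀ hK (by omega)
    have k2 : S.K ^ P₂ ≤ S.K ^ (P₀ + P₁ + P₂) := pow_le_pow_right₀ hK (by omega)
    have k3 : 1 ≤ S.K ^ (P₀ + P₁ + P₂) := one_le_pow₀ hK
    set Q := S.K ^ (P₀ + P₁ + P₂)
    have hQ : 0 ≤ Q := by positivity
    have f1 := Sq_nonneg S (r + 1) F
    have fg := Sq_nonneg S (r + 1) (Sob.grad _ S F)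
    have fb := Sq_nonneg S (r + 1) (Sob.gradb _ S F)
    have f0 : Sq r S _ F ≤ Sq (r + 1) S _ F := Sq_le_succ S r F
    have f00 := Sq_nonneg S r F
    have a0 : Sq r S _ (div ι S F) ≤ C₀ * Q * Sq (r + 1) S _ F :=
      (H₀ S F).trans (by gcongr)
    have a1 : Sq r S _ (Sob.grad ι S (div ι S F)) ≤
        4 * (Q * Sq (r + 1) S _ F) + 4 * (C₂ * Q * Sq (r + 1) S _ F) +
          2 * (C₁ * Q * Sq (r + 1) S _ (Sob.grad _ S F)) := by
      rw [grad_div]
      have b1 := Sq_add_le S r (F + S.tau • epsop _ S (epsop _ S (MT Unit Unit ι S F)))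
        (div (Unit ⊕ ι) S (Sob.re (swp Unit Unit ι) S (Sob.grad (Unit ⊕ ι) S F)))
      have b2 := Sq_add_le S r F (S.tau • epsop _ S (epsop _ S (MT Unit Unit ι S F)))
      rw [Sq_smul] at b2
      have b3 := (Sq_epsop S r (epsop _ S (MT Unit Unit ι S F))).trans
        (Sq_epsop S r (MT Unit Unit ι S F))
      have b4 := Sq_nonneg S r (epsop _ S (epsop _ S (MT Unit Unit ι S F)))
      have b5 := H₂ S F
      have b6 := H₁ S (Sob.re (swp Unit Unit ι) S (Sob.grad (Unit ⊕ ι) S F))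
      rw [Sq_re] at b6
      have ht : S.tau ^ 2 ≤ 1 := by
        rw [← sq_abs]; exact pow_le_one₀ (abs_nonneg _) S.abs_tau
      have b7 : S.tau ^ 2 * Sq r S _ (epsop _ S (epsop _ S (MT Unit Unit ι S F))) ≤
          C₂ * Q * Sq (r + 1) S _ F := by
        calc _ ≤ 1 * Sq r S _ (epsop _ S (epsop _ S (MT Unit Unit ι S F))) := by gcongr
          _ ≤ C₂ * S.K ^ P₂ * Sq r S _ F := by linarith
          _ ≤ C₂ * Q * Sq (r + 1) S _ F := by gcongr
      have b8 : C₁ * S.K ^ P₁ * Sq (r + 1) S _ (Sob.grad (Unit ⊕ ι) S F) ≤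
          C₁ * Q * Sq (r + 1) S _ (Sob.grad (Unit ⊕ ι) S F) := by gcongr
      have b9 : Sq r S _ F ≤ Q * Sq (r + 1) S _ F := by
        calc _ ≤ 1 * Sq (r + 1) S _ F := by linarith
          _ ≤ _ := by gcongr
      linarith
    have a2 : Sq r S _ (Sob.gradb ι S (div ι S F)) ≤
        C₁ * Q * Sq (r + 1) S _ (Sob.gradb _ S F) := by
      rw [gradb_div]
      have b6 := H₁ S (Sob.re (swp Unit Unit ι) S (Sob.gradb (Unit ⊕ ι) S F))
      rw [Sq_re] at b6
      refine b6.trans ?_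
      gcongr
    rw [Sq_succ, Sq_succ S (r + 1)]
    have p1 : 0 ≤ C₀ * Q * Sq (r + 1) S _ (Sob.grad _ S F) := by positivity
    have p2 : 0 ≤ C₀ * Q * Sq (r + 1) S _ (Sob.gradb _ S F) := by positivity
    have p3 : 0 ≤ C₁ * Q * Sq (r + 1) S _ F := by positivity
    have p4 : 0 ≤ C₁ * Q * Sq (r + 1) S _ (Sob.grad _ S F) := by positivity
    have p5 : 0 ≤ C₁ * Q * Sq (r + 1) S _ (Sob.gradb _ S F) := by positivity
    have p6 : 0 ≤ C₂ * Q * Sq (r + 1) S _ (Sob.grad _ S F) := by positivity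
    have p7 : 0 ≤ C₂ * Q * Sq (r + 1) S _ (Sob.gradb _ S F) := by positivity
    have p8 : 0 ≤ Q * Sq (r + 1) S _ (Sob.grad _ S F) := by positivity
    have p9 : 0 ≤ Q * Sq (r + 1) S _ (Sob.gradb _ S F) := by positivity
    nlinarith

theorem Sq_divb (r : ℕ) : ∀ (ι : Type) [Fintype ι] [DecidableEq ι],
    ∃ (C : ℝ) (P : ℕ), 0 ≤ C ∧ ∀ (S : Sett c) (F : Fl S (Unit ⊕ ι)),
      Sq r S ι (divb ι S F) ≤ C * S.K ^ P * Sq (r + 1) S (Unit ⊕ ι) F := by
  induction r with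
  | zero =>
    intro ι _ _
    refine ⟨1, 0, by positivity, fun S F => ?_⟩
    have h := nsq_divb S F
    rw [Sq_zero, Sq_succ, Sq_zero, Sq_zero, Sq_zero]
    have f1 := nsq_nonneg S (Sob.grad _ S F)
    linarith
  | succ r ih =>
    intro ι _ _
    obtain ⟨C₀, P₀, hC₀, H₀⟩ := ih ι
    obtain ⟨C₁, P₁, hC₁, H₁⟩ := ih (Unit ⊕ ι)
    refine ⟨C₀ + 2 * (1 + C₁), P₀ + P₁, by positivity, fun S F => ?_⟩
    have hK := S.one_le_K
    have hKp := K_pos S
    have k0 : S.K ^ P₀ ≤ S.K ^ (P₀ + P₁) := pow_le_pow_right₀ hK (by omega)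
    have k1 : S.K ^ P₁ ≤ S.K ^ (P₀ + P₁) := pow_le_pow_right₀ hK (by omega)
    have k3 : 1 ≤ S.K ^ (P₀ + P₁) := one_le_pow₀ hK
    set Q := S.K ^ (P₀ + P₁)
    have hQ : 0 ≤ Q := by positivity
    have f1 := Sq_nonneg S (r + 1) F
    have fg := Sq_nonneg S (r + 1) (Sob.grad _ S F)
    have fb := Sq_nonneg S (r + 1) (Sob.gradb _ S F)
    have f0 : Sq r S _ F ≤ Sq (r + 1) S _ F := Sq_le_succ S r F
    have f00 := Sq_nonneg S r F
    have a0 : Sq r S _ (divb ι S F) ≤ C₀ * Q * Sq (r + 1) S _ F :=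
      (H₀ S F).trans (by gcongr)
    have a1 : Sq r S _ (Sob.grad ι S (divb ι S F)) ≤
        C₁ * Q * Sq (r + 1) S _ (Sob.grad _ S F) := by
      rw [grad_divb]
      have b6 := H₁ S (Sob.re (swp Unit Unit ι) S (Sob.grad (Unit ⊕ ι) S F))
      rw [Sq_re] at b6
      refine b6.trans ?_
      gcongr
    have a2 : Sq r S _ (Sob.gradb ι S (divb ι S F)) ≤
        2 * (Q * Sq (r + 1) S _ F) + 2 * (C₁ * Q * Sq (r + 1) S _ (Sob.gradb _ S F)) := by
      rw [gradb_divb]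
      have b1 := Sq_add_le S r F
        (divb (Unit ⊕ ι) S (Sob.re (swp Unit Unit ι) S (Sob.gradb (Unit ⊕ ι) S F)))
      have b6 := H₁ S (Sob.re (swp Unit Unit ι) S (Sob.gradb (Unit ⊕ ι) S F))
      rw [Sq_re] at b6
      have b8 : C₁ * S.K ^ P₁ * Sq (r + 1) S _ (Sob.gradb (Unit ⊕ ι) S F) ≤
          C₁ * Q * Sq (r + 1) S _ (Sob.gradb (Unit ⊕ ι) S F) := by gcongr
      have b9 : Sq r S _ F ≤ Q * Sq (r + 1) S _ F := by
        calc _ ≤ 1 * Sq (r + 1) S _ F := by linarith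
          _ ≤ _ := by gcongr
      linarith
    rw [Sq_succ, Sq_succ S (r + 1)]
    have p1 : 0 ≤ C₀ * Q * Sq (r + 1) S _ (Sob.grad _ S F) := by positivity
    have p2 : 0 ≤ C₀ * Q * Sq (r + 1) S _ (Sob.gradb _ S F) := by positivity
    have p3 : 0 ≤ C₁ * Q * Sq (r + 1) S _ F := by positivity
    have p4 : 0 ≤ C₁ * Q * Sq (r + 1) S _ (Sob.grad _ S F) := by positivity
    have p5 : 0 ≤ C₁ * Q * Sq (r + 1) S _ (Sob.gradb _ S F) := by positivity
    have p8 : 0 ≤ Q * Sq (r + 1) S _ (Sob.grad _ S F) := by positivity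
    have p9 : 0 ≤ Q * Sq (r + 1) S _ (Sob.gradb _ S F) := by positivity
    nlinarith

theorem Bd.div (ι : Type) [Fintype ι] [DecidableEq ι] : Bd (div (c := c) ι) := fun r => by
  obtain ⟨C, P, hC, H⟩ := Sq_div (c := c) r ι
  exact ⟨C, P, 1, hC, fun S F => H S F⟩

theorem Bd.divb (ι : Type) [Fintype ι] [DecidableEq ι] : Bd (divb (c := c) ι) := fun r => by
  obtain ⟨C, P, hC, H⟩ := Sq_divb (c := c) r ι
  exact ⟨C, P, 1, hC, fun S F => H S F⟩

end Crest.Agent.R285.Sob
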