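import Crest.Agent.R285.Sob

/-!
Row 285: the letters of the word calculus and their boundedness.
-/

set_option autoImplicit false
set_option linter.unusedSectionVars false
set_option linter.unusedVariables false

open Finset

namespace Crest.Agent.R285.Sob

variable {c : ℕ → ℝ}

/-! ### slots -/

section slots

variable {α β γ N : Type} [Fintype α] [DecidableEq α] [Fintype β] [DecidableEq β]
  [Fintype γ] [DecidableEq γ]

/-- The multiset of values of a multi-index. -/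
def ml (f : α → N) : Multiset N := (univ : Finset α).val.map f

theorem ml_def (f : α → N) : ml f = (univ : Finset α).val.map f := rfl

theorem ml_sum (f : α ⊕ β → N) : ml f = ml (f ∘ Sum.inl) + ml (f ∘ Sum.inr) := by
  unfold ml
  rw [← Finset.univ_disjSum_univ, Finset.val_disjSum, Multiset.disjSum, Multiset.map_add,
    Multiset.map_map, Multiset.map_map]

theorem ml_unit (f : Unit → N) : ml f = {f ()} := by
  simp [ml]

theorem ml_unit_sum (f : Unit ⊕ β → N) : ml f = f (Sum.inl ()) ::ₘ ml (f ∘ Sum.inr) := by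
  rw [ml_sum, ml_unit]
  rfl

theorem ml_equiv (e : α ≃ β) (f : β → N) : ml (f ∘ e) = ml f := by
  unfold ml
  rw [← Multiset.map_map]
  congr 1
  have := congrArg Finset.val (Finset.map_univ_equiv e)
  rw [← this]
  rfl

theorem ml_ne_zero [Nonempty α] (f : α → N) : ml f ≠ 0 := by
  intro h
  have h2 : Multiset.card (ml f) = 0 := by rw [h]; rfl
  rw [ml, Multiset.card_map] at h2
  have := Fintype.card_pos (α := α)
  rw [← Finset.card_univ] at this
  exact this.ne' h2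

/-- Swap the first two groups of slots. -/
def swp (α β γ : Type) : α ⊕ (β ⊕ γ) ≃ β ⊕ (α ⊕ γ) :=
  (Equiv.sumAssoc α β γ).symm.trans
    (((Equiv.sumComm α β).sumCongr (Equiv.refl γ)).trans (Equiv.sumAssoc β α γ))

@[simp] theorem swp_inl (a : α) : swp α β γ (Sum.inl a) = Sum.inr (Sum.inl a) := rfl
@[simp] theorem swp_inr_inl (b : β) : swp α β γ (Sum.inr (Sum.inl b)) = Sum.inl b := rfl
@[simp] theorem swp_inr_inr (g : γ) : swp α β γ (Sum.inr (Sum.inr g)) = Sum.inr (Sum.inr g) :=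
  rfl

theorem sum_sum_arrow {N M : Type} [Fintype N] [DecidableEq N] [AddCommMonoid M]
    (f : (α ⊕ β → N) → M) :
    ∑ J, f J = ∑ J₁ : α → N, ∑ J₂ : β → N, f (Sum.elim J₁ J₂) := by
  rw [← Fintype.sum_prod_type']
  exact (Equiv.sum_comp (Equiv.sumArrowEquivProdArrow α β N).symm f).symm

theorem sum_unit_arrow {N M : Type} [Fintype N] [DecidableEq N] [AddCommMonoid M]
    (f : (Unit → N) → M) : ∑ J, f J = ∑ i : N, f (fun _ => i) :=
  (Equiv.sum_comp (Equiv.funUnique Unit N).symm f).symm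

theorem sum_unit_sum_arrow {N M : Type} [Fintype N] [DecidableEq N] [AddCommMonoid M]
    (f : (Unit ⊕ β → N) → M) :
    ∑ J, f J = ∑ i : N, ∑ J₂ : β → N, f (Sum.elim (fun _ => i) J₂) := by
  rw [sum_sum_arrow, sum_unit_arrow]

theorem elim_eta {N : Type} (J : Unit ⊕ β → N) :
    Sum.elim (fun _ => J (Sum.inl ())) (J ∘ Sum.inr) = J := by
  funext x
  rcases x with u | x <;> rfl

end slots

/-! ### letters -/

/-- Reindexing of the slots. -/
def re {ι κ : Type} (e : ι ≃ κ) : Op c ι κ := fun S =>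
  { toFun := fun F J => F (J ∘ e)
    map_add' := fun F G => by funext J; simp
    map_smul' := fun r F => by funext J; simp }

/-- Multiplication by `ε`. -/
def epsop (ι : Type) : Op c ι ι := fun S =>
  { toFun := fun F J => S.eps * F J
    map_add' := fun F G => by funext J; simp [mul_add]
    map_smul' := fun r F => by funext J; simp }

/-- The divergence in `η`. -/
def div (ι : Type) : Op c (Unit ⊕ ι) ι := fun S =>
  { toFun := fun F J => ∑ l, (S.w l * F (Sum.elim (fun _ => l) J) -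
      S.d l (F (Sum.elim (fun _ => l) J)))
    map_add' := fun F G => by
      funext J
      simp only [Pi.add_apply, map_add, mul_add, ← sum_add_distrib]
      exact sum_congr rfl fun l _ => by abel
    map_smul' := fun r F => by
      funext J
      simp only [Pi.smul_apply, Derivation.map_smul, RingHom.id_apply, smul_sum, smul_sub,
        mul_smul_comm] }

/-- The divergence in `b`. -/
def divb (ι : Type) : Op c (Unit ⊕ ι) ι := fun S =>
  { toFun := fun F J => ∑ l, (S.b l * F (Sum.elim (fun _ => l) J) -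
      S.e l (F (Sum.elim (fun _ => l) J)))
    map_add' := fun F G => by
      funext J
      simp only [Pi.add_apply, map_add, mul_add, ← sum_add_distrib]
      exact sum_congr rfl fun l _ => by abel
    map_smul' := fun r F => by
      funext J
      simp only [Pi.smul_apply, Derivation.map_smul, RingHom.id_apply, smul_sum, smul_sub,
        mul_smul_comm] }

/-- Contraction of the slots `σ` with a derivative tensor, creating the slots `β`. -/
def MT (σ β γ : Type) [Fintype σ] [DecidableEq σ] [Fintype β] [DecidableEq β] :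
    Op c (σ ⊕ γ) (β ⊕ γ) := fun S =>
  { toFun := fun F J => ∑ k : σ → S.N, S.T (ml k + ml (J ∘ Sum.inl)) *
      F (Sum.elim k (J ∘ Sum.inr))
    map_add' := fun F G => by
      funext J
      simp only [Pi.add_apply, mul_add, ← sum_add_distrib]
    map_smul' := fun r F => by
      funext J
      simp only [Pi.smul_apply, RingHom.id_apply, smul_sum, mul_smul_comm] }

section apply

variable {ι κ σ β γ : Type} (S : Sett c)

theorem grad_apply (F : Fl S ι) (J : Unit ⊕ ι → S.N) :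
    grad ι S F J = S.d (J (Sum.inl ())) (F (J ∘ Sum.inr)) := rfl

theorem gradb_apply (F : Fl S ι) (J : Unit ⊕ ι → S.N) :
    gradb ι S F J = S.e (J (Sum.inl ())) (F (J ∘ Sum.inr)) := rfl

theorem re_apply (e : ι ≃ κ) (F : Fl S ι) (J : κ → S.N) : re e S F J = F (J ∘ e) := rfl

theorem epsop_apply (F : Fl S ι) (J : ι → S.N) : epsop ι S F J = S.eps * F J := rfl

theorem div_apply (F : Fl S (Unit ⊕ ι)) (J : ι → S.N) : div ι S F J =
    ∑ l, (S.w l * F (Sum.elim (fun _ => l) J) - S.d l (F (Sum.elim (fun _ => l) J))) := rfl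

theorem divb_apply (F : Fl S (Unit ⊕ ι)) (J : ι → S.N) : divb ι S F J =
    ∑ l, (S.b l * F (Sum.elim (fun _ => l) J) - S.e l (F (Sum.elim (fun _ => l) J))) := rfl

theorem MT_apply [Fintype σ] [DecidableEq σ] [Fintype β] [DecidableEq β] (F : Fl S (σ ⊕ γ)) (J : β ⊕ γ → S.N) : MT σ β γ S F J =
    ∑ k : σ → S.N, S.T (ml k + ml (J ∘ Sum.inl)) * F (Sum.elim k (J ∘ Sum.inr)) := rfl

/-! ### reindexing -/

variable [Fintype ι] [DecidableEq ι] [Fintype κ] [DecidableEq κ]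

theorem nsq_re (e : ι ≃ κ) (F : Fl S ι) : nsq S (re e S F) = nsq S F := by
  unfold nsq
  exact Equiv.sum_comp (Equiv.arrowCongr e.symm (Equiv.refl S.N)) (fun J => S.I (F J * F J))

theorem grad_re (e : ι ≃ κ) (F : Fl S ι) :
    grad κ S (re e S F) = re (Equiv.sumCongr (Equiv.refl Unit) e) S (grad ι S F) := rfl

theorem gradb_re (e : ι ≃ κ) (F : Fl S ι) :
    gradb κ S (re e S F) = re (Equiv.sumCongr (Equiv.refl Unit) e) S (gradb ι S F) := rfl

end apply

theorem Sq_re (S : Sett c) (r : ℕ) : ∀ {ι κ : Type} [Fintype ι] [DecidableEq ι] [Fintype κ]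
    [DecidableEq κ] (e : ι ≃ κ) (F : Fl S ι), Sq r S κ (re e S F) = Sq r S ι F := by
  induction r with
  | zero => intro ι κ _ _ _ _ e F; exact nsq_re S e F
  | succ r ih =>
    intro ι κ _ _ _ _ e F
    rw [Sq_succ, Sq_succ, grad_re, gradb_re, ih, ih, ih]

theorem Bd.re {ι κ : Type} [Fintype ι] [DecidableEq ι] [Fintype κ] [DecidableEq κ] (e : ι ≃ κ) :
    Bd (re (c := c) e) := fun r => ⟨1, 0, 0, zero_le_one, fun S F => by
      rw [Sq_re]; simp⟩

/-! ### multiplication by `ε` -/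

theorem nsq_epsop (S : Sett c) {ι : Type} [Fintype ι] [DecidableEq ι] (F : Fl S ι) :
    nsq S (epsop ι S F) ≤ nsq S F := by
  unfold nsq
  refine sum_le_sum fun J _ => I_mono S fun p => ?_
  rw [epsop_apply, map_mul, map_mul, map_mul]
  have h := S.abs_ev_eps p
  have h1 : S.ev p S.eps ^ 2 ≤ 1 := by
    rw [← sq_abs]
    exact pow_le_one₀ (abs_nonneg _) h
  have h2 := mul_self_nonneg (S.ev p (F J))
  nlinarith

theorem grad_epsop (S : Sett c) {ι : Type} (F : Fl S ι) :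
    grad ι S (epsop ι S F) = epsop (Unit ⊕ ι) S (grad ι S F) := by
  funext J
  rw [grad_apply, epsop_apply, epsop_apply, grad_apply, Derivation.leibniz, S.d_eps]
  simp

theorem gradb_epsop (S : Sett c) {ι : Type} (F : Fl S ι) :
    gradb ι S (epsop ι S F) = epsop (Unit ⊕ ι) S (gradb ι S F) := by
  funext J
  rw [gradb_apply, epsop_apply, epsop_apply, gradb_apply, Derivation.leibniz, S.e_eps]
  simp

theorem Sq_epsop (S : Sett c) (r : ℕ) : ∀ {ι : Type} [Fintype ι] [DecidableEq ι]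
    (F : Fl S ι), Sq r S ι (epsop ι S F) ≤ Sq r S ι F := by
  induction r with
  | zero => intro ι _ _ F; exact nsq_epsop S F
  | succ r ih =>
    intro ι _ _ F
    rw [Sq_succ, Sq_succ, grad_epsop, gradb_epsop]
    have := ih F
    have := ih (grad ι S F)
    have := ih (gradb ι S F)
    linarith

theorem Bd.epsop (ι : Type) [Fintype ι] [DecidableEq ι] : Bd (epsop (c := c) ι) := fun r =>
  ⟨1, 0, 0, zero_le_one, fun S F => by simpa using Sq_epsop S r F⟩

/-! ### gradients -/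

theorem Bd.grad (ι : Type) [Fintype ι] [DecidableEq ι] : Bd (grad (c := c) ι) := fun r =>
  ⟨1, 0, 1, zero_le_one, fun S F => by
    have h1 := Sq_succ S r F
    have h2 := Sq_nonneg S r F
    have h3 := Sq_nonneg S r (Sob.gradb ι S F)
    simp only [pow_zero, one_mul]
    linarith⟩

theorem Bd.gradb (ι : Type) [Fintype ι] [DecidableEq ι] : Bd (gradb (c := c) ι) := fun r =>
  ⟨1, 0, 1, zero_le_one, fun S F => by
    have h1 := Sq_succ S r F
    have h2 := Sq_nonneg S r F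
    have h3 := Sq_nonneg S r (Sob.grad ι S F)
    simp only [pow_zero, one_mul]
    linarith⟩

/-! ### the tensors -/

/-- `AF` for arbitrary finite slot types. -/
theorem AF_gen (S : Sett c) {σ β : Type} [Fintype σ] [DecidableEq σ] [Nonempty σ]
    [Fintype β] [DecidableEq β] [Nonempty β] (z : S.P) (x : (σ → S.N) → ℝ) :
    ∑ y : β → S.N, (∑ k : σ → S.N, S.ev z (S.T (ml k + ml y)) * x k) ^ 2 ≤
      (c (Fintype.card σ + Fintype.card β) * S.K ^ (Fintype.card σ + Fintype.card β)) ^ 2 *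
        ∑ k, x k ^ 2 := by
  obtain ⟨p, hp⟩ : ∃ p, Fintype.card σ = p + 1 :=
    ⟨Fintype.card σ - 1, (Nat.succ_pred_eq_of_pos Fintype.card_pos).symm⟩
  obtain ⟨q, hq⟩ : ∃ q, Fintype.card β = q + 1 :=
    ⟨Fintype.card β - 1, (Nat.succ_pred_eq_of_pos Fintype.card_pos).symm⟩
  have eσ : σ ≃ Fin (p + 1) := Fintype.equivFinOfCardEq hp
  have eβ : β ≃ Fin (q + 1) := Fintype.equivFinOfCardEq hq
  have hcard : Fintype.card σ + Fintype.card β = p + q + 2 := by omega
  rw [hcard]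
  have h := S.AF p q z (fun k => x (k ∘ eσ))
  have e1 : ∀ g : (σ → S.N) → ℝ, ∑ k : Fin (p + 1) → S.N, g (k ∘ eσ) = ∑ k, g k := fun g =>
    Equiv.sum_comp (Equiv.arrowCongr eσ.symm (Equiv.refl S.N)) g
  have e2 : ∀ g : (β → S.N) → ℝ, ∑ y : Fin (q + 1) → S.N, g (y ∘ eβ) = ∑ y, g y := fun g =>
    Equiv.sum_comp (Equiv.arrowCongr eβ.symm (Equiv.refl S.N)) g
  rw [e1 (fun k => x k ^ 2)] at h
  rw [← e2]
  refine le_trans (le_of_eq ?_) h
  refine sum_congr rfl fun y _ => ?_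
  rw [← e1]
  congr 1
  refine sum_congr rfl fun k _ => ?_
  rw [ml_equiv, ml_equiv]
  rfl

theorem nsq_MT (S : Sett c) {σ β γ : Type} [Fintype σ] [DecidableEq σ] [Nonempty σ]
    [Fintype β] [DecidableEq β] [Nonempty β] [Fintype γ] [DecidableEq γ] (F : Fl S (σ ⊕ γ)) :
    nsq S (MT σ β γ S F) ≤
      (c (Fintype.card σ + Fintype.card β) * S.K ^ (Fintype.card σ + Fintype.card β)) ^ 2 *
        nsq S F := by
  set C := (c (Fintype.card σ + Fintype.card β) * S.K ^ (Fintype.card σ + Fintype.card β)) ^ 2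
    with hC
  unfold nsq
  rw [sum_sum_arrow, sum_sum_arrow, sum_comm, sum_comm (s := (univ : Finset (σ → S.N))),
    mul_sum]
  refine sum_le_sum fun J₂ _ => ?_
  rw [← map_sum, ← map_sum, ← smul_eq_mul, ← map_smul]
  refine I_mono S fun z => ?_
  rw [map_smul, smul_eq_mul, map_sum, map_sum]
  have h := AF_gen S (σ := σ) (β := β) z (fun k => S.ev z (F (Sum.elim k J₂)))
  rw [← hC] at h
  refine le_trans (le_of_eq ?_) (h.trans (le_of_eq ?_))
  · refine sum_congr rfl fun y _ => ?_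
    rw [map_mul, ← sq, MT_apply, map_sum]
    congr 1
    refine sum_congr rfl fun k _ => ?_
    rw [map_mul]
    rfl
  · congr 1
    refine sum_congr rfl fun k _ => ?_
    rw [map_mul, sq]

theorem grad_MT (S : Sett c) {σ β γ : Type} [Fintype σ] [DecidableEq σ] [Nonempty σ]
    [Fintype β] [DecidableEq β] [Fintype γ] [DecidableEq γ] (F : Fl S (σ ⊕ γ)) :
    grad (β ⊕ γ) S (MT σ β γ S F) =
      epsop _ S (re (Equiv.sumAssoc Unit β γ) S (MT σ (Unit ⊕ β) γ S F)) +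
      re (swp β Unit γ) S (MT σ β (Unit ⊕ γ) S (re (swp Unit σ γ) S (grad (σ ⊕ γ) S F))) := by
  funext J
  rw [grad_apply, MT_apply, Pi.add_apply, epsop_apply, re_apply, re_apply, MT_apply, MT_apply,
    map_sum, mul_sum, ← sum_add_distrib]
  refine sum_congr rfl fun k _ => ?_
  rw [Derivation.leibniz, S.d_T _ _ (by
    intro h
    exact ml_ne_zero k (add_eq_zero.mp h).1 : ml k + ml (_ ∘ Sum.inl) ≠ 0)]
  rw [ml_unit_sum ((J ∘ ⇑(Equiv.sumAssoc Unit β γ)) ∘ Sum.inl)]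
  have e1 : ml k + (((J ∘ ⇑(Equiv.sumAssoc Unit β γ)) ∘ Sum.inl) (Sum.inl ()) ::ₘ
      ml (((J ∘ ⇑(Equiv.sumAssoc Unit β γ)) ∘ Sum.inl) ∘ Sum.inr)) =
      J (Sum.inl ()) ::ₘ (ml k + ml ((J ∘ Sum.inr) ∘ Sum.inl)) := by
    rw [Multiset.add_cons]
    rfl
  rw [e1, re_apply, grad_apply]
  have e2 : (Sum.elim k ((J ∘ ⇑(Equiv.sumAssoc Unit β γ)) ∘ Sum.inr) : σ ⊕ γ → S.N) =
      Sum.elim k ((J ∘ Sum.inr) ∘ Sum.inr) := by
    funext x; rcases x with x | x <;> rfl
  have e3 : ((Sum.elim k ((J ∘ ⇑(swp β Unit γ)) ∘ Sum.inr) ∘ ⇑(swp Unit σ γ)) ∘ Sum.inr :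
      σ ⊕ γ → S.N) = Sum.elim k ((J ∘ Sum.inr) ∘ Sum.inr) := by
    funext x; rcases x with x | x <;> rfl
  have e4 : ml ((J ∘ ⇑(swp β Unit γ)) ∘ Sum.inl) = ml ((J ∘ Sum.inr) ∘ Sum.inl) := rfl
  have e5 : (Sum.elim k ((J ∘ ⇑(swp β Unit γ)) ∘ Sum.inr) ∘ ⇑(swp Unit σ γ)) (Sum.inl ()) =
      J (Sum.inl ()) := rfl
  rw [e2, e3, e4, e5]
  simp only [smul_eq_mul]
  ring

theorem gradb_MT (S : Sett c) {σ β γ : Type} [Fintype σ] [DecidableEq σ] [Nonempty σ]
    [Fintype β] [DecidableEq β] [Fintype γ] [DecidableEq γ] (F : Fl S (σ ⊕ γ)) :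
    gradb (β ⊕ γ) S (MT σ β γ S F) =
      re (swp β Unit γ) S (MT σ β (Unit ⊕ γ) S (re (swp Unit σ γ) S (gradb (σ ⊕ γ) S F))) := by
  funext J
  rw [gradb_apply, MT_apply, re_apply, MT_apply, map_sum]
  refine sum_congr rfl fun k _ => ?_
  rw [Derivation.leibniz, S.e_T _ _ (by
    intro h
    exact ml_ne_zero k (add_eq_zero.mp h).1 : ml k + ml (_ ∘ Sum.inl) ≠ 0)]
  rw [re_apply, gradb_apply]
  have e3 : ((Sum.elim k ((J ∘ ⇑(swp β Unit γ)) ∘ Sum.inr) ∘ ⇑(swp Unit σ γ)) ∘ Sum.inr :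
      σ ⊕ γ → S.N) = Sum.elim k ((J ∘ Sum.inr) ∘ Sum.inr) := by
    funext x; rcases x with x | x <;> rfl
  have e4 : ml ((J ∘ ⇑(swp β Unit γ)) ∘ Sum.inl) = ml ((J ∘ Sum.inr) ∘ Sum.inl) := rfl
  have e5 : (Sum.elim k ((J ∘ ⇑(swp β Unit γ)) ∘ Sum.inr) ∘ ⇑(swp Unit σ γ)) (Sum.inl ()) =
      J (Sum.inl ()) := rfl
  rw [e3, e4, e5]
  simp

theorem Sq_MT (r : ℕ) : ∀ (σ β γ : Type) [Fintype σ] [DecidableEq σ] [Nonempty σ]
    [Fintype β] [DecidableEq β] [Nonempty β] [Fintype γ] [DecidableEq γ],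
    ∃ (C : ℝ) (P : ℕ), 0 ≤ C ∧ ∀ (S : Sett c) (F : Fl S (σ ⊕ γ)),
      Sq r S (β ⊕ γ) (MT σ β γ S F) ≤ C * S.K ^ P * Sq r S (σ ⊕ γ) F := by
  induction r with
  | zero =>
    intro σ β γ _ _ _ _ _ _ _ _
    refine ⟨c (Fintype.card σ + Fintype.card β) ^ 2,
      (Fintype.card σ + Fintype.card β) * 2, sq_nonneg _, fun S F => ?_⟩
    have h := nsq_MT S (σ := σ) (β := β) (γ := γ) F
    rw [mul_pow, ← pow_mul] at h
    exact h
  | succ r ih =>
    intro σ β γ _ _ _ _ _ _ _ _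
    obtain ⟨C₀, P₀, hC₀, H₀⟩ := ih σ β γ
    obtain ⟨C₁, P₁, hC₁, H₁⟩ := ih σ (Unit ⊕ β) γ
    obtain ⟨C₂, P₂, hC₂, H₂⟩ := ih σ β (Unit ⊕ γ)
    refine ⟨C₀ + 2 * C₁ + 3 * C₂, P₀ + P₁ + P₂, by positivity, fun S F => ?_⟩
    have hK := S.one_le_K
    have hKp := K_pos S
    have k0 : S.K ^ P₀ ≤ S.K ^ (P₀ + P₁ + P₂) := pow_le_pow_right₀ hK (by omega)
    have k1 : S.K ^ P₁ ≤ S.K ^ (P₀ + P₁ + P₂) := pow_le_pow_right₀ hK (by omega)
    have k2 : S.K ^ P₂ ≤ S.K ^ (P₀ + P₁ + P₂) := pow_le_pow_right₀ hK (by omega)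
    set Q := S.K ^ (P₀ + P₁ + P₂)
    have f0 := Sq_nonneg S r F
    have fg := Sq_nonneg S r (Sob.grad _ S F)
    have fb := Sq_nonneg S r (Sob.gradb _ S F)
    have a0 : Sq r S _ (MT σ β γ S F) ≤ C₀ * Q * Sq r S _ F :=
      (H₀ S F).trans (by gcongr)
    have a1 : Sq r S _ (Sob.grad (β ⊕ γ) S (MT σ β γ S F)) ≤
        2 * (C₁ * Q * Sq r S _ F) + 2 * (C₂ * Q * Sq r S _ (Sob.grad _ S F)) := by
      rw [grad_MT]
      refine (Sq_add_le S r _ _).trans ?_
      have b1 := (Sq_epsop S r (Sob.re (Equiv.sumAssoc Unit β γ) S (MT σ (Unit ⊕ β) γ S F))).trans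
        (le_of_eq (Sq_re S r _ _))
      have b2 := H₁ S F
      have b3 := H₂ S (Sob.re (swp Unit σ γ) S (Sob.grad (σ ⊕ γ) S F))
      rw [Sq_re] at b3
      have b6 := Sq_re S r (swp β Unit γ) (MT σ β (Unit ⊕ γ) S
        (Sob.re (swp Unit σ γ) S (Sob.grad (σ ⊕ γ) S F)))
      have b4 : C₁ * S.K ^ P₁ * Sq r S _ F ≤ C₁ * Q * Sq r S _ F := by gcongr
      have b5 : C₂ * S.K ^ P₂ * Sq r S _ (Sob.grad _ S F) ≤
        C₂ * Q * Sq r S _ (Sob.grad _ S F) := by gcongr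
      linarith
    have a2 : Sq r S _ (Sob.gradb (β ⊕ γ) S (MT σ β γ S F)) ≤
        C₂ * Q * Sq r S _ (Sob.gradb _ S F) := by
      rw [gradb_MT]
      have b3 := H₂ S (Sob.re (swp Unit σ γ) S (Sob.gradb (σ ⊕ γ) S F))
      rw [Sq_re] at b3
      rw [Sq_re]
      refine b3.trans ?_
      gcongr
    rw [Sq_succ, Sq_succ]
    have hQ : 0 ≤ Q := by positivity
    have p1 : 0 ≤ C₁ * Q * Sq r S _ (Sob.grad _ S F) := by positivity
    have p2 : 0 ≤ C₀ * Q * Sq r S _ (Sob.grad _ S F) := by positivity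
    have p3 : 0 ≤ C₂ * Q * Sq r S _ (Sob.grad _ S F) := by positivity
    have p4 : 0 ≤ C₁ * Q * Sq r S _ (Sob.gradb _ S F) := by positivity
    have p5 : 0 ≤ C₀ * Q * Sq r S _ (Sob.gradb _ S F) := by positivity
    have p6 : 0 ≤ C₂ * Q * Sq r S _ (Sob.gradb _ S F) := by positivity
    have p7 : 0 ≤ C₂ * Q * Sq r S _ F := by positivity
    nlinarith

theorem Bd.MT (σ β γ : Type) [Fintype σ] [DecidableEq σ] [Nonempty σ]
    [Fintype β] [DecidableEq β] [Nonempty β] [Fintype γ] [DecidableEq γ] :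
    Bd (MT (c := c) σ β γ) := fun r => by
  obtain ⟨C, P, hC, H⟩ := Sq_MT (c := c) r σ β γ
  exact ⟨C, P, 0, hC, fun S F => H S F⟩

end Crest.Agent.R285.Sob
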