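import Crest.Agent.R285.SobTen

/-!
Row 285: all letters belong to all classes `Sm n`.
-/

set_option autoImplicit false
set_option linter.unusedSectionVars false
set_option linter.unusedVariables false

open Finset

namespace Crest.Agent.R285.Sob

variable {c : ℕ → ℝ}

section

variable {ι κ σ β γ N : Type} [Fintype ι] [DecidableEq ι] [Fintype κ] [DecidableEq κ]
  [Fintype σ] [DecidableEq σ] [Fintype β] [DecidableEq β] [Fintype γ] [DecidableEq γ]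

theorem ml_subtype {α : Type} [Fintype α] [DecidableEq α] (p : α → Prop) [DecidablePred p]
    (t : Finset α) (h : ∀ x, p x ↔ x ∈ t) (f : α → N) :
    ml (fun x : {x // p x} => f x) = t.val.map f := by
  have e1 : (univ : Finset {x // p x}).val.map (Subtype.val) = t.val := by
    refine (Multiset.Nodup.ext ?_ t.nodup).2 fun x => ?_
    · exact (univ : Finset {x // p x}).nodup.map Subtype.val_injective
    · rw [Multiset.mem_map]
      constructor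
      · rintro ⟨y, -, rfl⟩
        exact (h _).1 y.2
      · intro hx
        exact ⟨⟨x, (h x).2 hx⟩, Finset.mem_univ _, rfl⟩
  rw [← e1, Multiset.map_map]
  rfl

theorem map_finset_sum (s : Finset (σ ⊕ β)) (K : σ ⊕ β → N) (p : σ → Prop) (q : β → Prop)
    [DecidablePred p] [DecidablePred q] (hp : ∀ x, p x ↔ Sum.inl x ∈ s)
    (hq : ∀ x, q x ↔ Sum.inr x ∈ s) :
    s.val.map K = ml (fun x : {x : σ // p x} => K (Sum.inl x)) +
      ml (fun x : {x : β // q x} => K (Sum.inr x)) := by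
  rw [ml_subtype p s.toLeft (fun x => by rw [hp]; simp) (fun x => K (Sum.inl x)),
    ml_subtype q s.toRight (fun x => by rw [hq]; simp) (fun x => K (Sum.inr x))]
  conv_lhs => rw [← Finset.toLeft_disjSum_toRight (u := s)]
  rw [Finset.val_disjSum, Multiset.disjSum, Multiset.map_add, Multiset.map_map,
    Multiset.map_map]
  rfl

/-- first reindexing -/
def E1 (s : Finset (σ ⊕ β)) (γ : Type) : σ ⊕ γ ≃
    {x : σ // Sum.inl x ∈ s} ⊕ ({x : σ // ¬ Sum.inl x ∈ s} ⊕ γ) :=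
  (Equiv.sumCongr (Equiv.sumCompl (fun x : σ => (Sum.inl x : σ ⊕ β) ∈ s)).symm
    (Equiv.refl γ)).trans (Equiv.sumAssoc _ _ _)

/-- second reindexing -/
def E2 (s : Finset (σ ⊕ β)) (γ : Type) :
    (Unit ⊕ {x : β // Sum.inr x ∈ s}) ⊕ ({x : σ // ¬ Sum.inl x ∈ s} ⊕ γ) ≃
    (Unit ⊕ {x : σ // ¬ Sum.inl x ∈ s}) ⊕ ({x : β // Sum.inr x ∈ s} ⊕ γ) :=
  Equiv.sumSumSumComm _ _ _ _

/-- third reindexing -/
def E3 (s : Finset (σ ⊕ β)) (γ : Type) :
    {x : β // ¬ Sum.inr x ∈ s} ⊕ ({x : β // Sum.inr x ∈ s} ⊕ γ) ≃ β ⊕ γ :=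
  (Equiv.sumAssoc _ _ _).symm.trans (Equiv.sumCongr
    ((Equiv.sumComm _ _).trans (Equiv.sumCompl (fun x : β => (Sum.inr x : σ ⊕ β) ∈ s)))
    (Equiv.refl γ))

theorem sum_split_arrow {N M : Type} [Fintype N] [DecidableEq N] [AddCommMonoid M]
    (p : σ → Prop) [DecidablePred p] (f : (σ → N) → M) :
    ∑ k, f k = ∑ k₁ : {x // p x} → N, ∑ k₂ : {x // ¬ p x} → N,
      f (Sum.elim k₁ k₂ ∘ (Equiv.sumCompl p).symm) := by
  rw [← sum_sum_arrow (fun k => f (k ∘ (Equiv.sumCompl p).symm))]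
  exact (Equiv.sum_comp (Equiv.arrowCongr (Equiv.sumCompl p) (Equiv.refl N)) f).symm

theorem WS_key (S : Sett c) (s : Finset (σ ⊕ β)) (F : Fl S (σ ⊕ γ)) (J : β ⊕ γ → S.N)
    (k₁ : {x : σ // Sum.inl x ∈ s} → S.N) (k₂ : {x : σ // ¬ Sum.inl x ∈ s} → S.N) (l : S.N) :
    S.T (l ::ₘ s.val.map (Sum.elim (Sum.elim k₁ k₂ ∘
        (Equiv.sumCompl (fun x : σ => (Sum.inl x : σ ⊕ β) ∈ s)).symm) (J ∘ Sum.inl))) *
      S.T (l ::ₘ sᶜ.val.map (Sum.elim (Sum.elim k₁ k₂ ∘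
        (Equiv.sumCompl (fun x : σ => (Sum.inl x : σ ⊕ β) ∈ s)).symm) (J ∘ Sum.inl))) *
      F (Sum.elim (Sum.elim k₁ k₂ ∘
        (Equiv.sumCompl (fun x : σ => (Sum.inl x : σ ⊕ β) ∈ s)).symm) (J ∘ Sum.inr)) =
    S.T (ml (Sum.elim (fun _ : Unit => l) k₂) + ml ((J ∘ ⇑(E3 s γ)) ∘ Sum.inl)) *
      (S.T (ml k₁ + ml ((Sum.elim (Sum.elim (fun _ : Unit => l) k₂)
          ((J ∘ ⇑(E3 s γ)) ∘ Sum.inr) ∘ ⇑(E2 s γ)) ∘ Sum.inl)) *
        F (Sum.elim k₁ ((Sum.elim (Sum.elim (fun _ : Unit => l) k₂)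
          ((J ∘ ⇑(E3 s γ)) ∘ Sum.inr) ∘ ⇑(E2 s γ)) ∘ Sum.inr) ∘ ⇑(E1 s γ))) := by
  set K : σ ⊕ β → S.N := Sum.elim (Sum.elim k₁ k₂ ∘
        (Equiv.sumCompl (fun x : σ => (Sum.inl x : σ ⊕ β) ∈ s)).symm) (J ∘ Sum.inl) with hK
  have hpos : ∀ (x : σ) (hx : (Sum.inl x : σ ⊕ β) ∈ s),
      (Equiv.sumCompl (fun x : σ => (Sum.inl x : σ ⊕ β) ∈ s)).symm x = Sum.inl ⟨x, hx⟩ :=
    fun x hx => Equiv.sumCompl_symm_apply_of_pos (p := fun x : σ => (Sum.inl x : σ ⊕ β) ∈ s) hx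
  have hneg : ∀ (x : σ) (hx : ¬ (Sum.inl x : σ ⊕ β) ∈ s),
      (Equiv.sumCompl (fun x : σ => (Sum.inl x : σ ⊕ β) ∈ s)).symm x = Sum.inr ⟨x, hx⟩ :=
    fun x hx => Equiv.sumCompl_symm_apply_of_neg (p := fun x : σ => (Sum.inl x : σ ⊕ β) ∈ s) hx
  have h1 : s.val.map K = ml k₁ + ml (fun x : {x : β // Sum.inr x ∈ s} => J (Sum.inl x)) := by
    rw [map_finset_sum s K (fun x => Sum.inl x ∈ s) (fun x => Sum.inr x ∈ s) (fun x => Iff.rfl)
      (fun x => Iff.rfl)]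
    congr 2
    funext x
    simp only [hK, Sum.elim_inl, Function.comp_apply]
    rw [hpos x.1 x.2]
    rfl
  have h2 : sᶜ.val.map K = ml k₂ +
      ml (fun x : {x : β // ¬ Sum.inr x ∈ s} => J (Sum.inl x)) := by
    rw [map_finset_sum sᶜ K (fun x => ¬ Sum.inl x ∈ s) (fun x => ¬ Sum.inr x ∈ s)
      (fun x => by simp) (fun x => by simp)]
    congr 2
    funext x
    simp only [hK, Sum.elim_inl, Function.comp_apply]
    rw [hneg x.1 x.2]
    rfl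
  have h3 : (Sum.elim k₁ ((Sum.elim (Sum.elim (fun _ : Unit => l) k₂)
          ((J ∘ ⇑(E3 s γ)) ∘ Sum.inr) ∘ ⇑(E2 s γ)) ∘ Sum.inr) ∘ ⇑(E1 s γ)) =
      (Sum.elim (Sum.elim k₁ k₂ ∘
        (Equiv.sumCompl (fun x : σ => (Sum.inl x : σ ⊕ β) ∈ s)).symm) (J ∘ Sum.inr)) := by
    funext x
    rcases x with x | x
    · simp only [Function.comp_apply, E1, Equiv.trans_apply, Equiv.sumCongr_apply, Sum.map_inl,
        Sum.elim_inl]
      by_cases hx : (Sum.inl x : σ ⊕ β) ∈ s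
      · rw [hpos x hx]
        rfl
      · rw [hneg x hx]
        rfl
    · rfl
  have h4 : ml ((Sum.elim (Sum.elim (fun _ : Unit => l) k₂)
          ((J ∘ ⇑(E3 s γ)) ∘ Sum.inr) ∘ ⇑(E2 s γ)) ∘ Sum.inl) =
      l ::ₘ ml (fun x : {x : β // Sum.inr x ∈ s} => J (Sum.inl x)) := by
    rw [ml_unit_sum]
    rfl
  have h5 : ml ((J ∘ ⇑(E3 s γ)) ∘ Sum.inl) =
      ml (fun x : {x : β // ¬ Sum.inr x ∈ s} => J (Sum.inl x)) := rfl
  have h6 : ml (Sum.elim (fun _ : Unit => l) k₂) = l ::ₘ ml k₂ := by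
    rw [ml_unit_sum]
    rfl
  rw [h1, h2, h3, h4, h5, h6, Multiset.add_cons, Multiset.cons_add]
  ring

theorem WS_eq (s : Finset (σ ⊕ β)) : WS (c := c) σ β γ s = fun S =>
    re (E3 s γ) S ∘ₗ MT (Unit ⊕ {x : σ // ¬ Sum.inl x ∈ s}) {x : β // ¬ Sum.inr x ∈ s}
      ({x : β // Sum.inr x ∈ s} ⊕ γ) S ∘ₗ re (E2 s γ) S ∘ₗ
    MT {x : σ // Sum.inl x ∈ s} (Unit ⊕ {x : β // Sum.inr x ∈ s})
      ({x : σ // ¬ Sum.inl x ∈ s} ⊕ γ) S ∘ₗ re (E1 s γ) S := by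
  funext S
  refine LinearMap.ext fun F => ?_
  funext J
  simp only [LinearMap.comp_apply]
  rw [WS_apply, re_apply, MT_apply, sum_unit_sum_arrow,
    sum_split_arrow (fun x : σ => (Sum.inl x : σ ⊕ β) ∈ s)]
  simp only [re_apply, MT_apply, sum_mul, mul_sum, WS_key]
  rw [sum_comm, sum_comm (s := (univ : Finset S.N))]
  refine sum_congr rfl fun k₂ _ => ?_
  rw [sum_comm]

theorem WS_compl' (s : Finset (σ ⊕ β)) :
    WS (c := c) σ β γ s = WS σ β γ sᶜ :=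
  (WS_compl s).symm

/-- All the letters are in `Sm n`. -/
structure AllSm (c : ℕ → ℝ) (n : ℕ) : Prop where
  grad : ∀ (ι : Type) [Fintype ι] [DecidableEq ι], Sm n (grad (c := c) ι)
  gradb : ∀ (ι : Type) [Fintype ι] [DecidableEq ι], Sm n (gradb (c := c) ι)
  div : ∀ (ι : Type) [Fintype ι] [DecidableEq ι], Sm n (div (c := c) ι)
  divb : ∀ (ι : Type) [Fintype ι] [DecidableEq ι], Sm n (divb (c := c) ι)
  MT : ∀ (σ β γ : Type) [Fintype σ] [DecidableEq σ] [Nonempty σ] [Fintype β] [DecidableEq β]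
    [Nonempty β] [Fintype γ] [DecidableEq γ], Sm n (MT (c := c) σ β γ)

theorem Sm.re {ι κ : Type} [Fintype ι] [DecidableEq ι] [Fintype κ] [DecidableEq κ] (e : ι ≃ κ)
    (n : ℕ) : Sm n (re (c := c) e) :=
  Sm.of_ad_zero (Bd.re e) (ad_re e) n

theorem ad_id {ι : Type} [Fintype ι] [DecidableEq ι] :
    ad (fun _ => LinearMap.id : Op c ι ι) = fun _ => 0 := by
  funext S
  simp [ad]

theorem Sm.id {ι : Type} [Fintype ι] [DecidableEq ι] (n : ℕ) :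
    Sm n (fun _ => LinearMap.id : Op c ι ι) :=
  Sm.of_ad_zero Bd.id ad_id n

theorem Sm.epsop (ι : Type) [Fintype ι] [DecidableEq ι] (n : ℕ) : Sm n (epsop (c := c) ι) := by
  cases n with
  | zero => exact Bd.epsop ι
  | succ n => exact ⟨Bd.epsop ι, by rw [ad_epsop]; exact Sm.id n⟩

theorem Sm.tau {n : ℕ} {ι κ : Type} [Fintype ι] [DecidableEq ι] [Fintype κ] [DecidableEq κ]
    {O : Op c ι κ} (h : Sm n O) : Sm n (fun S => S.tau • O S) :=
  Sm.smul (fun S => S.tau) (fun S => S.abs_tau) h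

theorem Sm.et {n : ℕ} {ι κ : Type} [Fintype ι] [DecidableEq ι] [Fintype κ] [DecidableEq κ]
    {O : Op c ι κ} (h : Sm n O) : Sm n (fun S => S.et • O S) :=
  Sm.smul (fun S => S.et) (fun S => S.abs_et) h

theorem Sm.WS {n : ℕ} (h : AllSm c n) (s : Finset (σ ⊕ β)) [Nonempty σ] [Nonempty β]
    (hs : s.Nonempty) (hs' : sᶜ.Nonempty) : Sm n (WS (c := c) σ β γ s) := by
  have main : ∀ s : Finset (σ ⊕ β), (∃ x : σ, Sum.inl x ∈ s) → (∃ x : β, ¬ Sum.inr x ∈ s) →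
      Sm n (Sob.WS (c := c) σ β γ s) := by
    intro s h1 h2
    have : Nonempty {x : σ // Sum.inl x ∈ s} := ⟨⟨h1.choose, h1.choose_spec⟩⟩
    have : Nonempty {x : β // ¬ Sum.inr x ∈ s} := ⟨⟨h2.choose, h2.choose_spec⟩⟩
    rw [WS_eq]
    exact (Sm.re _ n).comp ((h.MT _ _ _).comp ((Sm.re _ n).comp ((h.MT _ _ _).comp
      (Sm.re _ n))))
  by_cases h1 : ∃ x : σ, Sum.inl x ∈ s
  · by_cases h2 : ∃ x : β, ¬ Sum.inr x ∈ s
    · exact main s h1 h2
    · push Not at h2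
      rw [WS_compl']
      refine main sᶜ ?_ ?_
      · obtain ⟨x, hx⟩ := hs'
        rcases x with x | x
        · exact ⟨x, hx⟩
        · exact absurd (h2 x) (by simpa using hx)
      · exact ⟨Classical.arbitrary β, by simpa using h2 _⟩
  · push Not at h1
    rw [WS_compl']
    refine main sᶜ ⟨Classical.arbitrary σ, by simpa using h1 _⟩ ?_
    obtain ⟨x, hx⟩ := hs
    rcases x with x | x
    · exact absurd hx (h1 x)
    · exact ⟨x, by simpa using hx⟩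

theorem allSm (c : ℕ → ℝ) (n : ℕ) : AllSm c n := by
  induction n with
  | zero => exact ⟨fun ι _ _ => Bd.grad ι, fun ι _ _ => Bd.gradb ι, fun ι _ _ => Bd.div ι,
      fun ι _ _ => Bd.divb ι, fun σ β γ _ _ _ _ _ _ _ _ => Bd.MT σ β γ⟩
  | succ n ih =>
    refine ⟨fun ι _ _ => ⟨Bd.grad ι, ?_⟩, fun ι _ _ => ⟨Bd.gradb ι, ?_⟩,
      fun ι _ _ => ⟨Bd.div ι, ?_⟩, fun ι _ _ => ⟨Bd.divb ι, ?_⟩,
      fun σ β γ _ _ _ _ _ _ _ _ => ⟨Bd.MT σ β γ, ?_⟩⟩
    · rw [ad_grad]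
      refine (Sm.epsop _ n |>.comp ((ih.MT _ _ _).comp (ih.grad ι))).tau.add ?_
      refine (((Sm.epsop _ n).comp ((ih.divb _).comp ((Sm.re _ n).comp ((ih.MT _ _ _).comp
        (ih.grad ι))))).neg).et.add ?_
      refine ((Sm.epsop _ n).comp ((ih.div _).comp ((Sm.re _ n).comp ((ih.MT _ _ _).comp
        (ih.gradb ι))))).et.add ?_
      refine ((ih.MT _ _ _).comp (ih.gradb ι)).et.add ?_
      exact ((Sm.epsop _ n).comp ((Sm.epsop _ n).comp ((ih.MT _ _ _).comp ((ih.MT _ _ _).comp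
        (ih.gradb ι))))).et.tau
    · rw [ad_gradb]
      exact ((ih.MT _ _ _).comp (ih.grad ι)).neg.et
    · rw [ad_div]
      refine ((Sm.epsop _ n).comp ((ih.div _).comp (ih.MT _ _ _))).tau.add ?_
      refine (((Sm.epsop _ n).comp ((ih.div _).comp ((ih.MT _ _ _).comp ((Sm.re _ n).comp
        (ih.gradb _))))).neg).et.add ?_
      refine ((Sm.epsop _ n).comp ((ih.divb _).comp ((ih.MT _ _ _).comp ((Sm.re _ n).comp
        (ih.grad _))))).et.add ?_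
      refine ((ih.divb _).comp (ih.MT _ _ _)).et.add ?_
      exact ((Sm.epsop _ n).comp ((Sm.epsop _ n).comp ((ih.divb _).comp ((ih.MT _ _ _).comp
        (ih.MT _ _ _))))).et.tau
    · rw [ad_divb]
      exact ((ih.div _).comp (ih.MT _ _ _)).neg.et
    · rw [ad_MT]
      refine ((ih.div _).comp ((Sm.re _ n).comp (ih.MT _ _ _))).add ?_
      refine ((ih.MT _ _ _).comp ((Sm.re _ n).comp (ih.grad _))).add ?_
      refine ((Sm.epsop _ n).comp ((ih.divb _).comp ((ih.MT _ _ _).comp ((Sm.re _ n).comp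
        (ih.MT _ _ _))))).et.add ?_
      refine ((Sm.epsop _ n).comp ((ih.MT _ _ _).comp ((Sm.re _ n).comp ((ih.MT _ _ _).comp
        (ih.gradb _))))).et.add ?_
      refine ((Sm.epsop _ n).comp (Sm.sum _ _ fun s hs => ?_)).tau
      rw [mem_filter] at hs
      exact Sm.WS ih s hs.2.1 hs.2.2

end

end Crest.Agent.R285.Sob
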