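import Crest.Agent.R285.SobAd

/-!
Row 285: the commutator of the tensor letters with `X`.
-/

set_option autoImplicit false
set_option linter.unusedSectionVars false
set_option linter.unusedVariables false

open Finset

namespace Crest.Agent.R285.Sob

variable {c : ℕ → ℝ} (S : Sett c)

section

variable {ι κ σ β γ : Type} [Fintype ι] [DecidableEq ι] [Fintype κ] [DecidableEq κ]
  [Fintype σ] [DecidableEq σ] [Fintype β] [DecidableEq β] [Fintype γ] [DecidableEq γ]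

/-- The two-tensor terms in the commutator. -/
def WS (σ β γ : Type) [Fintype σ] [DecidableEq σ] [Fintype β] [DecidableEq β]
    (s : Finset (σ ⊕ β)) : Op c (σ ⊕ γ) (β ⊕ γ) := fun S =>
  { toFun := fun F J => ∑ k : σ → S.N,
      (∑ l, S.T (l ::ₘ s.val.map (Sum.elim k (J ∘ Sum.inl))) *
        S.T (l ::ₘ sᶜ.val.map (Sum.elim k (J ∘ Sum.inl)))) * F (Sum.elim k (J ∘ Sum.inr))
    map_add' := fun F G => by
      funext J
      simp only [Pi.add_apply, mul_add, ← sum_add_distrib]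
    map_smul' := fun r F => by
      funext J
      simp only [Pi.smul_apply, RingHom.id_apply, smul_sum, mul_smul_comm] }

theorem WS_apply (s : Finset (σ ⊕ β)) (F : Fl S (σ ⊕ γ)) (J : β ⊕ γ → S.N) :
    WS σ β γ s S F J = ∑ k : σ → S.N,
      (∑ l, S.T (l ::ₘ s.val.map (Sum.elim k (J ∘ Sum.inl))) *
        S.T (l ::ₘ sᶜ.val.map (Sum.elim k (J ∘ Sum.inl)))) * F (Sum.elim k (J ∘ Sum.inr)) := rfl

theorem WS_compl (s : Finset (σ ⊕ β)) : WS (c := c) σ β γ sᶜ = WS σ β γ s := by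
  funext S
  refine LinearMap.ext fun F => ?_
  funext J
  rw [WS_apply, WS_apply]
  refine sum_congr rfl fun k _ => ?_
  congr 1
  refine sum_congr rfl fun l _ => ?_
  rw [compl_compl, mul_comm]

theorem MTU_apply (F : Fl S (σ ⊕ γ)) (J : β ⊕ γ → S.N) (l : S.N) :
    re (Equiv.sumAssoc Unit β γ) S (MT σ (Unit ⊕ β) γ S F) (Sum.elim (fun _ => l) J) =
    ∑ k : σ → S.N, S.T (l ::ₘ (ml k + ml (J ∘ Sum.inl))) * F (Sum.elim k (J ∘ Sum.inr)) := by
  rw [re_apply, MT_apply]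
  refine sum_congr rfl fun k _ => ?_
  rw [ml_unit_sum, Multiset.add_cons]
  have e2 : (Sum.elim k
      (((Sum.elim (fun _ => l) J : Unit ⊕ (β ⊕ γ) → S.N) ∘ ⇑(Equiv.sumAssoc Unit β γ)) ∘
        Sum.inr) : σ ⊕ γ → S.N) = Sum.elim k (J ∘ Sum.inr) := by
    funext x; rcases x with x | x <;> rfl
  rw [e2]
  rfl

theorem MTUσ_apply (G : Fl S (Unit ⊕ (σ ⊕ γ))) (J : β ⊕ γ → S.N) :
    MT (Unit ⊕ σ) β γ S (re (Equiv.sumAssoc Unit σ γ).symm S G) J =
    ∑ l, ∑ k : σ → S.N, S.T (l ::ₘ (ml k + ml (J ∘ Sum.inl))) *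
      G (Sum.elim (fun _ => l) (Sum.elim k (J ∘ Sum.inr))) := by
  rw [MT_apply, sum_unit_sum_arrow]
  refine sum_congr rfl fun l _ => sum_congr rfl fun k _ => ?_
  rw [ml_unit_sum, Multiset.cons_add, re_apply]
  have e2 : (Sum.elim (Sum.elim (fun _ : Unit => l) k) (J ∘ Sum.inr)) ∘
      ⇑(Equiv.sumAssoc Unit σ γ).symm =
      Sum.elim (fun _ => l) (Sum.elim k (J ∘ Sum.inr)) := by
    funext x; rcases x with x | x | x <;> rfl
  rw [e2]
  rfl

theorem e_T_cons (k l : S.N) (m : Multiset S.N) : S.e k (S.T (l ::ₘ m)) = 0 :=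
  S.e_T _ _ (Multiset.cons_ne_zero)

theorem ad_MT_aux [Nonempty σ] (k : σ → S.N) (Jb : β → S.N) (f : S.A) :
    S.X (S.T (ml k + ml Jb) * f) - S.T (ml k + ml Jb) * S.X f =
      (∑ l, (S.w l * S.T (l ::ₘ (ml k + ml Jb)) - S.d l (S.T (l ::ₘ (ml k + ml Jb))))) * f +
      ((S.et • (S.eps * ∑ k', ∑ l, S.b k' * (S.T {k', l} * S.T (l ::ₘ (ml k + ml Jb))))) * f +
      (S.tau • (S.eps * ∑ s ∈ (univ : Finset (σ ⊕ β)).powerset with s.Nonempty ∧ sᶜ.Nonempty,
        ∑ l, S.T (l ::ₘ s.val.map (Sum.elim k Jb)) *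
        S.T (l ::ₘ sᶜ.val.map (Sum.elim k Jb)))) * f) := by
  have hm : ml k + ml Jb = (univ : Finset (σ ⊕ β)).val.map (Sum.elim k Jb) := by
    rw [← ml_def, ml_sum, Sum.elim_comp_inl, Sum.elim_comp_inr]
  rw [Derivation.leibniz, hm, S.X_T]
  simp only [smul_eq_mul]
  ring

theorem ad_MT [Nonempty σ] : ad (MT (c := c) σ β γ) = fun S =>
    div (β ⊕ γ) S ∘ₗ re (Equiv.sumAssoc Unit β γ) S ∘ₗ MT σ (Unit ⊕ β) γ S +
    (MT (Unit ⊕ σ) β γ S ∘ₗ re (Equiv.sumAssoc Unit σ γ).symm S ∘ₗ grad (σ ⊕ γ) S +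
    (S.et • (epsop _ S ∘ₗ divb (β ⊕ γ) S ∘ₗ MT Unit Unit (β ⊕ γ) S ∘ₗ
      re (Equiv.sumAssoc Unit β γ) S ∘ₗ MT σ (Unit ⊕ β) γ S) +
    (S.et • (epsop _ S ∘ₗ MT (Unit ⊕ σ) β γ S ∘ₗ re (Equiv.sumAssoc Unit σ γ).symm S ∘ₗ
      MT Unit Unit (σ ⊕ γ) S ∘ₗ gradb (σ ⊕ γ) S) +
    S.tau • (epsop _ S ∘ₗ ∑ s ∈ (univ : Finset (σ ⊕ β)).powerset with
      s.Nonempty ∧ sᶜ.Nonempty, WS σ β γ s S)))) := by
  funext S
  refine LinearMap.ext fun F => ?_
  funext J
  rw [ad_apply, MT_apply, MT_apply]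
  simp only [LinearMap.add_apply, LinearMap.smul_apply, LinearMap.neg_apply,
    LinearMap.comp_apply, Pi.add_apply, Pi.smul_apply, Pi.neg_apply, epsop_apply, div_apply,
    divb_apply, MTU_apply, MT_unit_apply, MTUσ_apply, Sum.elim_inl, Sum.elim_comp_inr,
    Xop_apply, grad_apply, gradb_apply, LinearMap.sum_apply, Finset.sum_apply, WS_apply]
  rw [map_sum, ← sum_sub_distrib]
  simp only [ad_MT_aux, sum_add_distrib]
  set Z := (univ : Finset (σ ⊕ β)).powerset.filter (fun s => s.Nonempty ∧ sᶜ.Nonempty) with hZ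
  have A0 : ∀ (f : (σ → S.N) → S.A) (t : S.N → (σ → S.N) → S.A)
      (he : ∀ k' l k, S.e k' (t l k) = 0),
      (∑ k, (∑ l, (S.w l * t l k - S.d l (t l k))) * f k =
      ∑ l, (S.w l * ∑ k, t l k * f k - S.d l (∑ k, t l k * f k)) +
      ∑ l, ∑ k, t l k * S.d l (f k)) ∧
      (∑ k, (S.et • (S.eps * ∑ k', ∑ l, S.b k' * (S.T {k', l} * t l k))) * f k =
      S.et • (S.eps * ∑ k', (S.b k' * (∑ l, S.T {k', l} * ∑ k, t l k * f k) -
        S.e k' (∑ l, S.T {k', l} * ∑ k, t l k * f k))) +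
      S.et • (S.eps * ∑ l, ∑ k, t l k * ∑ k', S.T {l, k'} * S.e k' (f k))) := by
    intro f t he
    constructor
    · rw [← sum_add_distrib]
      simp only [sum_mul]
      rw [sum_comm]
      refine sum_congr rfl fun l _ => ?_
      rw [map_sum, mul_sum, ← sum_sub_distrib, ← sum_add_distrib]
      refine sum_congr rfl fun k _ => ?_
      rw [Derivation.leibniz]
      simp only [smul_eq_mul]
      ring
    · have B1 : ∀ k', S.e k' (∑ l, S.T {k', l} * ∑ k, t l k * f k) =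
          ∑ l, S.T {k', l} * ∑ k, t l k * S.e k' (f k) := by
        intro k'
        rw [map_sum]
        refine sum_congr rfl fun l _ => ?_
        rw [Derivation.leibniz, e_T_pair, map_sum]
        simp only [smul_eq_mul, mul_zero, add_zero]
        congr 1
        refine sum_congr rfl fun k _ => ?_
        rw [Derivation.leibniz, he]
        simp only [smul_eq_mul, mul_zero, add_zero]
      simp only [B1]
      have B2 : ∑ l, ∑ k, t l k * ∑ k', S.T {l, k'} * S.e k' (f k) =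
          ∑ k', ∑ l, S.T {k', l} * ∑ k, t l k * S.e k' (f k) := by
        rw [sum_comm (f := fun k' l => S.T {k', l} * ∑ k, t l k * S.e k' (f k))]
        refine sum_congr rfl fun l _ => ?_
        simp only [mul_sum]
        rw [sum_comm]
        refine sum_congr rfl fun k' _ => sum_congr rfl fun k _ => ?_
        rw [Multiset.pair_comm l k']
        ring
      rw [B2, ← smul_add, ← mul_add, sum_sub_distrib, sub_add_cancel]
      simp only [smul_mul_assoc, mul_assoc, ← smul_sum, ← mul_sum, sum_mul]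
      congr 2
      rw [sum_comm]
      refine sum_congr rfl fun k' _ => ?_
      simp only [mul_sum]
      rw [sum_comm]
  have A3 : ∀ (f : (σ → S.N) → S.A) (q : Finset (σ ⊕ β) → (σ → S.N) → S.A),
      ∑ k, (S.tau • (S.eps * ∑ s ∈ Z, q s k)) * f k =
      S.tau • (S.eps * ∑ s ∈ Z, ∑ k, q s k * f k) := by
    intro f q
    simp only [smul_mul_assoc, mul_assoc, ← smul_sum, ← mul_sum]
    congr 2
    rw [sum_comm]
    refine sum_congr rfl fun k _ => ?_
    rw [sum_mul]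
  obtain ⟨A1, A2⟩ := A0 (fun k => F (Sum.elim k (J ∘ Sum.inr)))
    (fun l k => S.T (l ::ₘ (ml k + ml (J ∘ Sum.inl)))) (fun k' l k => e_T_cons S k' l _)
  rw [A1, A2, A3]
  abel

end

end Crest.Agent.R285.Sob
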