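import Crest.Agent.R285.DrawAvg
import Crest.Agent.R285.Rot

/-!
Row 285 (S0430), module STEP Y, abstract part: from a procedure that draws the semantic output
`v V c Z₀` (given the visible `Z₀ ∼ N(c, s²)`) with the correct masking noise, and the `L¹`
closeness of `v V c (c + s ξ)` to an exact variable, to the contract `Con`.
-/

set_option autoImplicit false
set_option linter.unusedSectionVars false

open MeasureTheory ProbabilityTheory Set Filter
open Crest.OracleSampling (E Admissible)
open scoped NNReal ENNReal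

noncomputable section

namespace Crest.Agent.R285

open Crest.Agent.R285.Comp

variable {d : ℕ} {P X : Type} [PseudoMetricSpace P] [MeasurableSpace P]
  [PseudoMetricSpace X] [MeasurableSpace X] {ι : Type} [Fintype ι] {rc : ℝ} {q : ℕ} {L : ℝ≥0}

/-- A hidden draw with additional noise. -/
theorem GD.hidAdd {s : ℝ} (h0 : 0 ≤ rc) (hs : rc ≤ s) :
    GD (P := P) Unit rc 0 1 (fun (_ : E d → ℝ) c _ => gN c s) (fun _ _ _ => 0) := by
  have hm : Measurable fun z : (P × (Unit → E d)) × E d =>
      z.1.2 () + Real.sqrt (s ^ 2 - rc ^ 2) • z.2 := by fun_prop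
  refine ⟨E d, inferInstance, stdGaussian (E d), inferInstance,
    fun V z => z.1.2 () + Real.sqrt (s ^ 2 - rc ^ 2) • z.2,
    IsQ.const hm, fun V hV => ⟨fun ω => ?_, fun c p => ?_⟩⟩
  · refine LipschitzWith.of_dist_le_mul fun x y => ?_
    rw [NNReal.coe_one, one_mul, Prod.dist_eq, dist_add_right]
    exact le_max_of_le_right (dist_le_pi_dist x.2 y.2 ())
  · have e1 : ((Measure.pi fun _ : Unit => gN c rc).prod (stdGaussian (E d))).map
        (fun y => y.1 () + Real.sqrt (s ^ 2 - rc ^ 2) • y.2) = gN c s := by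
      have e2 : (fun y : (Unit → E d) × E d => y.1 () + Real.sqrt (s ^ 2 - rc ^ 2) • y.2)
          = (fun p : E d × E d => p.1 + Real.sqrt (s ^ 2 - rc ^ 2) • p.2) ∘
            (Prod.map (fun y : Unit → E d => y ()) id) := rfl
      rw [e2, ← Measure.map_map (by fun_prop) (by fun_prop),
        ← Measure.map_prod_map _ _ (by fun_prop) measurable_id, Measure.map_id,
        (measurePreserving_eval (fun _ : Unit => gN c rc) ()).map_eq]
      exact gN_complete c h0 hs
    rw [e1]
    exact DLb.refl _

theorem StepY.integral_norm_le_sqrt {d : ℕ} :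
    ∫ x, ‖x‖ ∂(stdGaussian (E d)) ≤ √(d : ℝ) := by
  have hm1 : MemLp (fun x : E d => x) 1 (stdGaussian (E d)) := by
    have := IsGaussian.memLp_id (stdGaussian (E d)) 1 (by simp)
    exact this
  have hm2 : MemLp (fun x : E d => x) 2 (stdGaussian (E d)) := IsGaussian.memLp_two_id
  have h2 : (∫ x, ‖x‖ ∂(stdGaussian (E d))) ^ 2 ≤ ∫ x, ‖x‖ ^ 2 ∂(stdGaussian (E d)) := by
    have hv := variance_nonneg (fun x : E d => ‖x‖) (stdGaussian (E d))
    rw [variance_eq_sub hm2.norm] at hv
    simp only [Pi.pow_apply] at hv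
    linarith
  rw [integral_norm_sq_stdGaussian] at h2
  rw [show (Module.finrank ℝ (E d) : ℝ) = d by simp] at h2
  exact Real.le_sqrt_of_sq_le h2

theorem StepY.integrable_norm_stdGaussian {d : ℕ} :
    Integrable (fun x => ‖x‖) (stdGaussian (E d)) := by
  have hm1 : MemLp (fun x : E d => x) 1 (stdGaussian (E d)) := by
    have := IsGaussian.memLp_id (stdGaussian (E d)) 1 (by simp)
    exact this
  exact (memLp_one_iff_integrable.1 hm1).norm

/-- **STEP Y, abstract form.** -/
theorem stepY_core {s r : ℝ} (hs : 0 < s) (hs1 : s ≤ 1)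
    {v : (E d → ℝ) → E d → E d → E d}
    (hv : ∀ V, Admissible d V → ∀ c, Measurable (v V c))
    {D₁ δ : ℝ} (hD₁ : 0 ≤ D₁)
    (hD : GD (P := Unit × E d) ι (s / 4) q L (fun V c p => gN (v V c p.2) r)
      (fun _ c p => D₁ * (√(d : ℝ) + ‖c‖ + ‖p.2‖)))
    {T : (E d → ℝ) → E d → Measure (E d)}
    (hY : ∀ V, Admissible d V → ∀ c, ∃ Y : E d → E d, Measurable Y ∧
      ((stdGaussian (E d)).prod (stdGaussian (E d))).map (fun w => Y w.1 + r • w.2) = T V c ∧
      Integrable (fun ξ => ‖v V c (c + s • ξ) - Y ξ‖) (stdGaussian (E d)) ∧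
      ∫ ξ, ‖v V c (c + s • ξ) - Y ξ‖ ∂(stdGaussian (E d)) ≤ δ * (√(d : ℝ) + ‖c‖)) :
    Con (s / 4) (1 + Fintype.card ι) q L T (2 * D₁ + δ) := by
  have h₁ : GD (P := Unit) (d := d) Unit (s / 4) 0 1 (fun (_ : E d → ℝ) c _ => gN c s)
      (fun _ _ _ => 0) := GD.hidAdd (by positivity) (by linarith)
  -- the exact law of the output with exact `Z₀`
  let T' : (E d → ℝ) → E d → Unit → Measure (E d) := fun V c _ =>
    ((gN c s).prod (stdGaussian (E d))).map (fun w => v V c w.1 + r • w.2)
  have key : ∀ V, Admissible d V → ∀ c (p : Unit), ∀ φ : E d → ℝ, LipschitzWith 1 φ →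
      (∃ M, ∀ y, |φ y| ≤ M) →
      Integrable (fun x => ∫ y, φ y ∂(gN (v V c ((p, x) : Unit × E d).2) r)) (gN c s) ∧
      ∫ x, (∫ y, φ y ∂(gN (v V c ((p, x) : Unit × E d).2) r)) ∂(gN c s)
        = ∫ y, φ y ∂(T' V c p) := by
    intro V hV c p φ hφ hb
    obtain ⟨M, hM⟩ := hb
    have hφm := hφ.continuous.measurable
    have hvm := hv V hV c
    have hF : Measurable fun w : E d × E d => v V c w.1 + r • w.2 := by fun_prop
    have hi0 : Integrable (fun w : E d × E d => φ (v V c w.1 + r • w.2))
        ((gN c s).prod (stdGaussian (E d))) :=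
      Integrable.mono' (integrable_const M) (hφm.comp hF).aestronglyMeasurable
        (Eventually.of_forall fun x => by simpa using hM _)
    have e1 : ∀ x, ∫ y, φ y ∂(gN (v V c x) r) = ∫ g, φ (v V c x + r • g) ∂(stdGaussian (E d)) := by
      intro x
      rw [gN, integral_map (measurable_aff _ _).aemeasurable hφm.aestronglyMeasurable]
    simp only [e1]
    refine ⟨hi0.integral_prod_left, ?_⟩
    rw [integral_map hF.aemeasurable hφm.aestronglyMeasurable, integral_prod _ hi0]
  have hint : ∀ (c : E d), Integrable (fun x : E d => ‖x‖) (gN c s) := by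
    intro c
    have hm : Measurable fun g : E d => c + s • g := measurable_aff c s
    rw [gN, integrable_map_measure (continuous_norm.aestronglyMeasurable) hm.aemeasurable]
    refine Integrable.mono' ((integrable_const ‖c‖).add ((StepY.integrable_norm_stdGaussian).const_mul |s|))
      ((continuous_norm.measurable.comp hm).aestronglyMeasurable) (Eventually.of_forall fun g => ?_)
    simp only [Function.comp_apply, norm_norm, Pi.add_apply]
    refine (norm_add_le _ _).trans ?_
    rw [norm_smul, Real.norm_eq_abs]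
  have hint2 : ∀ c : E d, ∫ x, ‖x‖ ∂(gN c s) ≤ ‖c‖ + √(d : ℝ) := by
    intro c
    have hm : Measurable fun g : E d => c + s • g := measurable_aff c s
    rw [gN, integral_map hm.aemeasurable continuous_norm.aestronglyMeasurable]
    have h3 : ∀ g : E d, ‖c + s • g‖ ≤ ‖c‖ + ‖g‖ := fun g => by
      refine (norm_add_le _ _).trans ?_
      rw [norm_smul, Real.norm_eq_abs, abs_of_pos hs]
      nlinarith [norm_nonneg g]
    have hi2 : Integrable (fun g : E d => ‖c‖ + ‖g‖) (stdGaussian (E d)) :=
      (integrable_const ‖c‖).add StepY.integrable_norm_stdGaussian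
    have h4 : ∫ g, ‖c + s • g‖ ∂(stdGaussian (E d)) ≤ ∫ g, (‖c‖ + ‖g‖) ∂(stdGaussian (E d)) := by
      refine integral_mono_of_nonneg (Eventually.of_forall fun g => norm_nonneg _) hi2
        (Eventually.of_forall h3)
    refine h4.trans ?_
    rw [integral_add (integrable_const _) StepY.integrable_norm_stdGaussian, integral_const]
    simp only [probReal_univ, one_smul]
    linarith [StepY.integral_norm_le_sqrt (d := d)]
  have h₂ := GD.seq (hT₁ := fun V _ c _ => (inferInstance : IsProbabilityMeasure (gN c s))) h₁ hD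
    (T := T') (e := fun _ c _ => 2 * D₁ * (√(d : ℝ) + ‖c‖)) key
    (fun V hV c p => by
      have hi : Integrable (fun x : E d => D₁ * (√(d : ℝ) + ‖c‖ + ‖x‖)) (gN c s) :=
        ((integrable_const _).add (hint c)).const_mul _
      refine ⟨hi, ?_⟩
      rw [integral_const_mul, integral_add (integrable_const _) (hint c), integral_const]
      simp only [probReal_univ, one_smul]
      nlinarith [hint2 c, Real.sqrt_nonneg (d : ℝ), norm_nonneg c])
  -- retarget
  have h₃ := h₂.retarget (T' := fun V c _ => T V c) (err' := fun _ c _ => δ * (√(d : ℝ) + ‖c‖))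
    (fun V hV c p => by
      obtain ⟨Y, hYm, hYT, hYi, hYe⟩ := hY V hV c
      have hvm := hv V hV c
      have e1 : T' V c p = ((stdGaussian (E d)).prod (stdGaussian (E d))).map
          (fun w => v V c (c + s • w.1) + r • w.2) := by
        have e2 : (gN c s).prod (stdGaussian (E d))
            = ((stdGaussian (E d)).prod (stdGaussian (E d))).map
              (Prod.map (fun g => c + s • g) id) := by
          rw [← Measure.map_prod_map _ _ (measurable_aff c s) measurable_id, Measure.map_id]
          rfl
        change ((gN c s).prod (stdGaussian (E d))).map (fun w => v V c w.1 + r • w.2) = _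
        rw [e2, Measure.map_map (by fun_prop) (by fun_prop)]
        rfl
      rw [e1, ← hYT]
      have hfst : (((stdGaussian (E d)).prod (stdGaussian (E d))).map Prod.fst)
          = stdGaussian (E d) := by
        rw [Measure.map_fst_prod]; simp
      have hd : ∀ w : E d × E d, dist (v V c (c + s • w.1) + r • w.2) (Y w.1 + r • w.2)
          = ‖v V c (c + s • w.1) - Y w.1‖ := fun w => by rw [dist_add_right, dist_eq_norm]
      have hmm : Measurable fun ξ : E d => ‖v V c (c + s • ξ) - Y ξ‖ := by fun_prop
      refine DLb.of_coupling (by fun_prop) (by fun_prop) ?_ ?_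
      · simp only [hd]
        have := hYi
        rw [← hfst] at this
        exact (integrable_map_measure hmm.aestronglyMeasurable
          measurable_fst.aemeasurable).1 this
      · simp only [hd]
        have e3 : ∫ w : E d × E d, ‖v V c (c + s • w.1) - Y w.1‖
            ∂((stdGaussian (E d)).prod (stdGaussian (E d)))
            = ∫ ξ, ‖v V c (c + s • ξ) - Y ξ‖ ∂(stdGaussian (E d)) := by
          conv_rhs => rw [← hfst]
          rw [integral_map measurable_fst.aemeasurable hmm.aestronglyMeasurable]
        rw [e3]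
        exact hYe)
  refine GD.toCon (h₃.mono (q' := q) (L' := L) (by simp) (by simp) (fun _ _ _ _ => le_rfl))
    (le_of_eq (by simp [Fintype.card_sum])) () (fun V hV c => ?_)
  have : (L : ℝ) * 0 + 2 * D₁ * (√(d : ℝ) + ‖c‖) + δ * (√(d : ℝ) + ‖c‖)
      = (2 * D₁ + δ) * (√(d : ℝ) + ‖c‖) := by ring
  exact this.le

end Crest.Agent.R285
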