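import Crest.Agent.R285.GlueSem
import Crest.Agent.R285.StepS
import Crest.Agent.R285.QDraw
import Crest.Agent.R285.StepYCore
import Crest.Agent.R285.YSem

/-!
Row 285 (S0430), module STEP Q, fixed dimension: abstract flat system with three visible vectors
`![y₁, X₁, q]`.
-/

set_option autoImplicit false
set_option linter.unusedSectionVars false

open MeasureTheory ProbabilityTheory Set Filter
open Crest.OracleSampling (E Admissible)
open scoped NNReal ENNReal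

noncomputable section

namespace Crest.Agent.R285.StepQ

open Crest.Agent.R285 Crest.Agent.R285.Rec

variable {d : ℕ}

theorem measurable_WtW {Pt : Type} [Fintype Pt] {ω : Pt → ℝ} (c : E d) :
    Measurable fun p : Pt → E d => WtW ω c p := by
  unfold WtW
  fun_prop

theorem integral_norm_aff_le (a : E d) (σ : ℝ) (hσ : 0 ≤ σ) :
    Integrable (fun g => ‖a + σ • g‖) (stdGaussian (E d)) ∧
      ∫ g, ‖a + σ • g‖ ∂(stdGaussian (E d)) ≤ ‖a‖ + σ * √(d : ℝ) := by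
  have h0 : Integrable (fun g : E d => ‖a‖ + σ * ‖g‖) (stdGaussian (E d)) :=
    (integrable_const _).add (StepY.integrable_norm_stdGaussian.const_mul σ)
  have hb : ∀ g : E d, ‖a + σ • g‖ ≤ ‖a‖ + σ * ‖g‖ := fun g => by
    refine (norm_add_le _ _).trans ?_
    rw [norm_smul, Real.norm_of_nonneg hσ]
  have hi : Integrable (fun g => ‖a + σ • g‖) (stdGaussian (E d)) := by
    refine Integrable.mono' h0 (by fun_prop) (Eventually.of_forall fun g => ?_)
    rw [norm_norm]; exact hb g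
  refine ⟨hi, ?_⟩
  calc ∫ g, ‖a + σ • g‖ ∂(stdGaussian (E d)) ≤ ∫ g, (‖a‖ + σ * ‖g‖) ∂(stdGaussian (E d)) :=
        integral_mono hi h0 hb
    _ = ‖a‖ + σ * ∫ g, ‖g‖ ∂(stdGaussian (E d)) := by
        rw [integral_add (integrable_const _) (StepY.integrable_norm_stdGaussian.const_mul σ),
          integral_const, integral_const_mul]
        simp
    _ ≤ _ := by
        have := StepY.integral_norm_le_sqrt (d := d)
        gcongr

theorem norm_ww_le {ω₁ : ℝ} (h : 0 ≤ ω₁) (a b c : E d) :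
    ‖fun k => QPar.ww ω₁ k • (![a, b, c] : Fin 3 → E d) k‖ ≤ ‖a‖ + ω₁ * ‖b‖ + ‖c‖ := by
  have ha := norm_nonneg a
  have hb := mul_nonneg h (norm_nonneg b)
  have hc := norm_nonneg c
  rw [pi_norm_le_iff_of_nonneg (by positivity)]
  intro k
  fin_cases k
  · simp only [QPar.ww]
    change ‖(1 : ℝ) • a‖ ≤ _
    rw [one_smul]; linarith
  · simp only [QPar.ww]
    change ‖ω₁ • b‖ ≤ _
    rw [norm_smul, Real.norm_of_nonneg h]; linarith
  · simp only [QPar.ww]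
    change ‖(1 : ℝ) • c‖ ≤ _
    rw [one_smul]; linarith

/-- First moment of the visible data, with weights. -/
theorem integral_WtW_PX {V : E d → ℝ} (hV : Admissible d V) (c : E d) {s κ σb ω₁ : ℝ} (hs : 0 < s)
    (hs2 : s ≤ 1 / 2) (hκ : 0 < κ) (hκ1 : κ ≤ 1) (hσb : 0 ≤ σb) (hω : 0 ≤ ω₁) (hω1 : ω₁ ≤ 1)
    (hωσ : ω₁ * σb ≤ 1) :
    Integrable (fun p => WtW (QPar.ww ω₁) c p) (PX (TY s κ) (fun V => G V (s * κ)) σb V c) ∧
      ∫ p, WtW (QPar.ww ω₁) c p ∂(PX (TY s κ) (fun V => G V (s * κ)) σb V c) ≤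
        22 * (√(d : ℝ) + ‖c‖) := by
  obtain ⟨hp, hi, hK⟩ := TY_facts hV c hs hs2 hκ.le hκ1
  let γ : Measure (E d) := stdGaussian (E d)
  have hsκ : 0 < s * κ := mul_pos hs hκ
  have hsκ1 : s * κ ≤ 1 / 2 := by nlinarith
  have hG : Continuous (G V (s * κ)) := by
    have hU : PotP 2 V := ⟨Pot.of_admissible hV, by norm_num⟩
    exact (LipschitzWith.of_dist_le_mul (K := 2) fun x y => by
      rw [dist_eq_norm, dist_eq_norm]; exact_mod_cast gr_lip hU (s * κ) x y).continuous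
  have hmP : Measurable fun z : E d × (E d × E d) =>
      (![z.1, G V (s * κ) z.1 + σb • z.2.1, z.2.2] : Fin 3 → E d) := by
    have := hG.measurable
    exact measurable_vec3 (by fun_prop) (by fun_prop) (by fun_prop)
  have hγi : Integrable (fun g : E d => ‖g‖) γ := StepY.integrable_norm_stdGaussian
  have hγ := StepY.integral_norm_le_sqrt (d := d)
  -- the dominating function
  let F : E d × (E d × E d) → ℝ := fun z =>
    (√(d : ℝ) + ‖c‖) + ((‖z.1‖ + 4 * (√(d : ℝ) + ‖z.1‖)) + (‖z.2.1‖ + ‖z.2.2‖))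
  have hF1 : Integrable (fun z : E d × (E d × E d) => ‖z.1‖ + 4 * (√(d : ℝ) + ‖z.1‖))
      ((TY s κ V c).prod (γ.prod γ)) := by
    have h1 : Integrable (fun y : E d => ‖y‖ + 4 * (√(d : ℝ) + ‖y‖)) (TY s κ V c) :=
      hi.add (((integrable_const _).add hi).const_mul 4)
    exact h1.comp_fst _
  have hF2 : Integrable (fun z : E d × (E d × E d) => ‖z.2.1‖ + ‖z.2.2‖)
      ((TY s κ V c).prod (γ.prod γ)) := by
    have h1 : Integrable (fun w : E d × E d => ‖w.1‖ + ‖w.2‖) (γ.prod γ) :=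
      (hγi.comp_fst _).add (hγi.comp_snd _)
    exact h1.comp_snd _
  have hF : Integrable F ((TY s κ V c).prod (γ.prod γ)) :=
    (integrable_const _).add (hF1.add hF2)
  have hb : ∀ z : E d × (E d × E d),
      WtW (QPar.ww ω₁) c (![z.1, G V (s * κ) z.1 + σb • z.2.1, z.2.2] : Fin 3 → E d) ≤ F z := by
    intro z
    have h1 := norm_ww_le hω z.1 (G V (s * κ) z.1 + σb • z.2.1) z.2.2
    have h2 : ω₁ * ‖G V (s * κ) z.1 + σb • z.2.1‖ ≤ 4 * (√(d : ℝ) + ‖z.1‖) + ‖z.2.1‖ := by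
      have h3 : ‖G V (s * κ) z.1 + σb • z.2.1‖ ≤ 4 * (√(d : ℝ) + ‖z.1‖) + σb * ‖z.2.1‖ := by
        refine (norm_add_le _ _).trans (add_le_add (adm_norm_G hV _ hsκ hsκ1) ?_)
        rw [norm_smul, Real.norm_of_nonneg hσb]
      calc ω₁ * ‖G V (s * κ) z.1 + σb • z.2.1‖
          ≤ ω₁ * (4 * (√(d : ℝ) + ‖z.1‖) + σb * ‖z.2.1‖) := mul_le_mul_of_nonneg_left h3 hω
        _ = ω₁ * (4 * (√(d : ℝ) + ‖z.1‖)) + (ω₁ * σb) * ‖z.2.1‖ := by ring
        _ ≤ 1 * (4 * (√(d : ℝ) + ‖z.1‖)) + 1 * ‖z.2.1‖ := by gcongr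
        _ = _ := by ring
    unfold WtW
    simp only [F]
    linarith
  have hmW := measurable_WtW (d := d) (ω := QPar.ww ω₁) c
  have hW0 : ∀ p : Fin 3 → E d, 0 ≤ WtW (QPar.ww ω₁) c p := fun p => WtW_nonneg c p
  have hI : Integrable (fun z : E d × (E d × E d) =>
      WtW (QPar.ww ω₁) c (![z.1, G V (s * κ) z.1 + σb • z.2.1, z.2.2] : Fin 3 → E d))
      ((TY s κ V c).prod (γ.prod γ)) := by
    refine Integrable.mono' hF (hmW.comp hmP).aestronglyMeasurable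
      (Eventually.of_forall fun z => ?_)
    rw [Real.norm_of_nonneg (hW0 _)]
    exact hb z
  unfold PX
  refine ⟨(integrable_map_measure hmW.aestronglyMeasurable hmP.aemeasurable).2 hI, ?_⟩
  rw [integral_map hmP.aemeasurable hmW.aestronglyMeasurable]
  refine (integral_mono hI hF hb).trans ?_
  have e1 : ∫ z, F z ∂((TY s κ V c).prod (γ.prod γ)) =
      (√(d : ℝ) + ‖c‖) + ((∫ y, ‖y‖ ∂(TY s κ V c) + 4 * (√(d : ℝ) + ∫ y, ‖y‖ ∂(TY s κ V c)))
        + (∫ g, ‖g‖ ∂γ + ∫ g, ‖g‖ ∂γ)) := by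
    have a1 : ∫ z : E d × (E d × E d), (‖z.1‖ + 4 * (√(d : ℝ) + ‖z.1‖))
        ∂((TY s κ V c).prod (γ.prod γ)) =
        ∫ y, ‖y‖ ∂(TY s κ V c) + 4 * (√(d : ℝ) + ∫ y, ‖y‖ ∂(TY s κ V c)) := by
      have b1 : Integrable (fun y : E d => 4 * (√(d : ℝ) + ‖y‖)) (TY s κ V c) :=
        ((integrable_const _).add hi).const_mul 4
      rw [integral_fun_fst (f := fun y : E d => ‖y‖ + 4 * (√(d : ℝ) + ‖y‖)), probReal_univ, one_smul,
        integral_add hi b1, integral_const_mul,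
        integral_add (integrable_const _) hi, integral_const]
      simp
    have a2 : ∫ z : E d × (E d × E d), (‖z.2.1‖ + ‖z.2.2‖)
        ∂((TY s κ V c).prod (γ.prod γ)) = ∫ g, ‖g‖ ∂γ + ∫ g, ‖g‖ ∂γ := by
      rw [integral_fun_snd (f := fun w : E d × E d => ‖w.1‖ + ‖w.2‖), probReal_univ, one_smul,
        integral_add (hγi.comp_fst _) (hγi.comp_snd _),
        integral_fun_fst (f := fun y : E d => ‖y‖), integral_fun_snd (f := fun y : E d => ‖y‖),
        probReal_univ, one_smul]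
    have b2 : Integrable (fun z : E d × (E d × E d) => (‖z.1‖ + 4 * (√(d : ℝ) + ‖z.1‖)) +
        (‖z.2.1‖ + ‖z.2.2‖)) ((TY s κ V c).prod (γ.prod γ)) := hF1.add hF2
    simp only [F]
    rw [integral_add (integrable_const _) b2, integral_const, probReal_univ, one_smul,
      integral_add hF1 hF2, a1, a2]
  rw [e1]
  have h5 := Real.sqrt_nonneg (d : ℝ)
  have h6 := norm_nonneg c
  have h7 : ∫ g, ‖g‖ ∂γ ≤ √(d : ℝ) := hγ
  linarith

/-- start parameter of the sweeps -/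
def th (σb : ℝ) : ℝ := if σb ≤ 1 then 1 else 0

/-- weight of the visible vector `X₁` -/
def wt (σb : ℝ) : ℝ := if σb ≤ 1 then 1 else σb⁻¹

theorem th_abs (σb : ℝ) : |th σb| ≤ 1 := by
  unfold th; split_ifs <;> simp

theorem th_wt (σb : ℝ) : th σb = 0 ∨ wt σb = 1 := by
  unfold th wt; split_ifs <;> simp

theorem wt_pos {σb : ℝ} (h : 0 < σb) : 0 < wt σb := by
  unfold wt; split_ifs
  · exact one_pos
  · exact inv_pos.2 h

theorem wt_le_one (σb : ℝ) : wt σb ≤ 1 := by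
  unfold wt; split_ifs with h
  · exact le_rfl
  · exact inv_le_one_of_one_le₀ (by linarith)

theorem wt_mul_le {σb : ℝ} (h : 0 < σb) : wt σb * σb ≤ 1 := by
  unfold wt; split_ifs with h1
  · rwa [one_mul]
  · rw [inv_mul_cancel₀ h.ne']

theorem le_wt {s σb : ℝ} (hs1 : s ≤ 1) (h : 0 < σb) (h1 : s / σb ≤ 1) : s / σb ≤ wt σb := by
  unfold wt; split_ifs with h2
  · exact h1
  · rw [div_eq_mul_inv]
    exact mul_le_of_le_one_left (inv_nonneg.2 h.le) hs1

/-- The parameters of the Q-system. -/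
def qp (n M : ℕ) (s σb κ t0 a0 : ℝ) : QPar := ⟨n, M, √(1 - κ ^ 2), t0, a0, s * σb⟩

theorem qp_k1 {n M : ℕ} {s σb κ t0 a0 : ℝ} (hκ : 0 < κ) (hκ1 : κ ≤ 1) :
    (qp n M s σb κ t0 a0).k1 = κ := by
  unfold QPar.k1 qp
  rw [Real.sq_sqrt (by nlinarith), show 1 - (1 - κ ^ 2) = κ ^ 2 by ring, Real.sqrt_sq hκ.le]

theorem qp_ok {n M : ℕ} {s σb κ t0 a0 : ℝ} (hM : 0 < M) (hs : 0 < s) (hσb : 0 < σb) (hκ : 0 < κ)
    (hκ1 : κ < 1) (ht0 : 0 < t0) (ht1 : t0 ≤ 1 / 2) (hat : 1 ≤ a0 * t0) :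
    (qp n M s σb κ t0 a0).Ok where
  M0 := hM
  e0 := Real.sqrt_pos.2 (by nlinarith)
  e1 := by
    change √(1 - κ ^ 2) < 1
    rw [Real.sqrt_lt' one_pos]
    nlinarith
  t0 := ht0
  t1 := ht1
  at1 := hat
  ρ0 := mul_pos hs hσb

/-- **STEP Q, fixed dimension**, all numbers explicit.  `σb = σ / √2` is both the noise of `X₁` and
the mask of the output. -/
theorem fixed {n M K B : ℕ} {s σ σb κ t0 a0 σin σo D' D'' DX DY bo δ : ℝ}
    {N' q' NY qY NX qX : ℕ} {L' LY LX To : ℝ≥0}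
    (hs : 0 < s) (hs1 : s ≤ 1 / 2) (hσb : 0 < σb) (hσ : 0 ≤ σ) (hσσ : σb ^ 2 + σb ^ 2 = σ ^ 2)
    (hκ : 0 < κ) (hκ1 : κ ≤ 1 / 2) (hM : 0 < M) (ht0 : 0 < t0) (ht1 : t0 ≤ 1 / 2)
    (hat : 1 ≤ a0 * t0)
    (hb : QPar.cN n * (s ^ 2 + a0 * s / (σb * κ)) ≤ 1)
    (hσin : 0 ≤ σin) (hin : σin * (QPar.cN n * (s + a0 / (σb * κ))) ≤ κ / 16)
    (hσo : 0 ≤ σo) (hr : QPar.cO n / (a0 * t0 * κ) * σo ≤ σb)
    (hN' : 1 ≤ N') (hD' : 0 ≤ D') (hD'' : 0 ≤ D'') (hDX : 0 ≤ DX)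
    (conin : ∀ r, 3 / 4 * κ * s ≤ r → r ≤ s →
      Con (d := d) (r / 4) N' q' L' (fun V c => gN (G V r c) σin) D')
    (conout : ∀ r, 3 / 4 * κ * s ≤ r → r ≤ s →
      Con (d := d) (r / 4) N' q' L' (fun V c => gN (G V r c) σo) D'')
    (conY : Con (d := d) (s / 4) NY qY LY (TY s κ) DY)
    (conX : Con (d := d) (s * κ / 4) NX qX LX (fun V c => gN (G V (s * κ) c) σb) DX)
    (hB : 1 + (K + 1) * (M * (n + 1) * (1 + (2 * n + 5) * (n + 2))) ≤ B)
    (hbo : QPar.cO n / (a0 * t0 * κ) ≤ bo) (hTo : 1 + bo ≤ To)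
    (hsem : ∀ V : E d → ℝ, Admissible d V → ∀ c : E d,
      ∃ (Ξ : Type) (_ : MeasurableSpace Ξ) (P : Measure Ξ) (_ : IsProbabilityMeasure P)
        (p : Ξ → Fin 3 → E d) (X₀ : Ξ → E d), Measurable p ∧ Measurable X₀ ∧
      P.map p = PX (TY s κ) (fun V => G V (s * κ)) σb V c ∧ P.map X₀ = gN (G V s c) σb ∧
      Integrable (fun ω => ‖((qp n M s σb κ t0 a0).osys s).outF (G V) c (p ω)
        (fun _ => th σb • p ω 1) (K + 1) - X₀ ω‖) P ∧
      ∫ ω, ‖((qp n M s σb κ t0 a0).osys s).outF (G V) c (p ω)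
        (fun _ => th σb • p ω 1) (K + 1) - X₀ ω‖ ∂P ≤ δ * (√(d : ℝ) + ‖c‖)) :
    Con (d := d) (s / 4) (NY + 4 * (B * (N' * B) ^ (K + 1)))
      (qY + (qX + B * (q' * (N' * B) ^ (K + 1))))
      (To * (1 + (2 * (L' + 1) * 4) ^ (K + 1)) * max 1 (max LY (LX * LY)))
      (fun V c => gN (G V s c) σ)
      (To * (1 + (2 * (L' + 1) * 4) ^ (K + 1)) * max 1 LX * DY
        + To * (1 + (2 * (L' + 1) * 4) ^ (K + 1)) * DX * 4
        + 22 * (bo * (N' * L' * (QPar.cN n * (s ^ 2 + a0 * s / (σb * κ)) * (D' * QQ 4 4 L' N' ^ K))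
          + D'' * (2 * 4 * (2 * 4 * 4) ^ K))) + δ) := by
  set Q := qp n M s σb κ t0 a0 with hQ
  have hok : Q.Ok := qp_ok hM hs hσb hκ (by linarith) ht0 ht1 hat
  have hk1 : Q.k1 = κ := qp_k1 hκ (by linarith)
  have hbq : Q.bq s σb = QPar.cN n * (s ^ 2 + a0 * s / (σb * κ)) := by
    unfold QPar.bq; rw [hk1]; rfl
  have hri : ∀ i : QI Q.n Q.M, 3 / 4 * κ * s ≤ s * Q.sys.r i ∧ s * Q.sys.r i ≤ s := fun i => by
    have h1 := hok.r_ge i
    have h2 := hok.r_le i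
    rw [hk1] at h1
    constructor
    · calc 3 / 4 * κ * s = s * (3 / 4 * κ) := by ring
        _ ≤ _ := mul_le_mul_of_nonneg_left h1 hs.le
    · calc s * Q.sys.r i ≤ s * 1 := mul_le_mul_of_nonneg_left h2 hs.le
        _ = s := mul_one s
  have hri0 : ∀ i : QI Q.n Q.M, 0 < s * Q.sys.r i := fun i => mul_pos hs (hok.r_pos i)
  have hdraw := hok.drawU (d := d) (s := s) (σb := σb) (σin := σin) (σo := σo) (r := σb) (D' := D')
    (D'' := D'') (Λ := 4) (w := wt σb) (θ := th σb) (N' := N') (q' := q') (L' := L') hs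
    (by linarith) hσb rfl (by rw [hbq]; exact hb) hσin (by rw [hk1]; exact hin) hN' hD'
    (by norm_num) (wt_pos hσb)
    (le_wt (by linarith) hσb (hok.s_div_le hs hσb (by rw [hbq]; exact hb))) (th_abs σb) (th_wt σb)
    (fun V hV i x => adm_norm_G hV x (hri0 i) ((hri i).2.trans hs1))
    (fun i => conin _ (hri i).1 (hri i).2) hσo hD'' (by rw [hk1]; exact hr)
    (fun i => conout _ (hri i).1 (hri i).2) K (B := B) hB (bo := bo)
    (by rw [hk1]; exact hbo) (To := To) hTo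
  have hcont : ∀ V : E d → ℝ, Admissible d V → ∀ r : ℝ, Continuous (G V r) := fun V hV r => by
    have hU : PotP 2 V := ⟨Pot.of_admissible hV, by norm_num⟩
    exact (LipschitzWith.of_dist_le_mul (K := 2) fun x y => by
      rw [dist_eq_norm, dist_eq_norm]; exact_mod_cast gr_lip hU r x y).continuous
  have hvm : ∀ V : E d → ℝ, Admissible d V → ∀ c : E d, Measurable fun p : Fin 3 → E d =>
      ((Q.osys s).unroll (th σb) 1 K).outv (G V) c p (K + 1) := fun V hV c =>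
    (YSys.continuous_outv _ (hcont V hV) (fun k => by fun_prop) _).measurable
  have hE0 : 0 ≤ bo * (N' * L' * (Q.bq s σb * (D' * QQ 4 4 L' N' ^ K))
      + D'' * (2 * 4 * (2 * 4 * 4) ^ K)) := by
    have h0 : 0 ≤ bo := by
      refine le_trans ?_ hbo
      have := QPar.cO_nonneg n
      have : 0 < a0 := by
        by_contra hc; push Not at hc; nlinarith
      positivity
    have h1 : 0 ≤ QQ 4 4 L' N' := by unfold QQ; positivity
    have h2 := hok.bq_nonneg hs hσb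
    positivity
  have key := Con.qstep (σ := σ) (K := 3) (Gout := fun V c => G V s c) (δ := δ)
    (Derr := 22 * (bo * (N' * L' * (Q.bq s σb * (D' * QQ 4 4 L' N' ^ K))
      + D'' * (2 * 4 * (2 * 4 * 4) ^ K)))) conY conX hDX hdraw
    (fun V hV c => TY_facts hV c hs hs1 hκ.le (by linarith))
    (fun V hV => (hcont V hV _).measurable) hvm
    (fun V hV c => by
      have h1 := integral_WtW_PX hV c hs hs1 hκ (by linarith : κ ≤ 1) hσb.le (wt_pos hσb).le
        (wt_le_one σb) (wt_mul_le hσb)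
      refine ⟨h1.1.const_mul _, ?_⟩
      rw [integral_const_mul]
      calc _ ≤ bo * (N' * L' * (Q.bq s σb * (D' * QQ 4 4 L' N' ^ K))
            + D'' * (2 * 4 * (2 * 4 * 4) ^ K)) * (22 * (√(d : ℝ) + ‖c‖)) :=
            mul_le_mul_of_nonneg_left h1.2 hE0
        _ = _ := by ring)
    (fun V hV c => by
      obtain ⟨Ξ, _, P, _, p, X₀, hp, hX₀, hlp, hlX, hi, he⟩ := hsem V hV c
      have e1 : ∀ ω, ((Q.osys s).unroll (th σb) 1 K).outv (G V) c (p ω) (K + 1) =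
          (Q.osys s).outF (G V) c (p ω) (fun _ => th σb • p ω 1) (K + 1) := fun ω =>
        FlatSys.outv_unroll _ _ _ _ _ _ _
      refine hsem_of_coupling hp hX₀ (hvm V hV c) hlp hlX hσb.le hσb.le hσ hσσ ?_ ?_
      · simp only [e1]; exact hi
      · simp only [e1]; exact he)
  rw [hbq] at key
  have e4 : (4 : ℝ) = 1 + 3 := by norm_num
  refine Exists.elim key fun Ω hΩ => ?_
  have h3' : Con (d := d) (s / 4) _ _ _ _ _ := ⟨Ω, hΩ⟩
  refine cast ?_ h3'
  congr 1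
  push_cast
  ring

end Crest.Agent.R285.StepQ
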