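import Crest.Agent.R285.StepQFix
import Crest.Agent.R285.SemQDef

/-!
Row 285 (S0430), module STEP Q, fixed dimension, with the semantic statement SEM_Q plugged in.
-/

set_option autoImplicit false
set_option linter.unusedSectionVars false

open MeasureTheory ProbabilityTheory Set Filter
open Crest.OracleSampling (E Admissible)
open scoped NNReal ENNReal

noncomputable section

namespace Crest.Agent.R285.StepQ

open Crest.Agent.R285 Crest.Agent.R285.Rec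

/-- The body of `SEMQ` for the order `n` with the constants `C`, `P`. -/
def SemQn (n : ℕ) (C : ℝ) (P : ℕ) : Prop :=
  ∀ (d : ℕ) (V : E d → ℝ), Admissible d V →
    ∀ (s σ κ t0 a0 : ℝ), 0 < s → 0 < σ → 0 < κ → κ ≤ 1 / 2 → 0 < t0 → t0 ≤ 1 / 2 → 1 ≤ a0 * t0 →
    C * (s ^ 2 + a0 * s / (σ * κ)) ≤ 1 → ∀ (c : E d) (M : ℕ), 0 < M → ∀ K : ℕ,
    ∃ (p : (E d × E d) × E d → Fin 3 → E d) (X₀ : (E d × E d) × E d → E d),
      Measurable p ∧ Measurable X₀ ∧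
      (gam3 (E d)).map p = Rec.PX (TY s κ) (fun V => G V (s * κ)) σ V c ∧
      (gam3 (E d)).map X₀ = gN (G V s c) σ ∧
      Integrable (fun ω => ‖qout (qpar n M s σ κ t0 a0) s (qth σ) K V c (p ω) - X₀ ω‖)
        (gam3 (E d)) ∧
      ∫ ω, ‖qout (qpar n M s σ κ t0 a0) s (qth σ) K V c (p ω) - X₀ ω‖ ∂(gam3 (E d)) ≤
        σ * (C * a0 * M * (κ ^ P)⁻¹ * ((C * (s ^ 2 + a0 * s / (σ * κ))) ^ K +
          (M : ℝ)⁻¹ ^ (n + 1) + t0 ^ (n + 1) + (a0 * s / σ) ^ (n + 1))) * (√(d : ℝ) + ‖c‖)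

theorem semq_iff : SEMQ ↔ ∀ n : ℕ, ∃ (C : ℝ) (P : ℕ), 1 ≤ C ∧ SemQn n C P := Iff.rfl

/-- **STEP Q, fixed dimension**, with SEM_Q. -/
theorem fixed_sem {d n M K B : ℕ} {Cn : ℝ} {P : ℕ} (hS : SemQn n Cn P)
    {s σ σb κ t0 a0 σin σo D' D'' DX DY bo : ℝ}
    {N' q' NY qY NX qX : ℕ} {L' LY LX To : ℝ≥0}
    (hs : 0 < s) (hs1 : s ≤ 1 / 2) (hσb : 0 < σb) (hσ : 0 ≤ σ) (hσσ : σb ^ 2 + σb ^ 2 = σ ^ 2)
    (hκ : 0 < κ) (hκ1 : κ ≤ 1 / 2) (hM : 0 < M) (ht0 : 0 < t0) (ht1 : t0 ≤ 1 / 2)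
    (hat : 1 ≤ a0 * t0)
    (hb : QPar.cN n * (s ^ 2 + a0 * s / (σb * κ)) ≤ 1)
    (hbn : Cn * (s ^ 2 + a0 * s / (σb * κ)) ≤ 1)
    (hσin : 0 ≤ σin) (hin : σin * (QPar.cN n * (s + a0 / (σb * κ))) ≤ κ / 16)
    (hσo : 0 ≤ σo) (hr : QPar.cO n / (a0 * t0 * κ) * σo ≤ σb)
    (hN' : 1 ≤ N') (hD' : 0 ≤ D') (hD'' : 0 ≤ D'') (hDX : 0 ≤ DX)
    (conin : ∀ r, 3 / 4 * κ * s ≤ r → r ≤ s →
      Con (d := d) (r / 4) N' q' L' (fun V c => gN (G V r c) σin) D')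
    (conout : ∀ r, 3 / 4 * κ * s ≤ r → r ≤ s →
      Con (d := d) (r / 4) N' q' L' (fun V c => gN (G V r c) σo) D'')
    (conY : Con (d := d) (s / 4) NY qY LY (TY s κ) DY)
    (conX : Con (d := d) (s * κ / 4) NX qX LX (fun V c => gN (G V (s * κ) c) σb) DX)
    (hB : 1 + (K + 1) * (M * (n + 1) * (1 + (2 * n + 5) * (n + 2))) ≤ B)
    (hbo : QPar.cO n / (a0 * t0 * κ) ≤ bo) (hTo : 1 + bo ≤ To) :
    Con (d := d) (s / 4) (NY + 4 * (B * (N' * B) ^ (K + 1)))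
      (qY + (qX + B * (q' * (N' * B) ^ (K + 1))))
      (To * (1 + (2 * (L' + 1) * 4) ^ (K + 1)) * max 1 (max LY (LX * LY)))
      (fun V c => gN (G V s c) σ)
      (To * (1 + (2 * (L' + 1) * 4) ^ (K + 1)) * max 1 LX * DY
        + To * (1 + (2 * (L' + 1) * 4) ^ (K + 1)) * DX * 4
        + 22 * (bo * (N' * L' * (QPar.cN n * (s ^ 2 + a0 * s / (σb * κ)) * (D' * QQ 4 4 L' N' ^ K))
          + D'' * (2 * 4 * (2 * 4 * 4) ^ K)))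
        + σb * (Cn * a0 * M * (κ ^ P)⁻¹ * ((Cn * (s ^ 2 + a0 * s / (σb * κ))) ^ K +
          (M : ℝ)⁻¹ ^ (n + 1) + t0 ^ (n + 1) + (a0 * s / σb) ^ (n + 1)))) := by
  refine fixed hs hs1 hσb hσ hσσ hκ hκ1 hM ht0 ht1 hat hb hσin hin hσo hr hN' hD' hD'' hDX
    conin conout conY conX hB hbo hTo fun V hV c => ?_
  obtain ⟨p, X₀, hp, hX, h1, h2, h3, h4⟩ :=
    hS d V hV s σb κ t0 a0 hs hσb hκ hκ1 ht0 ht1 hat hbn c M hM K
  exact ⟨(E d × E d) × E d, inferInstance, gam3 (E d), inferInstance, p, X₀, hp, hX, h1, h2, h3, h4⟩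

end Crest.Agent.R285.StepQ
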