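import Crest.Agent.R285.StepYCore
import Crest.Agent.R285.SemYDef
import Crest.Agent.R285.Prog
import Crest.Agent.R285.PostMean
import Crest.Agent.R285.YSem

/-!
Row 285 (S0430), module STEP Y, fixed dimension: all explicit numbers.
-/

set_option autoImplicit false
set_option linter.unusedSectionVars false

open MeasureTheory ProbabilityTheory Set Filter
open Crest.OracleSampling (E Admissible)
open scoped NNReal ENNReal

noncomputable section

namespace Crest.Agent.R285.StepY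

open Crest.Agent.R285 Crest.Agent.R285.YSys Crest.Agent.R285.Num

variable {n M : ℕ} {e ρ s : ℝ}

theorem beta_pt_le (he0 : 0 < e) (he1 : e ≤ 1) (i : Idx n M) :
    ∑ j, |((fsys n M e ρ s).pt i).2.2 j| ≤ s ^ 2 * CY n := by
  have h := l1_pt_le (ρ := ρ) (s := s) he0 he1 (w := fun _ : Idx n M => (1 : ℝ)) (W := 1)
    (fun _ => zero_le_one) (fun _ => le_rfl) i
  simpa [LF.l1] using h

theorem beta_out_le (hM : 0 < M) (he0 : 0 < e) (he1 : e ≤ 1) (hρ0 : 0 ≤ ρ) (hρ1 : ρ ≤ 1) :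
    ∑ j, |((fsys n M e ρ s).out).2.2 j| ≤ s ^ 2 * CY n := by
  have h := l1_out_le (n := n) (s := s) hM he0 he1 hρ0 hρ1 (w := fun _ : Idx n M => (1 : ℝ))
    (W := 1) (fun _ => zero_le_one) (fun _ => le_rfl) zero_le_one
  simpa [LF.l1] using h

theorem tot_pt_le (he0 : 0 < e) (he1 : e ≤ 1) (i : Idx n M) :
    LF.tot ((fsys n M e ρ s).pt i) ≤ 1 + s ^ 2 * CY n := by
  have hq := qnode_bounds (n := n) (M := M) he0 he1 i
  have h1 : LF.tot ((fsys n M e ρ s).pt i) ≤ ((1 - qnode n M 0 e i) + qnode n M 0 e i) +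
      ∑ l, |s ^ 2 * qnode n M 0 e i * qW n M 0 e i l| := by
    unfold fsys
    refine (LF.tot_sub_le _ _).trans (add_le_add ?_ ?_)
    · refine (LF.tot_add_le _ _).trans (le_of_eq ?_)
      rw [LF.tot_smul, LF.tot_smul, LF.tot_hid, LF.tot_vis, mul_one, mul_one,
        abs_of_nonneg (by linarith [hq.2]), abs_of_pos hq.1]
    · refine (LF.tot_sum_le _ _).trans (Finset.sum_le_sum fun l _ => ?_)
      rw [LF.tot_smul, LF.tot_call, mul_one]
  refine h1.trans ?_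
  have h2 : ∑ l, |s ^ 2 * qnode n M 0 e i * qW n M 0 e i l| ≤ s ^ 2 * CY n := by
    calc ∑ l, |s ^ 2 * qnode n M 0 e i * qW n M 0 e i l|
        ≤ ∑ l, s ^ 2 * |qW n M 0 e i l| := by
          refine Finset.sum_le_sum fun l _ => ?_
          rw [abs_mul, abs_mul, abs_of_nonneg (sq_nonneg s), abs_of_pos hq.1]
          refine mul_le_mul_of_nonneg_right ?_ (abs_nonneg _)
          nlinarith [sq_nonneg s, hq.1, hq.2]
      _ = s ^ 2 * ∑ l, |qW n M 0 e i l| := by rw [Finset.mul_sum]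
      _ ≤ s ^ 2 * CY n := mul_le_mul_of_nonneg_left (sum_abs_qW_le he0.le he1 i) (sq_nonneg s)
  linarith

theorem tot_out_le (hM : 0 < M) (he0 : 0 < e) (he1 : e ≤ 1) (hρ0 : 0 ≤ ρ) (hρ1 : ρ ≤ 1) :
    LF.tot ((fsys n M e ρ s).out) ≤ 1 + s ^ 2 * CY n := by
  have hρe0 : 0 ≤ ρ * e := mul_nonneg hρ0 he0.le
  have hρe1 : ρ * e ≤ 1 := mul_le_one₀ hρ1 he0.le he1
  have h1 : LF.tot ((fsys n M e ρ s).out) ≤ ((1 - ρ * e) + ρ * e) +
      ∑ l, |s ^ 2 * (ρ * e) * qw n M 0 e l| := by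
    unfold fsys
    refine (LF.tot_sub_le _ _).trans (add_le_add ?_ ?_)
    · refine (LF.tot_add_le _ _).trans (le_of_eq ?_)
      rw [LF.tot_smul, LF.tot_smul, LF.tot_hid, LF.tot_vis, mul_one, mul_one,
        abs_of_nonneg (by linarith), abs_of_nonneg hρe0]
    · refine (LF.tot_sum_le _ _).trans (Finset.sum_le_sum fun l _ => ?_)
      rw [LF.tot_smul, LF.tot_call, mul_one]
  refine h1.trans ?_
  have h2 : ∑ l, |s ^ 2 * (ρ * e) * qw n M 0 e l| ≤ s ^ 2 * CY n := by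
    calc ∑ l, |s ^ 2 * (ρ * e) * qw n M 0 e l|
        ≤ ∑ l, s ^ 2 * |qw n M 0 e l| := by
          refine Finset.sum_le_sum fun l _ => ?_
          rw [abs_mul, abs_mul, abs_of_nonneg (sq_nonneg s), abs_of_nonneg hρe0]
          refine mul_le_mul_of_nonneg_right ?_ (abs_nonneg _)
          nlinarith [sq_nonneg s]
      _ = s ^ 2 * ∑ l, |qw n M 0 e l| := by rw [Finset.mul_sum]
      _ ≤ s ^ 2 * CY n := mul_le_mul_of_nonneg_left (sum_abs_qw_le hM he0.le he1) (sq_nonneg s)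
  linarith

/-- The numbers of the mask: `(1-ρe) s/8 + s κ/16 ≤ s √((1-κ²)(1-ρ))`. -/
theorem mask_bound {κ : ℝ} (hs : 0 ≤ s) (hκ : 0 < κ) (hκ1 : κ ≤ 1 / 2) :
    (1 - (1 - κ ^ 2) / (1 - κ ^ 2 / 4) * √(1 - κ ^ 2 / 4)) * (s / 8) + s * κ / 16 ≤
      s * √((1 - κ ^ 2) * (1 - (1 - κ ^ 2) / (1 - κ ^ 2 / 4))) := by
  have hκ2 : κ ^ 2 ≤ 1 / 4 := by nlinarith
  have hκ0 : 0 < κ ^ 2 := by positivity
  have hden : 0 < 1 - κ ^ 2 / 4 := by linarith
  set e : ℝ := √(1 - κ ^ 2 / 4) with he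
  have he2 : e ^ 2 = 1 - κ ^ 2 / 4 := Real.sq_sqrt (by linarith)
  have he0 : 0 < e := Real.sqrt_pos.mpr hden
  have he1 : e ≤ 1 := by rw [he]; exact Real.sqrt_le_one.mpr (by linarith)
  have h1 : (1 - κ ^ 2) / (1 - κ ^ 2 / 4) * e ≥ 1 - κ ^ 2 := by
    rw [← he2, ge_iff_le]
    have : (1 - κ ^ 2) / e ^ 2 * e = (1 - κ ^ 2) / e := by field_simp
    rw [this, le_div_iff₀ he0]
    nlinarith
  have h2 : (3 / 4 * κ) ≤ √((1 - κ ^ 2) * (1 - (1 - κ ^ 2) / (1 - κ ^ 2 / 4))) := by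
    refine Real.le_sqrt_of_sq_le ?_
    have h3 : 1 - (1 - κ ^ 2) / (1 - κ ^ 2 / 4) = (3 / 4 * κ ^ 2) / (1 - κ ^ 2 / 4) := by
      rw [eq_div_iff hden.ne', sub_mul, div_mul_cancel₀ _ hden.ne']; ring
    rw [h3, ← mul_div_assoc, le_div_iff₀ hden]
    nlinarith
  have h4 : (1 - (1 - κ ^ 2) / (1 - κ ^ 2 / 4) * e) * (s / 8) ≤ κ ^ 2 * (s / 8) := by
    refine mul_le_mul_of_nonneg_right (by linarith) (by positivity)
  have h5 : κ ^ 2 * (s / 8) ≤ s * κ / 16 := by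
    have : κ * (s * κ) ≤ 1 / 2 * (s * κ) := mul_le_mul_of_nonneg_right hκ1 (by positivity)
    nlinarith
  have h6 : s * (3 / 4 * κ) ≤ s * √((1 - κ ^ 2) * (1 - (1 - κ ^ 2) / (1 - κ ^ 2 / 4))) :=
    mul_le_mul_of_nonneg_left h2 hs
  nlinarith

/-- **STEP Y, fixed dimension.** -/
theorem fixed {d : ℕ} {κ Cn Pn : ℝ} {N' q' : ℕ} {L' : ℝ≥0} {D' σ : ℝ} (K : ℕ)
    (hM : 0 < M) (hs : 0 < s) (hs1 : s ≤ 1 / 2) (hκ : 0 < κ) (hκ1 : κ ≤ 1 / 2)
    (hCY : s ^ 2 * CY n ≤ 1) (hσ : 0 ≤ σ) (hmar : s ^ 2 * CY n * σ ≤ s * κ / 16)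
    (hN' : 1 ≤ N') (hD' : 0 ≤ D') (hCs : Cn * s ^ 2 ≤ 1)
    (hsem : ∀ V : E d → ℝ, Admissible d V → ∀ c : E d, ∃ Y : E d → E d, Measurable Y ∧
      ((stdGaussian (E d)).prod (stdGaussian (E d))).map (fun w => Y w.1 +
        (s * √((1 - κ ^ 2) * (1 - (1 - κ ^ 2) / (1 - κ ^ 2 / 4)))) • w.2) = TY s κ V c ∧
      Integrable (fun ξ => ‖(YSys.fsys n M (√(1 - κ ^ 2 / 4)) ((1 - κ ^ 2) / (1 - κ ^ 2 / 4))
        s).outv (G V) c (fun _ => c + s • ξ) (K + 1) - Y ξ‖) (stdGaussian (E d)) ∧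
      ∫ ξ, ‖(YSys.fsys n M (√(1 - κ ^ 2 / 4)) ((1 - κ ^ 2) / (1 - κ ^ 2 / 4))
        s).outv (G V) c (fun _ => c + s • ξ) (K + 1) - Y ξ‖ ∂(stdGaussian (E d)) ≤
      s * (Cn * s ^ 2) ^ (K + 1) * (√(d : ℝ) + ‖c‖) +
        s * Cn * (κ ^ Pn)⁻¹ * (M : ℝ)⁻¹ ^ (n + 1) * √(d : ℝ))
    (hCn : 0 < Cn)
    (hcon : ∀ r : ℝ, 0 < r → r ≤ s → Con (d := d) (r / 4) N' q' L' (fun V c => gN (G V r c) σ) D') :
    Con (d := d) (s / 4)
      (1 + (1 + M * (n + 1) * (N' * (1 + M * (n + 1))) ^ (K + 1)) * 4)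
      (M * (n + 1) * (q' * (N' * (1 + M * (n + 1))) ^ (K + 1)))
      (2 * (1 + (2 * (L' + 1) * 2) ^ (K + 1))) (TY s κ)
      (2 * (s ^ 2 * CY n * (N' * L' * (s ^ 2 * CY n * (D' * QQ 4 2 L' N' ^ K))
        + D' * (2 * 2 * (2 * 4 * 2) ^ K))) +
        (s * (Cn * s ^ 2) ^ (K + 1) + s * Cn * (κ ^ Pn)⁻¹ * (M : ℝ)⁻¹ ^ (n + 1))) := by
  have hκ2 : κ ^ 2 ≤ 1 / 4 := by nlinarith
  have hκ0 : 0 < κ ^ 2 := by positivity
  have hden : 0 < 1 - κ ^ 2 / 4 := by linarith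
  set e : ℝ := √(1 - κ ^ 2 / 4) with he
  set ρ : ℝ := (1 - κ ^ 2) / (1 - κ ^ 2 / 4) with hρ
  set r : ℝ := s * √((1 - κ ^ 2) * (1 - ρ)) with hr
  have he2 : e ^ 2 = 1 - κ ^ 2 / 4 := Real.sq_sqrt (by linarith)
  have he0 : 0 < e := Real.sqrt_pos.mpr hden
  have he1 : e ≤ 1 := by rw [he]; exact Real.sqrt_le_one.mpr (by linarith)
  have hρ1 : ρ ≤ 1 := by rw [hρ, div_le_one hden]; linarith
  have hρ0 : 0 ≤ ρ := by rw [hρ]; exact div_nonneg (by linarith) hden.le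
  have hke : kap e = κ / 2 := by
    unfold kap
    rw [he2, show 1 - (1 - κ ^ 2 / 4) = (κ / 2) ^ 2 by ring, Real.sqrt_sq (by positivity)]
  have hCY0 := CY_nonneg n
  have hcard : Fintype.card (Idx n M) = M * (n + 1) := by
    simp [Idx]
  have hmar' : s ^ 2 * CY n * σ ≤ s * kap e / 8 := by rw [hke]; linarith
  -- program data
  have hP : ProgData d (fsys n M e ρ s) (s / 8) (fun _ => σ)
      (fun i => (fsys n M e ρ s).r i / 4) N' q' L' D' 4 2 (s ^ 2 * CY n) := by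
    refine ⟨by positivity, fun _ => hσ, hN', hD', by norm_num, by norm_num, by positivity,
      by push_cast; linarith, ?_, ?_, fun i => beta_pt_le he0 he1 i,
      fun i => nz_pt_le_quarter he0 he1 hs.le (fun _ => hσ) (fun _ => le_rfl) hmar' i, ?_⟩
    · intro V hV i x
      have hq := qnode_bounds (n := n) (M := M) he0 he1 i
      have hk0 : 0 < kap (qnode n M 0 e i) := by
        unfold kap; exact Real.sqrt_pos.mpr (by nlinarith [hq.1, hq.2])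
      have hk1 : kap (qnode n M 0 e i) ≤ 1 := by
        unfold kap; exact Real.sqrt_le_one.mpr (by nlinarith [hq.1])
      have h1 : 0 < (fsys n M e ρ s).r i := mul_pos hs hk0
      have h2 : (fsys n M e ρ s).r i ≤ 1 / 2 := by
        change s * kap (qnode n M 0 e i) ≤ 1 / 2
        nlinarith
      exact adm_norm_G hV x h1 h2
    · intro i
      refine (tot_pt_le he0 he1 i).trans ?_
      push_cast; linarith
    · intro i
      have hq := qnode_bounds (n := n) (M := M) he0 he1 i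
      have hk0 : 0 < kap (qnode n M 0 e i) := by
        unfold kap; exact Real.sqrt_pos.mpr (by nlinarith [hq.1, hq.2])
      have hk1 : kap (qnode n M 0 e i) ≤ 1 := by
        unfold kap; exact Real.sqrt_le_one.mpr (by nlinarith [hq.1])
      refine hcon _ (mul_pos hs hk0) ?_
      change s * kap (qnode n M 0 e i) ≤ s
      nlinarith
  have hout := hP.outv (σo := fun _ => σ) (D'' := D') (bo := s ^ 2 * CY n) (r := r) (To := 2)
    (fun _ => hσ) hD' ((tot_out_le hM he0 he1 hρ0 hρ1).trans (by push_cast; linarith))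
    (beta_out_le hM he0 he1 hρ0 hρ1) (fun i _ => hP.con i)
    ((nz_out_le hM he0 he1 hρ0 hρ1 (by positivity) hσ (fun _ => hσ) (fun _ => le_rfl)).trans
      ((add_le_add_right hmar _).trans (mask_bound hs.le hκ hκ1))) K
  -- to a general procedure with four times as many draws
  have h1 := (Draw.toGD hout)
  rw [show s / 8 = s / 4 / 2 by ring] at h1
  have h2 := (h1.avg4 (by positivity)).comap (P' := Unit × E d) (g := fun p => fun _ : Fin 1 => p.2)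
    (by fun_prop) (K := 1) (LipschitzWith.of_dist_le_mul fun x y => by
      rw [NNReal.coe_one, one_mul, Prod.dist_eq, dist_pi_le_iff (by positivity)]
      intro _; exact le_max_right _ _)
  have hE0 : 0 ≤ s ^ 2 * CY n * (N' * L' * (s ^ 2 * CY n * (D' * QQ 4 2 L' N' ^ K))
        + D' * (2 * 2 * (2 * 4 * 2) ^ K)) := by
    have : 0 ≤ QQ 4 2 L' N' := by unfold QQ; positivity
    positivity
  have h3 := stepY_core (d := d) (v := fun V c z => (fsys n M e ρ s).outv (G V) c (fun _ => z) (K + 1))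
    (s := s) (r := r) hs (by linarith) (fun V hV c => ?_) hE0
    (GD.mono h2 le_rfl le_rfl (fun V hV c p => le_of_eq (?_ : _ =
      (s ^ 2 * CY n * (N' * L' * (s ^ 2 * CY n * (D' * QQ 4 2 L' N' ^ K))
        + D' * (2 * 2 * (2 * 4 * 2) ^ K))) * (√(d : ℝ) + ‖c‖ + ‖p.2‖))))
    (T := TY s κ)
    (δ := s * (Cn * s ^ 2) ^ (K + 1) + s * Cn * (κ ^ Pn)⁻¹ * (M : ℝ)⁻¹ ^ (n + 1))
    (fun V hV c => by
      obtain ⟨Y, hYm, hYl, hYi, hYe⟩ := hsem V hV c
      refine ⟨Y, hYm, hYl, hYi, hYe.trans ?_⟩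
      have a1 : 0 ≤ s * Cn * (κ ^ Pn)⁻¹ * (M : ℝ)⁻¹ ^ (n + 1) := by positivity
      have a2 : s * Cn * (κ ^ Pn)⁻¹ * (M : ℝ)⁻¹ ^ (n + 1) * √(d : ℝ) ≤
          s * Cn * (κ ^ Pn)⁻¹ * (M : ℝ)⁻¹ ^ (n + 1) * (√(d : ℝ) + ‖c‖) :=
        mul_le_mul_of_nonneg_left (by linarith [norm_nonneg c]) a1
      rw [add_mul]
      linarith)
  · refine Exists.elim h3 fun Ω hΩ => ?_
    have h3' : Con (d := d) (s / 4) _ _ _ (TY s κ) _ := ⟨Ω, hΩ⟩
    refine cast ?_ h3'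
    congr 1
    · simp [hcard]
    · simp [hcard]
    · simp
  · refine (continuous_outv _ (fun σ => ?_) (fun k => by fun_prop) _).measurable
    have hU : PotP 2 V := ⟨Pot.of_admissible hV, by norm_num⟩
    exact (LipschitzWith.of_dist_le_mul (K := 2) fun x y => by
      rw [dist_eq_norm, dist_eq_norm]; exact_mod_cast gr_lip hU σ x y).continuous
  · simp only [Wt, pi_norm_const]
    norm_num

end Crest.Agent.R285.StepY
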