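import Crest.Agent.R285.TopFinal
import Crest.Agent.R285.Query

/-!
Row 285 (S0430), module TOP: the outer proximal chain.
-/

set_option autoImplicit false

open MeasureTheory Crest.OracleSampling Set Filter Topology
open scoped ENNReal RealInnerProductSpace NNReal

noncomputable section

namespace Crest.Agent.R285.Top

variable {d : ℕ} {V : E d → ℝ}

theorem ns_first {s : ℝ} (hs : 0 < s) (hd : 0 < d) : ∫ x, ‖x‖ ∂(ns d s) ≤ 2 * s * √(d : ℝ) := by
  have := ns_prob (d := d) s hs
  have h := first_of_second (μ := ns d s) (f := fun x => ‖x‖)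
    continuous_norm.aestronglyMeasurable (ns_mom hs hd).1
  simp only [abs_norm] at h
  refine h.2.trans (Real.sqrt_le_iff.mpr ⟨by positivity, (ns_mom hs hd).2.trans (le_of_eq ?_)⟩)
  rw [mul_pow, mul_pow, Real.sq_sqrt (Nat.cast_nonneg _)]
  ring

theorem adm_first (hV : Admissible d V) (hd : 0 < d) : ∫ x, ‖x‖ ∂(gibbs V) ≤ 2 * √(d : ℝ) := by
  have := (adm_sconv hV).isProb
  have h := first_of_second (μ := gibbs V) (f := fun x => ‖x‖)
    continuous_norm.aestronglyMeasurable (adm_mom hV hd).1
  simp only [abs_norm] at h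
  refine h.2.trans (Real.sqrt_le_iff.mpr ⟨by positivity, (adm_mom hV hd).2.trans (le_of_eq ?_)⟩)
  rw [mul_pow, Real.sq_sqrt (Nat.cast_nonneg _)]
  ring

theorem noisy_first {P : Measure (E d)} [IsProbabilityMeasure P]
    (hP : Integrable (fun x => ‖x‖) P) {s : ℝ} (hs : 0 < s) :
    ∫ y, ‖y‖ ∂(noisy P s) ≤ ∫ x, ‖x‖ ∂P + ∫ x, ‖x‖ ∂(ns d s) := by
  have := ns_prob (d := d) s hs
  have ma : Measurable fun p : E d × E d => p.1 + p.2 := measurable_fst.add measurable_snd
  have i1 : Integrable (fun p : E d × E d => ‖p.1‖) (P.prod (ns d s)) := hP.comp_fst _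
  have i2 : Integrable (fun p : E d × E d => ‖p.2‖) (P.prod (ns d s)) :=
    Integrable.comp_snd (μ := P) (ν := ns d s) (QG.integrable_norm (qp_sconv hs).toQG)
  rw [noisy, integral_map ma.aemeasurable continuous_norm.aestronglyMeasurable]
  calc ∫ p : E d × E d, ‖p.1 + p.2‖ ∂(P.prod (ns d s))
      ≤ ∫ p : E d × E d, (‖p.1‖ + ‖p.2‖) ∂(P.prod (ns d s)) :=
        integral_mono_of_nonneg (Eventually.of_forall fun p => by positivity) (i1.add i2)
          (Eventually.of_forall fun p => norm_add_le _ _)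
    _ = _ := by
        rw [integral_add i1 i2, integral_fun_fst (μ := P) (ν := ns d s) (fun x => ‖x‖),
          integral_fun_snd (μ := P) (ν := ns d s) (fun x => ‖x‖)]
        simp

/-- Adding noise does not increase the distance. -/
theorem noisy_dlip {P Q : Measure (E d)} [IsProbabilityMeasure P] [IsProbabilityMeasure Q]
    {e : ℝ} (h : DLip P Q e) {s : ℝ} (hs : 0 < s) : DLip (noisy P s) (noisy Q s) e := by
  have := ns_prob (d := d) s hs
  have hP := noisy_prob (P := P) hs
  have hQ := noisy_prob (P := Q) hs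
  have iP := noisy_int h.intP hs
  have iQ := noisy_int h.intQ hs
  have ma : Measurable fun p : E d × E d => p.1 + p.2 := measurable_fst.add measurable_snd
  have hnsn : Integrable (fun x => ‖x‖) (ns d s) := QG.integrable_norm (qp_sconv hs).toQG
  refine ⟨iP, iQ, fun f hf => ?_⟩
  have hfm := hf.continuous.measurable
  have hfa : ∀ x : E d, LipschitzWith 1 fun g => f (x + g) := fun x => by
    refine LipschitzWith.of_dist_le_mul fun g g' => ?_
    have := hf.dist_le_mul (x + g) (x + g')
    simpa using this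
  have key : ∀ M : Measure (E d), IsProbabilityMeasure M → Integrable (fun x => ‖x‖) M →
      ∫ y, f y ∂(noisy M s) = ∫ x, (∫ g, f (x + g) ∂(ns d s)) ∂M := by
    intro M hM iM
    have hi : Integrable f (noisy M s) := by
      have := noisy_prob (P := M) hs
      exact integrable_of_lipschitz (noisy_int iM hs) hf
    rw [noisy] at hi ⊢
    rw [integrable_map_measure hf.continuous.aestronglyMeasurable ma.aemeasurable] at hi
    rw [integral_map ma.aemeasurable hf.continuous.aestronglyMeasurable]
    exact integral_prod _ hi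
  rw [key P inferInstance h.intP, key Q inferInstance h.intQ]
  refine h.le _ ?_
  refine LipschitzWith.of_dist_le_mul fun x x' => ?_
  rw [Real.dist_eq, NNReal.coe_one, one_mul,
    ← integral_sub (integrable_of_lipschitz hnsn (hfa x)) (integrable_of_lipschitz hnsn (hfa x'))]
  refine abs_integral_le_integral_abs.trans ?_
  calc ∫ g, |f (x + g) - f (x' + g)| ∂(ns d s) ≤ ∫ _, dist x x' ∂(ns d s) := by
        refine integral_mono_of_nonneg (Eventually.of_forall fun g => abs_nonneg _)
          (integrable_const _) (Eventually.of_forall fun g => ?_)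
        have := hf.dist_le_mul (x + g) (x' + g)
        rw [Real.dist_eq] at this
        simpa using this
    _ = dist x x' := by simp

/-- One step of the chain. -/
theorem chain_step (hV : Admissible d V) {s : ℝ} (hs : 0 < s) (hs1 : s ≤ 1) (hd : 0 < d)
    {Ω : Type} [MeasurableSpace Ω] {μ : Measure Ω} [IsProbabilityMeasure μ]
    {f : Ω × E d → E d} (hf : Measurable f) {D : ℝ}
    (h : ∀ y, DLip (μ.map fun ω => f (ω, y)) (post V y s) (D * (√(d : ℝ) + ‖y‖)))
    {P : Measure (E d)} [IsProbabilityMeasure P] {e : ℝ} (hP : DLip P (gibbs V) e) :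
    DLip ((μ.prod (noisy P s)).map f) (gibbs V) ((1 / (1 + s ^ 2) + D) * e + 5 * D * √(d : ℝ)) := by
  have hVs := adm_sconv hV
  have := hVs.isProb
  have hns := ns_prob (d := d) s hs
  have hYp := noisy_prob (P := P) hs
  have hY0 := noisy_prob (P := gibbs V) hs
  have iY := noisy_int hP.intP hs
  have hd1 : (1 : ℝ) ≤ √(d : ℝ) := by
    rw [Real.one_le_sqrt]; exact_mod_cast hd
  have hD0 : 0 ≤ D := by
    have h0 := (h 0).nonneg
    rw [norm_zero, add_zero] at h0
    exact nonneg_of_mul_nonneg_left h0 (by linarith)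
  have mfy : ∀ y, Measurable fun ω => f (ω, y) := fun y =>
    hf.comp (measurable_id.prodMk measurable_const)
  -- first moments
  have hn1 : LipschitzWith 1 (fun x : E d => ‖x‖) := lipschitzWith_one_norm
  have lN : Lip 1 (fun x : E d => ‖x‖) := by
    intro x y; rw [one_mul]; exact abs_norm_sub_norm_le x y
  have lKN := lip_post hV hs zero_le_one lN
  have iKN : Integrable (fun y => ∫ z, ‖z‖ ∂(post V y s)) (noisy P s) :=
    integrable_of_lipschitz iY lKN.lipschitzWith
  have iW : Integrable (fun y : E d => D * (√(d : ℝ) + ‖y‖)) (noisy P s) :=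
    ((integrable_const _).add iY).const_mul _
  have ifn : Integrable (fun p => ‖f p‖) (μ.prod (noisy P s)) := by
    rw [integrable_prod_iff' hf.norm.aestronglyMeasurable]
    constructor
    · refine Eventually.of_forall fun y => ?_
      have := (h y).intP
      rwa [integrable_map_measure continuous_norm.aestronglyMeasurable (mfy y).aemeasurable] at this
    · refine (iKN.add iW).mono' ?_ (Eventually.of_forall fun y => ?_)
      · have := (hf.norm.norm.stronglyMeasurable.integral_prod_left' (μ := μ))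
        exact this.aestronglyMeasurable
      · have h1 := (h y).integral_norm_le
        rw [integral_map (mfy y).aemeasurable continuous_norm.aestronglyMeasurable] at h1
        rw [Real.norm_eq_abs, abs_of_nonneg (integral_nonneg fun ω => norm_nonneg _)]
        simp only [norm_norm, Pi.add_apply]
        exact h1
  have iOut : Integrable (fun x => ‖x‖) ((μ.prod (noisy P s)).map f) := by
    rw [integrable_map_measure continuous_norm.aestronglyMeasurable hf.aemeasurable]
    exact ifn
  -- bounds of first moments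
  have hEP : ∫ x, ‖x‖ ∂P ≤ 2 * √(d : ℝ) + e := by
    have := hP.integral_norm_le
    have := adm_first hV hd
    linarith
  have hEY : ∫ y, ‖y‖ ∂(noisy P s) ≤ 4 * √(d : ℝ) + e := by
    have h1 := noisy_first hP.intP hs
    have h2 := ns_first (d := d) hs hd
    have h3 : 2 * s * √(d : ℝ) ≤ 2 * 1 * √(d : ℝ) := by gcongr
    linarith
  refine ⟨iOut, QG.integrable_norm hVs.toQG, fun φ hφ => ?_⟩
  have lφ : Lip 1 φ := by simpa using Lip.of_lipschitzWith hφ
  have lK := lip_post hV hs zero_le_one lφ
  have iφf : Integrable (fun p => φ (f p)) (μ.prod (noisy P s)) := by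
    have hop : IsProbabilityMeasure ((μ.prod (noisy P s)).map f) :=
      Measure.isProbabilityMeasure_map hf.aemeasurable
    have := integrable_of_lipschitz iOut hφ
    rwa [integrable_map_measure hφ.continuous.aestronglyMeasurable hf.aemeasurable] at this
  have e1 : ∫ x, φ x ∂((μ.prod (noisy P s)).map f) =
      ∫ y, (∫ ω, φ (f (ω, y)) ∂μ) ∂(noisy P s) := by
    rw [integral_map hf.aemeasurable hφ.continuous.aestronglyMeasurable]
    exact integral_prod_symm _ iφf
  have iK : Integrable (fun y => ∫ z, φ z ∂(post V y s)) (noisy P s) :=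
    integrable_of_lipschitz iY lK.lipschitzWith
  have iA : Integrable (fun y => ∫ ω, φ (f (ω, y)) ∂μ) (noisy P s) := iφf.integral_prod_right
  -- kernel error
  have h1 : |∫ y, (∫ ω, φ (f (ω, y)) ∂μ) ∂(noisy P s) -
      ∫ y, (∫ z, φ z ∂(post V y s)) ∂(noisy P s)| ≤ D * (√(d : ℝ) + (4 * √(d : ℝ) + e)) := by
    rw [← integral_sub iA iK]
    refine abs_integral_le_integral_abs.trans ?_
    calc ∫ y, |(∫ ω, φ (f (ω, y)) ∂μ) - ∫ z, φ z ∂(post V y s)| ∂(noisy P s)
        ≤ ∫ y, D * (√(d : ℝ) + ‖y‖) ∂(noisy P s) := by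
          refine integral_mono_of_nonneg (Eventually.of_forall fun y => abs_nonneg _) iW
            (Eventually.of_forall fun y => ?_)
          have := (h y).le φ hφ
          rwa [integral_map (mfy y).aemeasurable hφ.continuous.aestronglyMeasurable] at this
      _ = D * (√(d : ℝ) + ∫ y, ‖y‖ ∂(noisy P s)) := by
          rw [integral_const_mul, integral_add (integrable_const _) iY]
          simp
      _ ≤ _ := by gcongr
  -- contraction
  have h2 : |∫ y, (∫ z, φ z ∂(post V y s)) ∂(noisy P s) -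
      ∫ y, (∫ z, φ z ∂(post V y s)) ∂(noisy (gibbs V) s)| ≤ 1 / (1 + s ^ 2) * e := by
    have := (noisy_dlip hP hs).lip lK.lipschitzWith
    rwa [Real.coe_toNNReal _ (by positivity)] at this
  rw [inv_integral hV hs zero_le_one lφ] at h2
  rw [e1]
  calc |∫ y, (∫ ω, φ (f (ω, y)) ∂μ) ∂(noisy P s) - ∫ x, φ x ∂(gibbs V)|
      ≤ _ := abs_sub_le _ (∫ y, (∫ z, φ z ∂(post V y s)) ∂(noisy P s)) _
    _ ≤ D * (√(d : ℝ) + (4 * √(d : ℝ) + e)) + 1 / (1 + s ^ 2) * e := add_le_add h1 h2
    _ = _ := by ring

/-- A sampler of the posterior with a visible centre. -/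
def VS (d q : ℕ) (s D : ℝ) : Prop :=
  ∃ (Ω : Type) (_ : MeasurableSpace Ω) (μ : Measure Ω) (_ : IsProbabilityMeasure μ)
    (f : (E d → ℝ) → Ω × E d → E d), IsQ q f ∧ ∀ V, Admissible d V →
      ∀ c, DLip (μ.map fun ω => f V (ω, c)) (post V c s) (D * (√(d : ℝ) + ‖c‖))

/-- A sampler of the target in the dual-Lipschitz metric. -/
def GS (d q : ℕ) (δ : ℝ) : Prop :=
  ∃ (Ω : Type) (_ : MeasurableSpace Ω) (μ : Measure Ω) (_ : IsProbabilityMeasure μ)
    (f : (E d → ℝ) → Ω → E d), IsQ q f ∧ ∀ V, Admissible d V → DLip (μ.map (f V)) (gibbs V) δ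

theorem measurable_oracle (hV : Admissible d V) : Measurable (oracle V) :=
  ((adm_cont hV).measurable).prodMk (continuous_gradient hV).measurable

theorem GS_zero (hd : 0 < d) : GS d 0 (2 * √(d : ℝ)) := by
  refine ⟨Unit, inferInstance, Measure.dirac (), inferInstance, fun _ _ => 0,
    IsQ.const measurable_const, fun V hV => ?_⟩
  have hVs := adm_sconv hV
  have := hVs.isProb
  have e : (Measure.dirac ()).map (fun _ : Unit => (0 : E d)) = Measure.dirac 0 := by
    rw [Measure.map_const]; simp
  rw [e]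
  refine ⟨by simp [integrable_dirac], QG.integrable_norm hVs.toQG, fun φ hφ => ?_⟩
  rw [integral_dirac]
  have lφ : Lip 1 φ := by simpa using Lip.of_lipschitzWith hφ
  have hi := hVs.integrable_lip lφ
  have e2 : φ 0 - ∫ x, φ x ∂(gibbs V) = ∫ x, (φ 0 - φ x) ∂(gibbs V) := by
    rw [integral_sub (integrable_const _) hi]; simp
  rw [e2]
  refine abs_integral_le_integral_abs.trans (le_trans ?_ (adm_first hV hd))
  refine integral_mono_of_nonneg (Eventually.of_forall fun x => abs_nonneg _)
    (QG.integrable_norm hVs.toQG) (Eventually.of_forall fun x => ?_)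
  have := lφ 0 x
  simpa using this

theorem GS_step {q q' : ℕ} {s D e : ℝ} (hs : 0 < s) (hs1 : s ≤ 1) (hd : 0 < d)
    (hVS : VS d q s D) (hG : GS d q' e) :
    GS d (q' + q) ((1 / (1 + s ^ 2) + D) * e + 5 * D * √(d : ℝ)) := by
  obtain ⟨Ω, mΩ, μ, hμ, f, hf, H⟩ := hVS
  obtain ⟨Ω', mΩ', ν, hν, X, hX, HX⟩ := hG
  have hns := ns_prob (d := d) s hs
  refine ⟨Ω × (Ω' × E d), inferInstance, μ.prod (ν.prod (ns d s)), inferInstance,
    fun V w => f V (w.1, X V w.2.1 + w.2.2), ?_, fun V hV => ?_⟩
  · have h1 : IsQ q' (fun V (w : Ω × (Ω' × E d)) => X V w.2.1) :=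
      hX.comap (measurable_fst.comp measurable_snd)
    have h2 : IsQ q (fun V (w : (Ω × (Ω' × E d)) × E d) => f V (w.1.1, w.2 + w.1.2.2)) :=
      hf.comap (g := fun w : (Ω × (Ω' × E d)) × E d => (w.1.1, w.2 + w.1.2.2))
        ((measurable_fst.comp measurable_fst).prodMk
          (measurable_snd.add (measurable_snd.comp (measurable_snd.comp measurable_fst))))
    exact h1.bind h2
  · have mf : Measurable (f V) := hf.measurable (measurable_oracle hV)
    have mX : Measurable (X V) := hX.measurable (measurable_oracle hV)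
    have hP : IsProbabilityMeasure (ν.map (X V)) := Measure.isProbabilityMeasure_map mX.aemeasurable
    have key := chain_step hV hs hs1 hd mf (H V hV) (HX V hV)
    have e1 : noisy (ν.map (X V)) s = (ν.prod (ns d s)).map (fun p => X V p.1 + p.2) := by
      have ma : Measurable fun p : E d × E d => p.1 + p.2 := measurable_fst.add measurable_snd
      have h3 : (ν.map (X V)).prod (ns d s) =
          (ν.prod (ns d s)).map (Prod.map (X V) id) := by
        rw [← Measure.map_prod_map _ _ mX measurable_id, Measure.map_id]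
      rw [noisy, h3, Measure.map_map ma (mX.prodMap measurable_id)]
      rfl
    have mh : Measurable fun p : Ω' × E d => X V p.1 + p.2 :=
      (mX.comp measurable_fst).add measurable_snd
    have e2 : (μ.prod (noisy (ν.map (X V)) s)).map (f V) =
        (μ.prod (ν.prod (ns d s))).map (fun w => f V (w.1, X V w.2.1 + w.2.2)) := by
      have h3 : μ.prod ((ν.prod (ns d s)).map (fun p => X V p.1 + p.2)) =
          (μ.prod (ν.prod (ns d s))).map (Prod.map id (fun p => X V p.1 + p.2)) := by
        rw [← Measure.map_prod_map _ _ measurable_id mh, Measure.map_id]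
      rw [e1, h3, Measure.map_map mf (measurable_id.prodMap mh)]
      rfl
    rw [← e2]
    exact key

theorem GS.mono {q q' : ℕ} {δ δ' : ℝ} (h : GS d q δ) (hq : q ≤ q') (hδ : δ ≤ δ') : GS d q' δ' := by
  obtain ⟨Ω, mΩ, μ, hμ, f, hf, H⟩ := h
  exact ⟨Ω, mΩ, μ, hμ, f, hf.mono hq, fun V hV => (H V hV).mono hδ⟩

/-- **(T3)** the chain. -/
theorem GS_chain {q : ℕ} {s D : ℝ} (hs : 0 < s) (hs1 : s ≤ 1) (hd : 0 < d)
    (hVS : VS d q s D) (hD : D ≤ s ^ 2 / 4) (hD0 : 0 ≤ D) (k : ℕ) :
    GS d (k * q) (2 * (1 - s ^ 2 / 4) ^ k * √(d : ℝ) + 20 * D * √(d : ℝ) / s ^ 2) := by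
  have hs2 : s ^ 2 ≤ 1 := pow_le_one₀ hs.le hs1
  have hs20 : 0 < s ^ 2 := by positivity
  induction k with
  | zero =>
    rw [Nat.zero_mul]
    refine (GS_zero hd).mono le_rfl ?_
    rw [pow_zero]
    have : 0 ≤ 20 * D * √(d : ℝ) / s ^ 2 := by positivity
    linarith
  | succ k ih =>
    have h := GS_step hs hs1 hd hVS ih
    refine h.mono (le_of_eq (by ring)) ?_
    set r : ℝ := 1 - s ^ 2 / 4 with hr
    have hr0 : 0 ≤ r := by rw [hr]; linarith
    have h1 : 1 / (1 + s ^ 2) + D ≤ r := by
      have : 1 / (1 + s ^ 2) ≤ 1 - s ^ 2 / 2 := by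
        rw [div_le_iff₀ (by positivity)]; nlinarith
      rw [hr]; linarith
    have h2 : 0 ≤ 2 * r ^ k * √(d : ℝ) + 20 * D * √(d : ℝ) / s ^ 2 := by positivity
    calc (1 / (1 + s ^ 2) + D) * (2 * r ^ k * √(d : ℝ) + 20 * D * √(d : ℝ) / s ^ 2) +
          5 * D * √(d : ℝ)
        ≤ r * (2 * r ^ k * √(d : ℝ) + 20 * D * √(d : ℝ) / s ^ 2) + 5 * D * √(d : ℝ) := by gcongr
      _ = 2 * r ^ (k + 1) * √(d : ℝ) + 20 * D * √(d : ℝ) / s ^ 2 := by
          rw [hr]; field_simp; ring

end Crest.Agent.R285.Top
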