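import Crest.Agent.R285.TopInv

/-!
Row 285 (S0430), module TOP: the final total variation step
`z ↦ y = z + σ g ↦ y - σ² ∇V(y) + σ g'`.
-/

set_option autoImplicit false

open MeasureTheory Crest.OracleSampling Set Filter Topology
open scoped ENNReal RealInnerProductSpace NNReal

noncomputable section

namespace Crest.Agent.R285.Top

variable {d : ℕ} {V : E d → ℝ}

/-- A shift of the Gaussian noise is a tilt. -/
theorem map_ns {σ : ℝ} (hσ : 0 < σ) (a : E d) :
    (ns d σ).map (fun g => a + g) = gibbs (tilt (qp σ) ((1 / σ ^ 2) • a)) := by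
  have hq := (qp_sconv (d := d) hσ)
  have ht := hq.tilt ((1 / σ ^ 2) • a)
  have e0 : ∀ y : E d, tilt (qp σ) ((1 / σ ^ 2) • a) y =
      ‖y - a‖ ^ 2 / (2 * σ ^ 2) + -(‖a‖ ^ 2 / (2 * σ ^ 2)) := by
    intro y
    unfold tilt qp
    rw [inner_smul_right, norm_sub_sq_real]
    field_simp
    ring
  have e1 : ZZ (tilt (qp σ) ((1 / σ ^ 2) • a)) =
      Real.exp (‖a‖ ^ 2 / (2 * σ ^ 2)) * ZZ (qp σ : E d → ℝ) := by
    unfold ZZ
    rw [← integral_sub_right_eq_self (μ := (volume : Measure (E d)))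
      (fun x => Real.exp (-qp σ x)) a, ← integral_const_mul]
    congr 1
    funext y
    rw [e0, ← Real.exp_add]
    congr 1
    unfold qp
    ring
  ext B hB
  have hI : Measurable (B.indicator (fun _ => (1 : ℝ≥0∞))) := measurable_const.indicator hB
  have hm : Measurable fun g : E d => a + g := measurable_const.add measurable_id
  have h1 : ((ns d σ).map (fun g => a + g)) B =
      ∫⁻ y, B.indicator (fun _ => (1 : ℝ≥0∞)) y ∂((ns d σ).map (fun g => a + g)) := by
    rw [lintegral_indicator_const hB, one_mul]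
  have h2 : (gibbs (tilt (qp σ) ((1 / σ ^ 2) • a))) B =
      ∫⁻ y, B.indicator (fun _ => (1 : ℝ≥0∞)) y ∂(gibbs (tilt (qp σ) ((1 / σ ^ 2) • a))) := by
    rw [lintegral_indicator_const hB, one_mul]
  rw [h1, h2, lintegral_map hI hm, lintegral_ns hσ a hI, lintegral_gibbs ht.toQG hI]
  congr 1
  funext y
  congr 2
  rw [e1, e0]
  have hZ := hq.ZZ_pos
  rw [neg_add, neg_neg, Real.exp_add]
  field_simp

theorem integral_ns {σ : ℝ} (hσ : 0 < σ) (a : E d) {F : E d → ℝ} (hF : Measurable F) :
    ∫ g, F (a + g) ∂(ns d σ) = ∫ z, F z ∂(gibbs (tilt (qp σ) ((1 / σ ^ 2) • a))) := by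
  have hm : Measurable fun g : E d => a + g := measurable_const.add measurable_id
  rw [← map_ns hσ a, integral_map hm.aemeasurable hF.aestronglyMeasurable]

/-- The averages over Gaussian shifts of a `[0,1]`-valued function are `1/σ`-Lipschitz. -/
theorem lip_ns {σ : ℝ} (hσ : 0 < σ) {F : E d → ℝ} (hF : Measurable F) (h0 : ∀ x, 0 ≤ F x)
    (h1 : ∀ x, F x ≤ 1) : Lip (1 / σ) (fun a => ∫ g, F (a + g) ∂(ns d σ)) := by
  intro a a'
  simp only
  rw [integral_ns hσ a hF, integral_ns hσ a' hF]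
  have h := ((qp_sconv (d := d) hσ).tilt ((1 / σ ^ 2) • a')).tilt_le_bdd hF h0 h1
    ((1 / σ ^ 2) • (a - a'))
  rw [tilt_tilt, ← smul_add, add_sub_cancel] at h
  refine h.trans (le_of_eq ?_)
  rw [norm_smul, Real.norm_eq_abs, abs_of_pos (by positivity), Real.sqrt_div zero_le_one,
    Real.sqrt_one, Real.sqrt_sq hσ.le]
  field_simp

/-- The gradient step. -/
def TT (V : E d → ℝ) (σ : ℝ) (y : E d) : E d := y - σ ^ 2 • gradient V y

theorem continuous_gradient (hV : Admissible d V) : Continuous (gradient V) := by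
  have hc : Continuous (fderiv ℝ V) := hV.1.continuous_fderiv (by norm_num)
  exact (InnerProductSpace.toDual ℝ (E d)).symm.continuous.comp hc

theorem continuous_TT (hV : Admissible d V) (σ : ℝ) : Continuous (TT V σ) := by
  have h := continuous_gradient hV
  unfold TT
  fun_prop

theorem measurable_TT (hV : Admissible d V) (σ : ℝ) : Measurable (TT V σ) :=
  (continuous_TT hV σ).measurable

set_option maxHeartbeats 1000000 in
/-- Comparison of the Gaussian and of the posterior. -/
theorem gauss_le_post (hV : Admissible d V) {σ : ℝ} (hσ : 0 < σ) (hd : 0 < d) (y : E d)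
    {F : E d → ℝ} (hF : Measurable F) (h0 : ∀ x, 0 ≤ F x) (h1 : ∀ x, F x ≤ 1) :
    ∫ g, F (TT V σ y + g) ∂(ns d σ) ≤
      ∫ z, F z ∂(post V y σ) + (8 * d * σ ^ 2 + 18 * σ ^ 4 * ‖y‖ ^ 2) := by
  set a := TT V σ y with ha
  have hp := adm_sconv_pp hV y hσ
  have hq := (qp_sconv (d := d) hσ).tilt ((1 / σ ^ 2) • a)
  have hnp := ns_prob (d := d) σ hσ
  have hpp := hp.isProb
  have hqp := hq.isProb
  have hZp := hp.ZZ_pos
  have hZq := hq.ZZ_pos
  set W := tilt (qp σ) ((1 / σ ^ 2) • a) with hW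
  set R : E d → ℝ := fun z => V z - V y - ⟪gradient V y, z - y⟫ with hR
  have hR0 : ∀ z, 0 ≤ R z := by
    intro z
    have := adm_lower hV y (z - y)
    rw [add_sub_cancel] at this
    simp only [hR]
    nlinarith [sq_nonneg ‖z - y‖]
  have hR1 : ∀ z, R z ≤ ‖z - y‖ ^ 2 := by
    intro z
    have := adm_upper hV y (z - y)
    rw [add_sub_cancel] at this
    simp only [hR]
    linarith
  -- the exponents
  set k : ℝ := V y - σ ^ 2 * ‖gradient V y‖ ^ 2 / 2 + ‖a‖ ^ 2 / (2 * σ ^ 2) with hk
  have hexp : ∀ z, pp V y σ z = R z + k + W z := by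
    intro z
    have e1 : W z = ‖z - a‖ ^ 2 / (2 * σ ^ 2) - ‖a‖ ^ 2 / (2 * σ ^ 2) := by
      rw [hW]; unfold tilt qp
      rw [inner_smul_right, norm_sub_sq_real]
      field_simp
      ring
    have e2 : z - a = (z - y) + σ ^ 2 • gradient V y := by
      rw [ha]; unfold TT; abel
    have e3 : ‖z - a‖ ^ 2 = ‖z - y‖ ^ 2 + 2 * (σ ^ 2 * ⟪z - y, gradient V y⟫) +
        σ ^ 4 * ‖gradient V y‖ ^ 2 := by
      rw [e2, norm_add_sq_real, inner_smul_right, norm_smul, Real.norm_eq_abs,
        abs_of_pos (by positivity)]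
      ring
    rw [e1, e3, hk]
    simp only [hR]
    unfold pp
    rw [real_inner_comm (z - y) (gradient V y)]
    field_simp
    ring
  have hZle : ZZ (pp V y σ) ≤ Real.exp (-k) * ZZ W := by
    unfold ZZ
    rw [← integral_const_mul]
    refine integral_mono hp.integrable_exp_neg (hq.integrable_exp_neg.const_mul _) fun z => ?_
    simp only
    rw [← Real.exp_add]
    apply Real.exp_le_exp.mpr
    rw [hexp z]
    linarith [hR0 z]
  -- densities
  have hdens : ∀ z, (Real.exp (-W z) / ZZ W) * (1 - R z) ≤ Real.exp (-pp V y σ z) / ZZ (pp V y σ) := by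
    intro z
    have h2 := Real.add_one_le_exp (-(R z))
    have h3 : Real.exp (-pp V y σ z) = Real.exp (-k) * (Real.exp (-W z) * Real.exp (-(R z))) := by
      rw [← Real.exp_add, ← Real.exp_add, hexp z]; congr 1; ring
    have h4 : Real.exp (-W z) / ZZ W * Real.exp (-(R z)) ≤
        Real.exp (-pp V y σ z) / ZZ (pp V y σ) := by
      rw [h3, div_mul_eq_mul_div, div_le_div_iff₀ hZq hZp]
      have h5 : 0 ≤ Real.exp (-W z) * Real.exp (-(R z)) := by positivity
      calc Real.exp (-W z) * Real.exp (-(R z)) * ZZ (pp V y σ)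
          ≤ Real.exp (-W z) * Real.exp (-(R z)) * (Real.exp (-k) * ZZ W) := by gcongr
        _ = _ := by ring
    refine le_trans ?_ h4
    have h6 : 0 ≤ Real.exp (-W z) / ZZ W := by positivity
    exact mul_le_mul_of_nonneg_left (by linarith) h6
  -- integrals of F
  rw [integral_ns hσ a hF]
  have iFq : Integrable F (gibbs W) := by
    refine (integrable_const (1 : ℝ)).mono' hF.aestronglyMeasurable
      (Eventually.of_forall fun x => ?_)
    rw [Real.norm_eq_abs, abs_of_nonneg (h0 x)]; exact h1 x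
  have iFp : Integrable F (gibbs (pp V y σ)) := by
    refine (integrable_const (1 : ℝ)).mono' hF.aestronglyMeasurable
      (Eventually.of_forall fun x => ?_)
    rw [Real.norm_eq_abs, abs_of_nonneg (h0 x)]; exact h1 x
  have hRm : Measurable R :=
    ((adm_cont hV).sub continuous_const |>.sub
      (continuous_const.inner (continuous_id.sub continuous_const))).measurable
  have i2 : Integrable (fun z => ‖z - y‖ ^ 2) (gibbs W) := by
    refine hq.integrable_of_le (C := 2 * Real.exp ‖y‖) (K := 1)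
      ((continuous_id.sub continuous_const).norm.pow 2).aestronglyMeasurable fun x => ?_
    have h2 := Real.quadratic_le_exp_of_nonneg (norm_nonneg (x - y))
    have h3 : Real.exp ‖x - y‖ ≤ Real.exp ‖y‖ * Real.exp (1 * ‖x‖) := by
      rw [← Real.exp_add]; apply Real.exp_le_exp.mpr
      have := norm_sub_le x y
      linarith
    rw [Real.norm_eq_abs, abs_of_nonneg (by positivity)]
    have h4 := norm_nonneg (x - y)
    nlinarith
  have iR : Integrable R (gibbs W) := by
    refine i2.mono' hRm.aestronglyMeasurable (Eventually.of_forall fun x => ?_)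
    rw [Real.norm_eq_abs, abs_of_nonneg (hR0 x)]; exact hR1 x
  have iFq' := (integrable_gibbs_iff hq.toQG F).mp iFq
  have iFp' := (integrable_gibbs_iff hp.toQG F).mp iFp
  have iR' := (integrable_gibbs_iff hq.toQG R).mp iR
  simp only [smul_eq_mul] at iFq' iFp' iR'
  have key : ∫ z, F z ∂(gibbs W) ≤ ∫ z, F z ∂(gibbs (pp V y σ)) + ∫ z, R z ∂(gibbs W) := by
    rw [integral_gibbs hq.toQG, integral_gibbs hp.toQG, integral_gibbs hq.toQG]
    simp only [smul_eq_mul]
    rw [← integral_const_mul, ← integral_const_mul, ← integral_const_mul,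
      ← integral_add (iFp'.const_mul _) (iR'.const_mul _)]
    refine integral_mono (iFq'.const_mul _) ((iFp'.const_mul _).add (iR'.const_mul _)) fun z => ?_
    simp only [smul_eq_mul]
    have h2 := hdens z
    have h3 := h0 z
    have h4 := h1 z
    have h5 : 0 ≤ Real.exp (-W z) / ZZ W := by positivity
    have h6 : Real.exp (-W z) / ZZ W * (1 - R z) * F z ≤
        Real.exp (-pp V y σ z) / ZZ (pp V y σ) * F z := by gcongr
    have h7 : 0 ≤ Real.exp (-W z) / ZZ W * R z * (1 - F z) :=
      mul_nonneg (mul_nonneg h5 (hR0 z)) (by linarith)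
    have e1 : (ZZ W)⁻¹ * (Real.exp (-W z) * F z) = Real.exp (-W z) / ZZ W * F z := by ring
    have e2 : (ZZ (pp V y σ))⁻¹ * (Real.exp (-pp V y σ z) * F z) =
        Real.exp (-pp V y σ z) / ZZ (pp V y σ) * F z := by ring
    have e3 : (ZZ W)⁻¹ * (Real.exp (-W z) * R z) = Real.exp (-W z) / ZZ W * R z := by ring
    rw [e1, e2, e3]
    nlinarith
  refine key.trans ?_
  rw [post_eq]
  gcongr
  calc ∫ z, R z ∂(gibbs W) ≤ ∫ z, ‖z - y‖ ^ 2 ∂(gibbs W) := integral_mono iR i2 hR1
    _ = ∫ g, ‖a + g - y‖ ^ 2 ∂(ns d σ) := by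
        rw [integral_ns hσ a (F := fun z => ‖z - y‖ ^ 2)]
        exact ((continuous_id.sub continuous_const).norm.pow 2).measurable
    _ ≤ ∫ g, (2 * ‖g‖ ^ 2 + 18 * σ ^ 4 * ‖y‖ ^ 2) ∂(ns d σ) := by
        refine integral_mono_of_nonneg (Eventually.of_forall fun x => by positivity)
          (((ns_mom hσ hd).1.const_mul _).add (integrable_const _))
          (Eventually.of_forall fun g => ?_)
        have e4 : a + g - y = g - σ ^ 2 • gradient V y := by rw [ha]; unfold TT; abel
        have h5 := adm_grad_le hV y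
        simp only
        rw [e4]
        have h6 : ‖g - σ ^ 2 • gradient V y‖ ≤ ‖g‖ + σ ^ 2 * (3 * ‖y‖) := by
          refine (norm_sub_le _ _).trans ?_
          rw [norm_smul, Real.norm_eq_abs, abs_of_pos (by positivity)]
          gcongr
        calc ‖g - σ ^ 2 • gradient V y‖ ^ 2 ≤ (‖g‖ + σ ^ 2 * (3 * ‖y‖)) ^ 2 := by gcongr
          _ ≤ 2 * ‖g‖ ^ 2 + 18 * σ ^ 4 * ‖y‖ ^ 2 := by
            nlinarith [sq_nonneg (‖g‖ - σ ^ 2 * (3 * ‖y‖))]
    _ ≤ 8 * d * σ ^ 2 + 18 * σ ^ 4 * ‖y‖ ^ 2 := by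
        rw [integral_add ((ns_mom hσ hd).1.const_mul _) (integrable_const _), integral_const_mul]
        have := (ns_mom (d := d) hσ hd).2
        simp only [integral_const, probReal_univ, one_smul]
        linarith

/-- The law of the output of the final step. -/
def fin (V : E d → ℝ) (σ : ℝ) (P : Measure (E d)) : Measure (E d) :=
  (P.prod ((ns d σ).prod (ns d σ))).map fun p => TT V σ (p.1 + p.2.1) + p.2.2

theorem measurable_avg_ns (hV : Admissible d V) {σ : ℝ} (hσ : 0 < σ) {F : E d → ℝ}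
    (hF : Measurable F) : Measurable fun y => ∫ g, F (TT V σ y + g) ∂(ns d σ) := by
  have := ns_prob (d := d) σ hσ
  have hm : Measurable fun p : E d × E d => F (TT V σ p.1 + p.2) :=
    hF.comp (((measurable_TT hV σ).comp measurable_fst).add measurable_snd)
  exact (hm.stronglyMeasurable.integral_prod_right' (ν := ns d σ)).measurable

theorem bdd_integrable {X : Type} [MeasurableSpace X] {μ : Measure X} [IsProbabilityMeasure μ]
    {F : X → ℝ} (hF : Measurable F) (h0 : ∀ x, 0 ≤ F x) (h1 : ∀ x, F x ≤ 1) : Integrable F μ := by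
  refine (integrable_const (1 : ℝ)).mono' hF.aestronglyMeasurable
    (Eventually.of_forall fun x => ?_)
  rw [Real.norm_eq_abs, abs_of_nonneg (h0 x)]; exact h1 x

theorem bdd_integral {X : Type} [MeasurableSpace X] {μ : Measure X} [IsProbabilityMeasure μ]
    {F : X → ℝ} (hF : Measurable F) (h0 : ∀ x, 0 ≤ F x) (h1 : ∀ x, F x ≤ 1) :
    0 ≤ ∫ x, F x ∂μ ∧ ∫ x, F x ∂μ ≤ 1 := by
  refine ⟨integral_nonneg h0, ?_⟩
  have : ∫ x, F x ∂μ ≤ ∫ _, (1 : ℝ) ∂μ :=
    integral_mono (bdd_integrable hF h0 h1) (integrable_const _) h1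
  simpa using this

/-- The final step, one-sided, for `[0,1]`-valued test functions. -/
theorem fin_le (hV : Admissible d V) {σ : ℝ} (hσ : 0 < σ) (hσ1 : σ ≤ 1) (hd : 0 < d)
    {P : Measure (E d)} [IsProbabilityMeasure P] {δ : ℝ} (hP : DLip P (gibbs V) δ)
    {F : E d → ℝ} (hF : Measurable F) (h0 : ∀ x, 0 ≤ F x) (h1 : ∀ x, F x ≤ 1) :
    ∫ z, F z ∂(fin V σ P) ≤
      ∫ z, F z ∂(gibbs V) + (δ / σ + 8 * d * σ ^ 2 + 288 * d * σ ^ 4) := by
  have hVs := adm_sconv hV
  have := hVs.isProb
  have hns := ns_prob (d := d) σ hσ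
  have mT := measurable_TT hV σ
  -- the inner average
  set K : E d → ℝ := fun y => ∫ g, F (TT V σ y + g) ∂(ns d σ) with hK
  have mK : Measurable K := measurable_avg_ns hV hσ hF
  have mFT : ∀ y, Measurable fun g => F (TT V σ y + g) := fun y =>
    hF.comp (measurable_const.add measurable_id)
  have K0 : ∀ y, 0 ≤ K y := fun y => (bdd_integral (mFT y) (fun _ => h0 _) (fun _ => h1 _)).1
  have K1 : ∀ y, K y ≤ 1 := fun y => (bdd_integral (mFT y) (fun _ => h0 _) (fun _ => h1 _)).2
  set Ψ : E d → ℝ := fun x => ∫ g, K (x + g) ∂(ns d σ) with hΨ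
  have lΨ : Lip (1 / σ) Ψ := lip_ns hσ mK K0 K1
  -- Fubini
  have e1 : ∫ z, F z ∂(fin V σ P) = ∫ x, Ψ x ∂P := by
    have hm : Measurable fun p : E d × (E d × E d) => TT V σ (p.1 + p.2.1) + p.2.2 :=
      (mT.comp (measurable_fst.add (measurable_fst.comp measurable_snd))).add
        (measurable_snd.comp measurable_snd)
    have hFm : Measurable fun p : E d × (E d × E d) => F (TT V σ (p.1 + p.2.1) + p.2.2) :=
      hF.comp hm
    rw [fin, integral_map hm.aemeasurable hF.aestronglyMeasurable,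
      integral_prod _ (bdd_integrable hFm (fun _ => h0 _) (fun _ => h1 _))]
    congr 1
    funext x
    have hm2 : Measurable fun p : E d × E d => F (TT V σ (x + p.1) + p.2) :=
      hF.comp ((mT.comp (measurable_const.add measurable_fst)).add measurable_snd)
    rw [integral_prod _ (bdd_integrable hm2 (fun _ => h0 _) (fun _ => h1 _))]
  -- Lipschitz step
  have h2 : |∫ x, Ψ x ∂P - ∫ x, Ψ x ∂(gibbs V)| ≤ δ / σ := by
    have := hP.lip lΨ.lipschitzWith
    rw [Real.coe_toNNReal _ (by positivity)] at this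
    rw [div_eq_inv_mul, ← one_div]; exact this
  -- exact input
  have hn := noisy_prob (P := gibbs V) hσ
  have e2 : ∫ x, Ψ x ∂(gibbs V) = ∫ y, K y ∂(noisy (gibbs V) σ) := by
    have ma : Measurable fun p : E d × E d => p.1 + p.2 := measurable_fst.add measurable_snd
    have mKa : Measurable fun p : E d × E d => K (p.1 + p.2) := mK.comp ma
    rw [noisy, integral_map ma.aemeasurable mK.aestronglyMeasurable,
      integral_prod _ (bdd_integrable mKa (fun _ => K0 _) (fun _ => K1 _))]
  have hpost : ∀ y, IsProbabilityMeasure (post V y σ) := fun y => (adm_sconv_pp hV y hσ).isProb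
  have mF' : Measurable fun y => ∫ z, F z ∂(post V y σ) := by
    have e : (fun y => ∫ z, F z ∂(post V y σ)) =
        fun y => (∫⁻ z, ENNReal.ofReal (F z) ∂(post V y σ)).toReal := funext fun y =>
      integral_eq_lintegral_of_nonneg_ae (Eventually.of_forall h0) hF.aestronglyMeasurable
    rw [e]
    exact (measurable_lintegral_post hV hσ (ENNReal.measurable_ofReal.comp hF)).ennreal_toReal
  have hb := fun y => bdd_integral (μ := post V y σ) hF h0 h1
  have iF' : Integrable (fun y => ∫ z, F z ∂(post V y σ)) (noisy (gibbs V) σ) :=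
    bdd_integrable mF' (fun y => (hb y).1) (fun y => (hb y).2)
  -- second moment of noisy
  have hmom := adm_mom hV hd
  have hmomn := ns_mom (d := d) hσ hd
  have ma : Measurable fun p : E d × E d => p.1 + p.2 := measurable_fst.add measurable_snd
  have i1 : Integrable (fun p : E d × E d => 2 * ‖p.1‖ ^ 2) ((gibbs V).prod (ns d σ)) :=
    Integrable.const_mul (Integrable.comp_fst (μ := gibbs V) (ν := ns d σ) hmom.1) 2
  have i2 : Integrable (fun p : E d × E d => 2 * ‖p.2‖ ^ 2) ((gibbs V).prod (ns d σ)) :=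
    Integrable.const_mul (Integrable.comp_snd (μ := gibbs V) (ν := ns d σ) hmomn.1) 2
  have hpw : ∀ p : E d × E d, ‖p.1 + p.2‖ ^ 2 ≤ 2 * ‖p.1‖ ^ 2 + 2 * ‖p.2‖ ^ 2 := by
    intro p
    have h3 := norm_add_le p.1 p.2
    calc ‖p.1 + p.2‖ ^ 2 ≤ (‖p.1‖ + ‖p.2‖) ^ 2 := by gcongr
      _ ≤ _ := by nlinarith [sq_nonneg (‖p.1‖ - ‖p.2‖)]
  have cn2 : Continuous fun y : E d => ‖y‖ ^ 2 := continuous_norm.pow 2
  have iY : Integrable (fun y => ‖y‖ ^ 2) (noisy (gibbs V) σ) := by
    rw [noisy, integrable_map_measure cn2.aestronglyMeasurable ma.aemeasurable]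
    refine (i1.add i2).mono' ((ma.norm.pow_const 2).aestronglyMeasurable)
      (Eventually.of_forall fun p => ?_)
    simp only [Function.comp_apply, Pi.add_apply]
    rw [Real.norm_eq_abs, abs_of_nonneg (by positivity)]
    exact hpw p
  have hσ2 : σ ^ 2 ≤ 1 := pow_le_one₀ hσ.le hσ1
  have hY : ∫ y, ‖y‖ ^ 2 ∂(noisy (gibbs V) σ) ≤ 16 * d := by
    rw [noisy, integral_map ma.aemeasurable cn2.aestronglyMeasurable]
    calc ∫ p : E d × E d, ‖p.1 + p.2‖ ^ 2 ∂((gibbs V).prod (ns d σ))
        ≤ ∫ p : E d × E d, (2 * ‖p.1‖ ^ 2 + 2 * ‖p.2‖ ^ 2) ∂((gibbs V).prod (ns d σ)) :=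
          integral_mono_of_nonneg (Eventually.of_forall fun p => by positivity) (i1.add i2)
            (Eventually.of_forall hpw)
      _ = 2 * (∫ x, ‖x‖ ^ 2 ∂(gibbs V)) + 2 * ∫ x, ‖x‖ ^ 2 ∂(ns d σ) := by
          rw [integral_add i1 i2, integral_const_mul, integral_const_mul,
            integral_fun_fst (μ := gibbs V) (ν := ns d σ) (fun x => ‖x‖ ^ 2),
            integral_fun_snd (μ := gibbs V) (ν := ns d σ) (fun x => ‖x‖ ^ 2)]
          simp
      _ ≤ 2 * (4 * d) + 2 * (4 * d * σ ^ 2) := by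
          have := hmom.2
          have := hmomn.2
          gcongr
      _ ≤ 16 * d := by
          have : (4 : ℝ) * d * σ ^ 2 ≤ 4 * d * 1 := by gcongr
          linarith
  have h3 : ∫ y, K y ∂(noisy (gibbs V) σ) ≤
      ∫ z, F z ∂(gibbs V) + (8 * d * σ ^ 2 + 18 * σ ^ 4 * (16 * d)) := by
    calc ∫ y, K y ∂(noisy (gibbs V) σ)
        ≤ ∫ y, ((∫ z, F z ∂(post V y σ)) + (8 * d * σ ^ 2 + 18 * σ ^ 4 * ‖y‖ ^ 2))
            ∂(noisy (gibbs V) σ) := by
          refine integral_mono (bdd_integrable mK K0 K1)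
            (iF'.add ((integrable_const _).add (iY.const_mul _))) fun y => ?_
          exact gauss_le_post hV hσ hd y hF h0 h1
      _ = ∫ z, F z ∂(gibbs V) + (8 * d * σ ^ 2 +
            18 * σ ^ 4 * ∫ y, ‖y‖ ^ 2 ∂(noisy (gibbs V) σ)) := by
          have i3 : Integrable (fun y : E d => 8 * d * σ ^ 2 + 18 * σ ^ 4 * ‖y‖ ^ 2)
              (noisy (gibbs V) σ) := (integrable_const _).add (iY.const_mul _)
          rw [integral_add iF' i3,
            integral_add (integrable_const _) (iY.const_mul _),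
            inv_integral_nonneg hV hσ hF h0 (fun y => bdd_integrable hF h0 h1),
            integral_const_mul (18 * σ ^ 4)]
          simp
      _ ≤ _ := by gcongr
  rw [e1]
  have h4 := (abs_le.mp h2).2
  rw [e2] at h4
  linarith

/-- **(T4)** the final step. -/
theorem fin_tv (hV : Admissible d V) {σ : ℝ} (hσ : 0 < σ) (hσ1 : σ ≤ 1) (hd : 0 < d)
    {P : Measure (E d)} [IsProbabilityMeasure P] {δ : ℝ} (hP : DLip P (gibbs V) δ)
    {B : Set (E d)} (hB : MeasurableSet B) :
    |(fin V σ P B).toReal - (gibbs V B).toReal| ≤ δ / σ + 8 * d * σ ^ 2 + 288 * d * σ ^ 4 := by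
  have hVs := adm_sconv hV
  have := hVs.isProb
  have hns := ns_prob (d := d) σ hσ
  have hfin : IsProbabilityMeasure (fin V σ P) := by
    have hm : Measurable fun p : E d × (E d × E d) => TT V σ (p.1 + p.2.1) + p.2.2 :=
      ((measurable_TT hV σ).comp (measurable_fst.add (measurable_fst.comp measurable_snd))).add
        (measurable_snd.comp measurable_snd)
    exact Measure.isProbabilityMeasure_map hm.aemeasurable
  have key : ∀ C : Set (E d), MeasurableSet C → (fin V σ P C).toReal ≤ (gibbs V C).toReal +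
      (δ / σ + 8 * d * σ ^ 2 + 288 * d * σ ^ 4) := by
    intro C hC
    have h := fin_le hV hσ hσ1 hd hP (F := C.indicator fun _ => (1 : ℝ))
      (measurable_const.indicator hC) (fun x => by
        by_cases hx : x ∈ C <;> simp [hx]) (fun x => by by_cases hx : x ∈ C <;> simp [hx])
    rw [integral_indicator_const _ hC, integral_indicator_const _ hC] at h
    simpa [Measure.real] using h
  have h1 := key B hB
  have h2 := key Bᶜ hB.compl
  rw [prob_compl_eq_one_sub hB, prob_compl_eq_one_sub hB,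
    ENNReal.toReal_sub_of_le prob_le_one ENNReal.one_ne_top,
    ENNReal.toReal_sub_of_le prob_le_one ENNReal.one_ne_top] at h2
  rw [abs_le]
  constructor <;> linarith

end Crest.Agent.R285.Top
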