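import Mathlib
import Crest.Prelude.Def_OracleSampling

/-!
Row 285 (S0430), module TOP: Gibbs measures `gibbs W ∝ exp (-W)` of strongly (midpoint) convex
potentials on Euclidean space.
-/

set_option autoImplicit false

open MeasureTheory Crest.OracleSampling Set Filter Topology
open scoped ENNReal

noncomputable section

namespace Crest.Agent.R285

variable {d : ℕ}

/-- The (normalized) Gibbs measure of a potential. -/
def gibbs (W : E d → ℝ) : Measure (E d) :=
  (((volume : Measure (E d)).withDensity fun x => ENNReal.ofReal (Real.exp (-W x))) Set.univ)⁻¹ •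
    (volume : Measure (E d)).withDensity fun x => ENNReal.ofReal (Real.exp (-W x))

theorem target_eq_gibbs (V : E d → ℝ) : target d V = gibbs V := rfl

/-- The partition function. -/
def ZZ (W : E d → ℝ) : ℝ := ∫ x, Real.exp (-W x)

/-- Quadratic growth. -/
structure QG (W : E d → ℝ) : Prop where
  cont : Continuous W
  lb : ∃ a : ℝ, 0 < a ∧ ∃ B : ℝ, ∀ x, a * ‖x‖ ^ 2 - B ≤ W x

theorem integrable_exp_neg_mul_sq_norm {a : ℝ} (ha : 0 < a) :
    Integrable (fun x : E d => Real.exp (-(a * ‖x‖ ^ 2))) := by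
  have h := GaussianFourier.integrable_cexp_neg_mul_sq_norm_add (V := E d) (b := (a : ℂ))
    (by simpa using ha) 0 0
  have h2 := h.re
  refine h2.congr (Eventually.of_forall fun x => ?_)
  simp only [zero_mul, add_zero]
  have : (-(a:ℂ) * (‖x‖:ℂ) ^ 2) = ((-(a * ‖x‖ ^ 2) : ℝ) : ℂ) := by push_cast; ring
  rw [this, ← Complex.ofReal_exp]
  exact Complex.ofReal_re _

theorem QG.integrable_exp {W : E d → ℝ} (hW : QG W) (K : ℝ) :
    Integrable (fun x : E d => Real.exp (-W x + K * ‖x‖)) := by
  obtain ⟨a, ha, B, hB⟩ := hW.lb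
  have h1 := (integrable_exp_neg_mul_sq_norm (d := d) (half_pos ha)).const_mul
    (Real.exp (B + K ^ 2 / (2 * a)))
  refine h1.mono' ?_ (Eventually.of_forall fun x => ?_)
  · exact (Real.continuous_exp.comp (hW.cont.neg.add
      (continuous_const.mul continuous_norm))).aestronglyMeasurable
  · rw [Real.norm_eq_abs, abs_of_pos (Real.exp_pos _), ← Real.exp_add]
    apply Real.exp_le_exp.mpr
    have h2 := hB x
    have h3 : K * ‖x‖ ≤ K ^ 2 / (2 * a) + a / 2 * ‖x‖ ^ 2 := by
      rw [← sub_nonneg]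
      have : K ^ 2 / (2 * a) + a / 2 * ‖x‖ ^ 2 - K * ‖x‖ = (K - a * ‖x‖) ^ 2 / (2 * a) := by
        field_simp; ring
      rw [this]; positivity
    nlinarith

theorem QG.integrable_exp_neg {W : E d → ℝ} (hW : QG W) :
    Integrable (fun x : E d => Real.exp (-W x)) := by
  simpa using hW.integrable_exp 0

theorem QG.ZZ_pos {W : E d → ℝ} (hW : QG W) : 0 < ZZ W := by
  unfold ZZ
  exact integral_exp_pos hW.integrable_exp_neg

theorem QG.lintegral_exp_neg {W : E d → ℝ} (hW : QG W) :
    ∫⁻ x, ENNReal.ofReal (Real.exp (-W x)) = ENNReal.ofReal (ZZ W) := by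
  unfold ZZ
  rw [ofReal_integral_eq_lintegral_ofReal hW.integrable_exp_neg
    (Eventually.of_forall fun x => (Real.exp_pos _).le)]

theorem gibbs_eq {W : E d → ℝ} (hW : QG W) :
    gibbs W = (volume : Measure (E d)).withDensity
      fun x => ENNReal.ofReal (Real.exp (-W x) / ZZ W) := by
  unfold gibbs
  rw [withDensity_apply _ MeasurableSet.univ, Measure.restrict_univ, hW.lintegral_exp_neg,
    ← withDensity_smul _ (by
      exact ENNReal.measurable_ofReal.comp (Real.continuous_exp.comp hW.cont.neg).measurable)]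
  congr 1
  funext x
  rw [Pi.smul_apply, smul_eq_mul, ← ENNReal.ofReal_inv_of_pos hW.ZZ_pos,
    ← ENNReal.ofReal_mul (inv_nonneg.mpr hW.ZZ_pos.le)]
  congr 1
  rw [div_eq_inv_mul]

theorem QG.isProb {W : E d → ℝ} (hW : QG W) : IsProbabilityMeasure (gibbs W) := by
  refine ⟨?_⟩
  rw [gibbs_eq hW, withDensity_apply _ MeasurableSet.univ, Measure.restrict_univ,
    ← ofReal_integral_eq_lintegral_ofReal (hW.integrable_exp_neg.div_const _)
      (Eventually.of_forall fun x => div_nonneg (Real.exp_pos _).le hW.ZZ_pos.le),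
    integral_div]
  have h : (∫ x, Real.exp (-W x)) / ZZ W = 1 := div_self (ne_of_gt hW.ZZ_pos)
  rw [h, ENNReal.ofReal_one]

theorem integral_gibbs {W : E d → ℝ} (hW : QG W) {F : Type} [NormedAddCommGroup F]
    [NormedSpace ℝ F] (f : E d → F) :
    ∫ x, f x ∂(gibbs W) = (ZZ W)⁻¹ • ∫ x, Real.exp (-W x) • f x := by
  have hm : Measurable fun x => (Real.exp (-W x) / ZZ W).toNNReal :=
    (Real.continuous_exp.comp hW.cont.neg |>.div_const _).measurable.real_toNNReal
  have e1 : (fun x => ENNReal.ofReal (Real.exp (-W x) / ZZ W)) =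
      fun x => (((Real.exp (-W x) / ZZ W).toNNReal : NNReal) : ℝ≥0∞) := rfl
  rw [gibbs_eq hW, e1, integral_withDensity_eq_integral_smul hm]
  · rw [← integral_smul]
    congr 1
    funext x
    have : 0 ≤ Real.exp (-W x) / ZZ W := div_nonneg (Real.exp_pos _).le hW.ZZ_pos.le
    rw [NNReal.smul_def, Real.coe_toNNReal _ this, smul_smul, div_eq_inv_mul]

theorem integrable_gibbs_iff {W : E d → ℝ} (hW : QG W) {F : Type} [NormedAddCommGroup F]
    [NormedSpace ℝ F] (f : E d → F) :
    Integrable f (gibbs W) ↔ Integrable (fun x => Real.exp (-W x) • f x) := by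
  rw [gibbs_eq hW]
  have hm : Measurable fun x => (Real.exp (-W x) / ZZ W).toNNReal :=
    (Real.continuous_exp.comp hW.cont.neg |>.div_const _).measurable.real_toNNReal
  have e1 : (fun x => ENNReal.ofReal (Real.exp (-W x) / ZZ W)) =
      fun x => (((Real.exp (-W x) / ZZ W).toNNReal : NNReal) : ℝ≥0∞) := rfl
  rw [e1, integrable_withDensity_iff_integrable_smul hm]
  have h0 : (ZZ W)⁻¹ ≠ 0 := inv_ne_zero (ne_of_gt hW.ZZ_pos)
  have e2 : (fun x => (Real.exp (-W x) / ZZ W).toNNReal • f x) =
      fun x => (ZZ W)⁻¹ • (Real.exp (-W x) • f x) := by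
    funext x
    have : 0 ≤ Real.exp (-W x) / ZZ W := div_nonneg (Real.exp_pos _).le hW.ZZ_pos.le
    rw [NNReal.smul_def, Real.coe_toNNReal _ this, smul_smul, div_eq_inv_mul]
  rw [e2]
  exact integrable_smul_iff h0 _

/-- Everything of exponential growth is integrable. -/
theorem QG.integrable_of_le {W : E d → ℝ} (hW : QG W) {F : Type} [NormedAddCommGroup F]
    [NormedSpace ℝ F] {f : E d → F} (hf : AEStronglyMeasurable f volume) {C K : ℝ}
    (hb : ∀ x, ‖f x‖ ≤ C * Real.exp (K * ‖x‖)) : Integrable f (gibbs W) := by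
  rw [integrable_gibbs_iff hW]
  refine ((hW.integrable_exp K).const_mul C).mono' ?_ (Eventually.of_forall fun x => ?_)
  · exact (Real.continuous_exp.comp hW.cont.neg).aestronglyMeasurable.smul hf
  · rw [norm_smul, Real.norm_eq_abs, abs_of_pos (Real.exp_pos _)]
    calc Real.exp (-W x) * ‖f x‖ ≤ Real.exp (-W x) * (C * Real.exp (K * ‖x‖)) := by
          gcongr; exact hb x
      _ = C * Real.exp (-W x + K * ‖x‖) := by rw [Real.exp_add]; ring

theorem gibbs_add_const (W : E d → ℝ) (hW : QG W) (c : ℝ) :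
    gibbs (fun x => W x + c) = gibbs W := by
  have hW' : QG (fun x => W x + c) := by
    refine ⟨hW.cont.add continuous_const, ?_⟩
    obtain ⟨a, ha, B, hB⟩ := hW.lb
    exact ⟨a, ha, B - c, fun x => by linarith [hB x]⟩
  rw [gibbs_eq hW, gibbs_eq hW']
  congr 1
  funext x
  congr 1
  unfold ZZ
  simp only [neg_add, Real.exp_add]
  rw [integral_mul_const]
  have := Real.exp_pos (-c)
  rw [mul_div_mul_right _ _ (ne_of_gt this)]

end Crest.Agent.R285
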