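import Crest.Agent.R285.TopMom
import Crest.Agent.R285.DLip

/-!
Row 285 (S0430), module TOP: invariance of the target under "add Gaussian noise, sample the
posterior".
-/

set_option autoImplicit false

open MeasureTheory Crest.OracleSampling Set Filter Topology
open scoped ENNReal RealInnerProductSpace NNReal

noncomputable section

namespace Crest.Agent.R285.Top

variable {d : ℕ} {V : E d → ℝ}

theorem measurable_dens {W : E d → ℝ} (hW : QG W) :
    Measurable fun x => ENNReal.ofReal (Real.exp (-W x) / ZZ W) :=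
  ENNReal.measurable_ofReal.comp
    ((Real.continuous_exp.comp hW.cont.neg).div_const _).measurable

theorem lintegral_gibbs {W : E d → ℝ} (hW : QG W) {F : E d → ℝ≥0∞} (hF : Measurable F) :
    ∫⁻ x, F x ∂(gibbs W) = ∫⁻ x, ENNReal.ofReal (Real.exp (-W x) / ZZ W) * F x := by
  rw [gibbs_eq hW, lintegral_withDensity_eq_lintegral_mul _ (measurable_dens hW) hF]
  rfl

theorem lintegral_ns {s : ℝ} (hs : 0 < s) (x : E d) {H : E d → ℝ≥0∞} (hH : Measurable H) :
    ∫⁻ g, H (x + g) ∂(ns d s) =
      ∫⁻ y, ENNReal.ofReal (Real.exp (-(‖y - x‖ ^ 2 / (2 * s ^ 2))) / ZZ (qp s : E d → ℝ)) * H y := by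
  have m1 : Measurable fun g : E d => H (x + g) := hH.comp (measurable_const.add measurable_id)
  rw [ns, lintegral_gibbs (qp_sconv hs).toQG m1,
    ← lintegral_add_left_eq_self (μ := (volume : Measure (E d)))
      (fun y => ENNReal.ofReal (Real.exp (-(‖y - x‖ ^ 2 / (2 * s ^ 2))) / ZZ (qp s : E d → ℝ)) * H y) x]
  congr 1
  funext g
  rw [add_sub_cancel_left]
  rfl

/-- The unnormalized joint density. -/
def jd (V : E d → ℝ) (s : ℝ) (p : E d × E d) : ℝ≥0∞ :=
  ENNReal.ofReal (Real.exp (-(pp V p.1 s p.2)))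

theorem measurable_jd (hV : Continuous V) (s : ℝ) : Measurable (jd V s) := by
  unfold jd pp
  have : Continuous fun p : E d × E d => Real.exp (-(V p.2 + ‖p.2 - p.1‖ ^ 2 / (2 * s ^ 2))) :=
    Real.continuous_exp.comp (((hV.comp continuous_snd).add
      (((continuous_snd.sub continuous_fst).norm.pow 2).div_const _)).neg)
  exact ENNReal.measurable_ofReal.comp this.measurable

theorem lintegral_post (hV : Admissible d V) {s : ℝ} (hs : 0 < s) (y : E d) {F : E d → ℝ≥0∞}
    (hF : Measurable F) :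
    ∫⁻ z, F z ∂(post V y s) = (∫⁻ z, jd V s (y, z))⁻¹ * ∫⁻ z, jd V s (y, z) * F z := by
  have hq := (adm_sconv_pp hV y hs).toQG
  have h0 : ∫⁻ z, jd V s (y, z) = ENNReal.ofReal (ZZ (pp V y s)) := hq.lintegral_exp_neg
  rw [post_eq, lintegral_gibbs hq hF, h0, ← lintegral_const_mul']
  · congr 1
    funext z
    unfold jd
    rw [← mul_assoc, ← ENNReal.ofReal_inv_of_pos hq.ZZ_pos,
      ← ENNReal.ofReal_mul (inv_nonneg.mpr hq.ZZ_pos.le), div_eq_inv_mul]
  · exact ENNReal.inv_ne_top.mpr (by simpa using hq.ZZ_pos)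

theorem measurable_lintegral_post (hV : Admissible d V) {s : ℝ} (hs : 0 < s)
    {F : E d → ℝ≥0∞} (hF : Measurable F) : Measurable fun y => ∫⁻ z, F z ∂(post V y s) := by
  have e : (fun y => ∫⁻ z, F z ∂(post V y s)) =
      fun y => (∫⁻ z, jd V s (y, z))⁻¹ * ∫⁻ z, jd V s (y, z) * F z := by
    funext y; exact lintegral_post hV hs y hF
  rw [e]
  have hj := measurable_jd (adm_cont hV) s
  exact (hj.lintegral_prod_right').inv.mul
    ((hj.mul (hF.comp measurable_snd)).lintegral_prod_right')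

/-- **Invariance**, lintegral version. -/
theorem inv_lintegral (hV : Admissible d V) {s : ℝ} (hs : 0 < s) {F : E d → ℝ≥0∞}
    (hF : Measurable F) :
    ∫⁻ x, ∫⁻ g, (∫⁻ z, F z ∂(post V (x + g) s)) ∂(ns d s) ∂(gibbs V) =
      ∫⁻ z, F z ∂(gibbs V) := by
  have hVq := (adm_sconv hV).toQG
  have hj := measurable_jd (adm_cont hV) s
  have hK := measurable_lintegral_post hV hs hF
  have mj1 : ∀ y, Measurable fun z => jd V s (y, z) := fun y => hj.comp measurable_prodMk_left
  have mj2 : ∀ z, Measurable fun y => jd V s (y, z) := fun z => hj.comp measurable_prodMk_right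
  have hZ : 0 < ZZ V := hVq.ZZ_pos
  have hZs : 0 < ZZ (qp s : E d → ℝ) := (qp_sconv hs).ZZ_pos
  -- rewrite the left side as a double integral
  have e1 : ∀ x, ∫⁻ g, (∫⁻ z, F z ∂(post V (x + g) s)) ∂(ns d s) =
      ∫⁻ y, ENNReal.ofReal (Real.exp (-(‖y - x‖ ^ 2 / (2 * s ^ 2))) / ZZ (qp s : E d → ℝ)) *
        (∫⁻ z, F z ∂(post V y s)) := fun x => lintegral_ns hs x hK
  have mk : Measurable fun p : E d × E d =>
      ENNReal.ofReal (Real.exp (-(‖p.2 - p.1‖ ^ 2 / (2 * s ^ 2))) / ZZ (qp s : E d → ℝ)) := by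
    have : Continuous fun p : E d × E d =>
        Real.exp (-(‖p.2 - p.1‖ ^ 2 / (2 * s ^ 2))) / ZZ (qp s : E d → ℝ) :=
      (Real.continuous_exp.comp
        ((((continuous_snd.sub continuous_fst).norm.pow 2).div_const _)).neg).div_const _
    exact ENNReal.measurable_ofReal.comp this.measurable
  have mH : Measurable fun x => ∫⁻ y, ENNReal.ofReal (Real.exp (-(‖y - x‖ ^ 2 / (2 * s ^ 2))) /
      ZZ (qp s : E d → ℝ)) * (∫⁻ z, F z ∂(post V y s)) :=
    (mk.mul (hK.comp measurable_snd)).lintegral_prod_right'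
  simp_rw [e1]
  rw [lintegral_gibbs hVq mH]
  set c : ℝ≥0∞ := ENNReal.ofReal (1 / (ZZ V * ZZ (qp s : E d → ℝ))) with hc
  have hctop : c ≠ ∞ := ENNReal.ofReal_ne_top
  have e2 : ∀ x, ENNReal.ofReal (Real.exp (-V x) / ZZ V) *
      ∫⁻ y, ENNReal.ofReal (Real.exp (-(‖y - x‖ ^ 2 / (2 * s ^ 2))) / ZZ (qp s : E d → ℝ)) *
        (∫⁻ z, F z ∂(post V y s)) =
      ∫⁻ y, c * (jd V s (y, x) * (∫⁻ z, F z ∂(post V y s))) := by
    intro x
    rw [← lintegral_const_mul' _ _ ENNReal.ofReal_ne_top]
    congr 1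
    funext y
    rw [← mul_assoc, ← mul_assoc]
    congr 1
    unfold jd pp
    rw [hc, ← ENNReal.ofReal_mul (by positivity), ← ENNReal.ofReal_mul (by positivity)]
    congr 1
    rw [neg_add, Real.exp_add, norm_sub_rev x y]
    field_simp
  simp_rw [e2]
  rw [lintegral_lintegral_swap]
  swap
  · refine Measurable.aemeasurable ?_
    exact measurable_const.mul ((hj.comp measurable_swap).mul (hK.comp measurable_snd))
  have e3 : ∀ y, ∫⁻ x, c * (jd V s (y, x) * (∫⁻ z, F z ∂(post V y s))) =
      c * ∫⁻ z, jd V s (y, z) * F z := by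
    intro y
    rw [lintegral_const_mul' _ _ hctop, lintegral_mul_const _ (mj1 y)]
    congr 1
    have hq := (adm_sconv_pp hV y hs).toQG
    have h0 : ∫⁻ z, jd V s (y, z) = ENNReal.ofReal (ZZ (pp V y s)) := hq.lintegral_exp_neg
    rw [lintegral_post hV hs y hF, ← mul_assoc]
    change (∫⁻ z, jd V s (y, z)) * (∫⁻ z, jd V s (y, z))⁻¹ * _ = _
    rw [ENNReal.mul_inv_cancel (by rw [h0]; simpa using hq.ZZ_pos)
      (by rw [h0]; exact ENNReal.ofReal_ne_top), one_mul]
  simp_rw [e3]
  rw [lintegral_const_mul' _ _ hctop]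
  rw [lintegral_lintegral_swap (hj.mul (hF.comp measurable_snd)).aemeasurable]
  have e4 : ∀ z, ∫⁻ y, jd V s (y, z) * F z =
      ENNReal.ofReal (Real.exp (-V z)) * ENNReal.ofReal (ZZ (qp s : E d → ℝ)) * F z := by
    intro z
    rw [lintegral_mul_const _ (mj2 z)]
    congr 1
    have e5 : ∀ y, jd V s (y, z) = ENNReal.ofReal (Real.exp (-V z)) *
        ENNReal.ofReal (Real.exp (-(‖y - z‖ ^ 2 / (2 * s ^ 2)))) := by
      intro y
      unfold jd pp
      rw [← ENNReal.ofReal_mul (by positivity), neg_add, Real.exp_add, norm_sub_rev z y]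
    simp_rw [e5]
    rw [lintegral_const_mul' _ _ ENNReal.ofReal_ne_top]
    congr 1
    have h1 := lintegral_sub_right_eq_self (μ := (volume : Measure (E d)))
      (fun y => ENNReal.ofReal (Real.exp (-(qp s y)))) z
    rw [(qp_sconv hs).toQG.lintegral_exp_neg] at h1
    exact h1
  simp_rw [e4]
  rw [lintegral_gibbs hVq hF, ← lintegral_const_mul' _ _ hctop]
  congr 1
  funext z
  rw [← mul_assoc]
  congr 1
  rw [hc, ← ENNReal.ofReal_mul (by positivity), ← ENNReal.ofReal_mul (by positivity)]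
  congr 1
  field_simp

/-- The law of `x + noise`. -/
def noisy (P : Measure (E d)) (s : ℝ) : Measure (E d) :=
  (P.prod (ns d s)).map fun p => p.1 + p.2

theorem noisy_prob {P : Measure (E d)} [IsProbabilityMeasure P] {s : ℝ} (hs : 0 < s) :
    IsProbabilityMeasure (noisy P s) := by
  have := ns_prob (d := d) s hs
  exact Measure.isProbabilityMeasure_map (measurable_fst.add measurable_snd).aemeasurable

theorem lintegral_noisy {P : Measure (E d)} {s : ℝ} (hs : 0 < s)
    {H : E d → ℝ≥0∞} (hH : Measurable H) :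
    ∫⁻ y, H y ∂(noisy P s) = ∫⁻ x, ∫⁻ g, H (x + g) ∂(ns d s) ∂P := by
  have := ns_prob (d := d) s hs
  have ma : Measurable fun p : E d × E d => p.1 + p.2 := measurable_fst.add measurable_snd
  have mb : Measurable fun p : E d × E d => H (p.1 + p.2) := hH.comp ma
  rw [noisy, lintegral_map hH ma, lintegral_prod _ mb.aemeasurable]

/-- Real version for nonnegative integrable functions. -/
theorem inv_integral_nonneg (hV : Admissible d V) {s : ℝ} (hs : 0 < s) {φ : E d → ℝ}
    (hφ : Measurable φ) (h0 : ∀ x, 0 ≤ φ x) (hi : ∀ y, Integrable φ (post V y s)) :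
    ∫ y, (∫ z, φ z ∂(post V y s)) ∂(noisy (gibbs V) s) = ∫ z, φ z ∂(gibbs V) := by
  have hF : Measurable fun z => ENNReal.ofReal (φ z) := ENNReal.measurable_ofReal.comp hφ
  have hK := measurable_lintegral_post hV hs hF
  have e1 : ∀ y, ∫ z, φ z ∂(post V y s) = (∫⁻ z, ENNReal.ofReal (φ z) ∂(post V y s)).toReal :=
    fun y => integral_eq_lintegral_of_nonneg_ae (Eventually.of_forall h0)
      hφ.aestronglyMeasurable
  have e2 : ∀ y, ENNReal.ofReal (∫ z, φ z ∂(post V y s)) =
      ∫⁻ z, ENNReal.ofReal (φ z) ∂(post V y s) :=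
    fun y => ofReal_integral_eq_lintegral_ofReal (hi y) (Eventually.of_forall h0)
  have hm : Measurable fun y => ∫ z, φ z ∂(post V y s) := by
    have : (fun y => ∫ z, φ z ∂(post V y s)) =
        fun y => (∫⁻ z, ENNReal.ofReal (φ z) ∂(post V y s)).toReal := funext e1
    rw [this]; exact hK.ennreal_toReal
  rw [integral_eq_lintegral_of_nonneg_ae
    (Eventually.of_forall fun y => integral_nonneg h0) hm.aestronglyMeasurable]
  simp_rw [e2]
  rw [lintegral_noisy hs hK, inv_lintegral hV hs hF,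
    ← integral_eq_lintegral_of_nonneg_ae (Eventually.of_forall h0) hφ.aestronglyMeasurable]

theorem Lip.pos {L : ℝ} {φ : E d → ℝ} (h : Lip L φ) : Lip L (fun x => max (φ x) 0) := by
  intro x y
  exact (abs_max_sub_max_le_abs _ _ _).trans (h x y)

theorem QG.integrable_norm {W : E d → ℝ} (hW : QG W) : Integrable (fun x => ‖x‖) (gibbs W) := by
  refine hW.integrable_of_le (C := 1) (K := 1) continuous_norm.aestronglyMeasurable fun x => ?_
  rw [norm_norm, one_mul, one_mul]
  linarith [Real.add_one_le_exp ‖x‖]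

theorem noisy_int {P : Measure (E d)} [IsProbabilityMeasure P] (hP : Integrable (fun x => ‖x‖) P)
    {s : ℝ} (hs : 0 < s) : Integrable (fun y => ‖y‖) (noisy P s) := by
  have := ns_prob (d := d) s hs
  have ma : Measurable fun p : E d × E d => p.1 + p.2 := measurable_fst.add measurable_snd
  rw [noisy, integrable_map_measure continuous_norm.aestronglyMeasurable ma.aemeasurable]
  have h1 : Integrable (fun p : E d × E d => ‖p.1‖) (P.prod (ns d s)) := hP.comp_fst _
  have h2 : Integrable (fun p : E d × E d => ‖p.2‖) (P.prod (ns d s)) :=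
    Integrable.comp_snd (μ := P) (ν := ns d s) (QG.integrable_norm (qp_sconv hs).toQG)
  refine (h1.add h2).mono' (ma.norm).aestronglyMeasurable (Eventually.of_forall fun p => ?_)
  simp only [Function.comp_apply, norm_norm, Pi.add_apply]
  exact norm_add_le _ _

theorem Lip.lipschitzWith {L : ℝ} {φ : E d → ℝ} (h : Lip L φ) :
    LipschitzWith (Real.toNNReal L) φ := by
  refine LipschitzWith.of_dist_le_mul fun x y => ?_
  rw [Real.dist_eq, dist_eq_norm]
  refine (h x y).trans ?_
  gcongr
  exact Real.le_coe_toNNReal L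

theorem Lip.of_lipschitzWith {K : ℝ≥0} {φ : E d → ℝ} (h : LipschitzWith K φ) : Lip K φ := by
  intro x y
  have := h.dist_le_mul x y
  rwa [Real.dist_eq, dist_eq_norm] at this

/-- Averages over the posterior are Lipschitz in the centre. -/
theorem lip_post (hV : Admissible d V) {s : ℝ} (hs : 0 < s) {L : ℝ} (hL : 0 ≤ L)
    {φ : E d → ℝ} (hφ : Lip L φ) : Lip (L / (1 + s ^ 2)) (fun y => ∫ z, φ z ∂(post V y s)) :=
  fun y y' => post_contract hV hs hL hφ y' y

/-- **Invariance**, for Lipschitz functions. -/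
theorem inv_integral (hV : Admissible d V) {s : ℝ} (hs : 0 < s) {L : ℝ} (hL : 0 ≤ L)
    {φ : E d → ℝ} (hφ : Lip L φ) :
    ∫ y, (∫ z, φ z ∂(post V y s)) ∂(noisy (gibbs V) s) = ∫ z, φ z ∂(gibbs V) := by
  have hVs := adm_sconv hV
  have := hVs.isProb
  have := noisy_prob (P := gibbs V) hs
  have hn := noisy_int (P := gibbs V) (QG.integrable_norm hVs.toQG) hs
  have hp := hφ.pos
  have hm := hφ.neg.pos
  have e : ∀ x, φ x = max (φ x) 0 - max (-φ x) 0 := by
    intro x
    rcases le_total 0 (φ x) with h | h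
    · rw [max_eq_left h, max_eq_right (by linarith)]; ring
    · rw [max_eq_right h, max_eq_left (by linarith)]; ring
  have ip : ∀ y, Integrable (fun x => max (φ x) 0) (post V y s) :=
    fun y => (adm_sconv_pp hV y hs).integrable_lip hp
  have im : ∀ y, Integrable (fun x => max (-φ x) 0) (post V y s) :=
    fun y => (adm_sconv_pp hV y hs).integrable_lip hm
  have h1 := inv_integral_nonneg hV hs hp.continuous.measurable (fun x => le_max_right _ _) ip
  have h2 := inv_integral_nonneg hV hs hm.continuous.measurable (fun x => le_max_right _ _) im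
  have e2 : ∀ y, ∫ z, φ z ∂(post V y s) =
      (∫ z, max (φ z) 0 ∂(post V y s)) - ∫ z, max (-φ z) 0 ∂(post V y s) := by
    intro y
    rw [← integral_sub (ip y) (im y)]
    congr 1
    funext x
    exact e x
  simp_rw [e2]
  rw [integral_sub (integrable_of_lipschitz hn (lip_post hV hs hL hp).lipschitzWith)
    (integrable_of_lipschitz hn (lip_post hV hs hL hm).lipschitzWith), h1, h2,
    ← integral_sub (hVs.integrable_lip hp) (hVs.integrable_lip hm)]
  congr 1
  funext x
  exact (e x).symm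

end Crest.Agent.R285.Top
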