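import Crest.Agent.R285.TopMain
import Crest.Agent.R285.Link

/-!
Row 285 (S0430): from `Link.HS` (hence from `∀ x A g, SP x g 1 A`) to the statement S0430.
-/

set_option autoImplicit false

open MeasureTheory Crest.OracleSampling Set Filter Topology
open scoped ENNReal RealInnerProductSpace NNReal

noncomputable section

namespace Crest.Agent.R285.Top

theorem HS_of_LinkHS (H : Link.HS) : HS := by
  intro x A g hx _ hg
  obtain ⟨C, hC, hE⟩ := H (2 * x) (by positivity) A g hg
  refine ⟨C, hC, ?_⟩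
  filter_upwards [hE, eventually_gt_atTop 0] with d hd hd0
  obtain ⟨q, Ω, mΩ, μ, hμ, f, hq, hf, H'⟩ := hd
  have hdR : (0 : ℝ) < d := by exact_mod_cast hd0
  have es : √((d : ℝ) ^ (-(2 * x))) = (d : ℝ) ^ (-x) := by
    rw [Real.sqrt_eq_rpow, ← Real.rpow_mul hdR.le]
    congr 1; ring
  refine ⟨q, hq, Ω, mΩ, μ, hμ, fun V p => f V (p.2, p.1), ?_, fun V hV c => ?_⟩
  · exact hf.comap measurable_swap
  · have := H' V hV c
    rw [es] at this
    exact this

/-- The last link: S0430 from the robust posterior samplers. -/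
theorem S0430_of_SP (h : ∀ x : ℝ, 0 < x → ∀ A g : ℝ, 0 < g → SP x g 1 A) :
    ∀ ε : ℝ, 0 < ε → ∃ C : ℝ, ∀ d : ℕ, 2 ≤ d →
      ∃ (q : ℕ) (A : Crest.OracleSampling.QueryAlg d q), (q : ℝ) ≤ C * (d : ℝ) ^ ε ∧
        ∀ V : Crest.OracleSampling.E d → ℝ, Crest.OracleSampling.Admissible d V →
          Crest.OracleSampling.Succeeds A V :=
  S0430_of_HS (HS_of_LinkHS (Link.HS_of_SP h))

end Crest.Agent.R285.Top
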