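import Crest.Agent.R285.TopPot

/-!
Row 285 (S0430), module TOP: second moments of Gibbs measures; the Gaussian noise `ns s`.
-/

set_option autoImplicit false

open MeasureTheory Crest.OracleSampling Set Filter Topology
open scoped ENNReal RealInnerProductSpace

noncomputable section

namespace Crest.Agent.R285.Top

variable {d : ℕ} {V : E d → ℝ}

/-- Second moment bound by scaling. -/
theorem mom_le {W : E d → ℝ} (hW : QG W) {κ : ℝ} (hκ : 0 < κ) (hd : 0 < d)
    (h : ∀ x, ∀ t : ℝ, 0 < t → t < 1 → W (t • x) + (1 - t ^ 2) * κ * ‖x‖ ^ 2 / 2 ≤ W x) :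
    Integrable (fun x => ‖x‖ ^ 2) (gibbs W) ∧ ∫ x, ‖x‖ ^ 2 ∂(gibbs W) ≤ 4 * d / κ := by
  have hd' : (1 : ℝ) ≤ d := by exact_mod_cast hd
  have hZ := hW.ZZ_pos
  -- integrability
  have hint : Integrable (fun x => ‖x‖ ^ 2) (gibbs W) := by
    refine hW.integrable_of_le (C := 2) (K := 1) (continuous_norm.pow 2).aestronglyMeasurable
      fun x => ?_
    have h1 := Real.quadratic_le_exp_of_nonneg (norm_nonneg x)
    rw [Real.norm_eq_abs, abs_of_nonneg (by positivity), one_mul]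
    nlinarith [norm_nonneg x]
  refine ⟨hint, ?_⟩
  set t : ℝ := 1 - 1 / (2 * d) with ht
  have ht1 : t < 1 := by rw [ht]; have : (0:ℝ) < 1 / (2 * d) := by positivity
                         linarith
  have ht0 : 0 < t := by
    rw [ht]
    have : 1 / (2 * (d : ℝ)) ≤ 1 / 2 := by
      apply one_div_le_one_div_of_le (by norm_num) (by linarith)
    linarith
  have htd : 1 / 2 ≤ t ^ d := by
    have h1 := one_add_mul_le_pow (a := -(1 / (2 * (d : ℝ)))) (by
      have : 1 / (2 * (d : ℝ)) ≤ 1 / 2 := by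
        apply one_div_le_one_div_of_le (by norm_num) (by linarith)
      linarith) d
    have e1 : 1 + (d : ℝ) * -(1 / (2 * (d : ℝ))) = 1 / 2 := by
      field_simp; ring
    have e2 : 1 + -(1 / (2 * (d : ℝ))) = t := by rw [ht]; ring
    rwa [e1, e2] at h1
  have e3 : ∫ x : E d, Real.exp (-W (t • x)) = (t ^ d)⁻¹ * ZZ W := by
    have := Measure.integral_comp_smul (volume : Measure (E d)) (fun x => Real.exp (-W x)) t
    rw [this, finrank_euclideanSpace_fin, smul_eq_mul, abs_of_pos (by positivity)]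
    rfl
  have iW := hW.integrable_exp_neg
  have it : Integrable (fun x : E d => Real.exp (-W (t • x))) := by
    exact iW.comp_smul (ne_of_gt ht0)
  have i2 : Integrable (fun x : E d => Real.exp (-W x) * ‖x‖ ^ 2) := by
    have := (integrable_gibbs_iff hW (fun x => ‖x‖ ^ 2)).mp hint
    simpa [smul_eq_mul] using this
  have h4 : ZZ W + (1 - t ^ 2) * κ / 2 * (∫ x : E d, Real.exp (-W x) * ‖x‖ ^ 2) ≤
      (t ^ d)⁻¹ * ZZ W := by
    rw [← e3]
    unfold ZZ
    rw [← integral_const_mul, ← integral_add iW (i2.const_mul _)]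
    refine integral_mono (iW.add (i2.const_mul _)) it fun x => ?_
    have h5 := h x t ht0 ht1
    have h6 : Real.exp (-W x) * Real.exp ((1 - t ^ 2) * κ * ‖x‖ ^ 2 / 2) ≤
        Real.exp (-W (t • x)) := by
      rw [← Real.exp_add]; apply Real.exp_le_exp.mpr; linarith
    have h7 := Real.add_one_le_exp ((1 - t ^ 2) * κ * ‖x‖ ^ 2 / 2)
    have h8 := Real.exp_pos (-W x)
    simp only
    nlinarith
  have h5 : (t ^ d)⁻¹ ≤ 2 := by
    rw [inv_le_comm₀ (by positivity) (by norm_num)]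
    linarith
  have h6 : (1 - t ^ 2) * κ / 2 * (∫ x : E d, Real.exp (-W x) * ‖x‖ ^ 2) ≤ ZZ W := by
    have : (t ^ d)⁻¹ * ZZ W ≤ 2 * ZZ W := by gcongr
    linarith
  have h7 : 1 / (2 * (d : ℝ)) ≤ 1 - t ^ 2 := by
    have e : 1 / (2 * (d : ℝ)) = 1 - t := by rw [ht]; ring
    rw [e]
    nlinarith
  have hI0 : 0 ≤ ∫ x : E d, Real.exp (-W x) * ‖x‖ ^ 2 := integral_nonneg fun x => by positivity
  have h8 : 1 / (2 * (d : ℝ)) * κ / 2 * (∫ x : E d, Real.exp (-W x) * ‖x‖ ^ 2) ≤ ZZ W := by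
    refine le_trans ?_ h6
    gcongr
  rw [integral_gibbs hW]
  simp only [smul_eq_mul]
  rw [inv_mul_le_iff₀ hZ]
  rw [show 1 / (2 * (d : ℝ)) * κ / 2 * (∫ x : E d, Real.exp (-W x) * ‖x‖ ^ 2) =
    (κ / (4 * d)) * (∫ x : E d, Real.exp (-W x) * ‖x‖ ^ 2) by field_simp; ring] at h8
  have h9 : (∫ x : E d, Real.exp (-W x) * ‖x‖ ^ 2) =
      4 * d / κ * ((κ / (4 * d)) * (∫ x : E d, Real.exp (-W x) * ‖x‖ ^ 2)) := by
    field_simp
  rw [h9, mul_comm (ZZ W)]
  gcongr

theorem adm_scale (hV : Admissible d V) (x : E d) (t : ℝ) (ht0 : 0 < t) (ht1 : t < 1) :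
    V (t • x) + (1 - t ^ 2) * 1 * ‖x‖ ^ 2 / 2 ≤ V x := by
  have h1 := adm_lower hV (t • x) ((1 - t) • x)
  have e : t • x + (1 - t) • x = x := by module
  rw [e, inner_smul_right, norm_smul, Real.norm_eq_abs, abs_of_pos (by linarith)] at h1
  have h2 := adm_inner_ge hV (t • x)
  rw [inner_smul_right, norm_smul, Real.norm_eq_abs, abs_of_pos ht0] at h2
  have h3 : t * ‖x‖ ^ 2 ≤ ⟪gradient V (t • x), x⟫ := by
    have : t * (t * ‖x‖ ^ 2) ≤ t * ⟪gradient V (t • x), x⟫ := by nlinarith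
    exact le_of_mul_le_mul_left this ht0
  nlinarith [mul_le_mul_of_nonneg_left h3 (by linarith : (0:ℝ) ≤ 1 - t)]

theorem adm_mom (hV : Admissible d V) (hd : 0 < d) :
    Integrable (fun x => ‖x‖ ^ 2) (gibbs V) ∧ ∫ x, ‖x‖ ^ 2 ∂(gibbs V) ≤ 4 * d := by
  have := mom_le (adm_sconv hV).toQG one_pos hd (adm_scale hV)
  simpa using this

/-- First moment from the second. -/
theorem first_of_second {X : Type} [MeasurableSpace X] {μ : Measure X} [IsProbabilityMeasure μ]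
    {f : X → ℝ} (hf : AEStronglyMeasurable f μ) (h2 : Integrable (fun x => f x ^ 2) μ) :
    Integrable f μ ∧ (∫ x, |f x| ∂μ) ≤ Real.sqrt (∫ x, f x ^ 2 ∂μ) := by
  have hi : Integrable f μ := ((memLp_two_iff_integrable_sq hf).mpr h2).integrable one_le_two
  refine ⟨hi, Real.le_sqrt_of_sq_le ?_⟩
  have := integral_mul_sq_le (u := fun x => |f x|) (v := fun _ => (1 : ℝ)) (μ := μ)
    (by simpa [sq_abs] using h2) (by simp) (by simpa using hi.abs)
  simpa [sq_abs] using this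

/-- The quadratic potential. -/
def qp (s : ℝ) : E d → ℝ := fun y => ‖y‖ ^ 2 / (2 * s ^ 2)

/-- Gaussian noise of standard deviation `s`. -/
def ns (d : ℕ) (s : ℝ) : Measure (E d) := gibbs (qp s)

theorem qp_sconv {s : ℝ} (hs : 0 < s) : SConv (1 / s ^ 2) (qp s : E d → ℝ) where
  cont := (continuous_norm.pow 2).div_const _
  lb := ⟨1 / (2 * s ^ 2), by positivity, 0, fun x => by
    unfold qp; rw [sub_zero]; apply le_of_eq; ring⟩
  mpos := by positivity
  mid := fun x y => by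
    unfold qp
    rw [← smul_add, norm_smul, mul_pow]
    have h5 := parallelogram_law_with_norm ℝ x y
    have h6 : ‖(1 / 2 : ℝ)‖ ^ 2 = 1 / 4 := by norm_num
    rw [h6]
    have h7 : (‖x‖ ^ 2 / (2 * s ^ 2) + ‖y‖ ^ 2 / (2 * s ^ 2)) / 2 =
        (‖x + y‖ ^ 2 + ‖x - y‖ ^ 2) / 4 / (2 * s ^ 2) := by
      have : ‖x‖ ^ 2 + ‖y‖ ^ 2 = (‖x + y‖ ^ 2 + ‖x - y‖ ^ 2) / 2 := by nlinarith
      rw [← add_div, this]; ring
    rw [h7]
    apply le_of_eq
    field_simp
    ring

theorem ns_prob (s : ℝ) (hs : 0 < s) : IsProbabilityMeasure (ns d s) := (qp_sconv hs).isProb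

theorem ns_mom {s : ℝ} (hs : 0 < s) (hd : 0 < d) :
    Integrable (fun x => ‖x‖ ^ 2) (ns d s) ∧ ∫ x, ‖x‖ ^ 2 ∂(ns d s) ≤ 4 * d * s ^ 2 := by
  have h := mom_le (d := d) (qp_sconv hs).toQG (κ := 1 / s ^ 2) (by positivity) hd
    (fun x t ht0 ht1 => by
      unfold qp
      rw [norm_smul, Real.norm_eq_abs, abs_of_pos ht0, mul_pow]
      apply le_of_eq
      field_simp
      ring)
  refine ⟨h.1, h.2.trans (le_of_eq ?_)⟩
  field_simp

end Crest.Agent.R285.Top
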