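import Crest.Agent.R285.TopVar

/-!
Row 285 (S0430), module TOP: linear tilts of a strongly log-concave measure move averages of
Lipschitz functions by at most `L ‖b‖ / m`.
-/

set_option autoImplicit false

open MeasureTheory Crest.OracleSampling Set Filter Topology
open scoped ENNReal RealInnerProductSpace

noncomputable section

namespace Crest.Agent.R285.Top

variable {d : ℕ}

/-- Cauchy–Schwarz for integrals. -/
theorem integral_mul_sq_le {Ω : Type} [MeasurableSpace Ω] {μ : Measure Ω} {u v : Ω → ℝ}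
    (hu : Integrable (fun x => u x ^ 2) μ) (hv : Integrable (fun x => v x ^ 2) μ)
    (huv : Integrable (fun x => u x * v x) μ) :
    (∫ x, u x * v x ∂μ) ^ 2 ≤ (∫ x, u x ^ 2 ∂μ) * ∫ x, v x ^ 2 ∂μ := by
  set A := ∫ x, u x ^ 2 ∂μ
  set B := ∫ x, v x ^ 2 ∂μ
  set C := ∫ x, u x * v x ∂μ
  have h : ∀ t : ℝ, 0 ≤ B * (t * t) + (2 * C) * t + A := by
    intro t
    have e : B * (t * t) + (2 * C) * t + A = ∫ x, (u x + t * v x) ^ 2 ∂μ := by
      have e1 : (fun x => (u x + t * v x) ^ 2) =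
          fun x => (t * t) * v x ^ 2 + (2 * t) * (u x * v x) + u x ^ 2 := by
        funext x; ring
      have i1 : Integrable (fun x => (t * t) * v x ^ 2 + (2 * t) * (u x * v x)) μ :=
        (hv.const_mul _).add (huv.const_mul _)
      rw [e1, integral_add i1 hu,
        integral_add (hv.const_mul _) (huv.const_mul _), integral_const_mul, integral_const_mul]
      ring
    rw [e]
    exact integral_nonneg fun x => sq_nonneg _
  have := discrim_le_zero h
  unfold discrim at this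
  nlinarith

/-- Linear tilt of a potential. -/
def tilt (W : E d → ℝ) (b : E d) : E d → ℝ := fun z => W z - ⟪z, b⟫

theorem tilt_tilt (W : E d → ℝ) (b b' : E d) : tilt (tilt W b) b' = tilt W (b + b') := by
  funext z
  simp only [tilt, inner_add_right]
  ring

theorem tilt_zero (W : E d → ℝ) : tilt W 0 = W := by
  funext z; simp [tilt]

theorem SConv.tilt {m : ℝ} {W : E d → ℝ} (hW : SConv m W) (b : E d) : SConv m (tilt W b) where
  cont := hW.cont.sub (continuous_id.inner continuous_const)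
  lb := by
    obtain ⟨a, ha, B, hB⟩ := hW.lb
    refine ⟨a / 2, by positivity, B + ‖b‖ ^ 2 / (2 * a), fun x => ?_⟩
    have h1 := hB x
    have h2 : ⟪x, b⟫ ≤ ‖x‖ * ‖b‖ := real_inner_le_norm x b
    have h3 : ‖x‖ * ‖b‖ ≤ a / 2 * ‖x‖ ^ 2 + ‖b‖ ^ 2 / (2 * a) := by
      rw [← sub_nonneg]
      have : a / 2 * ‖x‖ ^ 2 + ‖b‖ ^ 2 / (2 * a) - ‖x‖ * ‖b‖ =
          (a * ‖x‖ - ‖b‖) ^ 2 / (2 * a) := by field_simp; ring
      rw [this]; positivity
    unfold Top.tilt
    linarith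
  mpos := hW.mpos
  mid := fun x y => by
    have h1 := hW.mid x y
    unfold Top.tilt
    rw [inner_add_left, inner_smul_left, inner_smul_left]
    simp only [conj_trivial]
    linarith

theorem lip_inner (b : E d) : Lip ‖b‖ (fun z : E d => ⟪z, b⟫) := by
  intro x y
  rw [← inner_sub_left, mul_comm]
  exact abs_real_inner_le_norm _ _

/-- Second moment of the exponential of a linear function. -/
theorem SConv.exp_two_le {m : ℝ} {W : E d → ℝ} (hW : SConv m W) (b : E d) :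
    ∫ x, Real.exp (2 * ⟪x, b⟫) ∂(gibbs W) ≤
      Real.exp (‖b‖ ^ 2 / m) * (∫ x, Real.exp ⟪x, b⟫ ∂(gibbs W)) ^ 2 := by
  have h := (hW.tilt b).exp_mul_exp_le (lip_inner b)
  have hZ := hW.ZZ_pos
  rw [hW.integral_exp_lip (fun x => 2 * ⟪x, b⟫), hW.integral_exp_lip (fun x => ⟪x, b⟫)]
  have e1 : ∫ x, Real.exp (⟪x, b⟫ - Top.tilt W b x) = ∫ x, Real.exp (2 * ⟪x, b⟫ - W x) := by
    congr 1; funext x; congr 1; unfold Top.tilt; ring
  have e2 : ∫ x, Real.exp (-⟪x, b⟫ - Top.tilt W b x) = ZZ W := by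
    unfold ZZ; congr 1; funext x; congr 1; unfold Top.tilt; ring
  have e3 : ZZ (Top.tilt W b) = ∫ x, Real.exp (⟪x, b⟫ - W x) := by
    unfold ZZ; congr 1; funext x; congr 1; unfold Top.tilt; ring
  rw [e1, e2, e3] at h
  have e4 : Real.exp (‖b‖ ^ 2 / m) * ((ZZ W)⁻¹ * ∫ x, Real.exp (⟪x, b⟫ - W x)) ^ 2 =
      (Real.exp (‖b‖ ^ 2 / m) * (∫ x, Real.exp (⟪x, b⟫ - W x)) ^ 2) / (ZZ W) ^ 2 := by
    field_simp
  have e5 : (ZZ W)⁻¹ * ∫ x, Real.exp (2 * ⟪x, b⟫ - W x) =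
      ((∫ x, Real.exp (2 * ⟪x, b⟫ - W x)) * ZZ W) / (ZZ W) ^ 2 := by
    field_simp
  rw [e4, e5]
  gcongr

theorem SConv.integral_tilt {m : ℝ} {W : E d → ℝ} (hW : SConv m W) (b : E d) (f : E d → ℝ) :
    ∫ x, f x ∂(gibbs (Top.tilt W b)) =
      (∫ x, f x * Real.exp ⟪x, b⟫ ∂(gibbs W)) / ∫ x, Real.exp ⟪x, b⟫ ∂(gibbs W) := by
  have hZ := hW.ZZ_pos
  rw [integral_gibbs (hW.tilt b).toQG, integral_gibbs hW.toQG,
    hW.integral_exp_lip (fun x => ⟪x, b⟫)]
  have e3 : ZZ (Top.tilt W b) = ∫ x, Real.exp (⟪x, b⟫ - W x) := by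
    unfold ZZ; congr 1; funext x; congr 1; unfold Top.tilt; ring
  have e4 : ∫ x, Real.exp (-Top.tilt W b x) • f x =
      ∫ x, Real.exp (-W x) • (f x * Real.exp ⟪x, b⟫) := by
    congr 1; funext x; simp only [smul_eq_mul]
    have : -Top.tilt W b x = -W x + ⟪x, b⟫ := by unfold Top.tilt; ring
    rw [this, Real.exp_add]; ring
  rw [e3, e4, smul_eq_mul, smul_eq_mul, mul_div_mul_left _ _ (ne_of_gt (inv_pos.mpr hZ)),
    ← div_eq_inv_mul]

/-- The class of test functions: square integrable with variance at most `v`. -/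
structure VarLe (W : E d → ℝ) (f : E d → ℝ) (v : ℝ) : Prop where
  meas : AEStronglyMeasurable f (gibbs W)
  sq : Integrable (fun x => f x ^ 2) (gibbs W)
  var : ∫ x, (f x - ∫ y, f y ∂(gibbs W)) ^ 2 ∂(gibbs W) ≤ v

theorem SConv.varLe_lip {m : ℝ} {W : E d → ℝ} (hW : SConv m W) {L : ℝ} {f : E d → ℝ}
    (hf : Lip L f) : VarLe W f (L ^ 2 / m) :=
  ⟨hf.continuous.aestronglyMeasurable, hW.integrable_lip_sq hf, hW.var_le hf⟩

theorem VarLe.integrable {W f : E d → ℝ} {v : ℝ} (hW : QG W) (h : VarLe W f v) :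
    Integrable f (gibbs W) := by
  have := hW.isProb
  exact ((memLp_two_iff_integrable_sq h.meas).mpr h.sq).integrable one_le_two

theorem varLe_bdd {W : E d → ℝ} (hW : QG W) {f : E d → ℝ} (hf : Measurable f)
    (h0 : ∀ x, 0 ≤ f x) (h1 : ∀ x, f x ≤ 1) : VarLe W f 1 := by
  have := hW.isProb
  have hb : Integrable (fun x => f x ^ 2) (gibbs W) := by
    refine (integrable_const (1 : ℝ)).mono' (hf.pow_const 2).aestronglyMeasurable
      (Eventually.of_forall fun x => ?_)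
    rw [Real.norm_eq_abs, abs_of_nonneg (sq_nonneg _)]
    exact pow_le_one₀ (h0 x) (h1 x)
  refine ⟨hf.aestronglyMeasurable, hb, ?_⟩
  have hi : Integrable f (gibbs W) := by
    refine (integrable_const (1 : ℝ)).mono' hf.aestronglyMeasurable
      (Eventually.of_forall fun x => ?_)
    rw [Real.norm_eq_abs, abs_of_nonneg (h0 x)]
    exact h1 x
  set a := ∫ y, f y ∂(gibbs W) with ha
  have ha0 : 0 ≤ a := integral_nonneg h0
  have ha1 : a ≤ 1 := by
    have : a ≤ ∫ _, (1 : ℝ) ∂(gibbs W) := integral_mono hi (integrable_const _) h1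
    simpa using this
  have hle : ∀ x, (f x - a) ^ 2 ≤ 1 := by
    intro x
    have h2 := h0 x
    have h3 := h1 x
    nlinarith
  calc ∫ x, (f x - a) ^ 2 ∂(gibbs W) ≤ ∫ _, (1 : ℝ) ∂(gibbs W) := by
        refine integral_mono_of_nonneg (Eventually.of_forall fun x => sq_nonneg _)
          (integrable_const _) (Eventually.of_forall hle)
    _ = 1 := by simp

theorem SConv.tilt_step {m : ℝ} {W : E d → ℝ} (hW : SConv m W) {v : ℝ} {f : E d → ℝ}
    (hf : VarLe W f v) (b : E d) :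
    (∫ x, f x ∂(gibbs (Top.tilt W b)) - ∫ x, f x ∂(gibbs W)) ^ 2 ≤
      v * (Real.exp (‖b‖ ^ 2 / m) - 1) := by
  have := hW.isProb
  have hm := hW.mpos
  set a := ∫ x, f x ∂(gibbs W) with ha
  set M := ∫ x, Real.exp ⟪x, b⟫ ∂(gibbs W) with hM
  have iM := hW.integrable_exp_lip (lip_inner b)
  have hMpos : 0 < M := integral_exp_pos iM
  have lip2 : Lip (2 * ‖b‖) (fun z : E d => 2 * ⟪z, b⟫) := (lip_inner b).const_mul (by norm_num)
  have iM2 := hW.integrable_exp_lip lip2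
  have hfi : Integrable f (gibbs W) := hf.integrable hW.toQG
  have hf2 := hf.sq
  have hgi : Integrable (fun x => f x - a) (gibbs W) := hfi.sub (integrable_const _)
  have hg2 : Integrable (fun x => (f x - a) ^ 2) (gibbs W) := by
    have e1 : (fun x => (f x - a) ^ 2) = fun x => (f x ^ 2 - 2 * a * f x) + a ^ 2 := by
      funext x; ring
    rw [e1]
    exact (hf2.sub (hfi.const_mul _)).add (integrable_const _)
  -- `f * exp`
  have ife : ∀ {g : E d → ℝ}, AEStronglyMeasurable g (gibbs W) →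
      Integrable (fun x => g x ^ 2) (gibbs W) →
      Integrable (fun x => g x * Real.exp ⟪x, b⟫) (gibbs W) := by
    intro g hg hgs
    refine ((hgs.add iM2)).mono' ?_ (Eventually.of_forall fun x => ?_)
    · exact (hg.mul (Real.continuous_exp.comp
        (continuous_id.inner continuous_const)).aestronglyMeasurable)
    · rw [Real.norm_eq_abs, abs_mul, abs_of_pos (Real.exp_pos _)]
      simp only [Pi.add_apply]
      have e : Real.exp (2 * ⟪x, b⟫) = (Real.exp ⟪x, b⟫) ^ 2 := by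
        rw [sq, ← Real.exp_add]; congr 1; ring
      rw [e]
      nlinarith [sq_nonneg (|g x| - Real.exp ⟪x, b⟫), sq_abs (g x), sq_nonneg (g x),
        sq_nonneg (Real.exp ⟪x, b⟫)]
  have ife1 := ife hf.meas hf2
  have ife2 := ife hgi.aestronglyMeasurable hg2
  -- the identity
  have key : ∫ x, f x ∂(gibbs (Top.tilt W b)) - a =
      ∫ x, (f x - a) * (Real.exp ⟪x, b⟫ / M - 1) ∂(gibbs W) := by
    rw [hW.integral_tilt b f]
    have e1 : (fun x => (f x - a) * (Real.exp ⟪x, b⟫ / M - 1)) =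
        fun x => (M⁻¹ * ((f x - a) * Real.exp ⟪x, b⟫)) - (f x - a) := by
      funext x; ring
    rw [e1, integral_sub (ife2.const_mul _) hgi, integral_const_mul,
      integral_sub hfi (integrable_const _)]
    have e2 : ∫ x, (f x - a) * Real.exp ⟪x, b⟫ ∂(gibbs W) =
        (∫ x, f x * Real.exp ⟪x, b⟫ ∂(gibbs W)) - a * M := by
      have e3 : (fun x => (f x - a) * Real.exp ⟪x, b⟫) =
          fun x => f x * Real.exp ⟪x, b⟫ - a * Real.exp ⟪x, b⟫ := by funext x; ring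
      rw [e3, integral_sub ife1 (iM.const_mul _), integral_const_mul]
    rw [e2]
    simp only [integral_const, probReal_univ, one_smul]
    rw [← ha, ← hM]
    field_simp
    ring
  rw [key]
  have hexp2 : ∀ x : E d, (Real.exp ⟪x, b⟫) ^ 2 = Real.exp (2 * ⟪x, b⟫) := by
    intro x; rw [sq, ← Real.exp_add]; congr 1; ring
  have iv : Integrable (fun x => (Real.exp ⟪x, b⟫ / M - 1) ^ 2) (gibbs W) := by
    have e1 : (fun x : E d => (Real.exp ⟪x, b⟫ / M - 1) ^ 2) =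
        fun x => (M⁻¹ ^ 2 * Real.exp (2 * ⟪x, b⟫) - 2 * M⁻¹ * Real.exp ⟪x, b⟫) + 1 := by
      funext x; rw [← hexp2]; ring
    rw [e1]
    exact ((iM2.const_mul _).sub (iM.const_mul _)).add (integrable_const _)
  have hv : ∫ x, (Real.exp ⟪x, b⟫ / M - 1) ^ 2 ∂(gibbs W) ≤ Real.exp (‖b‖ ^ 2 / m) - 1 := by
    have e1 : (fun x : E d => (Real.exp ⟪x, b⟫ / M - 1) ^ 2) =
        fun x => (M⁻¹ ^ 2 * Real.exp (2 * ⟪x, b⟫) - 2 * M⁻¹ * Real.exp ⟪x, b⟫) + 1 := by
      funext x; rw [← hexp2]; ring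
    have i1 : Integrable (fun x => M⁻¹ ^ 2 * Real.exp (2 * ⟪x, b⟫) - 2 * M⁻¹ * Real.exp ⟪x, b⟫)
        (gibbs W) := (iM2.const_mul _).sub (iM.const_mul _)
    rw [e1, integral_add i1 (integrable_const _),
      integral_sub (iM2.const_mul _) (iM.const_mul _), integral_const_mul, integral_const_mul]
    simp only [integral_const, probReal_univ, one_smul]
    rw [← hM]
    have h1 := hW.exp_two_le b
    rw [← hM] at h1
    have h2 : M⁻¹ ^ 2 * ∫ x, Real.exp (2 * ⟪x, b⟫) ∂(gibbs W) ≤ Real.exp (‖b‖ ^ 2 / m) := by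
      calc M⁻¹ ^ 2 * ∫ x, Real.exp (2 * ⟪x, b⟫) ∂(gibbs W)
          ≤ M⁻¹ ^ 2 * (Real.exp (‖b‖ ^ 2 / m) * M ^ 2) := by gcongr
        _ = Real.exp (‖b‖ ^ 2 / m) := by field_simp
    have h3 : 2 * M⁻¹ * M = 2 := by field_simp
    rw [h3]; linarith
  have iuv : Integrable (fun x => (f x - a) * (Real.exp ⟪x, b⟫ / M - 1)) (gibbs W) := by
    have e1 : (fun x => (f x - a) * (Real.exp ⟪x, b⟫ / M - 1)) =
        fun x => (M⁻¹ * ((f x - a) * Real.exp ⟪x, b⟫)) - (f x - a) := by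
      funext x; ring
    rw [e1]
    exact (ife2.const_mul _).sub hgi
  refine (integral_mul_sq_le hg2 iv iuv).trans ?_
  have h1 := hf.var
  rw [← ha] at h1
  have h0 : 0 ≤ ∫ x, (f x - a) ^ 2 ∂(gibbs W) := integral_nonneg fun x => sq_nonneg _
  have h2 : 0 ≤ ∫ x, (Real.exp ⟪x, b⟫ / M - 1) ^ 2 ∂(gibbs W) :=
    integral_nonneg fun x => sq_nonneg _
  exact mul_le_mul h1 hv h2 (h0.trans h1)

/-- **Contraction of tilts**, general form. -/
theorem SConv.tilt_le_gen {m : ℝ} {W : E d → ℝ} (hW : SConv m W) {v : ℝ} {f : E d → ℝ}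
    (hf : ∀ b', VarLe (Top.tilt W b') f v) (b : E d) :
    |∫ x, f x ∂(gibbs (Top.tilt W b)) - ∫ x, f x ∂(gibbs W)| ^ 2 ≤ v * (‖b‖ ^ 2 / m) := by
  have hm := hW.mpos
  have hv : 0 ≤ v := le_trans (integral_nonneg fun x => sq_nonneg _) (hf 0).var
  set D := |∫ x, f x ∂(gibbs (Top.tilt W b)) - ∫ x, f x ∂(gibbs W)| with hD
  have hD0 : 0 ≤ D := abs_nonneg _
  -- subdivision
  have key : ∀ N : ℕ, 0 < N →
      D ≤ N * Real.sqrt (v * (Real.exp ((1 / (N : ℝ) ^ 2) * (‖b‖ ^ 2 / m)) - 1)) := by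
    intro N hN
    have hN' : (0 : ℝ) < N := by exact_mod_cast hN
    set c : ℝ := Real.sqrt (v * (Real.exp ((1 / (N : ℝ) ^ 2) * (‖b‖ ^ 2 / m)) - 1)) with hc
    have step : ∀ k : ℕ, |∫ x, f x ∂(gibbs (Top.tilt W ((k : ℝ) • ((N : ℝ)⁻¹ • b)))) -
        ∫ x, f x ∂(gibbs W)| ≤ k * c := by
      intro k
      induction k with
      | zero => simp [tilt_zero]
      | succ k ih =>
        have h1 := (hW.tilt ((k : ℝ) • ((N : ℝ)⁻¹ • b))).tilt_step (hf _) ((N : ℝ)⁻¹ • b)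
        rw [tilt_tilt] at h1
        have e1 : (k : ℝ) • ((N : ℝ)⁻¹ • b) + (N : ℝ)⁻¹ • b =
            ((k + 1 : ℕ) : ℝ) • ((N : ℝ)⁻¹ • b) := by
          rw [Nat.cast_add, Nat.cast_one, add_smul, one_smul]
        rw [e1] at h1
        have e2 : ‖(N : ℝ)⁻¹ • b‖ ^ 2 / m = (1 / (N : ℝ) ^ 2) * (‖b‖ ^ 2 / m) := by
          rw [norm_smul, Real.norm_eq_abs, abs_of_pos (inv_pos.mpr hN'), mul_pow]
          field_simp
        rw [e2] at h1
        have h2 := Real.abs_le_sqrt h1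
        rw [← hc] at h2
        calc |∫ x, f x ∂(gibbs (Top.tilt W (((k + 1 : ℕ) : ℝ) • ((N : ℝ)⁻¹ • b)))) -
              ∫ x, f x ∂(gibbs W)| ≤ _ :=
              abs_sub_le _ (∫ x, f x ∂(gibbs (Top.tilt W ((k : ℝ) • ((N : ℝ)⁻¹ • b))))) _
          _ ≤ c + k * c := add_le_add h2 ih
          _ = _ := by push_cast; ring
    have h3 := step N
    rwa [smul_smul, mul_inv_cancel₀ (ne_of_gt hN'), one_smul] at h3
  -- limit
  refine le_of_forall_pos_le_add fun δ hδ => ?_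
  set K := ‖b‖ ^ 2 / m with hK
  have hK0 : 0 ≤ K := by positivity
  obtain ⟨N, hN⟩ := exists_nat_gt (max (1 + K) (v * K ^ 2 / δ))
  have hN1 : 1 + K < N := lt_of_le_of_lt (le_max_left _ _) hN
  have hN2 : v * K ^ 2 / δ < N := lt_of_le_of_lt (le_max_right _ _) hN
  have hNpos : 0 < N := by
    have : (0 : ℝ) < N := by linarith
    exact_mod_cast this
  have hNr : (1 : ℝ) ≤ N := by exact_mod_cast hNpos
  have hN0 : (0 : ℝ) < N := by linarith
  have h1 := key N hNpos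
  have htK : 1 / (N : ℝ) ^ 2 * K ≤ 1 := by
    rw [div_mul_eq_mul_div, one_mul, div_le_one (by positivity)]
    nlinarith
  have h4 : Real.exp (1 / (N : ℝ) ^ 2 * K) - 1 ≤
      1 / (N : ℝ) ^ 2 * K + (1 / (N : ℝ) ^ 2 * K) ^ 2 := by
    have h5 := Real.abs_exp_sub_one_sub_id_le (x := 1 / (N : ℝ) ^ 2 * K)
      (by rw [abs_of_nonneg (by positivity)]; exact htK)
    have := (abs_le.mp h5).2
    linarith
  have h5 : 0 ≤ Real.exp (1 / (N : ℝ) ^ 2 * K) - 1 := by
    have := Real.one_le_exp (show 0 ≤ 1 / (N : ℝ) ^ 2 * K by positivity)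
    linarith
  calc D ^ 2 ≤ (N * Real.sqrt (v * (Real.exp (1 / (N : ℝ) ^ 2 * K) - 1))) ^ 2 := by
        gcongr
    _ = (N : ℝ) ^ 2 * (v * (Real.exp (1 / (N : ℝ) ^ 2 * K) - 1)) := by
        rw [mul_pow, Real.sq_sqrt (by positivity)]
    _ ≤ (N : ℝ) ^ 2 * (v * (1 / (N : ℝ) ^ 2 * K + (1 / (N : ℝ) ^ 2 * K) ^ 2)) := by
        gcongr
    _ = v * K + v * K ^ 2 / (N : ℝ) ^ 2 := by
        field_simp
    _ ≤ v * K + δ := by
        gcongr
        rw [div_le_iff₀ (by positivity)]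
        rw [div_lt_iff₀ hδ] at hN2
        have h7 : (N : ℝ) ≤ (N : ℝ) ^ 2 := by nlinarith
        have h8 : (N : ℝ) * δ ≤ (N : ℝ) ^ 2 * δ := by gcongr
        linarith

/-- **Contraction of tilts** on Lipschitz functions. -/
theorem SConv.tilt_le {m : ℝ} {W : E d → ℝ} (hW : SConv m W) {L : ℝ} (hL : 0 ≤ L) {f : E d → ℝ}
    (hf : Lip L f) (b : E d) :
    |∫ x, f x ∂(gibbs (Top.tilt W b)) - ∫ x, f x ∂(gibbs W)| ≤ L * ‖b‖ / m := by
  have hm := hW.mpos
  have hsq := hW.tilt_le_gen (f := f) (v := L ^ 2 / m)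
    (fun b' => (hW.tilt b').varLe_lip hf) b
  have e : L ^ 2 / m * (‖b‖ ^ 2 / m) = (L * ‖b‖ / m) ^ 2 := by
    field_simp
  rw [e] at hsq
  exact (pow_le_pow_iff_left₀ (abs_nonneg _) (by positivity) two_ne_zero).mp hsq

/-- Tilts in total variation (bounded test functions). -/
theorem SConv.tilt_le_bdd {m : ℝ} {W : E d → ℝ} (hW : SConv m W) {f : E d → ℝ}
    (hf : Measurable f) (h0 : ∀ x, 0 ≤ f x) (h1 : ∀ x, f x ≤ 1) (b : E d) :
    |∫ x, f x ∂(gibbs (Top.tilt W b)) - ∫ x, f x ∂(gibbs W)| ≤ ‖b‖ / Real.sqrt m := by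
  have hm := hW.mpos
  have hsq := hW.tilt_le_gen (f := f) (v := 1)
    (fun b' => varLe_bdd (hW.tilt b').toQG hf h0 h1) b
  have e : 1 * (‖b‖ ^ 2 / m) = (‖b‖ / Real.sqrt m) ^ 2 := by
    rw [div_pow, Real.sq_sqrt hm.le, one_mul]
  rw [e] at hsq
  exact (pow_le_pow_iff_left₀ (abs_nonneg _) (by positivity) two_ne_zero).mp hsq

end Crest.Agent.R285.Top
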