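import Crest.Agent.R285.TopGibbs
import Crest.Agent.Lib.PrekopaLeindler

/-!
Row 285 (S0430), module TOP: variance of Lipschitz functions under strongly log-concave measures
(Maurey's argument from Prekopa–Leindler) and the contraction of linear tilts.
-/

set_option autoImplicit false

open MeasureTheory Crest.OracleSampling Set Filter Topology
open scoped ENNReal RealInnerProductSpace

noncomputable section

namespace Crest.Agent.R285.Top

variable {d : ℕ}

/-- `m`-strong midpoint convexity, with quadratic growth. -/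
structure SConv (m : ℝ) (W : E d → ℝ) : Prop extends QG W where
  mpos : 0 < m
  mid : ∀ x y, W ((1 / 2 : ℝ) • x + (1 / 2 : ℝ) • y) + m / 8 * ‖x - y‖ ^ 2 ≤ (W x + W y) / 2

/-- Lipschitz functions, written with norms. -/
def Lip (L : ℝ) (f : E d → ℝ) : Prop := ∀ x y, |f x - f y| ≤ L * ‖x - y‖

theorem Lip.continuous {L : ℝ} {f : E d → ℝ} (hf : Lip L f) : Continuous f := by
  have : LipschitzWith (Real.toNNReal L) f := by
    refine LipschitzWith.of_dist_le_mul fun x y => ?_
    rw [Real.dist_eq, dist_eq_norm]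
    refine (hf x y).trans ?_
    gcongr
    exact Real.le_coe_toNNReal L
  exact this.continuous

theorem Lip.abs_le {L : ℝ} {f : E d → ℝ} (hf : Lip L f) (x : E d) :
    |f x| ≤ |f 0| + L * ‖x‖ := by
  have h := hf x 0
  rw [sub_zero] at h
  calc |f x| = |f 0 + (f x - f 0)| := by ring_nf
    _ ≤ |f 0| + |f x - f 0| := abs_add_le _ _
    _ ≤ _ := by linarith

theorem Lip.const_mul {L : ℝ} {f : E d → ℝ} (hf : Lip L f) {c : ℝ} (hc : 0 ≤ c) :
    Lip (c * L) (fun x => c * f x) := by
  intro x y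
  have := hf x y
  rw [← mul_sub, abs_mul, abs_of_nonneg hc, mul_assoc]
  gcongr

theorem Lip.neg {L : ℝ} {f : E d → ℝ} (hf : Lip L f) : Lip L (fun x => -f x) := by
  intro x y
  have h := hf x y
  have e : |(-f x) - (-f y)| = |f x - f y| := by
    rw [← abs_neg]; congr 1; ring
  rw [e]; exact h

theorem SConv.integrable_exp_add {m : ℝ} {W : E d → ℝ} (hW : SConv m W) {L : ℝ} {f : E d → ℝ}
    (hf : Lip L f) : Integrable (fun x => Real.exp (f x - W x)) := by
  refine ((hW.integrable_exp L).const_mul (Real.exp |f 0|)).mono' ?_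
    (Eventually.of_forall fun x => ?_)
  · exact (Real.continuous_exp.comp (hf.continuous.sub hW.cont)).aestronglyMeasurable
  · rw [Real.norm_eq_abs, abs_of_pos (Real.exp_pos _), ← Real.exp_add]
    apply Real.exp_le_exp.mpr
    have h1 := hf.abs_le x
    have h2 := le_abs_self (f x)
    linarith

/-- Maurey's exponential inequality. -/
theorem SConv.exp_mul_exp_le {m : ℝ} {W : E d → ℝ} (hW : SConv m W) {L : ℝ}
    {f : E d → ℝ} (hf : Lip L f) :
    (∫ x, Real.exp (f x - W x)) * (∫ x, Real.exp (-f x - W x)) ≤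
      Real.exp (L ^ 2 / m) * (ZZ W) ^ 2 := by
  have hm := hW.mpos
  have hfc := hf.continuous
  have hWc := hW.cont
  -- Prekopa–Leindler
  have hPL := Lib.PrekopaLeindler.PL_euclidean d (1 / 2) (by norm_num) (by norm_num)
    (fun x => ENNReal.ofReal (Real.exp (f x - L ^ 2 / m - W x)))
    (fun y => ENNReal.ofReal (Real.exp (-f y - W y)))
    (fun z => ENNReal.ofReal (Real.exp (-W z)))
    (by
      exact ENNReal.measurable_ofReal.comp
        (Real.continuous_exp.comp ((hfc.sub continuous_const).sub hWc)).measurable)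
    (by
      exact ENNReal.measurable_ofReal.comp
        (Real.continuous_exp.comp (hfc.neg.sub hWc)).measurable)
    (by
      exact ENNReal.measurable_ofReal.comp (Real.continuous_exp.comp hWc.neg).measurable)
    (by
      intro x y
      have e2 : (1 - 1 / 2 : ℝ) = 1 / 2 := by norm_num
      rw [e2, ENNReal.ofReal_rpow_of_pos (Real.exp_pos _),
        ENNReal.ofReal_rpow_of_pos (Real.exp_pos _), ← ENNReal.ofReal_mul (by positivity),
        ← Real.exp_mul, ← Real.exp_mul, ← Real.exp_add]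
      apply ENNReal.ofReal_le_ofReal
      apply Real.exp_le_exp.mpr
      have h1 := hW.mid x y
      have h2 := (abs_le.mp (hf x y)).2
      have h3 : L * ‖x - y‖ ≤ L ^ 2 / m + m / 4 * ‖x - y‖ ^ 2 := by
        rw [← sub_nonneg]
        have : L ^ 2 / m + m / 4 * ‖x - y‖ ^ 2 - L * ‖x - y‖ =
            (2 * L - m * ‖x - y‖) ^ 2 / (4 * m) := by
          field_simp; ring
        rw [this]; positivity
      linarith)
  have i1 : Integrable (fun x => Real.exp (f x - L ^ 2 / m - W x)) := by
    have := (hW.integrable_exp_add hf).const_mul (Real.exp (-(L ^ 2 / m)))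
    refine this.congr (Eventually.of_forall fun x => ?_)
    simp only
    rw [← Real.exp_add]; congr 1; ring
  have i2 : Integrable (fun x => Real.exp (-f x - W x)) := hW.integrable_exp_add hf.neg
  have i3 := hW.integrable_exp_neg
  rw [← ofReal_integral_eq_lintegral_ofReal i1 (Eventually.of_forall fun x => (Real.exp_pos _).le),
    ← ofReal_integral_eq_lintegral_ofReal i2 (Eventually.of_forall fun x => (Real.exp_pos _).le),
    ← ofReal_integral_eq_lintegral_ofReal i3
      (Eventually.of_forall fun x => (Real.exp_pos _).le)] at hPL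
  have p1 : 0 < ∫ x, Real.exp (f x - L ^ 2 / m - W x) := integral_exp_pos i1
  have p2 : 0 < ∫ x, Real.exp (-f x - W x) := integral_exp_pos i2
  have e2 : (1 - 1 / 2 : ℝ) = 1 / 2 := by norm_num
  rw [e2, ENNReal.ofReal_rpow_of_pos p1, ENNReal.ofReal_rpow_of_pos p2,
    ← ENNReal.ofReal_mul (by positivity), ENNReal.ofReal_le_ofReal_iff (by positivity),
    ← Real.sqrt_eq_rpow, ← Real.sqrt_eq_rpow, ← Real.sqrt_mul p1.le] at hPL
  have h4 : (∫ x, Real.exp (f x - L ^ 2 / m - W x)) * (∫ x, Real.exp (-f x - W x)) ≤ ZZ W ^ 2 := by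
    have := Real.sqrt_le_left (x := (∫ x, Real.exp (f x - L ^ 2 / m - W x)) *
      (∫ x, Real.exp (-f x - W x))) (y := ZZ W) hW.ZZ_pos.le
    exact this.mp hPL
  have h5 : ∫ x, Real.exp (f x - L ^ 2 / m - W x) =
      Real.exp (-(L ^ 2 / m)) * ∫ x, Real.exp (f x - W x) := by
    rw [← integral_const_mul]
    congr 1; funext x; rw [← Real.exp_add]; congr 1; ring
  rw [h5] at h4
  have h6 : Real.exp (L ^ 2 / m) * Real.exp (-(L ^ 2 / m)) = 1 := by
    rw [← Real.exp_add]; simp
  calc (∫ x, Real.exp (f x - W x)) * (∫ x, Real.exp (-f x - W x))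
      = Real.exp (L ^ 2 / m) * (Real.exp (-(L ^ 2 / m)) * (∫ x, Real.exp (f x - W x)) *
        (∫ x, Real.exp (-f x - W x))) := by
          rw [← mul_assoc, ← mul_assoc, h6, one_mul]
    _ ≤ _ := by gcongr


theorem SConv.integrable_exp_lip {m : ℝ} {W : E d → ℝ} (hW : SConv m W) {L : ℝ} {f : E d → ℝ}
    (hf : Lip L f) : Integrable (fun x => Real.exp (f x)) (gibbs W) := by
  rw [integrable_gibbs_iff hW.toQG]
  refine (hW.integrable_exp_add hf).congr (Eventually.of_forall fun x => ?_)
  simp only [smul_eq_mul]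
  rw [← Real.exp_add]; congr 1; ring

theorem SConv.integral_exp_lip {m : ℝ} {W : E d → ℝ} (hW : SConv m W) (f : E d → ℝ) :
    ∫ x, Real.exp (f x) ∂(gibbs W) = (ZZ W)⁻¹ * ∫ x, Real.exp (f x - W x) := by
  rw [integral_gibbs hW.toQG, smul_eq_mul]
  congr 2
  funext x
  rw [smul_eq_mul, ← Real.exp_add]; congr 1; ring

theorem SConv.integral_exp_mul_le {m : ℝ} {W : E d → ℝ} (hW : SConv m W) {L : ℝ}
    {f : E d → ℝ} (hf : Lip L f) :
    (∫ x, Real.exp (f x) ∂(gibbs W)) * (∫ x, Real.exp (-f x) ∂(gibbs W)) ≤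
      Real.exp (L ^ 2 / m) := by
  rw [hW.integral_exp_lip f, hW.integral_exp_lip (fun x => -f x)]
  have h := hW.exp_mul_exp_le hf
  have hZ := hW.ZZ_pos
  have e : (ZZ W)⁻¹ * (∫ x, Real.exp (f x - W x)) * ((ZZ W)⁻¹ * ∫ x, Real.exp (-f x - W x)) =
      ((∫ x, Real.exp (f x - W x)) * (∫ x, Real.exp (-f x - W x))) / (ZZ W) ^ 2 := by
    field_simp
  rw [e, div_le_iff₀ (by positivity)]
  exact h

theorem SConv.integrable_lip {m : ℝ} {W : E d → ℝ} (hW : SConv m W) {L : ℝ} {f : E d → ℝ}
    (hf : Lip L f) : Integrable f (gibbs W) := by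
  refine hW.integrable_of_le (C := |f 0| + 1) (K := |L|) hf.continuous.aestronglyMeasurable
    fun x => ?_
  have h1 := hf.abs_le x
  have h2 := Real.add_one_le_exp (|L| * ‖x‖)
  have h3 : L * ‖x‖ ≤ |L| * ‖x‖ := by gcongr; exact le_abs_self L
  have h4 : 1 ≤ Real.exp (|L| * ‖x‖) := Real.one_le_exp (by positivity)
  rw [Real.norm_eq_abs]
  nlinarith [abs_nonneg (f 0)]

theorem SConv.integrable_lip_sq {m : ℝ} {W : E d → ℝ} (hW : SConv m W) {L : ℝ} {f : E d → ℝ}
    (hf : Lip L f) : Integrable (fun x => (f x) ^ 2) (gibbs W) := by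
  have h1 := hW.integrable_exp_lip hf
  have h2 := hW.integrable_exp_lip hf.neg
  refine (h1.add h2).mono' (hf.continuous.pow 2).aestronglyMeasurable
    (Eventually.of_forall fun x => ?_)
  have h3 := Real.quadratic_le_exp_of_nonneg (abs_nonneg (f x))
  rw [Real.norm_eq_abs, abs_of_nonneg (sq_nonneg _)]
  simp only [Pi.add_apply]
  have h4 : Real.exp |f x| + 1 ≤ Real.exp (f x) + Real.exp (-f x) + 1 := by
    rcases abs_cases (f x) with ⟨h, _⟩ | ⟨h, _⟩
    · rw [h]; linarith [Real.exp_pos (-f x)]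
    · rw [h]; linarith [Real.exp_pos (f x)]
  have h5 : Real.exp (f x) + Real.exp (-f x) ≥ 2 + (f x) ^ 2 := by
    have h6 : Real.exp (f x) + Real.exp (-f x) = 2 * Real.cosh (f x) := by
      rw [Real.cosh_eq]; ring
    have h7 : Real.cosh (f x) = 1 + 2 * Real.sinh (f x / 2) ^ 2 := by
      have := Real.cosh_two_mul (f x / 2)
      have h8 := Real.cosh_sq (f x / 2)
      rw [show 2 * (f x / 2) = f x by ring] at this
      rw [this, h8]; ring
    have h9 : (f x / 2) ^ 2 ≤ Real.sinh (f x / 2) ^ 2 := by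
      rw [sq_le_sq]
      rcases le_total 0 (f x / 2) with h | h
      · have := Real.self_le_sinh_iff.mpr h
        rw [abs_of_nonneg h, abs_of_nonneg (h.trans this)]; exact this
      · have := Real.sinh_le_self_iff.mpr h
        rw [abs_of_nonpos h, abs_of_nonpos (this.trans h)]; linarith
    rw [h6, h7]; nlinarith
  linarith

theorem exp_add_exp_neg_ge (u : ℝ) : 2 + u ^ 2 ≤ Real.exp u + Real.exp (-u) := by
  have h6 : Real.exp u + Real.exp (-u) = 2 * Real.cosh u := by
    rw [Real.cosh_eq]; ring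
  have h7 : Real.cosh u = 1 + 2 * Real.sinh (u / 2) ^ 2 := by
    have := Real.cosh_two_mul (u / 2)
    have h8 := Real.cosh_sq (u / 2)
    rw [show 2 * (u / 2) = u by ring] at this
    rw [this, h8]; ring
  have h9 : (u / 2) ^ 2 ≤ Real.sinh (u / 2) ^ 2 := by
    rw [sq_le_sq]
    rcases le_total 0 (u / 2) with h | h
    · have := Real.self_le_sinh_iff.mpr h
      rw [abs_of_nonneg h, abs_of_nonneg (h.trans this)]; exact this
    · have := Real.sinh_le_self_iff.mpr h
      rw [abs_of_nonpos h, abs_of_nonpos (this.trans h)]; linarith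
  rw [h6, h7]; nlinarith

theorem SConv.var_le_exp {m : ℝ} {W : E d → ℝ} (hW : SConv m W) {L : ℝ} {f : E d → ℝ}
    (hf : Lip L f) :
    ∫ x, (f x - ∫ y, f y ∂(gibbs W)) ^ 2 ∂(gibbs W) ≤ Real.exp (L ^ 2 / m) - 1 := by
  haveI := hW.isProb
  set a := ∫ y, f y ∂(gibbs W) with ha
  have hg : Lip L (fun x => f x - a) := by
    intro x y
    have : f x - a - (f y - a) = f x - f y := by ring
    rw [this]; exact hf x y
  have hig := hW.integrable_lip hg
  have h0 : ∫ x, (f x - a) ∂(gibbs W) = 0 := by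
    rw [integral_sub (hW.integrable_lip hf) (integrable_const _)]
    simp [ha]
  have key := hW.integral_exp_mul_le hg
  set A := ∫ x, Real.exp (f x - a) ∂(gibbs W) with hA
  set B := ∫ x, Real.exp (-(f x - a)) ∂(gibbs W) with hB
  have iA := hW.integrable_exp_lip hg
  have iB := hW.integrable_exp_lip hg.neg
  have hA1 : 1 ≤ A := by
    have : ∫ x, (1 + (f x - a)) ∂(gibbs W) = 1 := by
      rw [integral_add (integrable_const _) hig, h0]; simp
    rw [← this]
    refine integral_mono ((integrable_const _).add hig) iA fun x => ?_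
    have := Real.add_one_le_exp (f x - a)
    simp only; linarith
  have hB1 : 1 ≤ B := by
    have : ∫ x, (1 - (f x - a)) ∂(gibbs W) = 1 := by
      rw [integral_sub (integrable_const _) hig, h0]; simp
    rw [← this]
    refine integral_mono ((integrable_const _).sub hig) iB fun x => ?_
    have := Real.add_one_le_exp (-(f x - a))
    simp only; linarith
  have hAB : 2 + ∫ x, (f x - a) ^ 2 ∂(gibbs W) ≤ A + B := by
    have e1 : 2 + ∫ x, (f x - a) ^ 2 ∂(gibbs W) = ∫ x, (2 + (f x - a) ^ 2) ∂(gibbs W) := by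
      rw [integral_add (integrable_const _) (hW.integrable_lip_sq hg)]; simp
    have e2 : A + B = ∫ x, (Real.exp (f x - a) + Real.exp (-(f x - a))) ∂(gibbs W) := by
      rw [integral_add iA iB]
    rw [e1, e2]
    refine integral_mono ((integrable_const _).add (hW.integrable_lip_sq hg)) (iA.add iB)
      fun x => ?_
    exact exp_add_exp_neg_ge _
  nlinarith [mul_nonneg (sub_nonneg.mpr hA1) (sub_nonneg.mpr hB1)]

theorem le_of_scaled_exp {v K : ℝ} (hK : 0 ≤ K)
    (h : ∀ t : ℝ, 0 < t → t * v ≤ Real.exp (t * K) - 1) : v ≤ K := by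
  refine le_of_forall_pos_le_add fun δ hδ => ?_
  -- choose `t` with `t K ≤ 1` and `t K² ≤ δ`
  set t : ℝ := min (1 / (K + 1)) (δ / (K ^ 2 + 1)) with ht
  have ht0 : 0 < t := lt_min (by positivity) (by positivity)
  have h1 : t * K ≤ 1 := by
    have : t ≤ 1 / (K + 1) := min_le_left _ _
    calc t * K ≤ 1 / (K + 1) * K := by gcongr
      _ ≤ 1 := by rw [div_mul_eq_mul_div, one_mul, div_le_one (by positivity)]; linarith
  have h2 : t * K ^ 2 ≤ δ := by
    have : t ≤ δ / (K ^ 2 + 1) := min_le_right _ _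
    calc t * K ^ 2 ≤ δ / (K ^ 2 + 1) * K ^ 2 := by gcongr
      _ ≤ δ := by
        rw [div_mul_eq_mul_div, div_le_iff₀ (by positivity)]; nlinarith
  have h3 := h t ht0
  have h4 : Real.exp (t * K) ≤ 1 + t * K + (t * K) ^ 2 := by
    have h5 := Real.abs_exp_sub_one_sub_id_le (x := t * K)
      (by rw [abs_of_nonneg (by positivity)]; exact h1)
    have := (abs_le.mp h5).2
    linarith
  have h5 : t * v ≤ t * (K + δ) := by nlinarith
  exact le_of_mul_le_mul_left h5 ht0

/-- Variance of Lipschitz functions under a strongly log-concave measure, sharp constant. -/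
theorem SConv.var_le {m : ℝ} {W : E d → ℝ} (hW : SConv m W) {L : ℝ} {f : E d → ℝ}
    (hf : Lip L f) :
    ∫ x, (f x - ∫ y, f y ∂(gibbs W)) ^ 2 ∂(gibbs W) ≤ L ^ 2 / m := by
  have hm := hW.mpos
  refine le_of_scaled_exp (by positivity) fun t ht => ?_
  have h1 := hW.var_le_exp (hf.const_mul (Real.sqrt_nonneg t))
  have h2 : (Real.sqrt t * L) ^ 2 / m = t * (L ^ 2 / m) := by
    rw [mul_pow, Real.sq_sqrt ht.le]; ring
  rw [h2] at h1
  refine le_trans (le_of_eq ?_) h1
  rw [← integral_const_mul]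
  congr 1
  funext x
  rw [integral_const_mul, ← mul_sub, mul_pow, Real.sq_sqrt ht.le]

end Crest.Agent.R285.Top
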